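import Mathlib

/-!
# Result 308: a compact cross-check formulation (NOT the official statement)

The official statement of result 308 is `Claimed.Open.R308.Statement` in `Statement.lean`: the literal
sentence of the two theorems (stable homotopy category, retracts of `p`-localisations, `BP_*BP`-comodules).
This file contains an independent, much shorter *unfolded* formulation `CompactStatement` of the same two
theorems, written by a second author as a cross-check of the definitions.  It shares no definition with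
`Statement.lean` and imports only Mathlib.  The equivalence of the two formulations is explained below;
it is not proved in Lean (nor is either formulation).

Papers: [A] *Finite Smith--Toda Complexes at Varying Primes* (Theorem `thm:main`) and
[B] *A finite Smith--Toda complex V(4) at the prime 1009* (Theorem `intro:main`).

> For every `n ≥ 0` there are a prime `p` and a finite `p`-local spectrum `X` with
> `BP_* X ≅ BP_*/(p, v₁, …, v_n)` as graded `BP_*BP`-comodules, generator in degree `0`;
> for `n = 4` one can take `p = 1009`.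

## The model

* `E n` is the total space of the tautological bundle over `Gr_n(ℂⁿ ⊕ ℂⁿ)` and
  `MU(n) = OnePoint (E n)` its Thom space (the base is compact).  This is the model of `MU` of
  Schwede, *Global homotopy theory*, §6.1.  The inclusion `Gr_n(ℂ^{2n}) → BU(n)` is `(2n+1)`-connected, so on
  Thom spaces it is `(4n+1)`-connected and the colimits below are those of the usual `MU`.
* For locally compact Hausdorff `A`, `B` one has `A⁺ ∧ B⁺ = (A × B)⁺`.  A finite pointed CW complex
  `(K, k₀)` is `U⁺` for `U = K ∖ {k₀}`, so `MU(n) ∧ K = OnePoint (E n × U)`.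
* `MUH U = ⨁_k MU~_k(K) = ⨁_k colim_n π_{k+2n}(MU(n) ∧ K)`, `MU_* = MUH Unit` (`K = S⁰`).
* `BP_* = V p = ℤ_(p)[v₁, v₂, …]` and `BP~_*(K) = BP_* ⊗_{MU_*} MU~_*(K)` (`BPH ρ U`).
* `IsSmithToda p n`: there are a finite pointed CW complex `K` and a map `ι : S^d → S^{2m} ∧ K`, i.e. a map of
  spectra `ι : S⁰ → F := Σ^{2m-d} Σ^∞ K`, such that `ι_* : BP_* → BP_* F` is onto with kernel `(p, v₁, …, v_n)`.

## Why this is equivalent to the theorems as printed

**D1. Finite `p`-local spectra are given by finite CW complexes.**  `X = F_(p)` is a retract (of itself) of the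
`p`-localisation of a finite CW spectrum, and `BP_*(F_(p)) = BP_*(F)` because `BP` is `p`-local.  Conversely both proofs
produce the `p`-localisation of a finite CW spectrum ([A], Lemma `real:finite-descent` and the proof of
`thm:main`; [B], end of §5 and Lemma `low:finite-localization`), and in general every retract of some `F_(p)` is
again of the form `F'_(p)`.  A map `S⁰_(p) → F_(p)` is `ι/s` with `ι : S⁰ → F` and `s` prime to `p`; as `s` is a
unit of `BP_*`, the maps `(ι/s)_*` and `ι_*` have the same image and the same kernel.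

**D2. The comodule isomorphism is replaced by "induced by a map from the sphere".**  `ι_*` is a map of graded
`BP_*BP`-comodules by naturality, so if it is onto with kernel `I = (p, v₁, …, v_n)` it induces an isomorphism of graded
comodules `BP_*/I ≅ BP_*X` for the quotient coaction, with generator `ι_*(1)` in degree `0`.  This is the last
step of both proofs ([A]: "its actual unit map from the `p`-local sphere induces a surjection `BP_* → BP_*X` with
kernel `(p, v₁, …, v_n)` … the map from the sphere is a comodule map"; [B]: "The composite bottom map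
`S⁰ → Y → X` induces the quotient map `R → R/(I₄, v₄)`.  It is a comodule map and is surjective").  Conversely, if
`BP_*X ≅ BP_*/I` with generator in degree `0` and `X` is finite `p`-local, then `X` is `(-1)`-connected with
`π₀X = H₀(X; ℤ_(p)) = BP₀X`, so the generator is spherical.

**D3. The map `ρ : MU_* → BP_*` is quantified.**  `BP_*(X) = BP_* ⊗_{MU_*} MU_*(X)` along Quillen's map `ρ₀` (which
classifies the universal `p`-typical formal group law; `v_i` = Hazewinkel generators).  `Genus p` is the type of *all*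
graded ring homomorphisms `ρ : MU_* → ℤ_(p)[v₁, v₂, …]` which are onto after `p`-localisation, and `IsSmithToda` says: such
`ρ` exist, **and** the conclusion holds for **every** such `ρ` (with the same `K`, `ι`).  Since `ρ₀` is one of them this
implies the theorem as printed, and it is not vacuous (`Nonempty (Genus p)` is a conjunct, not a hypothesis).
It does not ask for more: by Cartier's theorem `ρ_*F_MU` is strictly isomorphic, by a homogeneous power series, to a
`p`-typical law, classified by a graded ring map `θ : V → V`; so `ρ` and `θρ₀` are the restrictions along `η_L`, `η_R` of a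
ring map `MU_*MU → V`, and the coaction of `MU_*MU` gives a natural isomorphism of `V`-modules
`V ⊗_ρ MU_*X ≅ V ⊗_{θρ₀} MU_*X = V ⊗_θ BP_*X` which fixes `1 ⊗ h(ι)` for spherical classes (they are primitive).  As
`η_R(x_{p^k-1}) ≡ x_{p^k-1} ± p b_{p^k-1}` modulo decomposables and `ρ` is onto `p`-locally, `θ(v_k) ≡ unit · v_k` modulo
decomposables, so `θ` is an automorphism of the graded ring `V`; and `θ(I) = I` because `I` is the ideal generated by `p`
and all homogeneous elements of degrees `2(p^i - 1)`, `1 ≤ i ≤ n` (`CompactSanityAlgebra.lean`,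
`smithTodaIdeal_eq_span_homogeneous`).  Hence "`g` generates and `Ann(g) = I`" holds for `ρ` iff it holds for `ρ₀`.

**D4. Total groups.**  `MUH U` and `BPH ρ U` are the sums over all degrees; `cls f` for `f : S^d → MU(n) ∧ K` has
degree `d - 2n`, `ρ` is homogeneous, and the generator is homogeneous of degree `d - 2m`, which is degree `0` for
`X = Σ^{2m-d} Σ^∞ K`.  So `r ↦ r g` is a graded map.

Signs: only even suspensions occur (`S^{2n} = (ℂⁿ)⁺`); all coordinate shuffles implicit in "the product is well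
defined on the colimit, associative, unital" move blocks of even length, and all changes of basis of `ℂⁿ` lie in the
connected group `U(n)`.  Products and the ring-homomorphism property of `ρ` are expressed on representatives
(`Rep.mul`, `cls`); every homogeneous element of `MU_*` or `MU~_*(K)` is of the form `cls f`.

Checked facts about these definitions: `CompactSanity*.lean`.
-/

namespace Claimed.Open.R308.Compact

open Filter Topology OnePoint Set Matrix
open scoped unitInterval Topology.Homotopy TensorProduct DirectSum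

noncomputable section

/-! ## 1. Pointed extension of proper maps of two variables -/

section Smash

variable {A B C : Type*}

/-- The pointed extension `A⁺ × B⁺ → C⁺` of a map `f : A × B → C`: it sends `(a, b)` to `f (a, b)`
and everything with a coordinate `∞` to `∞`.  (It factors through `A⁺ ∧ B⁺ = (A × B)⁺`.) -/
def smashMap (f : A × B → C) : OnePoint A × OnePoint B → OnePoint C := fun q =>
  q.1.elim ∞ fun a => q.2.elim ∞ fun b => (f (a, b) : OnePoint C)

@[simp] lemma smashMap_coe (f : A × B → C) (a : A) (b : B) :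
    smashMap f ((a : OnePoint A), (b : OnePoint B)) = f (a, b) := rfl

@[simp] lemma smashMap_infty_left (f : A × B → C) (b : OnePoint B) :
    smashMap f (∞, b) = ∞ := rfl

@[simp] lemma smashMap_infty_right (f : A × B → C) (a : OnePoint A) :
    smashMap f (a, ∞) = ∞ := by
  induction a using OnePoint.rec <;> rfl

lemma smashMap_eq_coe_iff (f : A × B → C) (q : OnePoint A × OnePoint B) (c : C) :
    smashMap f q = c ↔
      ∃ (a : A) (b : B), q = ((a : OnePoint A), (b : OnePoint B)) ∧ f (a, b) = c := by
  obtain ⟨x, y⟩ := q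
  induction x using OnePoint.rec with
  | infty => simp
  | coe a =>
    induction y using OnePoint.rec with
    | infty => simp
    | coe b => simp

variable [TopologicalSpace A] [TopologicalSpace B] [TopologicalSpace C]

/-- The pointed extension of a continuous proper map is continuous. -/
theorem continuous_smashMap [T2Space A] [T2Space B] {f : A × B → C} (hf : Continuous f)
    (hp : Tendsto f (cocompact (A × B)) (coclosedCompact C)) : Continuous (smashMap f) := by
  have key : ∀ q : OnePoint A × OnePoint B, (q.1 = ∞ ∨ q.2 = ∞) →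
      Tendsto (smashMap f) (𝓝 q) (𝓝 ∞) := by
    intro q hq
    rw [(OnePoint.hasBasis_nhds_infty (X := C)).tendsto_right_iff]
    rintro L ⟨hLc, hLk⟩
    have hS : (f ⁻¹' L)ᶜ ∈ cocompact (A × B) := by
      have : Lᶜ ∈ coclosedCompact C := hLk.compl_mem_coclosedCompact_of_isClosed hLc
      simpa using hp this
    obtain ⟨T, hT, hTS⟩ := mem_cocompact.1 hS
    have hST : f ⁻¹' L ⊆ T := by
      intro z hz; by_contra h; exact hTS h hz
    have hKA : IsCompact (Prod.fst '' T) := hT.image continuous_fst
    have hKB : IsCompact (Prod.snd '' T) := hT.image continuous_snd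
    have hWA : IsOpen ((↑) '' (Prod.fst '' T) : Set (OnePoint A))ᶜ :=
      OnePoint.isOpen_compl_image_coe.2 ⟨hKA.isClosed, hKA⟩
    have hWB : IsOpen ((↑) '' (Prod.snd '' T) : Set (OnePoint B))ᶜ :=
      OnePoint.isOpen_compl_image_coe.2 ⟨hKB.isClosed, hKB⟩
    have hgood : ∀ z : OnePoint A × OnePoint B,
        (z.1 ∈ ((↑) '' (Prod.fst '' T) : Set (OnePoint A))ᶜ ∨
          z.2 ∈ ((↑) '' (Prod.snd '' T) : Set (OnePoint B))ᶜ) →
        smashMap f z ∈ ((↑) '' Lᶜ ∪ {∞} : Set (OnePoint C)) := by
      intro z hz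
      by_cases h : smashMap f z = ∞
      · exact Or.inr h
      · obtain ⟨c, hc⟩ := OnePoint.ne_infty_iff_exists.1 h
        obtain ⟨a, b, rfl, hab⟩ := (smashMap_eq_coe_iff f z c).1 hc.symm
        left
        refine ⟨c, ?_, hc⟩
        intro hcL
        have hT' : (a, b) ∈ T := hST (by simpa [hab] using hcL)
        rcases hz with hz | hz
        · exact hz ⟨a, ⟨(a, b), hT', rfl⟩, rfl⟩
        · exact hz ⟨b, ⟨(a, b), hT', rfl⟩, rfl⟩
    rcases hq with hq | hq
    · have : Prod.fst ⁻¹' ((↑) '' (Prod.fst '' T) : Set (OnePoint A))ᶜ ∈ 𝓝 q :=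
        (hWA.preimage continuous_fst).mem_nhds (by simp [hq])
      exact Filter.mem_of_superset this fun z hz => hgood z (Or.inl hz)
    · have : Prod.snd ⁻¹' ((↑) '' (Prod.snd '' T) : Set (OnePoint B))ᶜ ∈ 𝓝 q :=
        (hWB.preimage continuous_snd).mem_nhds (by simp [hq])
      exact Filter.mem_of_superset this fun z hz => hgood z (Or.inr hz)
  rw [continuous_iff_continuousAt]
  rintro ⟨x, y⟩
  induction x using OnePoint.rec with
  | infty => exact key (∞, y) (Or.inl rfl)
  | coe a =>
    induction y using OnePoint.rec with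
    | infty =>
      have := key ((a : OnePoint A), ∞) (Or.inr rfl)
      simpa [ContinuousAt] using this
    | coe b =>
      have hemb : IsOpenEmbedding (Prod.map ((↑) : A → OnePoint A) ((↑) : B → OnePoint B)) :=
        OnePoint.isOpenEmbedding_coe.prodMap OnePoint.isOpenEmbedding_coe
      have : ContinuousAt (smashMap f ∘ Prod.map ((↑) : A → OnePoint A) ((↑) : B → OnePoint B))
          (a, b) := by
        have h2 : smashMap f ∘ Prod.map ((↑) : A → OnePoint A) ((↑) : B → OnePoint B)
            = (↑) ∘ f := by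
          funext z; rfl
        rw [h2]
        exact (OnePoint.continuous_coe.comp hf).continuousAt
      exact (hemb.continuousAt_iff (x := (a, b))).1 this

theorem continuous_smashMap_of_isClosedEmbedding [T2Space A] [T2Space B] {j : A × B → C}
    (hj : IsClosedEmbedding j) : Continuous (smashMap j) :=
  continuous_smashMap hj.continuous (hj.tendsto_cocompact.mono_right cocompact_le_coclosedCompact)

end Smash

/-! ## 2. The Thom spaces `MU(n)` -/

/-- Index set of a basis of the ambient space `ℂⁿ ⊕ ℂⁿ`. -/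
abbrev Idx (n : ℕ) := Fin n ⊕ Fin n

/-- Pairs (endomorphism of `ℂⁿ ⊕ ℂⁿ`, vector of `ℂⁿ ⊕ ℂⁿ`). -/
abbrev Amb (n : ℕ) := Matrix (Idx n) (Idx n) ℂ × (Idx n → ℂ)

/-- `(P, x)` such that `P` is the orthogonal projection onto an `n`-dimensional subspace
`L ⊆ ℂⁿ ⊕ ℂⁿ` (a self-adjoint idempotent of trace `n`) and `x ∈ L`. -/
def IsTaut (n : ℕ) (q : Amb n) : Prop :=
  q.1 * q.1 = q.1 ∧ q.1ᴴ = q.1 ∧ q.1.trace = n ∧ q.1 *ᵥ q.2 = q.2

/-- Total space of the tautological `n`-plane bundle over the Grassmannian `Gr_n(ℂⁿ ⊕ ℂⁿ)`.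
Its one-point compactification `OnePoint (E n)` is the Thom space `MU(n)`. -/
def E (n : ℕ) : Type := {q : Amb n // IsTaut n q}

instance instTopologicalSpaceE (n : ℕ) : TopologicalSpace (E n) :=
  inferInstanceAs (TopologicalSpace {q : Amb n // IsTaut n q})

instance instT2SpaceE (n : ℕ) : T2Space (E n) :=
  inferInstanceAs (T2Space {q : Amb n // IsTaut n q})

lemma isClosed_isTaut (n : ℕ) : IsClosed {q : Amb n | IsTaut n q} := by
  have h1 : IsClosed {q : Amb n | q.1 * q.1 = q.1} :=
    isClosed_eq (continuous_fst.matrix_mul continuous_fst) continuous_fst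
  have h2 : IsClosed {q : Amb n | q.1ᴴ = q.1} :=
    isClosed_eq continuous_fst.matrix_conjTranspose continuous_fst
  have h3 : IsClosed {q : Amb n | q.1.trace = n} :=
    isClosed_eq continuous_fst.matrix_trace continuous_const
  have h4 : IsClosed {q : Amb n | q.1 *ᵥ q.2 = q.2} :=
    isClosed_eq (continuous_fst.matrix_mulVec continuous_snd) continuous_snd
  exact h1.inter (h2.inter (h3.inter h4))

lemma isClosedEmbedding_val (n : ℕ) : IsClosedEmbedding (Subtype.val : E n → Amb n) :=
  (isClosed_isTaut n).isClosedEmbedding_subtypeVal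

/-- `(ℂⁿ ⊕ ℂⁿ) ⊕ (ℂᵐ ⊕ ℂᵐ) ≅ ℂˡ ⊕ ℂˡ` for `l = n + m` (shuffle of the two middle summands). -/
def idxSum {n m l : ℕ} (h : n + m = l) : Idx n ⊕ Idx m ≃ Idx l :=
  (Equiv.sumSumSumComm (Fin n) (Fin n) (Fin m) (Fin m)).trans
    (Equiv.sumCongr (finSumFinEquiv.trans (finCongr h)) (finSumFinEquiv.trans (finCongr h)))

/-- Direct sum `((P, x), (Q, y)) ↦ (P ⊕ Q, x ⊕ y)`. -/
def ambSum {n m l : ℕ} (h : n + m = l) (q : Amb n × Amb m) : Amb l :=
  (Matrix.reindex (idxSum h) (idxSum h) (Matrix.fromBlocks q.1.1 0 0 q.2.1),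
    (Sum.elim q.1.2 q.2.2) ∘ (idxSum h).symm)

/-- A continuous retraction of `ambSum` (used only to see that `ambSum` is a closed embedding). -/
def ambRetr {n m l : ℕ} (h : n + m = l) (r : Amb l) : Amb n × Amb m :=
  ((fun i j => r.1 (idxSum h (Sum.inl i)) (idxSum h (Sum.inl j)),
      fun i => r.2 (idxSum h (Sum.inl i))),
   (fun i j => r.1 (idxSum h (Sum.inr i)) (idxSum h (Sum.inr j)),
      fun i => r.2 (idxSum h (Sum.inr i))))

lemma continuous_ambSum {n m l : ℕ} (h : n + m = l) : Continuous (ambSum h) := by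
  unfold ambSum
  refine Continuous.prodMk ?_ ?_
  · refine Continuous.matrix_reindex ?_ _ _
    exact Continuous.matrix_fromBlocks (continuous_fst.comp continuous_fst) continuous_const
      continuous_const (continuous_fst.comp continuous_snd)
  · refine continuous_pi fun i => ?_
    simp only [Function.comp]
    rcases (idxSum h).symm i with j | j
    · exact (continuous_apply j).comp (continuous_snd.comp continuous_fst)
    · exact (continuous_apply j).comp (continuous_snd.comp continuous_snd)

lemma continuous_ambRetr {n m l : ℕ} (h : n + m = l) : Continuous (ambRetr h) := by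
  unfold ambRetr
  fun_prop

lemma ambRetr_ambSum {n m l : ℕ} (h : n + m = l) :
    Function.LeftInverse (ambRetr h) (ambSum h) := by
  rintro ⟨⟨P, x⟩, ⟨Q, y⟩⟩
  simp [ambRetr, ambSum, Matrix.reindex_apply, Matrix.submatrix]

lemma isClosedEmbedding_ambSum {n m l : ℕ} (h : n + m = l) : IsClosedEmbedding (ambSum h) :=
  (ambRetr_ambSum h).isClosedEmbedding (continuous_ambRetr h) (continuous_ambSum h)

lemma trace_reindex_self {ι κ : Type*} [Fintype ι] [Fintype κ] (e : ι ≃ κ) (M : Matrix ι ι ℂ) :
    (Matrix.reindex e e M).trace = M.trace := by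
  simp only [Matrix.trace, Matrix.diag, Matrix.reindex_apply, Matrix.submatrix_apply]
  exact e.symm.sum_comp (fun i => M i i)

lemma isTaut_ambSum {n m l : ℕ} (h : n + m = l) {q : Amb n × Amb m} (h1 : IsTaut n q.1)
    (h2 : IsTaut m q.2) : IsTaut l (ambSum h q) := by
  obtain ⟨a1, a2, a3, a4⟩ := h1
  obtain ⟨b1, b2, b3, b4⟩ := h2
  refine ⟨?_, ?_, ?_, ?_⟩
  · simp only [ambSum, Matrix.reindex_apply, Matrix.submatrix_mul_equiv,
      Matrix.fromBlocks_multiply]
    simp [a1, b1]
  · simp only [ambSum, Matrix.conjTranspose_reindex, Matrix.fromBlocks_conjTranspose]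
    simp [a2, b2]
  · have ht : (Matrix.fromBlocks q.1.1 0 0 q.2.1).trace = q.1.1.trace + q.2.1.trace := by
      simp [Matrix.trace, Fintype.sum_sum_type]
    simp only [ambSum, trace_reindex_self, ht, a3, b3]
    rw [← h]; push_cast; ring
  · simp only [ambSum, Matrix.reindex_apply, Matrix.submatrix_mulVec_equiv,
      Matrix.fromBlocks_mulVec, Function.comp_assoc, Equiv.symm_symm, Equiv.symm_comp_self,
      Function.comp_id, Sum.elim_comp_inl, Sum.elim_comp_inr, Matrix.zero_mulVec, add_zero,
      zero_add, a4, b4]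

/-- Whitney sum `E n × E m → E (n + m)`, `((L, x), (L', y)) ↦ (L ⊕ L', x ⊕ y)`.  Its pointed
extension is the multiplication `MU(n) ∧ MU(m) → MU(n + m)`. -/
def eSum {n m l : ℕ} (h : n + m = l) (q : E n × E m) : E l :=
  ⟨ambSum h (q.1.1, q.2.1), isTaut_ambSum h q.1.2 q.2.2⟩

lemma isClosedEmbedding_eSum {n m l : ℕ} (h : n + m = l) : IsClosedEmbedding (eSum h) := by
  have h1 : IsClosedEmbedding (fun q : E n × E m => ambSum h (q.1.1, q.2.1)) :=
    (isClosedEmbedding_ambSum h).comp ((isClosedEmbedding_val n).prodMap (isClosedEmbedding_val m))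
  exact (IsClosedEmbedding.of_comp_iff (isClosedEmbedding_val l)).1 h1

/-- The orthogonal projection onto `ℂⁿ ⊕ 0`, the base point of the Grassmannian. -/
def baseProj (n : ℕ) : Matrix (Idx n) (Idx n) ℂ := Matrix.fromBlocks 1 0 0 0

lemma isTaut_unit (n : ℕ) (v : Fin n → ℂ) : IsTaut n (baseProj n, Sum.elim v 0) := by
  refine ⟨?_, ?_, ?_, ?_⟩
  · simp [baseProj, Matrix.fromBlocks_multiply]
  · simp [baseProj, Matrix.fromBlocks_conjTranspose]
  · simp [baseProj, Matrix.trace, Fintype.sum_sum_type]
  · simp [baseProj, Matrix.fromBlocks_mulVec]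

/-- Inclusion `ℂⁿ → E n` of the fibre over `ℂⁿ ⊕ 0`.  Its pointed extension is the unit map
`S^{2n} = (ℂⁿ)⁺ → MU(n)`. -/
def unitE (n : ℕ) (v : Fin n → ℂ) : E n := ⟨(baseProj n, Sum.elim v 0), isTaut_unit n v⟩

lemma continuous_unitE (n : ℕ) : Continuous (unitE n) := by
  refine Continuous.subtype_mk (continuous_const.prodMk (continuous_pi fun i => ?_)) _
  rcases i with i | i
  · exact continuous_apply i
  · exact continuous_const

lemma isClosedEmbedding_unitE (n : ℕ) : IsClosedEmbedding (unitE n) :=
  Function.LeftInverse.isClosedEmbedding (f := fun q : E n => fun i => q.1.2 (Sum.inl i))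
    (fun _ => rfl) (by fun_prop) (continuous_unitE n)

/-! ## 3. The identification `I/∂I = ℝ ∪ {∞}` -/

/-- The quotient of two continuous real functions without common zero is continuous as a map to
`ℝ ∪ {∞}`. -/
theorem continuous_ratio {X : Type*} [TopologicalSpace X] {a b : X → ℝ} (ha : Continuous a)
    (hb : Continuous b) (h : ∀ x, b x = 0 → a x ≠ 0) :
    Continuous (fun x => if b x = 0 then (∞ : OnePoint ℝ) else ((a x / b x : ℝ) : OnePoint ℝ)) := by
  rw [continuous_iff_continuousAt]
  intro x
  by_cases hx : b x = 0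
  · have hax : 0 < |a x| := abs_pos.2 (h x hx)
    unfold ContinuousAt
    beta_reduce
    rw [if_pos hx, (OnePoint.hasBasis_nhds_infty (X := ℝ)).tendsto_right_iff]
    rintro L ⟨-, hL⟩
    obtain ⟨R, hR⟩ := hL.isBounded.subset_closedBall 0
    have h1 : ∀ᶠ y in 𝓝 x, |a x| / 2 < |a y| :=
      ha.abs.continuousAt.eventually (lt_mem_nhds (by linarith))
    have h2 : ∀ᶠ y in 𝓝 x, |b y| * (|R| + 1) < |a x| / 2 := by
      have hc : Continuous fun y => |b y| * (|R| + 1) := hb.abs.mul continuous_const
      refine hc.continuousAt.eventually (gt_mem_nhds ?_)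
      simp only [hx, abs_zero, zero_mul]
      linarith
    filter_upwards [h1, h2] with y hy1 hy2
    by_cases hy : b y = 0
    · simp [hy]
    · simp only [hy, if_false]
      left
      refine ⟨_, ?_, rfl⟩
      intro hmem
      have h3 : |a y| / |b y| ≤ R := by simpa [Real.norm_eq_abs] using hR hmem
      have hby : 0 < |b y| := abs_pos.2 hy
      rw [div_le_iff₀ hby] at h3
      have h4 : R * |b y| ≤ |b y| * (|R| + 1) := by
        nlinarith [le_abs_self R]
      linarith
  · have hne : ∀ᶠ y in 𝓝 x, b y ≠ 0 := hb.continuousAt.eventually_ne hx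
    have hc : ContinuousAt (fun y => ((a y / b y : ℝ) : OnePoint ℝ)) x :=
      OnePoint.continuous_coe.continuousAt.comp (ha.continuousAt.div hb.continuousAt hx)
    refine hc.congr ?_
    filter_upwards [hne] with y hy
    simp [hy]

/-- `τ : I → ℝ ∪ {∞}`, `τ t = (2t - 1) / (t (1 - t)) = 1/(1 - t) - 1/t`: an increasing
homeomorphism of the interior of `I` onto `ℝ`; the two end points go to `∞`.  So `τ` identifies
`I/∂I` with the circle `ℝ ∪ {∞}`. -/
def tau (t : I) : OnePoint ℝ :=
  if (t : ℝ) * (1 - t) = 0 then ∞ else (((2 * (t : ℝ) - 1) / ((t : ℝ) * (1 - t)) : ℝ) : OnePoint ℝ)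

theorem continuous_tau : Continuous tau := by
  refine continuous_ratio (a := fun t : I => 2 * (t : ℝ) - 1) (b := fun t : I => (t : ℝ) * (1 - t))
    (by fun_prop) (by fun_prop) ?_
  intro t ht
  rcases mul_eq_zero.1 ht with h | h
  · rw [h]; norm_num
  · have : (t : ℝ) = 1 := by linarith
    rw [this]; norm_num

theorem tau_zero : tau 0 = ∞ := by simp [tau]

theorem tau_one : tau 1 = ∞ := by simp [tau]

/-! ## 4. Cube maps into `MU(n) ∧ K` and their products -/

/-- Exterior product of two cube maps along a closed embedding (in particular a proper map)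
`j : A × B → C`:  `(s, t) ↦ j (f s, g t)`, a map `(I^M × I^N, ∂) → (C⁺, ∞)`. -/
def cross {M N A B C : Type} [TopologicalSpace A] [TopologicalSpace B] [TopologicalSpace C]
    [T2Space A] [T2Space B] (j : A × B → C) (hj : IsClosedEmbedding j)
    (f : Ω^ M (OnePoint A) ∞) (g : Ω^ N (OnePoint B) ∞) : Ω^ (M ⊕ N) (OnePoint C) ∞ :=
  ⟨⟨fun y => smashMap j (f (y ∘ Sum.inl), g (y ∘ Sum.inr)),
      (continuous_smashMap_of_isClosedEmbedding hj).comp
        (((map_continuous f).comp (by fun_prop)).prodMk ((map_continuous g).comp (by fun_prop)))⟩,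
    fun y hy => by
      rcases Cube.boundary_sum_iff.1 hy with h | h
      · show smashMap j (f (y ∘ Sum.inl), g (y ∘ Sum.inr)) = ∞
        rw [GenLoop.boundary f _ h]; simp
      · show smashMap j (f (y ∘ Sum.inl), g (y ∘ Sum.inr)) = ∞
        rw [GenLoop.boundary g _ h]; simp⟩

variable {U : Type} [TopologicalSpace U]

/-- The map `(E n₁ × pt) × (E n₂ × U) → E (n₁ + n₂) × U`, `((e, *), (e', u)) ↦ (e ⊕ e', u)`, whose
pointed extension is the action `(MU(n₁) ∧ S⁰) ∧ (MU(n₂) ∧ U⁺) → MU(n₁ + n₂) ∧ U⁺`. -/
def act {n₁ n₂ n : ℕ} (hn : n₁ + n₂ = n) (q : (E n₁ × Unit) × (E n₂ × U)) : E n × U :=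
  (eSum hn (q.1.1, q.2.1), q.2.2)

/-- Reassociation homeomorphism (used only to see that `act` is a closed embedding). -/
def reassoc (A B U : Type) [TopologicalSpace A] [TopologicalSpace B] [TopologicalSpace U] :
    (A × Unit) × (B × U) ≃ₜ (A × B) × U where
  toFun q := ((q.1.1, q.2.1), q.2.2)
  invFun r := ((r.1.1, ()), (r.1.2, r.2))
  left_inv _ := rfl
  right_inv _ := rfl
  continuous_toFun := by fun_prop
  continuous_invFun := by fun_prop

lemma isClosedEmbedding_act {n₁ n₂ n : ℕ} (hn : n₁ + n₂ = n) :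
    IsClosedEmbedding (act (U := U) hn) :=
  ((isClosedEmbedding_eSum hn).prodMap IsClosedEmbedding.id).comp
    (reassoc (E n₁) (E n₂) U).isClosedEmbedding

/-- `Rep U d n`: based maps `S^d = I^d/∂I^d → MU(n) ∧ U⁺ = (E n × U)⁺`.  Such a map represents a
class of degree `d - 2n` in the reduced `MU`-homology of `U⁺`. -/
abbrev Rep (U : Type) [TopologicalSpace U] (d n : ℕ) : Type :=
  Ω^ (Fin d) (OnePoint (E n × U)) ∞

/-- Product of a representative `f : S^{d₁} → MU(n₁)` of a class of `MU_*` with a representative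
`g : S^{d₂} → MU(n₂) ∧ U⁺`:  `(f ⋆ g)(s, t) = f(s) ⊕ g(t)`, where `s` consists of the first `d₁` and
`t` of the last `d₂` coordinates.  (The usual sign `(-1)^{2 n₁ (d₂ - 2 n₂)}` is `+1`.) -/
def Rep.mul [T2Space U] {d₁ d₂ d n₁ n₂ n : ℕ} (hd : d₁ + d₂ = d) (hn : n₁ + n₂ = n)
    (f : Rep Unit d₁ n₁) (g : Rep U d₂ n₂) : Rep U d n :=
  GenLoop.congr ∞ (finSumFinEquiv.trans (finCongr hd))
    (cross (act hn) (isClosedEmbedding_act hn) f g)

/-- `ℝ × ℝ = ℂ → E 1`, the unit map `unitE 1`. -/
def epsMap (z : ℝ × ℝ) : E 1 × Unit := (unitE 1 fun _ => ⟨z.1, z.2⟩, ())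

lemma isClosedEmbedding_epsMap : IsClosedEmbedding epsMap :=
  Function.LeftInverse.isClosedEmbedding
    (f := fun q : E 1 × Unit => ((q.1.1.2 (Sum.inl 0)).re, (q.1.1.2 (Sum.inl 0)).im))
    (fun _ => rfl) (by fun_prop)
    (((continuous_unitE 1).comp (continuous_pi fun _ =>
      Complex.equivRealProdCLM.symm.continuous)).prodMk continuous_const)

/-- The unit `ε : S² = I²/∂I² ≅ ℂ⁺ → MU(1)`, `(t₀, t₁) ↦ unitE 1 (τ t₀ + i τ t₁)`.
It represents `1 ∈ MU_0`. -/
def eps : Rep Unit 2 1 :=
  ⟨⟨fun t => smashMap epsMap (tau (t 0), tau (t 1)),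
      (continuous_smashMap_of_isClosedEmbedding isClosedEmbedding_epsMap).comp
        ((continuous_tau.comp (continuous_apply 0)).prodMk
          (continuous_tau.comp (continuous_apply 1)))⟩,
    fun t ht => by
      show smashMap epsMap (tau (t 0), tau (t 1)) = ∞
      obtain ⟨i, hi⟩ := ht
      fin_cases i <;> rcases hi with hi | hi <;> simp at hi <;> simp [hi, tau_zero, tau_one]⟩

/-- Stabilisation `f ↦ ε ⋆ f`, i.e. `S² ∧ S^d → S² ∧ MU(n) ∧ U⁺ → MU(n + 1) ∧ U⁺`: suspension
followed by the structure map of the spectrum `MU ∧ U⁺`. -/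
def Rep.stab [T2Space U] {d n : ℕ} (f : Rep U d n) : Rep U (d + 2) (n + 1) :=
  Rep.mul (Nat.add_comm 2 d) (Nat.add_comm 1 n) eps f

/-! ## 5. Reduced `MU`-homology -/

/-- `Stage U (d, n) = π_{d+2}(MU(n+1) ∧ U⁺)`, an abelian group (Mathlib's homotopy group, written
additively); it contributes to degree `(d + 2) - 2 (n + 1) = d - 2n`. -/
abbrev Stage (U : Type) [TopologicalSpace U] (i : ℕ × ℕ) : Type :=
  Additive (HomotopyGroup (Fin (i.1 + 2)) (OnePoint (E (i.2 + 1) × U)) ∞)

/-- The element of `⨁ Stage` given by the homotopy class of a map `S^{d+2} → MU(n+1) ∧ U⁺`. -/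
def Stage.of {d n : ℕ} (g : Rep U (d + 2) (n + 1)) : ⨁ i, Stage U i :=
  DirectSum.of (Stage U) (d, n) (Additive.ofMul (⟦g⟧ : HomotopyGroup (Fin (d + 2)) _ _))

/-- The subgroup generated by the relations `[g] = [ε ⋆ g]`. -/
def stabRel (U : Type) [TopologicalSpace U] [T2Space U] : AddSubgroup (⨁ i, Stage U i) :=
  AddSubgroup.closure {x | ∃ (d n : ℕ) (g : Rep U (d + 2) (n + 1)),
    x = Stage.of g - Stage.of g.stab}

/-- Total reduced `MU`-homology `MUH U = ⨁_{k ∈ ℤ} MU~_k(U⁺)`, where
`MU~_k(U⁺) = π_k(MU ∧ U⁺) = colim_n π_{k+2n}(MU(n) ∧ U⁺)`: the direct sum of all the groups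
`π_{d+2}(MU(n+1) ∧ U⁺)` modulo the identification of each class with its stabilisation. -/
def MUH (U : Type) [TopologicalSpace U] [T2Space U] : Type := (⨁ i, Stage U i) ⧸ stabRel U

instance instAddCommGroupMUH (U : Type) [TopologicalSpace U] [T2Space U] :
    AddCommGroup (MUH U) :=
  inferInstanceAs (AddCommGroup ((⨁ i, Stage U i) ⧸ stabRel U))

/-- The class in `MU~_{d-2n}(U⁺)` of a map `f : S^d → MU(n) ∧ U⁺` (any `d`, `n`): the class of its
stabilisation `ε ⋆ f`, which lives in the abelian group `π_{d+2}(MU(n+1) ∧ U⁺)`. -/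
def cls [T2Space U] {d n : ℕ} (f : Rep U d n) : MUH U :=
  QuotientAddGroup.mk (Stage.of f.stab)

/-- Hurewicz map on representatives: compose `ι : S^d → S^{2n} ∧ U⁺ = (ℂⁿ × U)⁺` with the unit
`S^{2n} → MU(n)` smashed with `U⁺`. -/
def hurewicz [T2Space U] {d n : ℕ} (ι : Ω^ (Fin d) (OnePoint ((Fin n → ℂ) × U)) ∞) : Rep U d n :=
  ⟨(⟨OnePoint.map (Prod.map (unitE n) id), OnePoint.continuous_map
      ((continuous_unitE n).prodMap continuous_id)
      (by
        rw [coclosedCompact_eq_cocompact, coclosedCompact_eq_cocompact]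
        exact ((isClosedEmbedding_unitE n).prodMap IsClosedEmbedding.id).tendsto_cocompact)⟩ :
      C(_, _)).comp ι.1,
    fun y hy => by
      show OnePoint.map (Prod.map (unitE n) id) (ι y) = ∞
      rw [GenLoop.boundary ι y hy]; rfl⟩

/-! ## 6. `BP_*` and `BP`-homology -/

/-- The integers prime to `p`. -/
def primeTo (p : ℕ) : Submonoid ℤ where
  carrier := {m | IsCoprime m (p : ℤ)}
  one_mem' := isCoprime_one_left
  mul_mem' := IsCoprime.mul_left

/-- `ℤ_(p)`, the localisation of `ℤ` at the integers prime to `p`. -/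
abbrev Zloc (p : ℕ) : Type := Localization (primeTo p)

/-- `BP_* = ℤ_(p)[v₁, v₂, …]`; the variable `X i` is `v_{i+1}`. -/
abbrev V (p : ℕ) : Type := MvPolynomial ℕ (Zloc p)

/-- The degree `|v_{i+1}| = 2 (p^{i+1} - 1)`. -/
def wt (p : ℕ) (i : ℕ) : ℕ := 2 * (p ^ (i + 1) - 1)

/-- The ideal `(p, v₁, …, v_n)` of `BP_*`. -/
def smithTodaIdeal (p n : ℕ) : Ideal (V p) :=
  Ideal.span ({MvPolynomial.C (p : Zloc p)} ∪ {x | ∃ i < n, x = MvPolynomial.X i})

/-- A homomorphism of graded rings `ρ : MU_* → BP_* = ℤ_(p)[v₁, v₂, …]` which becomes surjective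
after localisation at `p`.  Quillen's map (the one classifying the universal `p`-typical formal
group law, `v_i` the Hazewinkel generators) is an example.  Every element of `MU_k` is of the form
`cls f`, so multiplicativity and homogeneity are expressed on representatives. -/
structure Genus (p : ℕ) where
  /-- the underlying additive map on `MU_* = MU~_*(S⁰)`, `S⁰ = Unit⁺` -/
  toFun : MUH Unit →+ V p
  map_one : toFun (cls eps) = 1
  map_mul : ∀ {d₁ n₁ d₂ n₂ : ℕ} (f : Rep Unit d₁ n₁) (g : Rep Unit d₂ n₂),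
    toFun (cls (Rep.mul rfl rfl f g)) = toFun (cls f) * toFun (cls g)
  homogeneous : ∀ {d n k : ℕ} (f : Rep Unit d n), d = k + 2 * n →
    MvPolynomial.IsWeightedHomogeneous (wt p) (toFun (cls f)) k
  span_range : Submodule.span (Zloc p) (Set.range toFun) = ⊤

/-- The `BP_*`-submodule of `BP_* ⊗_ℤ MU~_*(U⁺)` generated by `ρ(a) ⊗ x - 1 ⊗ a x`. -/
def tensorRel {p : ℕ} (ρ : Genus p) (U : Type) [TopologicalSpace U] [T2Space U] :
    Submodule (V p) (V p ⊗[ℤ] MUH U) :=
  Submodule.span (V p) {x | ∃ (d₁ n₁ d₂ n₂ : ℕ) (f : Rep Unit d₁ n₁) (h : Rep U d₂ n₂),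
    x = ρ.toFun (cls f) ⊗ₜ[ℤ] cls h - 1 ⊗ₜ[ℤ] cls (Rep.mul rfl rfl f h)}

/-- `BP_* ⊗_{MU_*} MU~_*(U⁺)`, the reduced `BP`-homology of `U⁺` (for Quillen's `ρ` this is the
standard description of `BP_*(-)`: `MU_(p)` splits into suspensions of `BP`; see also Landweber's
exact functor theorem), as a `BP_*`-module. -/
abbrev BPH {p : ℕ} (ρ : Genus p) (U : Type) [TopologicalSpace U] [T2Space U] : Type :=
  (V p ⊗[ℤ] MUH U) ⧸ tensorRel ρ U

/-- The image in `BP`-homology of a class of `MU`-homology. -/
def toBPH {p : ℕ} (ρ : Genus p) [T2Space U] (x : MUH U) : BPH ρ U :=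
  Submodule.Quotient.mk ((1 : V p) ⊗ₜ[ℤ] x)

/-! ## 7. The statement -/

/-- `IsSmithToda p n`: there is a Smith--Toda complex `V(n)` at the prime `p`.

Unfolded: there are a finite CW complex `K` with a base point `k₀` and a stable map
`ι : S^{d-2m} → Σ^∞ K`, represented by `ι : S^d → S^{2m} ∧ K`, such that `BP~_*(K)` is generated as a
`BP_*`-module by the Hurewicz image `g` of `ι`, with annihilator exactly `(p, v₁, …, v_n)`.
In other words, for the finite `p`-local spectrum `X = (Σ^{2m-d} Σ^∞ K)_(p)`, the map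
`ι : S⁰ → X` induces a surjection `BP_* → BP_* X` with kernel `(p, v₁, …, v_n)`; as `ι_*` is a map of
`BP_*BP`-comodules, this is an isomorphism of graded comodules `BP_*/(p, v₁, …, v_n) ≅ BP_* X`. -/
def IsSmithToda (p n : ℕ) : Prop :=
  Nonempty (Genus p) ∧
  ∃ (K : Type) (_ : TopologicalSpace K) (_ : T2Space K)
    (_ : Topology.CWComplex (Set.univ : Set K)) (_ : Topology.CWComplex.Finite (Set.univ : Set K))
    (k₀ : K) (d m : ℕ) (ι : Ω^ (Fin d) (OnePoint ((Fin m → ℂ) × {x : K // x ≠ k₀})) ∞),
    ∀ ρ : Genus p,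
      Submodule.span (V p) {toBPH ρ (cls (hurewicz ι))} = ⊤ ∧
      ∀ r : V p, r • toBPH ρ (cls (hurewicz ι)) = 0 ↔ r ∈ smithTodaIdeal p n

/-- **Finite Smith--Toda complexes at every height**, together with the explicit case
`V(4)` at `p = 1009`: the compact cross-check formulation. -/
def CompactStatement : Prop :=
  (∀ n : ℕ, ∃ p : ℕ, p.Prime ∧ IsSmithToda p n) ∧ IsSmithToda 1009 4

end

end Claimed.Open.R308.Compact
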