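import Claimed.Open.R308.Compact

/-!
# Sanity checks for the algebraic definitions of `Claimed.Open.R308.Compact`
-/

namespace Claimed.Open.R308.Compact

open Filter Topology OnePoint Set Matrix
open scoped unitInterval Topology.Homotopy TensorProduct DirectSum

noncomputable section

/-! ## `ℤ_(p)` -/

/-- For a prime `p`, the integers prime to `p` are the complement of the prime ideal `(p)`. -/
theorem primeTo_eq_primeCompl (p : ℕ) (hp : p.Prime) :
    haveI : (Ideal.span {(p : ℤ)}).IsPrime :=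
      (Ideal.span_singleton_prime (by exact_mod_cast hp.ne_zero)).2 (Nat.prime_iff_prime_int.1 hp)
    primeTo p = (Ideal.span {(p : ℤ)}).primeCompl := by
  ext m
  have hp' : Prime (p : ℤ) := Nat.prime_iff_prime_int.1 hp
  show IsCoprime m (p : ℤ) ↔ m ∉ Ideal.span {(p : ℤ)}
  rw [Ideal.mem_span_singleton, isCoprime_comm, hp'.coprime_iff_not_dvd]

/-- `Zloc p` is the localisation of `ℤ` at the prime ideal `(p)`. -/
theorem isLocalization_atPrime_Zloc (p : ℕ) (hp : p.Prime) :
    haveI : (Ideal.span {(p : ℤ)}).IsPrime :=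
      (Ideal.span_singleton_prime (by exact_mod_cast hp.ne_zero)).2 (Nat.prime_iff_prime_int.1 hp)
    IsLocalization.AtPrime (Zloc p) (Ideal.span {(p : ℤ)}) := by
  have : (Ideal.span {(p : ℤ)}).IsPrime :=
      (Ideal.span_singleton_prime (by exact_mod_cast hp.ne_zero)).2 (Nat.prime_iff_prime_int.1 hp)
  show IsLocalization (Ideal.span {(p : ℤ)}).primeCompl (Localization (primeTo p))
  rw [← primeTo_eq_primeCompl p hp]
  infer_instance

example : Nat.Prime 1009 := by norm_num

/-! ## degrees -/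

example (p : ℕ) : wt p 0 = 2 * (p - 1) := by simp [wt]
example : wt 1009 3 = 2 * (1009 ^ 4 - 1) := rfl

theorem isWeightedHomogeneous_X (p i : ℕ) :
    MvPolynomial.IsWeightedHomogeneous (wt p) (MvPolynomial.X i : V p) (2 * (p ^ (i + 1) - 1)) :=
  MvPolynomial.isWeightedHomogeneous_X _ _ _

/-! ## the ideal `(p, v₁, …, v_n)` -/

theorem C_p_mem (p n : ℕ) : MvPolynomial.C (p : Zloc p) ∈ smithTodaIdeal p n :=
  Ideal.subset_span (Or.inl rfl)

theorem X_mem (p n i : ℕ) (h : i < n) : (MvPolynomial.X i : V p) ∈ smithTodaIdeal p n :=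
  Ideal.subset_span (Or.inr ⟨i, h, rfl⟩)

/-- reduction `ℤ_(p) → 𝔽_p` -/
def redZ (p : ℕ) [Fact p.Prime] : Zloc p →+* ZMod p :=
  IsLocalization.lift (M := primeTo p) (g := Int.castRingHom (ZMod p)) (by
    rintro ⟨m, hm⟩
    have hm' : IsCoprime m (p : ℤ) := hm
    obtain ⟨a, b, hab⟩ := hm'
    refine IsUnit.of_mul_eq_one (a : ZMod p) ?_
    have := congrArg (Int.cast : ℤ → ZMod p) hab
    push_cast at this
    simpa [mul_comm] using this)

/-- the ring map `BP_* → 𝔽_p[v_{n+1}, …] ⊆ 𝔽_p[v₁, …]` killing `p, v₁, …, v_n` -/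
def redV (p n : ℕ) [Fact p.Prime] : V p →+* MvPolynomial ℕ (ZMod p) :=
  MvPolynomial.eval₂Hom (MvPolynomial.C.comp (redZ p))
    (fun i => if i < n then 0 else MvPolynomial.X i)

theorem smithTodaIdeal_le_ker (p n : ℕ) [Fact p.Prime] :
    smithTodaIdeal p n ≤ RingHom.ker (redV p n) := by
  refine Ideal.span_le.2 ?_
  rintro x (rfl | ⟨i, hi, rfl⟩)
  · simp [redV, RingHom.mem_ker]
  · simp [redV, RingHom.mem_ker, hi]

/-- `v_{n+1}, v_{n+2}, …` are not in `(p, v₁, …, v_n)`. -/
theorem X_not_mem (p n i : ℕ) (hp : p.Prime) (h : n ≤ i) :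
    (MvPolynomial.X i : V p) ∉ smithTodaIdeal p n := by
  have := Fact.mk hp
  intro hmem
  have := smithTodaIdeal_le_ker p n hmem
  simp [redV, RingHom.mem_ker, not_lt.2 h] at this

/-- The ideal is proper. -/
theorem one_not_mem (p n : ℕ) (hp : p.Prime) : (1 : V p) ∉ smithTodaIdeal p n := by
  have := Fact.mk hp
  intro hmem
  have := smithTodaIdeal_le_ker p n hmem
  simp [RingHom.mem_ker] at this

theorem wt_strictMono (p : ℕ) (hp : p.Prime) : StrictMono (wt p) := by
  intro i j hij
  have h2 : 2 ≤ p := hp.two_le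
  have h1 : p ^ (i + 1) < p ^ (j + 1) := Nat.pow_lt_pow_right h2 (by omega)
  have h0 : 0 < p ^ (i + 1) := Nat.pow_pos (by omega)
  unfold wt
  omega

theorem wt_pos (p : ℕ) (hp : p.Prime) (i : ℕ) : 0 < wt p i := by
  have h2 : 2 ≤ p := hp.two_le
  have h1 : p ^ 1 ≤ p ^ (i + 1) := Nat.pow_le_pow_right (by omega) (by omega)
  unfold wt
  simp only [pow_one] at h1
  omega

/-- Intrinsic description: `(p, v₁, …, v_n)` is the ideal generated by `p` and by all homogeneous
elements of degree `2 (p^i - 1)`, `1 ≤ i ≤ n`.  Consequently it is preserved by every automorphism of the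
graded ring `BP_*`, and does not depend on the choice of the polynomial generators `v_i`. -/
theorem smithTodaIdeal_eq_span_homogeneous (p n : ℕ) (hp : p.Prime) :
    smithTodaIdeal p n = Ideal.span ({MvPolynomial.C (p : Zloc p)} ∪
      {x | ∃ i < n, MvPolynomial.IsWeightedHomogeneous (wt p) x (wt p i)}) := by
  apply le_antisymm
  · refine Ideal.span_le.2 ?_
    rintro x (rfl | ⟨i, hi, rfl⟩)
    · exact Ideal.subset_span (Or.inl rfl)
    · exact Ideal.subset_span (Or.inr ⟨i, hi, MvPolynomial.isWeightedHomogeneous_X _ _ _⟩)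
  · refine Ideal.span_le.2 ?_
    rintro x (rfl | ⟨i, hi, hx⟩)
    · exact C_p_mem p n
    · rw [x.as_sum]
      refine Ideal.sum_mem _ fun m hm => ?_
      have hc : MvPolynomial.coeff m x ≠ 0 := MvPolynomial.mem_support_iff.1 hm
      have hw : Finsupp.weight (wt p) m = wt p i := hx hc
      -- some variable occurs in `m`
      have hm0 : m ≠ 0 := by
        rintro rfl
        have := wt_pos p hp i
        simp at hw
        omega
      obtain ⟨j, hj⟩ : ∃ j, m j ≠ 0 := by
        by_contra h
        exact hm0 (Finsupp.ext fun j => by_contra fun hj => h ⟨j, hj⟩)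
      have hle : wt p j ≤ wt p i := by
        rw [← hw]
        exact Finsupp.le_weight_of_ne_zero' (wt p) hj
      have hji : j ≤ i := (wt_strictMono p hp).le_iff_le.1 hle
      have hdvd : (MvPolynomial.X j : V p) ∣ MvPolynomial.monomial m (MvPolynomial.coeff m x) :=
        MvPolynomial.X_dvd_monomial.2 (Or.inr hj)
      exact Ideal.mem_of_dvd _ hdvd (X_mem p n j (by omega))

end

end Claimed.Open.R308.Compact
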