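import Claimed.Open.R308.Compact

/-!
# Sanity checks: the product of representatives is compatible with homotopies and with the
group structure of the homotopy groups

Consequently `Rep.stab` induces homomorphisms
`π_{d+2}(MU(n+1) ∧ K) → π_{d+4}(MU(n+2) ∧ K)` (`stabHom`), and `MUH U` is the colimit of these groups.
-/

namespace Claimed.Open.R308.Compact

open Filter Topology OnePoint Set Matrix
open scoped unitInterval Topology.Homotopy TensorProduct DirectSum

noncomputable section

section Cross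

variable {M N A B C : Type} [TopologicalSpace A] [TopologicalSpace B] [TopologicalSpace C]
  [T2Space A] [T2Space B] (j : A × B → C) (hj : IsClosedEmbedding j)

theorem cross_apply (f : Ω^ M (OnePoint A) ∞) (g : Ω^ N (OnePoint B) ∞) (y : M ⊕ N → I) :
    cross j hj f g y = smashMap j (f (y ∘ Sum.inl), g (y ∘ Sum.inr)) := rfl

/-- `f × g` depends only on the homotopy class of `g` … -/
theorem cross_homotopic_right (f : Ω^ M (OnePoint A) ∞) {g g' : Ω^ N (OnePoint B) ∞}
    (h : GenLoop.Homotopic g g') : GenLoop.Homotopic (cross j hj f g) (cross j hj f g') := by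
  obtain ⟨H⟩ := h
  refine ⟨{ toFun := fun x => smashMap j (f (x.2 ∘ Sum.inl), H (x.1, x.2 ∘ Sum.inr))
            continuous_toFun := ?_
            map_zero_left := ?_
            map_one_left := ?_
            prop' := ?_ }⟩
  · exact (continuous_smashMap_of_isClosedEmbedding hj).comp
      (((map_continuous f).comp (by fun_prop)).prodMk ((map_continuous H).comp (by fun_prop)))
  · intro y
    show smashMap j (f (y ∘ Sum.inl), H (0, y ∘ Sum.inr)) = smashMap j (f (y ∘ Sum.inl), g (y ∘ Sum.inr))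
    rw [H.apply_zero]; rfl
  · intro y
    show smashMap j (f (y ∘ Sum.inl), H (1, y ∘ Sum.inr)) = smashMap j (f (y ∘ Sum.inl), g' (y ∘ Sum.inr))
    rw [H.apply_one]; rfl
  · intro t y hy
    show smashMap j (f (y ∘ Sum.inl), H (t, y ∘ Sum.inr)) = smashMap j (f (y ∘ Sum.inl), g (y ∘ Sum.inr))
    rcases Cube.boundary_sum_iff.1 hy with h | h
    · rw [GenLoop.boundary f _ h]; simp
    · rw [H.eq_fst t h]; rfl

/-- … and of `f`. -/
theorem cross_homotopic_left {f f' : Ω^ M (OnePoint A) ∞} (g : Ω^ N (OnePoint B) ∞)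
    (h : GenLoop.Homotopic f f') : GenLoop.Homotopic (cross j hj f g) (cross j hj f' g) := by
  obtain ⟨H⟩ := h
  refine ⟨{ toFun := fun x => smashMap j (H (x.1, x.2 ∘ Sum.inl), g (x.2 ∘ Sum.inr))
            continuous_toFun := ?_
            map_zero_left := ?_
            map_one_left := ?_
            prop' := ?_ }⟩
  · exact (continuous_smashMap_of_isClosedEmbedding hj).comp
      (((map_continuous H).comp (by fun_prop)).prodMk ((map_continuous g).comp (by fun_prop)))
  · intro y
    show smashMap j (H (0, y ∘ Sum.inl), g (y ∘ Sum.inr)) = smashMap j (f (y ∘ Sum.inl), g (y ∘ Sum.inr))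
    rw [H.apply_zero]; rfl
  · intro y
    show smashMap j (H (1, y ∘ Sum.inl), g (y ∘ Sum.inr)) = smashMap j (f' (y ∘ Sum.inl), g (y ∘ Sum.inr))
    rw [H.apply_one]; rfl
  · intro t y hy
    show smashMap j (H (t, y ∘ Sum.inl), g (y ∘ Sum.inr)) = smashMap j (f (y ∘ Sum.inl), g (y ∘ Sum.inr))
    rcases Cube.boundary_sum_iff.1 hy with h | h
    · rw [H.eq_fst t h]; rfl
    · rw [GenLoop.boundary g _ h]; simp

variable [DecidableEq M] [DecidableEq N]

/-- `f × (g · g') = (f × g) · (f × g')`, on the nose. -/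
theorem cross_transAt_right (f : Ω^ M (OnePoint A) ∞) (g g' : Ω^ N (OnePoint B) ∞) (i : N) :
    cross j hj f (GenLoop.transAt i g g') =
      GenLoop.transAt (Sum.inr i) (cross j hj f g) (cross j hj f g') := by
  ext y
  have e1 : ∀ v : I, Function.update y (Sum.inr i) v ∘ Sum.inl = y ∘ Sum.inl := by
    intro v; funext k; simp [Function.update]
  have e2 : ∀ v : I, Function.update y (Sum.inr i) v ∘ Sum.inr = Function.update (y ∘ Sum.inr) i v := by
    intro v; funext k
    by_cases hk : k = i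
    · subst hk; simp
    · simp [Function.update, hk]
  show smashMap j (f (y ∘ Sum.inl),
      if ((y ∘ Sum.inr) i : ℝ) ≤ 1 / 2
        then g (Function.update (y ∘ Sum.inr) i (Set.projIcc 0 1 zero_le_one (2 * (y ∘ Sum.inr) i)))
        else g' (Function.update (y ∘ Sum.inr) i
          (Set.projIcc 0 1 zero_le_one (2 * (y ∘ Sum.inr) i - 1)))) =
    if (y (Sum.inr i) : ℝ) ≤ 1 / 2
      then smashMap j (f (Function.update y (Sum.inr i) (Set.projIcc 0 1 zero_le_one (2 * y (Sum.inr i))) ∘ Sum.inl),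
        g (Function.update y (Sum.inr i) (Set.projIcc 0 1 zero_le_one (2 * y (Sum.inr i))) ∘ Sum.inr))
      else smashMap j (f (Function.update y (Sum.inr i) (Set.projIcc 0 1 zero_le_one (2 * y (Sum.inr i) - 1)) ∘ Sum.inl),
        g' (Function.update y (Sum.inr i) (Set.projIcc 0 1 zero_le_one (2 * y (Sum.inr i) - 1)) ∘ Sum.inr))
  simp only [e1, e2, Function.comp_apply]
  split_ifs <;> rfl

/-- `(f · f') × g = (f × g) · (f' × g)`, on the nose. -/
theorem cross_transAt_left (f f' : Ω^ M (OnePoint A) ∞) (g : Ω^ N (OnePoint B) ∞) (i : M) :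
    cross j hj (GenLoop.transAt i f f') g =
      GenLoop.transAt (Sum.inl i) (cross j hj f g) (cross j hj f' g) := by
  ext y
  have e1 : ∀ v : I, Function.update y (Sum.inl i) v ∘ Sum.inr = y ∘ Sum.inr := by
    intro v; funext k; simp [Function.update]
  have e2 : ∀ v : I, Function.update y (Sum.inl i) v ∘ Sum.inl = Function.update (y ∘ Sum.inl) i v := by
    intro v; funext k
    by_cases hk : k = i
    · subst hk; simp
    · simp [Function.update, hk]
  show smashMap j (
      (if ((y ∘ Sum.inl) i : ℝ) ≤ 1 / 2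
        then f (Function.update (y ∘ Sum.inl) i (Set.projIcc 0 1 zero_le_one (2 * (y ∘ Sum.inl) i)))
        else f' (Function.update (y ∘ Sum.inl) i
          (Set.projIcc 0 1 zero_le_one (2 * (y ∘ Sum.inl) i - 1)))), g (y ∘ Sum.inr)) =
    if (y (Sum.inl i) : ℝ) ≤ 1 / 2
      then smashMap j (f (Function.update y (Sum.inl i) (Set.projIcc 0 1 zero_le_one (2 * y (Sum.inl i))) ∘ Sum.inl),
        g (Function.update y (Sum.inl i) (Set.projIcc 0 1 zero_le_one (2 * y (Sum.inl i))) ∘ Sum.inr))
      else smashMap j (f' (Function.update y (Sum.inl i) (Set.projIcc 0 1 zero_le_one (2 * y (Sum.inl i) - 1)) ∘ Sum.inl),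
        g (Function.update y (Sum.inl i) (Set.projIcc 0 1 zero_le_one (2 * y (Sum.inl i) - 1)) ∘ Sum.inr))
  simp only [e1, e2, Function.comp_apply]
  split_ifs <;> rfl

end Cross

section Congr

variable {M N X : Type} [TopologicalSpace X] {x : X}

theorem congr_apply (e : M ≃ N) (p : Ω^ M X x) (t : N → I) :
    GenLoop.congr x e p t = p fun m => t (e m) := rfl

theorem congr_homotopic (e : M ≃ N) {p q : Ω^ M X x} (h : GenLoop.Homotopic p q) :
    GenLoop.Homotopic (GenLoop.congr x e p) (GenLoop.congr x e q) := by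
  obtain ⟨H⟩ := h
  refine ⟨{ toFun := fun y => H (y.1, fun m => y.2 (e m))
            continuous_toFun := (map_continuous H).comp (by fun_prop)
            map_zero_left := fun t => H.apply_zero _
            map_one_left := fun t => H.apply_one _
            prop' := ?_ }⟩
  intro s t ht
  obtain ⟨n, hn⟩ := ht
  exact H.eq_fst s (x := fun m => t (e m)) ⟨e.symm n, by simpa using hn⟩

variable [DecidableEq M] [DecidableEq N]

theorem congr_transAt (e : M ≃ N) (i : M) (p q : Ω^ M X x) :
    GenLoop.congr x e (GenLoop.transAt i p q) =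
      GenLoop.transAt (e i) (GenLoop.congr x e p) (GenLoop.congr x e q) := by
  ext t
  have e2 : ∀ v : I, (fun m => Function.update t (e i) v (e m)) =
      Function.update (fun m => t (e m)) i v := by
    intro v; funext k
    by_cases hk : k = i
    · subst hk; simp
    · simp [Function.update, hk]
  show (if (t (e i) : ℝ) ≤ 1 / 2
        then p (Function.update (fun m => t (e m)) i (Set.projIcc 0 1 zero_le_one (2 * t (e i))))
        else q (Function.update (fun m => t (e m)) i
          (Set.projIcc 0 1 zero_le_one (2 * t (e i) - 1)))) =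
    if (t (e i) : ℝ) ≤ 1 / 2
      then p (fun m => Function.update t (e i) (Set.projIcc 0 1 zero_le_one (2 * t (e i))) (e m))
      else q (fun m => Function.update t (e i) (Set.projIcc 0 1 zero_le_one (2 * t (e i) - 1)) (e m))
  simp only [e2]

end Congr

section Mul

variable {U : Type} [TopologicalSpace U] [T2Space U] {d₁ d₂ d n₁ n₂ n : ℕ}
  (hd : d₁ + d₂ = d) (hn : n₁ + n₂ = n)

theorem Rep.mul_homotopic {f f' : Rep Unit d₁ n₁} {g g' : Rep U d₂ n₂}
    (hf : GenLoop.Homotopic f f') (hg : GenLoop.Homotopic g g') :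
    GenLoop.Homotopic (Rep.mul hd hn f g) (Rep.mul hd hn f' g') :=
  congr_homotopic _ ((cross_homotopic_left _ _ g hf).trans (cross_homotopic_right _ _ f' hg))

theorem Rep.mul_transAt_right (f : Rep Unit d₁ n₁) (g g' : Rep U d₂ n₂) (i : Fin d₂) :
    Rep.mul hd hn f (GenLoop.transAt i g g') =
      GenLoop.transAt (Fin.cast hd (Fin.natAdd d₁ i)) (Rep.mul hd hn f g) (Rep.mul hd hn f g') := by
  unfold Rep.mul
  rw [cross_transAt_right, congr_transAt]
  rfl

theorem Rep.mul_transAt_left (f f' : Rep Unit d₁ n₁) (g : Rep U d₂ n₂) (i : Fin d₁) :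
    Rep.mul hd hn (GenLoop.transAt i f f') g =
      GenLoop.transAt (Fin.cast hd (Fin.castAdd d₂ i)) (Rep.mul hd hn f g) (Rep.mul hd hn f' g) := by
  unfold Rep.mul
  rw [cross_transAt_left, congr_transAt]
  rfl

/-- The product on homotopy classes
`π_{d₁}(MU(n₁)) × π_{d₂}(MU(n₂) ∧ K) → π_{d₁+d₂}(MU(n₁+n₂) ∧ K)`. -/
def mulPi : HomotopyGroup (Fin d₁) (OnePoint (E n₁ × Unit)) ∞ →
    HomotopyGroup (Fin d₂) (OnePoint (E n₂ × U)) ∞ → HomotopyGroup (Fin d) (OnePoint (E n × U)) ∞ :=
  Quotient.map₂ (Rep.mul hd hn) fun _ _ hf _ _ hg => Rep.mul_homotopic hd hn hf hg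

theorem mulPi_mk (f : Rep Unit d₁ n₁) (g : Rep U d₂ n₂) :
    mulPi hd hn ⟦f⟧ ⟦g⟧ = ⟦Rep.mul hd hn f g⟧ := rfl

end Mul

section Stab

variable {U : Type} [TopologicalSpace U] [T2Space U]

/-- The homotopy class of a cube map. -/
def hcls {N X : Type} [TopologicalSpace X] {x : X} (g : Ω^ N X x) : HomotopyGroup N X x :=
  Quotient.mk _ g

theorem hcls_surjective {N X : Type} [TopologicalSpace X] {x : X} (a : HomotopyGroup N X x) :
    ∃ g : Ω^ N X x, hcls g = a := Quotient.exists_rep a

theorem hcls_mul {N X : Type} [TopologicalSpace X] {x : X} [DecidableEq N] [Nonempty N] (i : N)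
    (p q : Ω^ N X x) : hcls p * hcls q = hcls (GenLoop.transAt i q p) :=
  HomotopyGroup.mul_spec

theorem Rep.stab_homotopic {d n : ℕ} {g g' : Rep U d n} (h : GenLoop.Homotopic g g') :
    GenLoop.Homotopic g.stab g'.stab :=
  Rep.mul_homotopic _ _ (GenLoop.Homotopic.refl _) h

/-- Stabilisation on homotopy classes. -/
def stabPi {d n : ℕ} : HomotopyGroup (Fin d) (OnePoint (E n × U)) ∞ →
    HomotopyGroup (Fin (d + 2)) (OnePoint (E (n + 1) × U)) ∞ :=
  Quotient.map Rep.stab fun _ _ h => Rep.stab_homotopic h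

theorem stabPi_hcls {d n : ℕ} (g : Rep U d n) : stabPi (hcls g) = hcls g.stab := rfl

theorem stabPi_one {d n : ℕ} :
    stabPi (1 : HomotopyGroup (Fin (d + 1)) (OnePoint (E n × U)) ∞) = 1 := by
  show stabPi (hcls GenLoop.const) = hcls GenLoop.const
  rw [stabPi_hcls]
  congr 1
  ext t
  show smashMap _ (_, ∞) = ∞
  simp

theorem stabPi_mul {d n : ℕ} (a b : HomotopyGroup (Fin (d + 1)) (OnePoint (E n × U)) ∞) :
    stabPi (a * b) = stabPi a * stabPi b := by
  obtain ⟨a, rfl⟩ := hcls_surjective a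
  obtain ⟨b, rfl⟩ := hcls_surjective b
  rw [hcls_mul 0, stabPi_hcls, stabPi_hcls, stabPi_hcls,
    hcls_mul (Fin.cast (Nat.add_comm 2 (d + 1)) (Fin.natAdd 2 0))]
  unfold Rep.stab
  rw [Rep.mul_transAt_right]

/-- The stabilisation homomorphism `π_{d+2}(MU(n+1) ∧ K) → π_{d+4}(MU(n+2) ∧ K)`. -/
def stabHom (i : ℕ × ℕ) : Stage U i →+ Stage U (i.1 + 2, i.2 + 1) :=
  MonoidHom.toAdditive
    { toFun := stabPi
      map_one' := stabPi_one
      map_mul' := stabPi_mul }

theorem stabHom_mk {d n : ℕ} (g : Rep U (d + 2) (n + 1)) :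
    stabHom (d, n) (Additive.ofMul (hcls g)) = Additive.ofMul (hcls g.stab) := rfl

/-- The relations defining `MUH U` identify every element of a stage with its image under the
stabilisation homomorphism. -/
theorem stabRel_eq : stabRel U = AddSubgroup.closure {x | ∃ (i : ℕ × ℕ) (a : Stage U i),
    x = DirectSum.of (Stage U) i a - DirectSum.of (Stage U) (i.1 + 2, i.2 + 1) (stabHom i a)} := by
  unfold stabRel
  congr 1
  ext x
  constructor
  · rintro ⟨d, n, g, rfl⟩
    exact ⟨(d, n), Additive.ofMul (hcls g), rfl⟩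
  · rintro ⟨⟨d, n⟩, a, rfl⟩
    obtain ⟨g, hg⟩ := hcls_surjective (Additive.toMul a)
    refine ⟨d, n, g, ?_⟩
    have : a = Additive.ofMul (hcls g) := by rw [hg]; rfl
    rw [this]
    rfl

/-- The canonical map of a stage to the colimit. -/
def MUH.incl (i : ℕ × ℕ) : Stage U i →+ MUH U :=
  (QuotientAddGroup.mk' (stabRel U)).comp (DirectSum.of (Stage U) i)

theorem MUH.incl_stabHom (i : ℕ × ℕ) (a : Stage U i) :
    MUH.incl (i.1 + 2, i.2 + 1) (stabHom i a) = MUH.incl i a := by
  symm
  show (QuotientAddGroup.mk _ : (⨁ i, Stage U i) ⧸ stabRel U) = QuotientAddGroup.mk _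
  rw [QuotientAddGroup.eq_iff_sub_mem, stabRel_eq]
  exact AddSubgroup.subset_closure ⟨i, a, rfl⟩

theorem cls_eq_incl {d n : ℕ} (f : Rep U d n) :
    cls f = MUH.incl (d, n) (Additive.ofMul (hcls f.stab)) := rfl

/-- **Universal property**: `MUH U` is the colimit of the groups `π_{d+2}(MU(n+1) ∧ K)` along the
stabilisation homomorphisms. -/
def MUH.lift {G : Type} [AddCommGroup G] (φ : ∀ i, Stage U i →+ G)
    (h : ∀ i a, φ (i.1 + 2, i.2 + 1) (stabHom i a) = φ i a) : MUH U →+ G :=
  QuotientAddGroup.lift (stabRel U) (DirectSum.toAddMonoid φ) (by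
    rw [stabRel_eq, AddSubgroup.closure_le]
    rintro x ⟨i, a, rfl⟩
    simp [h])

theorem MUH.lift_incl {G : Type} [AddCommGroup G] (φ : ∀ i, Stage U i →+ G)
    (h : ∀ i a, φ (i.1 + 2, i.2 + 1) (stabHom i a) = φ i a) (i : ℕ × ℕ) (a : Stage U i) :
    MUH.lift φ h (MUH.incl i a) = φ i a := by
  show DirectSum.toAddMonoid φ (DirectSum.of (Stage U) i a) = φ i a
  simp

theorem MUH.hom_ext {G : Type} [AddCommGroup G] (f g : MUH U →+ G)
    (h : ∀ i a, f (MUH.incl i a) = g (MUH.incl i a)) : f = g := by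
  have h1 : f.comp (QuotientAddGroup.mk' (stabRel U)) = g.comp (QuotientAddGroup.mk' (stabRel U)) := by
    refine DirectSum.addHom_ext fun i a => h i a
  ext x
  obtain ⟨y, rfl⟩ := QuotientAddGroup.mk'_surjective (stabRel U) x
  exact DFunLike.congr_fun h1 y

/-- Every element of `MUH U` is a finite sum of classes `cls f`. -/
theorem MUH.closure_range_cls :
    AddSubgroup.closure {x : MUH U | ∃ (d n : ℕ) (f : Rep U d n), x = cls f} = ⊤ := by
  rw [eq_top_iff]
  rintro x -
  obtain ⟨y, rfl⟩ := QuotientAddGroup.mk'_surjective (stabRel U) x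
  induction y using DirectSum.induction_on with
  | zero => rw [map_zero]; exact zero_mem _
  | of i a =>
    obtain ⟨g, hg⟩ := hcls_surjective (Additive.toMul a)
    refine AddSubgroup.subset_closure ⟨i.1 + 2, i.2 + 1, g, ?_⟩
    have ha : a = Additive.ofMul (hcls g) := by rw [hg]; rfl
    rw [cls_eq_incl, ← stabHom_mk, MUH.incl_stabHom, ha]
    rfl
  | add y z hy hz =>
    rw [map_add]
    exact add_mem hy hz

end Stab

end

end Claimed.Open.R308.Compact
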