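import Claimed.Open.R308.Compact

/-!
# Sanity checks: formal properties of `MUH`, `BPH`; the sphere
-/

namespace Claimed.Open.R308.Compact

open Filter Topology OnePoint Set Matrix
open scoped unitInterval Topology.Homotopy TensorProduct DirectSum

noncomputable section

variable {U : Type} [TopologicalSpace U] [T2Space U]

/-- A map and its stabilisation have the same class. -/
theorem cls_stab {d n : ℕ} (f : Rep U d n) : cls f.stab = cls f := by
  symm
  show (QuotientAddGroup.mk (Stage.of f.stab) : (⨁ i, Stage U i) ⧸ stabRel U) =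
    QuotientAddGroup.mk (Stage.of f.stab.stab)
  rw [QuotientAddGroup.eq_iff_sub_mem]
  exact AddSubgroup.subset_closure ⟨d, n, f.stab, rfl⟩

/-- The explicit formula for the product of representatives. -/
theorem Rep.mul_apply {d₁ d₂ d n₁ n₂ n : ℕ} (hd : d₁ + d₂ = d) (hn : n₁ + n₂ = n)
    (f : Rep Unit d₁ n₁) (g : Rep U d₂ n₂) (t : Fin d → I) :
    Rep.mul hd hn f g t =
      smashMap (act hn) (f fun i => t (Fin.cast hd (Fin.castAdd d₂ i)),
        g fun j => t (Fin.cast hd (Fin.natAdd d₁ j))) := rfl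

variable {p : ℕ} (ρ : Genus p)

/-- In `BP_* ⊗_{MU_*} MU_*(K)` one has `1 ⊗ a x = ρ(a) ⊗ x`. -/
theorem toBPH_mul {d₁ n₁ d₂ n₂ : ℕ} (f : Rep Unit d₁ n₁) (h : Rep U d₂ n₂) :
    toBPH ρ (cls (Rep.mul rfl rfl f h)) = ρ.toFun (cls f) • toBPH ρ (cls h) := by
  unfold toBPH
  rw [← Submodule.Quotient.mk_smul, TensorProduct.smul_tmul', smul_eq_mul, mul_one]
  symm
  rw [Submodule.Quotient.eq]
  exact Submodule.subset_span ⟨d₁, n₁, d₂, n₂, f, h, rfl⟩

/-- `BP_* ⊗_ℤ MU_* → BP_*`, `b ⊗ a ↦ b ρ(a)`, as an additive map. -/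
def augmentAdd : V p ⊗[ℤ] MUH Unit →+ V p :=
  TensorProduct.liftAddHom
    (AddMonoidHom.mk' (fun b => (AddMonoidHom.mulLeft b).comp ρ.toFun)
      (fun b b' => by ext a; simp [add_mul]))
    (fun m b a => by simp; ring)

@[simp] theorem augmentAdd_tmul (b : V p) (a : MUH Unit) :
    augmentAdd ρ (b ⊗ₜ[ℤ] a) = b * ρ.toFun a := rfl

/-- `BP_* ⊗_ℤ MU_* → BP_*`, `b ⊗ a ↦ b ρ(a)`. -/
def augment₀ : V p ⊗[ℤ] MUH Unit →ₗ[V p] V p where
  toFun := augmentAdd ρ
  map_add' := map_add _
  map_smul' r x := by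
    induction x using TensorProduct.induction_on with
    | zero => simp
    | tmul b a => simp [TensorProduct.smul_tmul', mul_assoc]
    | add x y hx hy => simp only [smul_add, map_add, hx, hy]

@[simp] theorem augment₀_tmul (b : V p) (a : MUH Unit) :
    augment₀ ρ (b ⊗ₜ[ℤ] a) = b * ρ.toFun a := rfl

theorem tensorRel_le_ker : tensorRel ρ Unit ≤ LinearMap.ker (augment₀ ρ) := by
  unfold tensorRel
  refine Submodule.span_le.2 ?_
  rintro x ⟨d₁, n₁, d₂, n₂, f, h, rfl⟩
  simp [ρ.map_mul]

/-- The isomorphism candidate `BP_* ⊗_{MU_*} MU_* → BP_*`. -/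
def augment : BPH ρ Unit →ₗ[V p] V p :=
  (tensorRel ρ Unit).liftQ (augment₀ ρ) (tensorRel_le_ker ρ)

theorem augment_toBPH (a : MUH Unit) : augment ρ (toBPH ρ a) = ρ.toFun a := by
  unfold augment toBPH
  rw [Submodule.liftQ_apply]
  simp

/-- **The sphere.**  For `K = S⁰` the Hurewicz image of the unit has annihilator `0` in `BP_*(S⁰)`; so
`S⁰` is *not* a Smith--Toda complex `V(n)`, `n ≥ 0`, with respect to this class. -/
theorem smul_toBPH_eps_eq_zero_iff (r : V p) : r • toBPH ρ (cls eps) = 0 ↔ r = 0 := by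
  constructor
  · intro h
    have := congrArg (augment ρ) h
    simpa [augment_toBPH, ρ.map_one] using this
  · rintro rfl; simp

/-- `ℝ × ℝ = ℂ = ℂ¹` -/
def iotaMap (z : ℝ × ℝ) : (Fin 1 → ℂ) × Unit := (fun _ => ⟨z.1, z.2⟩, ())

lemma isClosedEmbedding_iotaMap : IsClosedEmbedding iotaMap :=
  Function.LeftInverse.isClosedEmbedding
    (f := fun q : (Fin 1 → ℂ) × Unit => ((q.1 0).re, (q.1 0).im))
    (fun _ => rfl) (by fun_prop)
    ((continuous_pi fun _ => Complex.equivRealProdCLM.symm.continuous).prodMk continuous_const)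

/-- The fundamental class `S² = I²/∂ → (ℂ¹)⁺ ∧ S⁰`. -/
def iota₁ : Ω^ (Fin 2) (OnePoint ((Fin 1 → ℂ) × Unit)) ∞ :=
  ⟨⟨fun t => smashMap iotaMap (tau (t 0), tau (t 1)),
      (continuous_smashMap_of_isClosedEmbedding isClosedEmbedding_iotaMap).comp
        ((continuous_tau.comp (continuous_apply 0)).prodMk
          (continuous_tau.comp (continuous_apply 1)))⟩,
    fun t ht => by
      show smashMap iotaMap (tau (t 0), tau (t 1)) = ∞
      obtain ⟨i, hi⟩ := ht
      fin_cases i <;> rcases hi with hi | hi <;> simp at hi <;> simp [hi, tau_zero, tau_one]⟩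

/-- `ε` is the Hurewicz image of the fundamental class. -/
theorem hurewicz_iota₁ : hurewicz iota₁ = eps := by
  ext t
  show OnePoint.map (Prod.map (unitE 1) id) (smashMap iotaMap (tau (t 0), tau (t 1))) =
    smashMap epsMap (tau (t 0), tau (t 1))
  generalize tau (t 0) = x
  generalize tau (t 1) = y
  induction x using OnePoint.rec <;> induction y using OnePoint.rec <;> (simp; try rfl)

/-! ## Non-examples -/

theorem natCast_Zloc_ne_zero (p : ℕ) (hp : p.Prime) : (p : Zloc p) ≠ 0 := by
  have hle : primeTo p ≤ nonZeroDivisors ℤ := by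
    intro m hm
    have hm' : IsCoprime m (p : ℤ) := hm
    rw [mem_nonZeroDivisors_iff_ne_zero]
    rintro rfl
    have h1 : IsUnit (p : ℤ) := isCoprime_zero_left.1 hm'
    have h2 : p = 1 := by
      have := Int.isUnit_iff.1 h1
      omega
    exact hp.one_lt.ne' h2
  have hinj := IsLocalization.injective (Zloc p) hle
  intro h
  have h3 : algebraMap ℤ (Zloc p) (p : ℤ) = algebraMap ℤ (Zloc p) 0 := by
    rw [map_zero, map_natCast, h]
  have := hinj h3
  exact hp.ne_zero (by exact_mod_cast this)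

/-- **Non-example.**  The sphere `S⁰` with its fundamental class is not a Smith--Toda complex:
`p` does not annihilate the generator of `BP_*(S⁰)`. -/
theorem sphere_not_smithToda (hp : p.Prime) (n : ℕ) :
    ¬ ∀ r : V p, r • toBPH ρ (cls (hurewicz iota₁)) = 0 ↔ r ∈ smithTodaIdeal p n := by
  intro h
  have h1 : (MvPolynomial.C (p : Zloc p) : V p) ∈ smithTodaIdeal p n :=
    Ideal.subset_span (Or.inl rfl)
  have h2 := (h _).2 h1
  rw [hurewicz_iota₁, smul_toBPH_eps_eq_zero_iff] at h2
  exact natCast_Zloc_ne_zero p hp (MvPolynomial.C_eq_zero.1 h2)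

/-- For `U = ∅`, i.e. `K` a point, everything vanishes. -/
instance instSubsingletonMUH [IsEmpty U] : Subsingleton (MUH U) := by
  have h1 : ∀ i, Subsingleton (Stage U i) := by
    intro i
    have h0 : Subsingleton (OnePoint (E (i.2 + 1) × U)) := by
      constructor
      intro a b
      induction a using OnePoint.rec with
      | infty =>
        induction b using OnePoint.rec with
        | infty => rfl
        | coe b => exact isEmptyElim b.2
      | coe a => exact isEmptyElim a.2
    have h2 : Subsingleton (Ω^ (Fin (i.1 + 2)) (OnePoint (E (i.2 + 1) × U)) ∞) :=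
      ⟨fun f g => GenLoop.ext f g fun y => Subsingleton.elim _ _⟩
    exact inferInstanceAs (Subsingleton (Quotient _))
  have h3 : Subsingleton (⨁ i, Stage U i) :=
    ⟨fun x y => DFinsupp.ext fun i => Subsingleton.elim _ _⟩
  constructor
  intro x y
  obtain ⟨x, rfl⟩ := QuotientAddGroup.mk'_surjective (stabRel U) x
  obtain ⟨y, rfl⟩ := QuotientAddGroup.mk'_surjective (stabRel U) y
  rw [Subsingleton.elim x y]

/-- **Non-example.**  A point is not a Smith--Toda complex: `1` annihilates everything, but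
`1 ∉ (p, v₁, …, v_n)` (see `one_not_mem` in `CompactSanityAlgebra.lean`). -/
theorem point_annihilated [IsEmpty U] (x : MUH U) : (1 : V p) • toBPH ρ x = 0 := by
  rw [one_smul, Subsingleton.elim x 0]
  unfold toBPH
  rw [TensorProduct.tmul_zero]
  rfl

end

end Claimed.Open.R308.Compact
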