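import Claimed.Open.R308.Compact

/-!
# Sanity checks: `tau` identifies `I/∂I` with `ℝ ∪ {∞}`
-/

namespace Claimed.Open.R308.Compact

open Filter Topology OnePoint Set
open scoped unitInterval

noncomputable section

theorem tau_eq_infty_iff (t : I) : tau t = ∞ ↔ t = 0 ∨ t = 1 := by
  unfold tau
  split_ifs with h
  · simp only [true_iff]
    rcases mul_eq_zero.1 h with h | h
    · left; exact Subtype.ext h
    · right; apply Subtype.ext; show (t : ℝ) = 1; linarith
  · simp only [OnePoint.coe_ne_infty, false_iff]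
    rintro (rfl | rfl) <;> simp at h

/-- The explicit inverse of `tau` on `ℝ`: `tau t = x ↔ t = 2 / (2 - x + √(x² + 4))`. -/
theorem tau_eq_coe_iff (t : I) (x : ℝ) :
    tau t = (x : OnePoint ℝ) ↔ (t : ℝ) = 2 / (2 - x + √(x ^ 2 + 4)) := by
  set s := √(x ^ 2 + 4) with hs
  have hs2 : s ^ 2 = x ^ 2 + 4 := Real.sq_sqrt (by positivity)
  have hs0 : 0 ≤ s := Real.sqrt_nonneg _
  have hsx : x < s := by
    by_contra h
    push Not at h
    nlinarith
  have hD : 0 < 2 - x + s := by linarith
  have ht0 := t.2.1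
  have ht1 := t.2.2
  unfold tau
  split_ifs with h
  · simp only [OnePoint.infty_ne_coe, false_iff]
    intro ht
    rcases mul_eq_zero.1 h with h | h
    · rw [h] at ht
      have : (2 : ℝ) / (2 - x + s) > 0 := by positivity
      linarith
    · have h1 : (t : ℝ) = 1 := by linarith
      rw [h1, eq_div_iff hD.ne'] at ht
      linarith
  · rw [OnePoint.coe_eq_coe, div_eq_iff h, eq_div_iff hD.ne']
    have hpos : 0 < (t : ℝ) * (1 - t) := lt_of_le_of_ne (mul_nonneg ht0 (by linarith)) (Ne.symm h)
    have ht0' : 0 < (t : ℝ) := by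
      rcases ht0.eq_or_lt with h0 | h0
      · rw [← h0] at hpos; simp at hpos
      · exact h0
    have ht1' : (t : ℝ) < 1 := by
      rcases ht1.eq_or_lt with h0 | h0
      · rw [h0] at hpos; simp at hpos
      · exact h0
    constructor
    · intro hq
      -- `w = 2 - 2t + x t` is positive and `w² = (t s)²`
      have hw : 0 < (2 - 2 * (t : ℝ) + x * t) * (1 - t) := by nlinarith
      have hw' : 0 < 2 - 2 * (t : ℝ) + x * t := by
        by_contra hneg
        push Not at hneg
        nlinarith
      have hsq : (2 - 2 * (t : ℝ) + x * t) ^ 2 = (t * s) ^ 2 := by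
        rw [mul_pow, hs2]
        nlinarith
      have : 2 - 2 * (t : ℝ) + x * t = t * s :=
        (sq_eq_sq₀ hw'.le (mul_nonneg ht0 hs0)).1 hsq
      linarith
    · intro hq
      have h1 : (t : ℝ) * s = 2 - 2 * t + x * t := by linarith
      have h2 : ((t : ℝ) * s) ^ 2 = (2 - 2 * t + x * t) ^ 2 := by rw [h1]
      rw [mul_pow, hs2] at h2
      nlinarith

/-- `tau` restricts to a bijection from the interior of `I` onto `ℝ`. -/
theorem existsUnique_tau_eq (x : ℝ) : ∃! t : I, tau t = (x : OnePoint ℝ) := by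
  have hs0 : 0 ≤ √(x ^ 2 + 4) := Real.sqrt_nonneg _
  have hs2 : √(x ^ 2 + 4) ^ 2 = x ^ 2 + 4 := Real.sq_sqrt (by positivity)
  have hsx : x < √(x ^ 2 + 4) := by
    by_contra h
    push Not at h
    nlinarith
  have hD : 0 < 2 - x + √(x ^ 2 + 4) := by linarith
  refine ⟨⟨2 / (2 - x + √(x ^ 2 + 4)), by positivity, ?_⟩, ?_, ?_⟩
  · rw [div_le_one hD]; linarith
  · exact (tau_eq_coe_iff _ x).2 rfl
  · intro t ht
    exact Subtype.ext ((tau_eq_coe_iff t x).1 ht)

/-- `tau` is onto: so it induces a continuous bijection, hence a homeomorphism, from the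
compact space `I/∂I` to the Hausdorff space `ℝ ∪ {∞}`. -/
theorem tau_surjective : Function.Surjective tau := by
  intro z
  induction z using OnePoint.rec with
  | infty => exact ⟨0, tau_zero⟩
  | coe x => exact (existsUnique_tau_eq x).exists

theorem isQuotientMap_tau : IsQuotientMap tau :=
  continuous_tau.isClosedMap.isQuotientMap continuous_tau tau_surjective

/-- `tau` is increasing on the interior. -/
theorem tau_lt_tau {t t' : I} (h0 : 0 < t) (h : t < t') (h1 : t' < 1) {x x' : ℝ}
    (hx : tau t = (x : OnePoint ℝ)) (hx' : tau t' = (x' : OnePoint ℝ)) : x < x' := by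
  have a0 : (0 : ℝ) < t := h0
  have a1 : (t : ℝ) < t' := h
  have a2 : (t' : ℝ) < 1 := h1
  have e : (t : ℝ) * (1 - t) ≠ 0 := (mul_pos a0 (by linarith)).ne'
  have e' : (t' : ℝ) * (1 - t') ≠ 0 := (mul_pos (by linarith) (by linarith)).ne'
  unfold tau at hx hx'
  rw [if_neg e, OnePoint.coe_eq_coe] at hx
  rw [if_neg e', OnePoint.coe_eq_coe] at hx'
  rw [← hx, ← hx', div_lt_div_iff₀ (mul_pos a0 (by linarith)) (mul_pos (by linarith) (by linarith))]
  have b0 : 0 < (t' : ℝ) - t := by linarith
  have b1 : 0 < (t : ℝ) * t' := mul_pos a0 (by linarith)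
  have b2 : 0 < (1 - (t : ℝ)) * (1 - t') := mul_pos (by linarith) (by linarith)
  nlinarith [mul_pos b0 b1, mul_pos b0 b2]

end

end Claimed.Open.R308.Compact
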