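import Claimed.Open.R308.Compact

/-!
# Sanity checks: the Grassmannian is compact, the unit maps are multiplicative
-/

namespace Claimed.Open.R308.Compact

open Filter Topology OnePoint Set Matrix
open scoped unitInterval ComplexConjugate

noncomputable section

/-- The entries of an orthogonal projection have absolute value at most `1`. -/
theorem norm_entry_le_one {ι : Type*} [Fintype ι] (P : Matrix ι ι ℂ) (h1 : P * P = P) (h2 : Pᴴ = P)
    (i j : ι) : ‖P i j‖ ≤ 1 := by
  have hconj : ∀ k, P k i = conj (P i k) := by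
    intro k
    have := congrFun (congrFun h2 k) i
    simpa [Matrix.conjTranspose_apply] using this.symm
  have hsum : P i i = ((∑ k, ‖P i k‖ ^ 2 : ℝ) : ℂ) := by
    have := congrFun (congrFun h1 i) i
    rw [Matrix.mul_apply] at this
    rw [← this]
    push_cast
    refine Finset.sum_congr rfl fun k _ => ?_
    rw [hconj k, Complex.mul_conj, Complex.normSq_eq_norm_sq]
    push_cast
    rfl
  set a : ℝ := ∑ k, ‖P i k‖ ^ 2 with ha
  have ha0 : 0 ≤ a := Finset.sum_nonneg fun k _ => by positivity
  have hterm : ∀ k, ‖P i k‖ ^ 2 ≤ a := fun k =>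
    Finset.single_le_sum (f := fun k => ‖P i k‖ ^ 2) (fun k _ => by positivity) (Finset.mem_univ k)
  have hii : ‖P i i‖ = a := by rw [hsum, Complex.norm_real, Real.norm_of_nonneg ha0]
  have ha1 : a ≤ 1 := by
    have := hterm i
    rw [hii] at this
    nlinarith
  have := hterm j
  have h0 : 0 ≤ ‖P i j‖ := norm_nonneg _
  nlinarith

/-- The Grassmannian `Gr_n(ℂⁿ ⊕ ℂⁿ)`, as a space of projection matrices, is compact.  So the Thom
space of the tautological bundle is the one-point compactification of its total space `E n`. -/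
theorem isCompact_grassmannian (n : ℕ) :
    IsCompact {P : Matrix (Idx n) (Idx n) ℂ | P * P = P ∧ Pᴴ = P ∧ P.trace = n} := by
  have hK : IsCompact (Set.pi univ fun _ : Idx n => Set.pi univ fun _ : Idx n =>
      Metric.closedBall (0 : ℂ) 1) :=
    isCompact_univ_pi fun _ => isCompact_univ_pi fun _ => isCompact_closedBall _ _
  refine hK.of_isClosed_subset ?_ ?_
  · have c1 : IsClosed {P : Matrix (Idx n) (Idx n) ℂ | P * P = P} :=
      isClosed_eq (continuous_id.matrix_mul continuous_id) continuous_id
    have c2 : IsClosed {P : Matrix (Idx n) (Idx n) ℂ | Pᴴ = P} :=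
      isClosed_eq continuous_id.matrix_conjTranspose continuous_id
    have c3 : IsClosed {P : Matrix (Idx n) (Idx n) ℂ | P.trace = n} :=
      isClosed_eq continuous_id.matrix_trace continuous_const
    exact c1.inter (c2.inter c3)
  · rintro P ⟨h1, h2, -⟩ i - j -
    simpa using norm_entry_le_one P h1 h2 i j

/-- The bundle projection `E n → Gr_n(ℂⁿ ⊕ ℂⁿ)`, the zero section, and the vector space structure of
the fibres: `E n` is closed under fibrewise linear combinations. -/
theorem isTaut_linear (n : ℕ) (P : Matrix (Idx n) (Idx n) ℂ) (x y : Idx n → ℂ) (a b : ℂ)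
    (hx : IsTaut n (P, x)) (hy : IsTaut n (P, y)) : IsTaut n (P, a • x + b • y) := by
  refine ⟨hx.1, hx.2.1, hx.2.2.1, ?_⟩
  have h1 : P *ᵥ x = x := hx.2.2.2
  have h2 : P *ᵥ y = y := hy.2.2.2
  show P *ᵥ (a • x + b • y) = a • x + b • y
  rw [Matrix.mulVec_add, Matrix.mulVec_smul, Matrix.mulVec_smul, h1, h2]

/-- The unit maps are multiplicative: `unit(v) ⊕ unit(w) = unit(v, w)`. -/
theorem eSum_unitE {n m l : ℕ} (h : n + m = l) (v : Fin n → ℂ) (w : Fin m → ℂ) :
    eSum h (unitE n v, unitE m w) = unitE l fun i => Fin.append v w (Fin.cast h.symm i) := by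
  subst h
  apply Subtype.ext
  apply Prod.ext
  · ext i j
    obtain ⟨i, rfl⟩ := (idxSum (rfl : n + m = n + m)).surjective i
    obtain ⟨j, rfl⟩ := (idxSum (rfl : n + m = n + m)).surjective j
    simp only [eSum, ambSum, unitE, Matrix.reindex_apply, Matrix.submatrix_apply,
      Equiv.symm_apply_apply]
    rcases i with (i | i) | (i | i) <;> rcases j with (j | j) | (j | j) <;>
      simp [idxSum, baseProj, Matrix.one_apply, Fin.ext_iff] <;> omega
  · ext i
    obtain ⟨i, rfl⟩ := (idxSum (rfl : n + m = n + m)).surjective i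
    simp only [eSum, ambSum, unitE, Function.comp_apply, Equiv.symm_apply_apply]
    rcases i with (i | i) | (i | i) <;> simp [idxSum]

end

end Claimed.Open.R308.Compact
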