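import Claimed.Open.R308.CompactSanitySpaces
import Claimed.Open.R308.CompactSanityThom
import Claimed.Open.R308.CompactSanityTau
import Claimed.Open.R308.CompactSanityHomotopy
import Claimed.Open.R308.CompactSanityAlgebra
import Claimed.Open.R308.CompactSanityModule

/-!
# Sanity checks for `Claimed.Open.R308.Compact`: overview

All facts below are proved (no `sorry`) in the files imported here; this file restates the main ones.

`CompactStatement` has no hypotheses.  The only universally quantified object is `ρ : Genus p`, and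
`Nonempty (Genus p)` is a *conjunct* of `IsSmithToda p n`; so the quantifier cannot make the statement
vacuous.  The existentially quantified data range over types that are inhabited
(finite CW complexes: `CompactSanitySpaces`; cube maps: `GenLoop.const`, `eps`, `iota₁`).
-/

namespace Claimed.Open.R308.Compact

open Filter Topology OnePoint Set Matrix
open scoped unitInterval Topology.Homotopy TensorProduct DirectSum

/-- Spaces: a finite CW complex `K` is compact, and `K = (K ∖ {k₀})⁺` as a pointed space. -/
example (K : Type) [TopologicalSpace K] [T2Space K] [Topology.CWComplex (Set.univ : Set K)]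
    [Topology.CWComplex.Finite (Set.univ : Set K)] (k₀ : K) :
    ∃ e : OnePoint {x : K // x ≠ k₀} ≃ₜ K, e ∞ = k₀ ∧ ∀ x : {x : K // x ≠ k₀}, e x = x.1 :=
  haveI := compactSpace_of_finite_cw K
  ⟨onePointComplEquiv K k₀, rfl, fun _ => rfl⟩

/-- Smash products: `A⁺ × B⁺ → (A × B)⁺` is a quotient map which collapses exactly the wedge. -/
example (A B : Type) [TopologicalSpace A] [TopologicalSpace B] [T2Space A] [T2Space B]
    [LocallyCompactSpace A] [LocallyCompactSpace B] :
    IsQuotientMap (smashMap (id : A × B → A × B)) ∧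
      (∀ q, smashMap (id : A × B → A × B) q = ∞ ↔ q.1 = ∞ ∨ q.2 = ∞) ∧
      Set.InjOn (smashMap (id : A × B → A × B)) {q | q.1 ≠ ∞ ∧ q.2 ≠ ∞} :=
  ⟨isQuotientMap_smashMap_id, smashMap_id_eq_infty_iff, smashMap_id_injOn⟩

/-- Thom spaces: the base of the tautological bundle is compact and `E n` is locally compact. -/
example (n : ℕ) :
    IsCompact {P : Matrix (Idx n) (Idx n) ℂ | P * P = P ∧ Pᴴ = P ∧ P.trace = n} ∧
      LocallyCompactSpace (E n) :=
  ⟨isCompact_grassmannian n, inferInstance⟩

/-- The circle: `tau : I → ℝ ∪ {∞}` is a quotient map, sends exactly the end points to `∞` and is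
bijective from the interior onto `ℝ`. -/
example : IsQuotientMap tau ∧ (∀ t, tau t = ∞ ↔ t = 0 ∨ t = 1) ∧
    ∀ x : ℝ, ∃! t : I, tau t = (x : OnePoint ℝ) :=
  ⟨isQuotientMap_tau, tau_eq_infty_iff, existsUnique_tau_eq⟩

/-- Homotopy groups: stabilisation is a homomorphism on homotopy groups and `MUH U` is generated
by the classes `cls f`, with `cls (ε ⋆ f) = cls f`. -/
example (U : Type) [TopologicalSpace U] [T2Space U] :
    (∀ (d n : ℕ) (g : Rep U (d + 2) (n + 1)),
      stabHom (d, n) (Additive.ofMul (hcls g)) = Additive.ofMul (hcls g.stab)) ∧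
    (∀ (d n : ℕ) (f : Rep U d n), cls f.stab = cls f) ∧
    AddSubgroup.closure {x : MUH U | ∃ (d n : ℕ) (f : Rep U d n), x = cls f} = ⊤ :=
  ⟨fun _ _ g => stabHom_mk g, fun _ _ f => cls_stab f, MUH.closure_range_cls⟩

/-- Algebra: `p, v₁, …, v_n` lie in the ideal, `1, v_{n+1}, v_{n+2}, …` do not. -/
example (p n : ℕ) (hp : p.Prime) :
    MvPolynomial.C (p : Zloc p) ∈ smithTodaIdeal p n ∧
    (∀ i < n, (MvPolynomial.X i : V p) ∈ smithTodaIdeal p n) ∧
    (∀ i, n ≤ i → (MvPolynomial.X i : V p) ∉ smithTodaIdeal p n) ∧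
    (1 : V p) ∉ smithTodaIdeal p n :=
  ⟨C_p_mem p n, fun i hi => X_mem p n i hi, fun i hi => X_not_mem p n i hp hi, one_not_mem p n hp⟩

/-- Non-example: the sphere with its fundamental class. -/
example (p n : ℕ) (hp : p.Prime) (ρ : Genus p) :
    ¬ ∀ r : V p, r • toBPH ρ (cls (hurewicz iota₁)) = 0 ↔ r ∈ smithTodaIdeal p n :=
  sphere_not_smithToda ρ hp n

end Claimed.Open.R308.Compact
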