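import Claimed.Open.R308.Compact

/-!
# Sanity checks: finite CW complexes are `U⁺`; `(A × B)⁺ = A⁺ ∧ B⁺`; the spaces `MU(n) ∧ K`
-/

namespace Claimed.Open.R308.Compact

open Filter Topology OnePoint Set Matrix
open scoped unitInterval Topology.Homotopy TensorProduct DirectSum

noncomputable section

/-! ## Finite CW complexes are `U⁺` -/

/-- A finite CW complex (in Mathlib's sense) is compact. -/
theorem compactSpace_of_finite_cw (K : Type) [TopologicalSpace K] [T2Space K]
    [Topology.CWComplex (Set.univ : Set K)] [Topology.CWComplex.Finite (Set.univ : Set K)] :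
    CompactSpace K := by
  constructor
  have hfin : Finite (Σ n, Topology.RelCWComplex.cell (Set.univ : Set K) n) :=
    Topology.RelCWComplex.finite_cells_of_finite
  have hU : (Set.univ : Set K) =
      ⋃ (x : Σ n, Topology.RelCWComplex.cell (Set.univ : Set K) n),
        Topology.RelCWComplex.closedCell x.1 x.2 := by
    have h := Topology.RelCWComplex.union (C := (Set.univ : Set K)) (D := ∅)
    rw [empty_union] at h
    refine h.symm.trans ?_
    ext y
    simp only [mem_iUnion, Sigma.exists]
  rw [hU]
  exact isCompact_iUnion fun x => Topology.RelCWComplex.isCompact_closedCell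

/-- For a compact Hausdorff space `K` with base point `k₀` (for instance a finite CW complex), the
pointed space `K` is the one-point compactification of `U = K ∖ {k₀}`, with `∞ ↦ k₀`. -/
def onePointComplEquiv (K : Type) [TopologicalSpace K] [T2Space K] [CompactSpace K] (k₀ : K) :
    OnePoint {x : K // x ≠ k₀} ≃ₜ K :=
  OnePoint.equivOfIsEmbeddingOfRangeEq k₀ Subtype.val IsEmbedding.subtypeVal (by
    ext x; simp)

theorem onePointComplEquiv_infty (K : Type) [TopologicalSpace K] [T2Space K] [CompactSpace K]
    (k₀ : K) : onePointComplEquiv K k₀ ∞ = k₀ := rfl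

theorem onePointComplEquiv_coe (K : Type) [TopologicalSpace K] [T2Space K] [CompactSpace K]
    (k₀ : K) (x : {x : K // x ≠ k₀}) : onePointComplEquiv K k₀ x = x.1 := rfl

/-- The hypotheses on `K` in `IsSmithToda` can be met: `S⁰ = Bool` is a finite CW complex. -/
example : ∃ (K : Type) (_ : TopologicalSpace K) (_ : T2Space K)
    (_ : Topology.CWComplex (Set.univ : Set K))
    (_ : Topology.CWComplex.Finite (Set.univ : Set K)), Nonempty K := by
  refine ⟨Bool, inferInstance, inferInstance, inferInstance, ?_, ⟨true⟩⟩
  refine @Topology.RelCWComplex.Finite.mk _ _ _ _ _ ⟨?_⟩ ⟨?_⟩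
  · refine Filter.eventually_atTop.2 ⟨1, fun n hn => ?_⟩
    obtain ⟨k, rfl⟩ : ∃ k, n = k + 1 := ⟨n - 1, by omega⟩
    exact inferInstanceAs (IsEmpty PEmpty)
  · intro n
    cases n with
    | zero => exact inferInstanceAs (Finite (Set.univ : Set Bool))
    | succ k => exact inferInstanceAs (Finite PEmpty)

/-! ## The spaces `E n`, `MU(n) = OnePoint (E n)` and smash products -/

/-- `E 0` is a point, so `MU(0) = S⁰`. -/
instance instUniqueE0 : Unique (E 0) where
  default := unitE 0 0
  uniq q := by
    apply Subtype.ext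
    apply Prod.ext
    · ext i j; exact i.elim (fun a => a.elim0) (fun a => a.elim0)
    · ext i; exact i.elim (fun a => a.elim0) (fun a => a.elim0)

instance instLocallyCompactSpaceE (n : ℕ) : LocallyCompactSpace (E n) :=
  haveI : LocallyCompactSpace (Amb n) :=
    inferInstanceAs (LocallyCompactSpace ((Idx n → Idx n → ℂ) × (Idx n → ℂ)))
  (isClosedEmbedding_val n).locallyCompactSpace

/-- `K ∖ {k₀}` is locally compact. -/
instance instLocallyCompactSpaceCompl (K : Type) [TopologicalSpace K] [T2Space K] [CompactSpace K]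
    (k₀ : K) : LocallyCompactSpace {x : K // x ≠ k₀} :=
  (isOpen_ne (x := k₀)).locallyCompactSpace

/-- `MU(n) ∧ K = OnePoint (E n × (K ∖ {k₀}))` is a compact Hausdorff space. -/
example (K : Type) [TopologicalSpace K] [T2Space K] [CompactSpace K] (k₀ : K) (n : ℕ) :
    CompactSpace (OnePoint (E n × {x : K // x ≠ k₀})) ∧
      T2Space (OnePoint (E n × {x : K // x ≠ k₀})) :=
  ⟨inferInstance, inferInstance⟩

section SmashCheck

variable {A B : Type*}

/-- `A⁺ × B⁺ → (A × B)⁺` collapses exactly the wedge `A⁺ ∨ B⁺` to the base point … -/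
theorem smashMap_id_eq_infty_iff (q : OnePoint A × OnePoint B) :
    smashMap (id : A × B → A × B) q = ∞ ↔ q.1 = ∞ ∨ q.2 = ∞ := by
  obtain ⟨x, y⟩ := q
  induction x using OnePoint.rec <;> induction y using OnePoint.rec <;> simp

/-- … is injective away from the wedge … -/
theorem smashMap_id_injOn :
    Set.InjOn (smashMap (id : A × B → A × B)) {q | q.1 ≠ ∞ ∧ q.2 ≠ ∞} := by
  rintro ⟨x, y⟩ ⟨hx, hy⟩ ⟨x', y'⟩ ⟨hx', hy'⟩ h
  induction x using OnePoint.rec <;> induction y using OnePoint.rec <;>
    induction x' using OnePoint.rec <;> induction y' using OnePoint.rec <;> simp_all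

/-- … and is a quotient map.  Hence `(A × B)⁺` is the smash product `A⁺ ∧ B⁺` for locally compact
Hausdorff spaces `A` and `B`. -/
theorem isQuotientMap_smashMap_id [TopologicalSpace A] [TopologicalSpace B] [T2Space A] [T2Space B]
    [LocallyCompactSpace A] [LocallyCompactSpace B] :
    IsQuotientMap (smashMap (id : A × B → A × B)) := by
  have hc : Continuous (smashMap (id : A × B → A × B)) :=
    continuous_smashMap_of_isClosedEmbedding IsClosedEmbedding.id
  refine hc.isClosedMap.isQuotientMap hc ?_
  intro z
  induction z using OnePoint.rec with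
  | infty => exact ⟨(∞, ∞), rfl⟩
  | coe z => exact ⟨((z.1 : OnePoint A), (z.2 : OnePoint B)), rfl⟩

end SmashCheck

end

end Claimed.Open.R308.Compact
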