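import Claimed.Open.R308.Statement

/-!
# Result 308: checked examples and non-examples for the definitions of `Statement.lean`

* A: the presentation of `π⋆` has the universal property of the colimit of the homotopy groups, and
  `π⋆` is the internal direct sum of its homogeneous parts `π_k`;
* B: stable equivalences are inverted in `SHC`, and `π⋆` descends to `SHC`;
* C: the trivial spectrum has `MU_⋆ = BP_⋆ = 0`;
* D: `ℤ_(p)`, the ideal `(p, v₁, …, v_n)` is proper, the first coefficients of Hazewinkel's
  logarithm, `log F(x, y) = log x + log y`; the trivial spectrum is **not** a Smith–Toda complex;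
* E: the sphere spectrum is a finite CW spectrum, `S⁰` is well pointed, the trivial spectrum is a
  finite `p`-local spectrum;
* F: the points of `MU(n)` are the pairs (plane, vector in it) and a base point; `MU(0) = S⁰`.

Further checked examples and non-examples, in files that build on this one (`CLAIM.md` has the table):
`SanityTeeth.lean` (G, H: the ideals, at most one height, the tensor relations, primitive generator),
`SanityFGL.lean` (Hazewinkel's law is a Mathlib `FormalGroup`, low coefficients),
`SanityWellPointed.lean` (`not_wellPointed_convSeq`: a degenerate base point),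
`SanityThomPointed.lean` (`wellPointed_MU`: every `MU(n)` is well pointed),
`SanityJoint.lean` (I–M: `Ptd.WellPointed.susp`, `exists_wellPointed_finitePLocal_not_smithToda`,
`hurewicz_mem_coactionGraph`, `isSmithTodaHomology_of_hurewicz_generator`, `muMul_one`, `actX_one`),
`SanityNonzero.lean`, `SanityDegree.lean`, `SanitySphere.lean` (N–P: `nontrivial_piStar_sphereSpectrum`, that is
`1 ≠ 0` in `π_0` of the sphere spectrum, `sphereSpectrum_not_iso_pointSpectrum`,
`not_stableEquivalences_toPointSpectrum`, `not_isPLocalization_point_sphere`),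
`SanityDegCore.lean`, `SanityDegree2.lean` (Q: `injective_zsmul_cls_unitRep`, that is `ℤ ↪ π_0` of the sphere spectrum,
`nsmul_ne_cls_unitRep`, `not_isPLocalization_to_sphere`, `not_isFinitePLocal_sphereSpectrum`: the sphere spectrum is not `p`-local).

## Index of the further checked files

They import this file, so it cannot import them; `SanityAll.lean` imports them all (one build target for every check of the folder).
One line per file: its headline theorem and what that shows.

* `SanityTeeth.lean`: `IsSmithTodaHomology.height_unique`: a spectrum is a Smith–Toda complex for at most one height `n`.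
* `SanityFGL.lean`: `hazFormalGroup`: Hazewinkel's law is a commutative Mathlib `FormalGroup`; its low coefficients.
* `SanityHazStep.lean` (on `SanityHazDefs`, `SanityHazJ`, `SanityHazLog`, `SanityHazRec`, `SanityHazFrob`, `SanityHazPhi`, `SanityHazAlg.lean`):
  `hazCoeff_integral`: every coefficient of Hazewinkel's law lies in `BP_⋆ = ℤ_(p)[v₁, v₂, …]` (functional equation lemma).
* `SanityHazTop.lean`: `IsFGLFamily.exists_isImageOfCoeff`: every coefficient `a_ij` of an `IsFGLFamily` has an image in `BP_⋆`.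
* `SanityHazHomog.lean`: `hazCoeff_isWeightedHomogeneous`, `BPHomology.relation_homogeneous`: `|θ(a_ij)| = 2 (i + j - 1)`; the tensor relations of `BP_⋆X` are homogeneous.
* `SanityHazGroup.lean`: `hazFormalGroupInt`: Hazewinkel's law is a commutative Mathlib `FormalGroup` over `BP_⋆` itself.
* `SanityHazPTop.lean` (on `SanityHazPDefs`, `SanityHazPLog`, `SanityHazPOrd`, `SanityHazPStep.lean`): `hazPSeries_height`, `hazPSeries_height_exact`:
  `[p]_F(x) ≡ v_{n+1} x^{p^{n+1}}` modulo `(p, v₁, …, v_n)` and higher terms: modulo the ideal of the statement the law has height exactly `n + 1`.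
* `SanityHazPSpan.lean`: `span_coeff_hazPSeries_eq_smithTodaIdeal`: `(p, v₁, …, v_n)` is the ideal generated by the coefficients of `[p]_F(x)` below `x^{p^{n+1}}`.
* `SanityHazInvTop.lean` (on `SanityHazInvDefs`, `SanityHazInvN`, `SanityHazInvC`, `SanityHazInvH.lean`), `SanityHazInvEx.lean`: `smithTodaIdeal_map_eq_of_isFGHom`, `isFGHom_scale`:
  the ideals `(p, v₁, …, v_n)` are invariant under isomorphisms of formal group laws (the algebra behind deviation 10); a family of examples of the hypotheses.
* `SanityHazInvEx2.lean`: `exists_scaleHom_ne_id`: for `u = 1 + p` the example `isFGHom_scale` has `α ≠ β`.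
* `SanityHazPrime.lean` (on `SanityHazPrimeZ.lean`): `smithTodaIdeal_isPrime`, `vGen_succ_mul_mem_smithTodaIdeal_iff`: the ideals are prime; `p, v₁, v₂, …` is a regular sequence.
* `SanityHazQuotDeg.lean`: `isInternal_quotDeg`, `mem_quotDeg_zero_iff`, `quotDeg_eq_bot_of_lt`: `quotDeg` is a grading of `BP_⋆/(p, v₁, …, v_n)`; degree `0` is `ℤ/p · 1`; nothing in degrees `< 0` and `0 < k < |v_{n+1}|`.
* `SanityHazGen.lean`: `hazCoeffAlg_eq_top`, `IsFGLFamily.adjoin_isImageOfCoeff_eq_top`: the images `θ(a_ij)` of the coefficients of the formal group law of `MU` generate `BP_⋆` as an algebra over `ℤ_(p)`: `θ ⊗ ℤ_(p)` is onto.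
* `SanityHazGenX.lean`: `BPHomology.muImage_eq_top`: `BP_⋆X` is generated by the `λ ⊗ x`, `λ ∈ ℤ_(p)`, `x ∈ MU_⋆X`: the tensor relations for the `a_ij` alone move every `v ∈ BP_⋆` to the right.
* `SanityHazGenCo.lean`: `CoExt.closure_C_smul_tensorHom_eq_top`, `CoExt.mk_C_smul`: the target `BP_⋆BP ⊗_{BP_⋆} BP_⋆X` of the coaction is generated by the `ℤ_(p)`-multiples of the values of `tensorHom`; `⊗_ℤ` is balanced over `ℤ_(p)`.
* `SanityHazQuotRing.lean`: `quotRingEquivZMod`, `quotRingEquivZMod_mk_vGen`, `zlocQuotEquiv`: `BP_⋆/(p, v₁, …, v_n) ≅ 𝔽_p[v_{n+1}, v_{n+2}, …]` as rings; `ℤ_(p)/p = 𝔽_p`.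
* `SanityWellPointed.lean`: `not_wellPointed_convSeq`: the limit point of a convergent sequence is a degenerate base point.
* `SanityThomPointed.lean`: `wellPointed_MU`: every Thom space `MU(n)` of the statement is well pointed.
* `SanityJoint.lean`: `exists_wellPointed_finitePLocal_not_smithToda`: one spectrum meets two clauses of `SmithTodaExists`, fails the third.
* `SanityNonzero.lean`: `cls_pointLoop_ne_zero`: a point that stays essential under stabilisation has a non-zero class in `π⋆`.
* `SanityDegree.lean`: `fundCube_not_homotopic_const`: the collapse `I^M → Σ^M S⁰` is not null homotopic (Poincaré–Miranda).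
* `SanitySphere.lean`: `nontrivial_piStar_sphereSpectrum`: `1 ≠ 0` in `π_0` of the sphere spectrum.
* `SanityDegCore.lean`: `IsCollapse.pow_ne_one`, `IsCollapse.ne_pow`: a collapse cube has infinite order, is no `ℓ`-th power.
* `SanityDegree2.lean`: `not_isFinitePLocal_sphereSpectrum`: `ℤ ↪ π_0(S)`, and the sphere spectrum is not `p`-local.
* `SanityDegree3.lean`: `nontrivial_of_isPLocalization_sphere`: every `p`-localisation of the sphere spectrum is non-trivial.
* `SanityHopfGen.lean` (on `SanityDegDefs`, `SanityDegApprox`, `SanityDegIntA`, `SanityHopfDefs`, `SanityHopfHtpy`, `SanityHopfFin`, `SanityHopfBall`, `SanityHopfGL`, `SanityHopfPath`, `SanityHopfAff`, `SanityHopfSign`,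
  `SanityHopfLin`, `SanityHopfSingle`, `SanityHopfRep`, `SanityHopfSplit`, `SanityHopfCut`, `SanityHopfSel`, `SanityHopfStep`, `SanityHopfInd`, `SanityHopfDesc`, `SanityHopfExp`, `SanityHopfNu`, `SanityHopfPres`,
  `SanityHopfReg.lean`): `Hopf.IsCollapse.generates`: Hopf's theorem: `π_n(Iⁿ/∂Iⁿ)` is generated by the class of the collapse map.
* `SanityHopf.lean`: `piDeg_zero_sphereSpectrum`, `piZeroSphereEquiv`: `π_0` of the sphere spectrum is `ℤ`, generated by `1`.
* `SanityTelLocal.lean` (on `SanityTelescope`, `SanityTelUnit`, `SanityTelAlg`, `SanityTelMap.lean`): `isPLocalization_sphereLocMap`, `isFinitePLocal_sphereLoc`,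
  `nontrivial_piStar_sphereLoc`: the `p`-local sphere spectrum (a telescope) is a **non-zero** finite `p`-local spectrum; it is not finite `q`-local for `q ≠ p`.
* `SanityTelPrime.lean`: `not_stableEquivalences_sphereLocMap`, `stableEquivalences_telMap_one`: `S ⟶ S_(p)` is no stable equivalence; `S ⟶ S.tel 1` is one, and no isomorphism.
* `SanityTelSusp.lean`: `isPLocalization_kTelMap`, `isFinitePLocal_tel_suspensionSpectrum`: `(Σ^∞ K)_(p)` for every finite CW complex `K` is finite `p`-local.
* `SanityCWSphere.lean`: `exists_finite_cw_iterSusp`: the spheres `Σ^k S⁰` of the statement are finite CW complexes in Mathlib's sense.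
* `SanityDesusp.lean`: `IsFiniteCWSpectrum.exists_isPLocalization`, `IsFinitePLocal.bijective_nsmul`: **every** finite CW spectrum has a `p`-localisation; finite `p`-local spectra are `p`-local.
* `SanityDesusp2.lean`: `map_unshEquiv_piDeg`, `IsFinitePLocal.unshSHC`, `exists_wellPointed_finitePLocal_deg_neg_one`: `π_k(Σ^{-1} W) = π_{k+1}(W)`; both classes are closed under `Σ^{-1}`; `π_{-1}(Σ^{-1} S_(p)) ≠ 0`.
* `SanityNotFinite.lean`: `not_isFiniteCWSpectrum_bigSpectrum`, `exists_wellPointed_local_not_finitePLocal`: a spectrum that is not finite; a `p`-local one that is not finite `p`-local.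
* `SanityShift.lean`: `Spectrum.shiftPiDegEquiv`, `isFiniteCWSpectrum_unsh_sphereSpectrum`: `π_k(sh^d X) ≃+ π_{k-d}(X)`: the shift is `Σ^d`; the `(-1)`-sphere is a finite CW spectrum with `π_{-1} ≠ 0`.
* `SanityConnGen.lean` (on `SanityConnDefs`, `SanityConnPres`, `SanityConnMiss.lean`): `Conn.IsCollapse.homotopic_const_of_lt`: `π_k(Iⁿ/∂Iⁿ) = 0` for `k < n`.
* `SanityConn.lean`: `piDeg_sphereSpectrum_of_neg`, `piDeg_sphereLoc_of_neg`, `exists_smul_eq_zsmul_of_mem_piDeg_zero_sphereLoc`: `π_k(S) = π_k(S_(p)) = 0` for `k < 0`; `π_0(S_(p)) = ℤ_(p) · 1`.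
* `SanityLocTensor.lean`: `isLocalization_ZLoc`, `isPLocalization_iff_tensor`: `ZLoc p` is `ℤ` localised at `primeTo p`; `f` is a `p`-localisation iff `π⋆ Z ≅ ℤ_(p) ⊗ π⋆ Y` under `π⋆ Y` (the docstring of `IsPLocalization`); `ℤ_(p) ↪ π⋆(S_(p))`.
* `SanityLocIdem.lean`: `isPLocalization_id_iff`, `IsFinitePLocal.bijective_of_isPLocalization`, `IsPLocalization.comp`: `𝟙 X` is a `p`-localisation iff `π⋆ X` is `p`-local; localising a finite `p`-local spectrum again changes nothing on `π⋆`.
* `SanityLocDeg.lean`: `exists_addEquiv_ZLoc_piDeg_zero_sphereLoc`, `exists_mem_piDeg_of_isLocalizedModule`: the localisation is graded; `π_0(S_(p)) ≃+ ℤ_(p)` as soon as `ℤ → π_0(S)` is onto.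
* `SanityGraded.lean`: `piDegSHC`, `nonempty_piDeg_addEquiv`, `isEmpty_iso_unshIter_sphereSpectrum`, `Spectrum.Hom.isLocalizedModule_piDegMap`, `exists_addEquiv_ZLoc_piDeg_zero_sphereLoc_of_hopf`: `π_k` descends to `SHC`;
  the spheres `Σ^{-m} S` are pairwise not isomorphic in `SHC`; a `p`-localisation is one in every degree; `π_0(S_(p)) ≃+ ℤ_(p)`.
* `SanityLines.lean`: `Lines.sameLines_iff_span`, `Lines.sameLines_iff_xFst_xSnd`, `Lines.sameLines_iff_xTensor`, `Lines.inner_embTensor`: the relation of section 10 is "same pair of lines"; `(x₁, x₂)` and the Segre class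
  `x_{L₁⊗L₂}` are injective on `ℂP^N × ℂP^N`; `embTensor` is the isometric tensor product.
* `SanityCoh.lean` (on `SanityLines.lean`): `Coh.invMapsEquiv`, `Coh.linesEquiv`, `Coh.deg_cohTerm_eq_iff`, `Coh.isZeroSec_xMonomial`: `InvMaps Y R A` = continuous maps out of the quotient space; the quotient by `sameLines` =
  `ℙ(ℂ^{N+1}) × ℙ(ℂ^{N+1})` of Mathlib; `IsFGLFamily` is homogeneous iff `|a_{ij}| = 2(i+j-1)`; the monomials are zero sections.
* `SanitySmashMU.lean` (on `SanityLines.lean`): `SmashMU.smashToMU2_bijective`, `SmashMU.mu2Pair_eq_pt_iff`: the space `MU2 a b` of section 8 is the smash product `(MU a).smash (MU b)` of section 4: `mu2Pair` induces a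
  continuous bijection and sends exactly the wedge to `∞`.
* `SanityFormulas.lean` (on `SanityLines.lean`): `Formulas.muBond_apply`, `Formulas.onInvMaps_apply`, `Formulas.mu2MulFst_mu2Pair`, `Formulas.deg_kunneth`: the point formulas of the doc-strings of sections 4, 6, 8-10;
  `(x ∧ y)·g = (x·g) ∧ y` resp. `x ∧ (y·g)`; degrees add under `actFst`, `actSnd`, `kunneth`, `etaRep`.
* `Compact.lean`: `Compact.CompactStatement`: an independent unfolded formulation by a second author; a cross-check, not part of `Statement`.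
* `CompactSanity.lean`: overview: restates the main facts of the six files below as examples.
* `CompactSanitySpaces.lean`: `Compact.isQuotientMap_smashMap_id`: `(A × B)⁺ = A⁺ ∧ B⁺`; finite CW complexes are compact.
* `CompactSanityThom.lean`: `Compact.isCompact_grassmannian`: the Grassmannian of projections is compact; the unit maps are multiplicative.
* `CompactSanityTau.lean`: `Compact.isQuotientMap_tau`: `tau` identifies `I/∂I` with `ℝ ∪ {∞}`.
* `CompactSanityHomotopy.lean`: `Compact.MUH.lift`, `Compact.MUH.hom_ext`: `MUH U` is the colimit of the homotopy groups along `stabHom`.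
* `CompactSanityAlgebra.lean`: `Compact.one_not_mem`, `Compact.X_not_mem`: the ideal `(p, v₁, …, v_n)` is proper and omits `v_{n+1}`.
* `CompactSanityModule.lean`: `Compact.sphere_not_smithToda`: the sphere with its fundamental class fails the annihilator clause of that formulation.
-/

set_option autoImplicit false

open scoped unitInterval Topology Topology.Homotopy TensorProduct
open CategoryTheory InnerProductSpace

noncomputable section

namespace Claimed.Open.R308

/-! ## A. The presentation of `π⋆` -/

namespace StableSystem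

variable (S : StableSystem)

theorem cls_eq_of_rel {x y : FreeAbelianGroup S.Rep} (h : S.Rel (x - y)) :
    (QuotientAddGroup.mk x : S.PiStar) = QuotientAddGroup.mk y :=
  (QuotientAddGroup.eq_iff_sub_mem).2 (AddSubgroup.subset_closure h)

/-- Homotopic cubes have the same class. -/
theorem cls_htpy {i : S.Idx} {N : ℕ} {g g' : Loops N (S.space i)} (h : GenLoop.Homotopic g g') :
    S.cls ⟨i, N, g⟩ = S.cls ⟨i, N, g'⟩ :=
  S.cls_eq_of_rel (.htpy i N g g' h)

/-- The concatenation of two cubes represents the sum: `π_N (space i) → π⋆` is additive. -/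
theorem cls_transAt {i : S.Idx} {N : ℕ} (j : Fin N) (g g' : Loops N (S.space i)) :
    S.cls ⟨i, N, GenLoop.transAt j g g'⟩ = S.cls ⟨i, N, g⟩ + S.cls ⟨i, N, g'⟩ := by
  have := S.cls_eq_of_rel (x := FreeAbelianGroup.of ⟨i, N, GenLoop.transAt j g g'⟩)
    (y := FreeAbelianGroup.of ⟨i, N, g⟩ + FreeAbelianGroup.of ⟨i, N, g'⟩)
    (by rw [← sub_sub]; exact .add i N j g g')
  exact this

/-- A cube and its stabilisation have the same class. -/
theorem cls_stab (d : S.Dir) (i : S.Idx) {N : ℕ} (g : Loops N (S.space i)) :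
    S.cls ⟨i, N, g⟩ = S.cls ⟨S.next d i, N + S.dim d, (S.bond d i).onLoops g⟩ :=
  S.cls_eq_of_rel (.stab d i N g)

/-- **Universal property of `π⋆`**: a function on cubes with values in an abelian group that is
homotopy invariant, additive for concatenation and invariant under stabilisation factors through
`π⋆`. So `π⋆ S` is the colimit (in abelian groups) of the homotopy groups of the spaces of `S`
along the stabilisation maps. -/
def piLift {G : Type} [AddCommGroup G] (F : S.Rep → G)
    (h₁ : ∀ (i : S.Idx) (N : ℕ) (g g' : Loops N (S.space i)), GenLoop.Homotopic g g' →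
      F ⟨i, N, g⟩ = F ⟨i, N, g'⟩)
    (h₂ : ∀ (i : S.Idx) (N : ℕ) (j : Fin N) (g g' : Loops N (S.space i)),
      F ⟨i, N, GenLoop.transAt j g g'⟩ = F ⟨i, N, g⟩ + F ⟨i, N, g'⟩)
    (h₃ : ∀ (d : S.Dir) (i : S.Idx) (N : ℕ) (g : Loops N (S.space i)),
      F ⟨i, N, g⟩ = F ⟨S.next d i, N + S.dim d, (S.bond d i).onLoops g⟩) :
    S.PiStar →+ G :=
  QuotientAddGroup.lift _ (FreeAbelianGroup.lift F) (by
    refine (AddSubgroup.closure_le _).2 ?_
    rintro x (hx : S.Rel x)
    change FreeAbelianGroup.lift F x = 0
    cases hx with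
    | htpy i N g g' h => simp [h₁ i N g g' h]
    | add i N j g g' => simp [h₂ i N j g g']
    | stab d i N g => simp [← h₃ d i N g])

theorem piLift_cls {G : Type} [AddCommGroup G] (F : S.Rep → G) (h₁ h₂ h₃) (r : S.Rep) :
    S.piLift F h₁ h₂ h₃ (S.cls r) = F r := by
  change FreeAbelianGroup.lift F (FreeAbelianGroup.of r) = F r
  simp

/-- The classes of cubes generate `π⋆`. -/
theorem closure_range_cls : AddSubgroup.closure (Set.range S.cls) = ⊤ := by
  rw [eq_top_iff]
  rintro x -
  induction x using QuotientAddGroup.induction_on with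
  | H z =>
    induction z using FreeAbelianGroup.induction_on with
    | zero => exact zero_mem _
    | of r => exact AddSubgroup.subset_closure ⟨r, rfl⟩
    | neg r h => exact neg_mem h
    | add a b ha hb => exact add_mem ha hb

/-- The class of a constant cube of positive dimension is zero. -/
theorem cls_const (i : S.Idx) (N : ℕ) (hN : 0 < N) :
    S.cls ⟨i, N, GenLoop.const⟩ = 0 := by
  have h := S.cls_transAt (i := i) (⟨0, hN⟩ : Fin N) GenLoop.const GenLoop.const
  have e : GenLoop.transAt (⟨0, hN⟩ : Fin N) (GenLoop.const : Loops N (S.space i)) GenLoop.const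
      = GenLoop.const := by
    ext t
    simp only [GenLoop.transAt, GenLoop.coe_copy, GenLoop.const_apply, ite_self]
  rw [e] at h
  simpa using h

theorem cls_mem_piDeg (r : S.Rep) : S.cls r ∈ S.piDeg (S.deg r) :=
  AddSubgroup.subset_closure ⟨r, rfl, rfl⟩

/-- Stabilisation preserves the degree. -/
theorem deg_stab (d : S.Dir) (i : S.Idx) {N : ℕ} (g : Loops N (S.space i)) :
    S.deg ⟨S.next d i, N + S.dim d, (S.bond d i).onLoops g⟩ = S.deg ⟨i, N, g⟩ := by
  simp only [deg, S.lvl_next]
  push_cast
  ring

/-- The homomorphism `π⋆ S → ⨁_k π⋆ S` that puts the class of a cube of degree `k` in the `k`-th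
summand. -/
def degSplit : S.PiStar →+ DirectSum ℤ (fun _ => S.PiStar) :=
  S.piLift (fun r => DirectSum.of (fun _ : ℤ => S.PiStar) (S.deg r) (S.cls r))
    (fun i N g g' h => by
      change DirectSum.of _ ((N : ℤ) - S.lvl i) _ = DirectSum.of _ ((N : ℤ) - S.lvl i) _
      rw [S.cls_htpy h])
    (fun i N j g g' => by
      change DirectSum.of _ ((N : ℤ) - S.lvl i) _ = DirectSum.of _ ((N : ℤ) - S.lvl i) _ +
        DirectSum.of _ ((N : ℤ) - S.lvl i) _
      rw [S.cls_transAt, map_add])
    (fun d i N g => by
      rw [S.deg_stab d i g, ← S.cls_stab d i g])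

theorem degSplit_of_mem {k : ℤ} {x : S.PiStar} (hx : x ∈ S.piDeg k) :
    S.degSplit x = DirectSum.of (fun _ : ℤ => S.PiStar) k x := by
  induction hx using AddSubgroup.closure_induction with
  | mem x hx =>
    obtain ⟨r, rfl, rfl⟩ := hx
    exact S.piLift_cls _ _ _ _ r
  | zero => simp
  | add x y _ _ hx hy => rw [map_add, hx, hy, map_add]
  | neg x _ hx => rw [map_neg, hx, map_neg]

/-- **`π⋆ S` is the internal direct sum of its subgroups `π_k S`.** -/
theorem isInternal_piDeg : DirectSum.IsInternal S.piDeg := by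
  constructor
  · -- injectivity
    rw [injective_iff_map_eq_zero]
    intro z hz
    have key : ∀ z : DirectSum ℤ (fun k => S.piDeg k),
        S.degSplit (DirectSum.coeAddMonoidHom S.piDeg z) =
          DirectSum.map (fun k => (S.piDeg k).subtype) z := by
      intro z
      induction z using DirectSum.induction_on with
      | zero => simp
      | of k x =>
        rw [DirectSum.coeAddMonoidHom_of, S.degSplit_of_mem x.2, DirectSum.map_of]
        rfl
      | add a b ha hb => rw [map_add, map_add, ha, hb, map_add]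
    have h0 : DirectSum.map (fun k => (S.piDeg k).subtype) z = 0 := by
      rw [← key, hz, map_zero]
    refine DirectSum.ext_iff.2 ?_ |> fun h => h
    intro k
    have := congrArg (fun w => w k) h0
    simp only [DirectSum.map_apply, DirectSum.zero_apply] at this
    exact Subtype.ext this
  · -- surjectivity
    intro x
    have : x ∈ (⊤ : AddSubgroup S.PiStar) := trivial
    rw [← S.closure_range_cls] at this
    induction this using AddSubgroup.closure_induction with
    | mem x hx =>
      obtain ⟨r, rfl⟩ := hx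
      exact ⟨DirectSum.of (fun k => S.piDeg k) (S.deg r) ⟨_, S.cls_mem_piDeg r⟩,
        DirectSum.coeAddMonoidHom_of _ _ _⟩
    | zero => exact ⟨0, map_zero _⟩
    | add x y _ _ hx hy =>
      obtain ⟨a, rfl⟩ := hx
      obtain ⟨b, rfl⟩ := hy
      exact ⟨a + b, map_add _ _ _⟩
    | neg x _ hx =>
      obtain ⟨a, rfl⟩ := hx
      exact ⟨-a, map_neg _ _⟩

end StableSystem

/-! ## B. The stable homotopy category -/

/-- Isomorphisms of spectra, in particular identities, are stable equivalences. -/
theorem stableEquivalences_of_isIso {X Y : Spectrum} (f : X ⟶ Y) [IsIso f] :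
    stableEquivalences f := by
  change IsIso (piFunctor.map f)
  infer_instance

/-- Stable equivalences become isomorphisms in the stable homotopy category. -/
theorem isIso_toSHC_map {X Y : Spectrum} (f : X ⟶ Y) (hf : stableEquivalences f) :
    IsIso (toSHC.map f) :=
  Localization.inverts toSHC stableEquivalences f hf

/-- `π⋆` of the stable homotopy category restricts to `π⋆` of spectra. -/
def piSHCIso : toSHC ⋙ piSHC ≅ piFunctor := Localization.fac _ _ _

/-- Isomorphic objects of the stable homotopy category have isomorphic `π⋆`. -/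
theorem nonempty_piStar_addEquiv {X Y : Spectrum} (e : toSHC.obj X ≅ toSHC.obj Y) :
    Nonempty (X.sys.PiStar ≃+ Y.sys.PiStar) :=
  ⟨((piSHCIso.symm.app X ≪≫ piSHC.mapIso e ≪≫ piSHCIso.app Y :
    piFunctor.obj X ≅ piFunctor.obj Y)).addCommGroupIsoToAddEquiv⟩

/-! ## C. The trivial spectrum: it is a finite `p`-local spectrum, but not a Smith–Toda complex -/

/-- The one-point space. -/
def ptdPoint : Ptd := ⟨Unit, ()⟩

instance ptdPoint.instSubsingleton : Subsingleton ptdPoint := inferInstanceAs (Subsingleton Unit)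

/-- The trivial spectrum. -/
def pointSpectrum : Spectrum where
  space _ := ptdPoint
  bond _ := ⟨ContinuousMap.const _ GenLoop.const, rfl⟩

/-- If all the spaces of a stable system are points, then its `π⋆` vanishes. -/
theorem StableSystem.subsingleton_piStar (S : StableSystem) (h : ∀ i, Subsingleton (S.space i))
    (d : S.Dir) (hd : 0 < S.dim d) : Subsingleton S.PiStar := by
  have hc : ∀ (i : S.Idx) (N : ℕ) (g : Loops N (S.space i)), g = GenLoop.const := by
    intro i N g
    ext t
    exact (h i).elim _ _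
  have h0 : ∀ r : S.Rep, S.cls r = 0 := by
    rintro ⟨i, N, g⟩
    rw [S.cls_stab d i g, hc _ _ ((S.bond d i).onLoops g)]
    exact S.cls_const _ _ (by omega)
  have : (⊤ : AddSubgroup S.PiStar) = ⊥ := by
    rw [← S.closure_range_cls, AddSubgroup.closure_eq_bot_iff]
    rintro _ ⟨r, rfl⟩
    exact h0 r
  constructor
  intro a b
  have ha : a ∈ (⊥ : AddSubgroup S.PiStar) := this ▸ trivial
  have hb : b ∈ (⊥ : AddSubgroup S.PiStar) := this ▸ trivial
  rw [AddSubgroup.mem_bot] at ha hb
  rw [ha, hb]

theorem subsingleton_piStar_pointSpectrum : Subsingleton pointSpectrum.sys.PiStar :=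
  StableSystem.subsingleton_piStar _ (fun _ => ptdPoint.instSubsingleton) () Nat.one_pos

theorem subsingleton_smash_point (A : Ptd) : Subsingleton (A.smash ptdPoint) := by
  constructor
  intro a b
  induction a using Quotient.inductionOn with
  | h a =>
    induction b using Quotient.inductionOn with
    | h b => exact Quotient.sound (Or.inr ⟨Or.inr rfl, Or.inr rfl⟩)

/-- `MU_⋆(pt) = 0`. -/
theorem subsingleton_MUX_pointSpectrum : Subsingleton (MUX pointSpectrum).PiStar :=
  StableSystem.subsingleton_piStar _ (fun _ => subsingleton_smash_point _) Dir2.snd Nat.one_pos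

/-- `BP_⋆(pt) = 0`. -/
theorem subsingleton_BPHomology_pointSpectrum (p : ℕ) :
    Subsingleton (BPHomology p pointSpectrum) := by
  have := subsingleton_MUX_pointSpectrum
  have : Subsingleton (BPCoeff p ⊗[ℤ] (MUX pointSpectrum).PiStar) := inferInstance
  exact inferInstanceAs (Subsingleton ((BPCoeff p ⊗[ℤ] (MUX pointSpectrum).PiStar) ⧸
    Submodule.span (BPCoeff p) (bpRel p pointSpectrum)))

/-! ## D. The algebra: `ℤ_(p)`, `BP_⋆`, Hazewinkel's logarithm, the ideal `(p, v₁, …, v_n)` -/

/-- `ℤ_(p)` consists of the fractions whose denominator is prime to `p`. -/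
theorem mem_ZLoc_iff {p : ℕ} (hp : p.Prime) (q : ℚ) : q ∈ ZLoc p ↔ ¬ p ∣ q.den := by
  constructor
  · intro hq
    induction hq using Subring.closure_induction with
    | mem x hx =>
      obtain ⟨m, hm, rfl⟩ := hx
      intro h
      apply hm
      have hm0 : m ≠ 0 := by
        rintro rfl
        exact hm (dvd_zero _)
      have : ((m : ℚ)⁻¹).den = m.natAbs := by
        rw [Rat.inv_intCast_den, if_neg hm0]
      rw [this] at h
      exact Int.natCast_dvd.2 h
    | zero => simpa using hp.one_lt.ne'
    | one => simpa using hp.one_lt.ne'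
    | add x y _ _ hx hy =>
      intro h
      rcases (Nat.Prime.dvd_mul hp).1 (h.trans (Rat.add_den_dvd x y)) with h | h
      · exact hx h
      · exact hy h
    | neg x _ hx => simpa using hx
    | mul x y _ _ hx hy =>
      intro h
      rcases (Nat.Prime.dvd_mul hp).1 (h.trans (Rat.mul_den_dvd x y)) with h | h
      · exact hx h
      · exact hy h
  · intro h
    have h1 : ((q.den : ℤ) : ℚ)⁻¹ ∈ ZLoc p :=
      Subring.subset_closure ⟨q.den, fun h' => h (Int.natCast_dvd_natCast.1 h'), rfl⟩
    have h2 : (q.num : ℚ) ∈ ZLoc p := intCast_mem _ _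
    have : q = (q.num : ℚ) * ((q.den : ℤ) : ℚ)⁻¹ := by
      rw [Int.cast_natCast, ← div_eq_mul_inv, Rat.num_div_den]
    rw [this]
    exact mul_mem h2 h1

/-- `p` is not invertible in `ℤ_(p)`. -/
theorem not_isUnit_p_ZLoc {p : ℕ} (hp : p.Prime) : ¬ IsUnit (p : ZLoc p) := by
  rintro ⟨u, hu⟩
  have h1 : (p : ZLoc p) * (↑u⁻¹ : ZLoc p) = 1 := by rw [← hu]; simp
  have h2 : (p : ℚ) * ((↑u⁻¹ : ZLoc p) : ℚ) = 1 := by
    have := congrArg (Subtype.val) h1
    simpa using this
  have hp0 : (p : ℚ) ≠ 0 := by exact_mod_cast hp.ne_zero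
  have h3 : ((↑u⁻¹ : ZLoc p) : ℚ) = (p : ℚ)⁻¹ := by
    field_simp
    linarith
  have h4 := (mem_ZLoc_iff hp _).1 (↑u⁻¹ : ZLoc p).2
  rw [h3] at h4
  apply h4
  rw [Rat.inv_natCast_den, if_neg hp.ne_zero]

/-- The ideal `(p, v₁, …, v_n)` is proper: `BP_⋆/(p, v₁, …, v_n) ≠ 0`. -/
theorem smithTodaIdeal_ne_top {p : ℕ} (hp : p.Prime) (n : ℕ) : smithTodaIdeal p n ≠ ⊤ := by
  intro h
  have hle : smithTodaIdeal p n ≤
      (Ideal.span {(p : ZLoc p)}).comap (MvPolynomial.constantCoeff : BPCoeff p →+* ZLoc p) := by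
    refine Ideal.span_le.2 ?_
    rintro _ ⟨k, rfl⟩
    change MvPolynomial.constantCoeff (vGen p k) ∈ Ideal.span {(p : ZLoc p)}
    rcases k with ⟨_ | k, hk⟩
    · simp only [vGen, map_natCast]
      exact Ideal.subset_span rfl
    · simp [vGen]
  have h1 : (1 : BPCoeff p) ∈ smithTodaIdeal p n := h ▸ trivial
  have h2 := hle h1
  change MvPolynomial.constantCoeff (1 : BPCoeff p) ∈ Ideal.span {(p : ZLoc p)} at h2
  rw [map_one, ← Ideal.eq_top_iff_one, Ideal.span_singleton_eq_top] at h2
  exact not_isUnit_p_ZLoc hp h2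

theorem nontrivial_quot {p : ℕ} (hp : p.Prime) (n : ℕ) :
    Nontrivial (BPCoeff p ⧸ smithTodaIdeal p n) :=
  Ideal.Quotient.nontrivial_iff.2 (smithTodaIdeal_ne_top hp n)

/-- **Non-example**: the trivial spectrum is not a Smith–Toda complex. -/
theorem not_isSmithTodaHomology_pointSpectrum {p : ℕ} (hp : p.Prime) (n : ℕ) :
    ¬ IsSmithTodaHomology p n pointSpectrum := by
  rintro ⟨φ, -⟩
  have := subsingleton_BPHomology_pointSpectrum p
  have := nontrivial_quot hp n
  exact not_subsingleton _ φ.symm.toEquiv.subsingleton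

theorem smithTodaIdeal_zero (p : ℕ) : smithTodaIdeal p 0 = Ideal.span {(p : BPCoeff p)} := by
  unfold smithTodaIdeal
  congr 1
  ext x
  constructor
  · rintro ⟨k, rfl⟩
    obtain rfl : k = 0 := Fin.fin_one_eq_zero k
    rfl
  · rintro rfl
    exact ⟨0, rfl⟩

theorem vGen_mem_smithTodaIdeal (p n k : ℕ) (hk : k ≤ n) : vGen p k ∈ smithTodaIdeal p n :=
  Ideal.subset_span ⟨⟨k, by omega⟩, rfl⟩

/-- `v_{k+1}` is homogeneous of degree `2 (p^{k+1} - 1)`. -/
theorem isWeightedHomogeneous_vGen (p k : ℕ) :
    MvPolynomial.IsWeightedHomogeneous (vDeg p) (vGen p (k + 1)) (2 * (p ^ (k + 1) - 1)) :=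
  MvPolynomial.isWeightedHomogeneous_X _ _ _

/-- The generator of `BP_⋆/(p, v₁, …, v_n)` has degree zero. -/
theorem one_mem_quotDeg (p n : ℕ) : (1 : BPCoeff p ⧸ smithTodaIdeal p n) ∈ quotDeg p n 0 :=
  AddSubgroup.subset_closure ⟨0, 1, MvPolynomial.isWeightedHomogeneous_one _ _, rfl, rfl⟩

theorem prime_1009 : Nat.Prime 1009 := by norm_num

theorem hazL_zero (p : ℕ) : hazL p 0 = 1 := by simp [hazL]

/-- `ℓ₁ = v₁ / p`. -/
theorem hazL_one (p : ℕ) : hazL p 1 = MvPolynomial.C (1 / (p : ℚ)) * MvPolynomial.X 0 := by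
  simp [hazL]

/-- `ℓ₂ = v₂ / p + v₁^{1+p} / p²`. -/
theorem hazL_two (p : ℕ) : hazL p 2 = MvPolynomial.C (1 / (p : ℚ)) * MvPolynomial.X 1 +
    MvPolynomial.C (1 / (p : ℚ) ^ 2) * MvPolynomial.X 0 ^ (1 + p) := by
  rw [hazL, Fin.sum_univ_two]
  simp only [Fin.val_zero, Fin.val_one, hazL_zero, hazL_one, pow_zero, pow_one, Nat.sub_zero,
    Nat.sub_self, one_mul]
  rw [mul_add, pow_add, pow_one, one_div, one_div, sq, mul_inv, MvPolynomial.C_mul]
  ring

theorem constantCoeff_hazLog (p : ℕ) : PowerSeries.constantCoeff (hazLog p) = 0 := by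
  rw [← PowerSeries.coeff_zero_eq_constantCoeff_apply]
  simp [hazLog]

/-- The coefficient of `x^{p^n}` in the logarithm is `ℓ_n`. -/
theorem coeff_hazLog_pow {p : ℕ} (hp : 1 < p) (n : ℕ) :
    PowerSeries.coeff (p ^ n) (hazLog p) = hazL p n := by
  simp [hazLog, Nat.log_pow hp]

/-- **`log (F (x, y)) = log x + log y`** for Hazewinkel's formal group law. -/
theorem hazLog_hazFGL (p : ℕ) :
    PowerSeries.subst (hazFGL p) (hazLog p) =
      PowerSeries.subst (MvPowerSeries.X 0 : MvPowerSeries (Fin 2) (MvPolynomial ℕ ℚ)) (hazLog p) +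
      PowerSeries.subst (MvPowerSeries.X 1 : MvPowerSeries (Fin 2) (MvPolynomial ℕ ℚ))
        (hazLog p) := by
  have hX : ∀ i : Fin 2, PowerSeries.HasSubst
      (MvPowerSeries.X i : MvPowerSeries (Fin 2) (MvPolynomial ℕ ℚ)) := fun i =>
    PowerSeries.HasSubst.X i
  have hc : ∀ i : Fin 2, MvPowerSeries.constantCoeff (PowerSeries.subst
      (MvPowerSeries.X i : MvPowerSeries (Fin 2) (MvPolynomial ℕ ℚ)) (hazLog p)) = 0 := by
    intro i
    rw [PowerSeries.constantCoeff_subst_eq_zero (by simp) _ (constantCoeff_hazLog p)]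
  have hs : PowerSeries.HasSubst
      (PowerSeries.subst (MvPowerSeries.X 0 : MvPowerSeries (Fin 2) (MvPolynomial ℕ ℚ)) (hazLog p) +
      PowerSeries.subst (MvPowerSeries.X 1 : MvPowerSeries (Fin 2) (MvPolynomial ℕ ℚ))
        (hazLog p)) :=
    PowerSeries.HasSubst.of_constantCoeff_zero (by rw [map_add, hc, hc, add_zero])
  rw [hazFGL, ← PowerSeries.subst_comp_subst_apply (PowerSeries.HasSubst.substInv _) hs,
    PowerSeries.subst_substInv_right _ (constantCoeff_hazLog p), PowerSeries.subst_X hs]

/-! ## E. Finite spectra -/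

/-- The transport of a space of a spectrum along an equality of indices. -/
def Spectrum.castMap (X : Spectrum) {m n : ℕ} (h : m = n) : PtdMap (X.space m) (X.space n) :=
  h ▸ PtdMap.id _

theorem Spectrum.castMap_bond (X : Spectrum) {m n : ℕ} (h : m = n) (x : X.space m)
    (r : I^(Fin 1)) :
    (X.castMap (congrArg (· + 1) h)).toMap ((X.bond m).toMap x r) =
      (X.bond n).toMap ((X.castMap h).toMap x) r := by
  subst h; rfl

theorem Spectrum.castMap_comp (X : Spectrum) {m n : ℕ} (h : m = n) :
    (X.castMap h.symm).comp (X.castMap h) = PtdMap.id _ := by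
  subst h; rfl

/-- `sh⁰ X ≅ X`. -/
def Spectrum.shiftZero (X : Spectrum) : X.shift 0 ≅ X where
  hom := ⟨fun n => X.castMap (Nat.zero_add n), fun n x r => X.castMap_bond (Nat.zero_add n) x r⟩
  inv := ⟨fun n => X.castMap (Nat.zero_add n).symm,
    fun n x r => X.castMap_bond (Nat.zero_add n).symm x r⟩
  hom_inv_id := Spectrum.Hom.ext (funext fun n => X.castMap_comp (Nat.zero_add n))
  inv_hom_id := Spectrum.Hom.ext (funext fun n => X.castMap_comp (Nat.zero_add n).symm)

/-- A finite discrete space is a finite CW complex. -/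
theorem finite_cw_of_discrete (K : Type) [TopologicalSpace K] [DiscreteTopology K] [Finite K] :
    Topology.CWComplex.Finite (Set.univ : Set K) where
  eventually_isEmpty_cell := by
    refine Filter.eventually_atTop.2 ⟨1, fun n hn => ?_⟩
    obtain ⟨m, rfl⟩ : ∃ m, n = m + 1 := ⟨n - 1, by omega⟩
    exact inferInstanceAs (IsEmpty PEmpty)
  finite_cell n := by
    cases n with
    | zero => exact inferInstanceAs (Finite (Set.univ : Set K))
    | succ m => exact inferInstanceAs (Finite PEmpty)

/-- The suspension spectrum of a finite discrete pointed space is a finite CW spectrum. -/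
theorem isFiniteCWSpectrum_of_discrete (K : Ptd) [DiscreteTopology K] [Finite K] :
    IsFiniteCWSpectrum (toSHC.obj (suspensionSpectrum K)) :=
  ⟨suspensionSpectrum K, 0, K, inferInstance, inferInstance, finite_cw_of_discrete K,
    ⟨Iso.refl _⟩, ⟨toSHC.mapIso (suspensionSpectrum K).shiftZero⟩⟩

/-- The `0`-sphere. -/
def S0 : Ptd := ⟨Bool, false⟩

instance S0.instDiscreteTopology : DiscreteTopology S0 := inferInstanceAs (DiscreteTopology Bool)

instance S0.instFinite : Finite S0 := inferInstanceAs (Finite Bool)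

/-- The sphere spectrum. -/
def sphereSpectrum : Spectrum := suspensionSpectrum S0

/-- **The sphere spectrum is a finite CW spectrum.** -/
theorem isFiniteCWSpectrum_sphereSpectrum : IsFiniteCWSpectrum (toSHC.obj sphereSpectrum) :=
  isFiniteCWSpectrum_of_discrete S0

/-- `S⁰` is well pointed. -/
theorem wellPointed_S0 : S0.WellPointed := by
  refine ⟨⟨fun a : Bool => if a = true then 1 else 0, continuous_of_discreteTopology⟩,
    ⟨fun z => z.1, continuous_fst⟩, ?_, fun _ => rfl, fun _ => rfl, ?_⟩
  · intro (a : Bool)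
    change (if a = true then (1 : I) else 0) = 0 ↔ a = false
    cases a <;> simp
  · intro (a : Bool) h
    change (if a = true then (1 : I) else 0) < 1 at h
    change a = false
    cases a
    · rfl
    · simp at h

/-- A desuspension of a finite CW spectrum is a finite CW spectrum: if `sh^d X` is
the suspension spectrum of a finite complex, then `X` is finite. -/
theorem isFiniteCWSpectrum_of_shift (X : Spectrum) (d : ℕ) (K : Ptd) [DiscreteTopology K]
    [Finite K] (e : toSHC.obj (X.shift d) ≅ toSHC.obj (suspensionSpectrum K)) :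
    IsFiniteCWSpectrum (toSHC.obj X) :=
  ⟨X, d, K, inferInstance, inferInstance, finite_cw_of_discrete K, ⟨Iso.refl _⟩, ⟨e⟩⟩

/-- If `π⋆ Y = 0`, the identity of `Y` is a `p`-localisation. -/
theorem isPLocalization_id_of_subsingleton (p : ℕ) (X : Spectrum)
    (h : Subsingleton X.sys.PiStar) : IsPLocalization p (𝟙 (toSHC.obj X)) := by
  have e : piSHC.obj (toSHC.obj X) ≅ piFunctor.obj X := piSHCIso.app X
  have h' : Subsingleton (piFunctor.obj X) := h
  have hs : Subsingleton (piSHC.obj (toSHC.obj X)) :=
    e.addCommGroupIsoToAddEquiv.toEquiv.subsingleton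
  unfold IsPLocalization
  refine ⟨fun x => ?_, fun y => ⟨(0, 1), Subsingleton.elim _ _⟩, fun _ => ⟨1, Subsingleton.elim _ _⟩⟩
  rw [Module.End.isUnit_iff]
  exact ⟨fun a b _ => Subsingleton.elim _ _, fun b => ⟨b, Subsingleton.elim _ _⟩⟩

instance ptdPoint.instDiscreteTopology : DiscreteTopology ptdPoint :=
  inferInstanceAs (DiscreteTopology Unit)

instance ptdPoint.instFinite : Finite ptdPoint := inferInstanceAs (Finite Unit)

theorem subsingleton_iterSusp_point (n : ℕ) : Subsingleton (ptdPoint.iterSusp n) := by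
  induction n with
  | zero => exact ptdPoint.instSubsingleton
  | succ n ih =>
    constructor
    intro a b
    induction a using Quotient.inductionOn with
    | h a =>
      induction b using Quotient.inductionOn with
      | h b => exact Quotient.sound (Or.inr ⟨Or.inl (ih.elim _ _), Or.inl (ih.elim _ _)⟩)

/-- **The trivial spectrum `Σ^∞ pt` is a finite `p`-local spectrum** (so the class of finite
`p`-local spectra is not empty). -/
theorem isFinitePLocal_point (p : ℕ) :
    IsFinitePLocal p (toSHC.obj (suspensionSpectrum ptdPoint)) :=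
  ⟨_, _, 𝟙 _, isFiniteCWSpectrum_of_discrete ptdPoint,
    isPLocalization_id_of_subsingleton p _
      (StableSystem.subsingleton_piStar _ subsingleton_iterSusp_point () Nat.one_pos),
    ⟨Retract.refl _⟩⟩

/-! ## F. The Thom spaces `MU(n)` -/

theorem norm_sq_sum_smul' {n : ℕ} {e : Fin n → E n} (h : Orthonormal ℂ e) (c : Fin n → ℂ) :
    ‖∑ i, c i • e i‖ ^ 2 = ∑ i, ‖c i‖ ^ 2 := by
  rw [← @inner_self_eq_norm_sq ℂ, h.inner_sum]
  simp [Complex.conj_mul', ← Complex.ofReal_pow]

/-- The point of `MU(n)` attached to a frame `e` and coordinates `c` depends only on the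
projection `P_W = ∑ |e k⟩⟨e k|` onto the plane `W` spanned by the frame and on the vector
`w = ∑ c k • e k` of `W` … -/
theorem thomPoint_eq_of {n : ℕ} {e e' : Fin n → E n} {c c' : Fin n → ℂ} (he : Orthonormal ℂ e)
    (he' : Orthonormal ℂ e') (hP : ∑ k, rankOne ℂ (e k) (e k) = ∑ k, rankOne ℂ (e' k) (e' k))
    (hw : ∑ k, c k • e k = ∑ k, c' k • e' k) : thomPoint e c = thomPoint e' c' := by
  have hs : ∑ k, ‖c k‖ ^ 2 = ∑ k, ‖c' k‖ ^ 2 := by
    rw [← norm_sq_sum_smul' he, ← norm_sq_sum_smul' he', hw]
  simp only [thomPoint, hs, hP, hw]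

/-- … and it determines them: the points of `MU(n)` other than the base point are the pairs
`(W, w)`, `w ∈ W`. -/
theorem thomPoint_inj {n : ℕ} {e e' : Fin n → E n} {c c' : Fin n → ℂ}
    (h : thomPoint e c = thomPoint e' c') :
    ∑ k, rankOne ℂ (e k) (e k) = ∑ k, rankOne ℂ (e' k) (e' k) ∧
      ∑ k, c k • e k = ∑ k, c' k • e' k := by
  simp only [thomPoint, Prod.mk.injEq] at h
  obtain ⟨h1, h2, h3⟩ := h
  have hne : ((Real.exp (-∑ k, ‖c' k‖ ^ 2) : ℝ) : ℂ) ≠ 0 := by
    exact_mod_cast (Real.exp_pos _).ne'
  rw [h1] at h2 h3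
  exact ⟨smul_right_injective _ hne h2, smul_right_injective _ hne h3⟩

theorem thomPoint_ne_zero {n : ℕ} (e : Fin n → E n) (c : Fin n → ℂ) : thomPoint e c ≠ 0 := by
  intro h
  have := congrArg Prod.fst h
  exact (Real.exp_pos _).ne' this

/-- `MU(0) = S⁰`: its unit is not the base point … -/
theorem muOne_ne_pt : muOne ≠ (MU 0).pt := by
  intro h
  exact thomPoint_ne_zero _ _ (congrArg Subtype.val h)

/-- … and there is no other point. -/
theorem MU_zero_cases (x : MU 0) : x = (MU 0).pt ∨ x = muOne := by
  obtain ⟨x, rfl | ⟨e, c, -, rfl⟩⟩ := x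
  · exact Or.inl rfl
  · right
    refine Subtype.ext ?_
    change thomPoint e c = thomPoint _ _
    congr 1 <;> exact funext fun k => k.elim0

/-- The centre of the square goes under `ι : S² → MU(1)` to the zero vector of the line `ℂ e₀`. -/
theorem muIota_centre :
    (muIota (fun _ => ⟨1 / 2, by norm_num, by norm_num⟩) : MU 1).1 = zeroSecAmb e₀ := by
  have h1 : bump (1 / 2) = 1 := by norm_num [bump]
  have h2 : bumpW (1 / 2) = 0 := by
    rw [bumpW, if_pos le_rfl, h1]; simp
  change iotaAmb (fun _ => ⟨1 / 2, by norm_num, by norm_num⟩) = _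
  simp only [iotaAmb, zeroSecAmb, h1, h2]
  simp

/-- The product of `MU` is unital on the nose on the right, up to the identification
`E (n + 0) = E n`: on the scalar coordinate. -/
theorem muMul_one_fst (n : ℕ) (x : MU n) : ((muMul n 0).toMap (x, muOne)).1.1 = x.1.1 := by
  change x.1.1 * Real.exp (-∑ k : Fin 0, _) = x.1.1
  simp

end Claimed.Open.R308
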