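import Claimed.Open.R308.SanityTelSusp

/-!
# Result 308: the spheres `Σ^k S⁰` of the statement are finite CW complexes

All the finite CW complexes `K` used so far in examples of `IsFiniteCWSpectrum` are finite discrete spaces.  Here:

* `IsCollapse.exists_finite_cw`: a Hausdorff space `X` with a cube `c : (I^{n+1}, ∂I^{n+1}) → (X, x₀)` that induces a bijection `I^{n+1}/∂I^{n+1} → X` is a finite CW complex in the
  sense of Mathlib (`Topology.CWComplex`, `Topology.CWComplex.Finite`), with one cell of dimension `0` and one cell of dimension `n + 1`;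
* `exists_finite_cw_iterSusp`: the spheres `Σ^k S⁰` of `Statement.lean` (iterated quotient spaces) are finite CW complexes;
* `isFiniteCWSpectrum_suspensionSpectrum_sphere`: **example**: `Σ^∞ (Σ^k S⁰)` is a finite CW spectrum, for every `k`;
* `isFinitePLocal_tel_suspensionSpectrum_sphere`: **example**: its telescope `(Σ^∞ Σ^k S⁰)_(p)` is a finite `p`-local spectrum.

The closed ball of `Fin m → ℝ` (supremum norm) is the cube `[-1, 1]^m`; the characteristic map of the big cell is `x ↦ c ((x + 1) / 2)`; its inverse on the open cell is continuous because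
`c` is a closed map (`continuousOn_invFunOn_image`).
-/

set_option autoImplicit false

open scoped unitInterval Topology Topology.Homotopy
open CategoryTheory Metric Set

noncomputable section

namespace Claimed.Open.R308

/-! ## 1. From the ball of `Fin m → ℝ` (a cube: the norm is the supremum norm) to the cube `I^m` -/

/-- `x ↦ (x + 1) / 2`, from `[-1, 1]^m` onto `I^m`. -/
def cubePt {m : ℕ} (x : Fin m → ℝ) : Fin m → I := fun i => Set.projIcc 0 1 zero_le_one ((x i + 1) / 2)

theorem continuous_cubePt {m : ℕ} : Continuous (cubePt (m := m)) := by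
  unfold cubePt
  fun_prop

theorem abs_le_of_mem_closedBall {m : ℕ} {x : Fin m → ℝ} (hx : x ∈ closedBall (0 : Fin m → ℝ) 1)
    (i : Fin m) : |x i| ≤ 1 := by
  rw [mem_closedBall_zero_iff] at hx
  exact (norm_le_pi_norm x i).trans hx

theorem coe_cubePt {m : ℕ} {x : Fin m → ℝ} (hx : x ∈ closedBall (0 : Fin m → ℝ) 1) (i : Fin m) :
    ((cubePt x i : I) : ℝ) = (x i + 1) / 2 := by
  have h := abs_le.1 (abs_le_of_mem_closedBall hx i)
  have hm : (x i + 1) / 2 ∈ Set.Icc (0 : ℝ) 1 := ⟨by linarith [h.1], by linarith [h.2]⟩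
  show ((Set.projIcc 0 1 zero_le_one ((x i + 1) / 2) : I) : ℝ) = _
  rw [Set.projIcc_of_mem _ hm]

theorem cubePt_injOn {m : ℕ} {x x' : Fin m → ℝ} (hx : x ∈ closedBall (0 : Fin m → ℝ) 1)
    (hx' : x' ∈ closedBall (0 : Fin m → ℝ) 1) (h : cubePt x = cubePt x') : x = x' := by
  funext i
  have h1 := congrArg (fun a : Fin m → I => ((a i : I) : ℝ)) h
  simp only [coe_cubePt hx, coe_cubePt hx'] at h1
  linarith

theorem cubePt_not_mem_boundary {m : ℕ} {x : Fin m → ℝ} (hx : x ∈ ball (0 : Fin m → ℝ) 1) :
    cubePt x ∉ Cube.boundary (Fin m) := by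
  rintro ⟨i, hi⟩
  have hc := coe_cubePt (ball_subset_closedBall hx) i
  rw [mem_ball_zero_iff] at hx
  have h1 : |x i| < 1 := (norm_le_pi_norm x i).trans_lt hx
  have h2 := abs_lt.1 h1
  rcases hi with hi | hi
  · rw [hi] at hc
    simp only [Set.Icc.coe_zero] at hc
    linarith [h2.1]
  · rw [hi] at hc
    simp only [Set.Icc.coe_one] at hc
    linarith [h2.2]

theorem cubePt_mem_boundary {m : ℕ} {x : Fin m → ℝ} (hx : x ∈ sphere (0 : Fin m → ℝ) 1) :
    cubePt x ∈ Cube.boundary (Fin m) := by
  have hcb : x ∈ closedBall (0 : Fin m → ℝ) 1 := sphere_subset_closedBall hx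
  rw [mem_sphere_zero_iff_norm] at hx
  have h1 : ∃ i, ¬ ‖x i‖ < 1 := by
    by_contra hcon
    have hcon' : ∀ i, ‖x i‖ < 1 := fun i => by
      by_contra h
      exact hcon ⟨i, h⟩
    have := (pi_norm_lt_iff one_pos).2 hcon'
    linarith
  obtain ⟨i, hi⟩ := h1
  have h2 : |x i| = 1 := le_antisymm (abs_le_of_mem_closedBall hcb i) (not_lt.1 hi)
  refine ⟨i, ?_⟩
  rcases abs_eq (zero_le_one' ℝ) |>.1 h2 with h3 | h3
  · right
    apply Subtype.ext
    rw [coe_cubePt hcb, h3]
    norm_num
  · left
    apply Subtype.ext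
    rw [coe_cubePt hcb, h3]
    norm_num

theorem cubePt_surj {m : ℕ} (a : Fin m → I) :
    ∃ x ∈ closedBall (0 : Fin m → ℝ) 1, cubePt x = a := by
  have hx : (fun i => 2 * (a i : ℝ) - 1) ∈ closedBall (0 : Fin m → ℝ) 1 := by
    rw [mem_closedBall_zero_iff, pi_norm_le_iff_of_nonneg zero_le_one]
    intro i
    rw [Real.norm_eq_abs, abs_le]
    constructor <;> linarith [(a i).2.1, (a i).2.2]
  refine ⟨_, hx, ?_⟩
  funext i
  apply Subtype.ext
  rw [coe_cubePt hx]
  ring

/-! ## 2. The inverse of a map that is injective on a part of a compact set -/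

theorem continuousOn_invFunOn_image {α β : Type} [TopologicalSpace α] [TopologicalSpace β]
    [T2Space β] [Nonempty α] {f : α → β} {B C : Set α} (hBC : B ⊆ C) (hC : IsCompact C)
    (hf : ContinuousOn f C) (hinj : ∀ x ∈ B, ∀ x' ∈ C, f x = f x' → x = x') :
    ContinuousOn (Function.invFunOn f B) (f '' B) := by
  have hleft : ∀ b ∈ B, Function.invFunOn f B (f b) = b := by
    intro b hb
    have h1 := Function.invFunOn_mem (f := f) (s := B) ⟨b, hb, rfl⟩
    have h2 := Function.invFunOn_eq (f := f) (s := B) ⟨b, hb, rfl⟩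
    exact (hinj b hb _ (hBC h1) h2.symm).symm
  rintro _ ⟨x, hx, rfl⟩
  unfold ContinuousWithinAt
  rw [hleft x hx]
  intro U hU
  obtain ⟨U', hU'U, hU'o, hxU'⟩ := mem_nhds_iff.1 hU
  have hF : IsCompact (C \ U') := hC.diff hU'o
  have hFc : IsClosed (f '' (C \ U')) :=
    (hF.image_of_continuousOn (hf.mono sdiff_subset)).isClosed
  rw [Filter.mem_map, mem_nhdsWithin]
  refine ⟨(f '' (C \ U'))ᶜ, hFc.isOpen_compl, ?_, ?_⟩
  · rintro ⟨x', hx', h⟩
    exact hx'.2 ((hinj x hx x' hx'.1 h.symm) ▸ hxU')
  · rintro _ ⟨hy, b, hb, rfl⟩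
    show Function.invFunOn f B (f b) ∈ U
    rw [hleft b hb]
    by_contra hbU
    exact hy ⟨b, ⟨hBC hb, fun h => hbU (hU'U h)⟩, rfl⟩

/-! ## 3. A Hausdorff space `I^{n+1} / ∂I^{n+1}` is a finite CW complex with two cells -/

/-- The cells: one of dimension `0`, one of dimension `n + 1`. -/
inductive SphCell (n : ℕ) : ℕ → Type
  | base : SphCell n 0
  | top : SphCell n (n + 1)

theorem SphCell.subsingleton (n m : ℕ) : Subsingleton (SphCell n m) := by
  constructor
  intro a b
  cases a <;> cases b <;> rfl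

theorem SphCell.isEmpty (n m : ℕ) (hm : n + 2 ≤ m) : IsEmpty (SphCell n m) := by
  constructor
  intro a
  cases a <;> omega

section

variable {n : ℕ} {X : Type} [TopologicalSpace X] {x₀ : X}

/-- The characteristic map of the cell of dimension `0`. -/
def sphBase (x₀ : X) : PartialEquiv (Fin 0 → ℝ) X where
  toFun _ := x₀
  invFun _ := 0
  source := ball 0 1
  target := {x₀}
  map_source' _ _ := rfl
  map_target' _ _ := mem_ball_self one_pos
  left_inv' _ _ := Subsingleton.elim _ _
  right_inv' _ hy := hy.symm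

/-- The characteristic map of the cell of dimension `n + 1`, as a function. -/
def sphChi (c : Ω^ (Fin (n + 1)) X x₀) (x : Fin (n + 1) → ℝ) : X := c (cubePt x)

theorem continuous_sphChi (c : Ω^ (Fin (n + 1)) X x₀) : Continuous (sphChi c) :=
  c.1.continuous.comp continuous_cubePt

variable {c : Ω^ (Fin (n + 1)) X x₀}

theorem IsCollapse.sphChi_ne (hc : IsCollapse c) {x : Fin (n + 1) → ℝ}
    (hx : x ∈ ball (0 : Fin (n + 1) → ℝ) 1) : sphChi c x ≠ x₀ := fun h =>
  cubePt_not_mem_boundary hx (hc.bd _ h)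

theorem IsCollapse.sphChi_inj (hc : IsCollapse c) : ∀ x ∈ ball (0 : Fin (n + 1) → ℝ) 1,
    ∀ x' ∈ closedBall (0 : Fin (n + 1) → ℝ) 1, sphChi c x = sphChi c x' → x = x' :=
  fun _ hx _ hx' h =>
    cubePt_injOn (ball_subset_closedBall hx) hx' (hc.inj _ _ (hc.sphChi_ne hx) h)

theorem IsCollapse.sphChi_injOn (hc : IsCollapse c) :
    Set.InjOn (sphChi c) (ball (0 : Fin (n + 1) → ℝ) 1) :=
  fun x hx x' hx' h => hc.sphChi_inj x hx x' (ball_subset_closedBall hx') h

/-- The characteristic maps. -/
def IsCollapse.sphMap (hc : IsCollapse c) : ∀ m : ℕ, SphCell n m → PartialEquiv (Fin m → ℝ) X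
  | _, .base => sphBase x₀
  | _, .top => hc.sphChi_injOn.toPartialEquiv (sphChi c) (ball 0 1)

/-- **A Hausdorff space that is a bijective image of `I^{n+1} / ∂I^{n+1}` is a finite CW complex** in the sense of Mathlib, with one cell of
dimension `0` and one cell of dimension `n + 1`. -/
theorem IsCollapse.exists_finite_cw [T2Space X] (hc : IsCollapse c) :
    ∃ _ : Topology.CWComplex (Set.univ : Set X), Topology.CWComplex.Finite (Set.univ : Set X) := by
  have h1 : ∀ᶠ m in Filter.atTop, IsEmpty (SphCell n m) :=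
    Filter.eventually_atTop.2 ⟨n + 2, fun m hm => SphCell.isEmpty n m hm⟩
  have h2 : ∀ m, Finite (SphCell n m) := fun m =>
    have := SphCell.subsingleton n m
    Finite.of_subsingleton
  have h3 : ∀ (m : ℕ) (i : SphCell n m), (hc.sphMap m i).source = ball 0 1 := by
    rintro m (_ | _) <;> rfl
  have h4 : ∀ (m : ℕ) (i : SphCell n m), ContinuousOn (hc.sphMap m i) (closedBall 0 1) := by
    rintro m (_ | _)
    · exact continuousOn_const
    · exact (continuous_sphChi c).continuousOn
  have h5 : ∀ (m : ℕ) (i : SphCell n m),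
      ContinuousOn (hc.sphMap m i).symm (hc.sphMap m i).target := by
    rintro m (_ | _)
    · exact continuousOn_const
    · exact continuousOn_invFunOn_image ball_subset_closedBall (isCompact_closedBall 0 1)
        (continuous_sphChi c).continuousOn hc.sphChi_inj
  have hbt : Disjoint (sphBase x₀ '' ball 0 1) (sphChi c '' ball 0 1) := by
    rw [Set.disjoint_left]
    rintro _ ⟨_, _, rfl⟩ ⟨x, hx, h⟩
    exact hc.sphChi_ne hx h
  have h6 : (univ : Set (Σ m, SphCell n m)).PairwiseDisjoint
      (fun mi => hc.sphMap mi.1 mi.2 '' ball 0 1) := by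
    rintro ⟨m, i⟩ - ⟨m', j⟩ - hne
    cases i <;> cases j
    · exact absurd rfl hne
    · exact hbt
    · exact hbt.symm
    · exact absurd rfl hne
  have h7 : ∀ (m : ℕ) (i : SphCell n m), MapsTo (hc.sphMap m i) (sphere 0 1)
      (⋃ (m' < m) (j : SphCell n m'), hc.sphMap m' j '' closedBall 0 1) := by
    rintro m (_ | _)
    · intro x hx
      rw [mem_sphere_zero_iff_norm, Subsingleton.elim x 0, norm_zero] at hx
      exact absurd hx zero_ne_one
    · intro x hx
      have hx0 : sphChi c x = x₀ := c.2 _ (cubePt_mem_boundary hx)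
      simp only [mem_iUnion]
      exact ⟨0, Nat.succ_pos n, SphCell.base, 0, mem_closedBall_self zero_le_one, hx0.symm⟩
  have h8 : ⋃ (m : ℕ) (j : SphCell n m), hc.sphMap m j '' closedBall 0 1 = univ := by
    refine eq_univ_of_forall fun y => ?_
    obtain ⟨a, rfl⟩ := hc.surj y
    obtain ⟨x, hx, rfl⟩ := cubePt_surj a
    simp only [mem_iUnion]
    exact ⟨n + 1, SphCell.top, x, hx, rfl⟩
  exact ⟨Topology.CWComplex.mkFinite univ (SphCell n) hc.sphMap h1 h2 h3 h4 h5 h6 h7 h8,
    Topology.CWComplex.finite_mkFinite univ (SphCell n) hc.sphMap h1 h2 h3 h4 h5 h6 h7 h8⟩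

end

/-! ## 4. The spheres of the statement -/

/-- **The spheres `Σ^k S⁰` of `Statement.lean` (iterated quotient spaces) are finite CW complexes in the sense of Mathlib.** -/
theorem exists_finite_cw_iterSusp (k : ℕ) :
    ∃ _ : Topology.CWComplex (Set.univ : Set (S0.iterSusp k)),
      Topology.CWComplex.Finite (Set.univ : Set (S0.iterSusp k)) := by
  cases k with
  | zero => exact ⟨inferInstanceAs (Topology.CWComplex (Set.univ : Set S0)), finite_cw_of_discrete S0⟩
  | succ M => exact (isCollapse_fundCube M).exists_finite_cw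

/-- **Example**: the suspension spectra of the spheres of all dimensions are finite CW spectra. -/
theorem isFiniteCWSpectrum_suspensionSpectrum_sphere (k : ℕ) :
    IsFiniteCWSpectrum (toSHC.obj (suspensionSpectrum (S0.iterSusp k))) := by
  obtain ⟨_, _⟩ := exists_finite_cw_iterSusp k
  exact isFiniteCWSpectrum_suspensionSpectrum (S0.iterSusp k)

/-- **Example**: the `p`-local spheres of all dimensions `k ≥ 0` are finite `p`-local spectra. -/
theorem isFinitePLocal_tel_suspensionSpectrum_sphere {p : ℕ} (hp : p.Prime) (k : ℕ) :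
    IsFinitePLocal p (toSHC.obj ((suspensionSpectrum (S0.iterSusp k)).tel (pLocSeq p))) := by
  obtain ⟨_, _⟩ := exists_finite_cw_iterSusp k
  exact isFinitePLocal_tel_suspensionSpectrum hp (S0.iterSusp k)

end Claimed.Open.R308
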