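import Claimed.Open.R308.SanityLines

/-!
# Result 308: the function spectrum of section 10: `InvMaps`, `ℂP^N × ℂP^N`, degrees, monomials

* `Coh.invMapsEquiv`: the points of `InvMaps Y R A` are the continuous maps `Quot R → A` out of the
  quotient SPACE (bijection), as the doc-string of `InvMaps` says.
* `Coh.linesEquiv`: the quotient of `S^{2N+1} × S^{2N+1}` by `sameLines N` is, as a set,
  `ℙ(ℂ^{N+1}) × ℙ(ℂ^{N+1})` for Mathlib's `Projectivization`.
* `Coh.deg_xTensor`, `Coh.deg_cohTerm`: the left side of `IsFGLFamily` has degree `-2`, the term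
  `f · x₁^i x₂^j` has degree `|f| - 2 (i + j)`; they agree iff `|f| = 2 (i + j - 1)`
  (`Coh.deg_cohTerm_eq_iff`), the degree of `a_{ij}` in the papers.
* `Coh.isZeroSec_xMonomial`: every value of `x₁^i x₂^j` is a point `(1, P, 0)` of the zero section
  of `MU(i + j)`, never the base point (`Coh.xMonomial_ne_pt`).
-/

set_option autoImplicit false

open scoped unitInterval Topology
open InnerProductSpace

noncomputable section

namespace Claimed.Open.R308

namespace Coh

open Lines

/-- The vector space `ℂ^{N+1}`. -/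
local notation "V" N => EuclideanSpace ℂ (Fin (N + 1))

/-! ### `InvMaps Y R A` is the set of continuous maps out of the quotient space -/

/-- The points of `InvMaps Y R A` are the continuous maps `Quot R → A`. -/
def invMapsEquiv (Y : Type) [TopologicalSpace Y] (R : Y → Y → Prop) (A : Ptd) :
    InvMaps Y R A ≃ C(Quot R, A) where
  toFun φ := ⟨Quot.lift φ.1 φ.2, continuous_quot_lift φ.2 φ.1.continuous⟩
  invFun ψ := ⟨ψ.comp ⟨Quot.mk R, continuous_quot_mk⟩, fun y y' h => by
    change ψ (Quot.mk R y) = ψ (Quot.mk R y')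
    rw [Quot.sound h]⟩
  left_inv φ := Subtype.ext (ContinuousMap.ext fun _ => rfl)
  right_inv ψ := ContinuousMap.ext fun q => by
    induction q using Quot.ind
    rfl

/-- The base point corresponds to the constant map. -/
theorem invMapsEquiv_pt (Y : Type) [TopologicalSpace Y] (R : Y → Y → Prop) (A : Ptd) :
    invMapsEquiv Y R A (InvMaps Y R A).pt = ContinuousMap.const _ A.pt :=
  ContinuousMap.ext fun q => by
    induction q using Quot.ind
    rfl

/-! ### degrees -/

/-- The left side of `IsFGLFamily` has degree `-2`: a class of `MU^2(ℂP^N × ℂP^N)`. -/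
theorem deg_xTensor (N : ℕ) : (MUcoh N).deg ⟨1, 0, pointLoop (xTensor N)⟩ = -2 := by
  simp [StableSystem.deg]

/-- The term `f · x₁^i x₂^j` has degree `|f| - 2 (i + j)`. -/
theorem deg_cohTerm (N : ℕ) (f : MUsys.Rep) (i j : ℕ) :
    (MUcoh N).deg (cohTerm N f i j) = MUsys.deg f - 2 * ((i : ℤ) + j) := by
  simp only [StableSystem.deg, cohTerm]
  push_cast
  ring

/-- The two sides of `IsFGLFamily` have the same degree iff `|a_{ij}| = 2 (i + j - 1)`. -/
theorem deg_cohTerm_eq_iff (N : ℕ) (f : MUsys.Rep) (i j : ℕ) :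
    (MUcoh N).deg (cohTerm N f i j) = (MUcoh N).deg ⟨1, 0, pointLoop (xTensor N)⟩ ↔
      MUsys.deg f = 2 * ((i : ℤ) + j - 1) := by
  rw [deg_cohTerm, deg_xTensor]
  constructor <;> intro h <;> linarith

/-! ### the quotient by `sameLines` is `ℙ(ℂ^{N+1}) × ℙ(ℂ^{N+1})` -/

/-- The pair of lines spanned by a pair of unit vectors, in Mathlib's projective space. -/
def toLines {N : ℕ} (y : Sph N × Sph N) : Projectivization ℂ (V N) × Projectivization ℂ (V N) :=
  (Projectivization.mk ℂ (y.1 : V N) (coe_ne_zero y.1),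
    Projectivization.mk ℂ (y.2 : V N) (coe_ne_zero y.2))

theorem toLines_eq_iff {N : ℕ} (y y' : Sph N × Sph N) :
    toLines y = toLines y' ↔ sameLines N y y' := by
  simp only [toLines, Prod.mk.injEq, Projectivization.mk_eq_mk_iff']
  constructor
  · rintro ⟨⟨a, ha⟩, ⟨b, hb⟩⟩
    exact sameLines_symm ⟨a, b, ha.symm, hb.symm⟩
  · intro h
    obtain ⟨a, b, ha, hb⟩ := sameLines_symm h
    exact ⟨⟨a, ha.symm⟩, ⟨b, hb.symm⟩⟩

theorem toLines_surjective {N : ℕ} : Function.Surjective (toLines (N := N)) := by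
  have key : ∀ p : Projectivization ℂ (V N),
      ∃ v : Sph N, Projectivization.mk ℂ (v : V N) (coe_ne_zero v) = p := by
    intro p
    induction p using Projectivization.ind with
    | _ v hv =>
      refine ⟨⟨((‖v‖⁻¹ : ℝ) : ℂ) • v, by simp [norm_smul, hv]⟩, ?_⟩
      rw [Projectivization.mk_eq_mk_iff']
      exact ⟨((‖v‖⁻¹ : ℝ) : ℂ), rfl⟩
  rintro ⟨p, q⟩
  obtain ⟨v, rfl⟩ := key p
  obtain ⟨w, rfl⟩ := key q
  exact ⟨(v, w), rfl⟩

/-- `(S^{2N+1} × S^{2N+1}) / sameLines = ℙ(ℂ^{N+1}) × ℙ(ℂ^{N+1})`. -/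
def linesEquiv (N : ℕ) :
    Quot (sameLines N) ≃ Projectivization ℂ (V N) × Projectivization ℂ (V N) :=
  Equiv.ofBijective (Quot.lift toLines fun y y' h => (toLines_eq_iff y y').2 h)
    ⟨by
      intro q q' h
      induction q using Quot.ind
      induction q' using Quot.ind
      exact Quot.sound ((toLines_eq_iff _ _).1 h),
    by
      intro p
      obtain ⟨y, rfl⟩ := toLines_surjective p
      exact ⟨Quot.mk _ y, rfl⟩⟩

/-- So a point of `CohSpace N a` is a continuous map out of the quotient space, whose points are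
the pairs of lines. -/
def cohSpaceEquiv (N a : ℕ) : CohSpace N a ≃ C(Quot (sameLines N), MU a) := invMapsEquiv _ _ _

/-! ### the monomials take their values in the zero section -/

theorem toAmb_muMul {m n : ℕ} (x : MU m) (y : MU n) :
    toAmb ((muMul m n).toMap (x, y)) = ambMul (toAmb x) (toAmb y) := rfl

/-- A point `(1, P, 0)`: a point `(W, 0)` of the zero section of `MU(n)`. -/
def IsZeroSec {n : ℕ} (x : MU n) : Prop := (toAmb x).1 = 1 ∧ (toAmb x).2.2 = 0

theorem IsZeroSec.mul {m n : ℕ} {x : MU m} {y : MU n} (hx : IsZeroSec x) (hy : IsZeroSec y) :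
    IsZeroSec ((muMul m n).toMap (x, y)) := by
  constructor
  · rw [toAmb_muMul]; simp [ambMul, hx.1, hy.1]
  · rw [toAmb_muMul]; simp [ambMul, hx.2, hy.2]

theorem isZeroSec_muOne : IsZeroSec muOne := by
  constructor
  · change (thomPoint _ _ : Amb 0).1 = 1; simp [thomPoint]
  · change (thomPoint _ _ : Amb 0).2.2 = 0; simp [thomPoint]

theorem IsZeroSec.pow {x : MU 1} (hx : IsZeroSec x) : ∀ i, IsZeroSec (muPow i x)
  | 0 => isZeroSec_muOne
  | i + 1 => (IsZeroSec.pow hx i).mul hx

theorem IsZeroSec.ne_pt {n : ℕ} {x : MU n} (hx : IsZeroSec x) : x ≠ (MU n).pt := fun h => by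
  have h0 : (toAmb x).1 = 0 := by rw [h]; rfl
  rw [hx.1] at h0
  exact one_ne_zero h0

theorem isZeroSec_xFst {N : ℕ} (y : Sph N × Sph N) : IsZeroSec ((xFst N).1 y) := ⟨rfl, rfl⟩

theorem isZeroSec_xSnd {N : ℕ} (y : Sph N × Sph N) : IsZeroSec ((xSnd N).1 y) := ⟨rfl, rfl⟩

theorem isZeroSec_xTensor {N : ℕ} (y : Sph N × Sph N) : IsZeroSec ((xTensor N).1 y) := ⟨rfl, rfl⟩

/-- Every value of `x₁^i x₂^j` is a point of the zero section of `MU(i + j)`: the monomial is the
Euler class of `L₁^{⊕ i} ⊕ L₂^{⊕ j}`, written as zero section after classifying map. -/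
theorem isZeroSec_xMonomial (N i j : ℕ) (y : Sph N × Sph N) :
    IsZeroSec ((xMonomial N i j).1 y) :=
  ((isZeroSec_xFst y).pow i).mul ((isZeroSec_xSnd y).pow j)

theorem xMonomial_ne_pt (N i j : ℕ) (y : Sph N × Sph N) :
    (xMonomial N i j).1 y ≠ (MU (i + j)).pt := (isZeroSec_xMonomial N i j y).ne_pt

/-- NON-example: the base point `∞` is not in the zero section. -/
theorem not_isZeroSec_pt (n : ℕ) : ¬ IsZeroSec (MU n).pt := fun h => h.ne_pt rfl

end Coh

end Claimed.Open.R308
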