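import Claimed.Open.R308.SanitySphere
import Claimed.Open.R308.SanityDegCore

/-!
# Result 308: `π_0` of the sphere spectrum contains `ℤ`, and the sphere spectrum is not `p`-local

`SanitySphere.lean` shows `1 ≠ 0` in `π_0(S)`.  Here the *degree* gives the teeth of the predicates
`IsPLocalization` and `IsFinitePLocal` of `Statement.lean` on a spectrum that is not trivial:

* `zsmul_cls_unitRep_ne_zero`: `a · 1 ≠ 0` in `π⋆(S)` for every integer `a ≠ 0`;
* `nsmul_ne_cls_unitRep`: `1 ∈ π⋆(S)` is not divisible by any prime `ℓ`;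
* `not_isPLocalization_to_sphere`: **non-example**: no map `Y ⟶ S` of the stable homotopy category is a `p`-localisation
  (in particular the identity of `S` is not one: `not_isPLocalization_id_sphere`);
* `not_isFinitePLocal_sphereSpectrum`: **non-example**: the sphere spectrum, a finite CW spectrum, is *not* a finite
  `p`-local spectrum.

**Proof.**  `SanityDegCore.lean` (model free; Alexander–Spanier cohomology of `Claimed/Agent/R304/As*.lean` with coefficients in
`ℚ` and in `ℤ/ℓ`): if `X` is a Hausdorff space and the cube `c : (I^n, ∂I^n) → (X, x₀)` induces a bijection `I^n/∂I^n → X`, then the class of `c`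
in Mathlib's `π_n(X, x₀)` has infinite order and is not an `ℓ`-th power.  Here: the maps `Γ_m` of `SanityDegree.lean` are injective, so that
`Σ^m S⁰` is a Hausdorff space (`t2Space_iterSusp`); the fundamental cubes `fundCube (M + 1)` are such collapse maps (`isCollapse_fundCube`); the homomorphism
`germHom` of `SanityNonzero.lean`, from the presented group `π⋆(S)` to the germs at infinity of sequences in `∏_M π_{M+2}(Σ^{M+2} S⁰)`, carries
a relation `a · 1 = 0` or `ℓ · x = 1` to the same relation in some `π_{M+2}(Σ^{M+2} S⁰)`.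
-/

set_option autoImplicit false

open scoped unitInterval Topology Topology.Homotopy
open CategoryTheory

noncomputable section

namespace Claimed.Open.R308

/-! ## 1. `Γ_m` is injective: `Σ^m S⁰` is a Hausdorff space -/

theorem degBeta_eq_zero_iff {τ : I} : degBeta τ = 0 ↔ τ = 0 ∨ τ = 1 := by
  constructor
  · intro h
    unfold degBeta at h
    rcases mul_eq_zero.1 h with h1 | h1
    · left
      apply Subtype.ext
      show (τ : ℝ) = 0
      linarith
    · right
      apply Subtype.ext
      show (τ : ℝ) = 1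
      linarith
  · rintro (rfl | rfl)
    · exact degBeta_zero
    · exact degBeta_one

theorem four_mul_degKappa (τ : I) : 4 * degKappa τ = degBeta τ * (2 * (τ : ℝ) - 1) := by
  unfold degKappa degBeta
  ring

/-- The coordinates `k ≥ m` of `Γ_m` vanish. -/
theorem degG_fst_of_le : ∀ (m : ℕ) (y : S0.iterSusp m) (k : ℕ), m ≤ k → (degG m y).1 k = 0
  | 0, y, k, _ => by
    show (degZero y).1 k = 0
    unfold degZero
    split_ifs <;> rfl
  | m + 1, y, k, hk => by
    obtain ⟨x, τ, rfl⟩ := degSuspMk_surjective y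
    rw [degG_succ_mk]
    have hkm : k ≠ m := by omega
    show (if k = m then _ else (degG m x).1 k * degBeta τ) = 0
    rw [if_neg hkm, degG_fst_of_le m x k (by omega), zero_mul]

theorem degSuspMk_eq_pt {m : ℕ} {x : S0.iterSusp m} {τ : I}
    (h : x = (S0.iterSusp m).pt ∨ τ = 0 ∨ τ = 1) : degSuspMk x τ = (S0.iterSusp (m + 1)).pt :=
  Quotient.sound (Or.inr ⟨h, Or.inl rfl⟩)

theorem degSuspMk_eq_pt_iff {m : ℕ} {x : S0.iterSusp m} {τ : I} :
    degSuspMk x τ = (S0.iterSusp (m + 1)).pt ↔ x = (S0.iterSusp m).pt ∨ τ = 0 ∨ τ = 1 := by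
  constructor
  · intro h
    rcases Quotient.exact h with h1 | ⟨h1, _⟩
    · exact Or.inl (congrArg Prod.fst h1)
    · exact h1
  · exact degSuspMk_eq_pt

theorem degSuspMk_inj {m : ℕ} {x x' : S0.iterSusp m} {τ τ' : I}
    (h : degSuspMk x τ = degSuspMk x' τ') (hne : degSuspMk x τ ≠ (S0.iterSusp (m + 1)).pt) :
    x = x' ∧ τ = τ' := by
  rcases Quotient.exact h with h1 | ⟨h1, _⟩
  · exact ⟨congrArg Prod.fst h1, congrArg Prod.snd h1⟩
  · exact absurd (degSuspMk_eq_pt h1) hne

/-- The last coordinate of `Γ_m` vanishes at the base point only. -/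
theorem eq_pt_of_degG_snd : ∀ (m : ℕ) (y : S0.iterSusp m), (degG m y).2 = 0 → y = (S0.iterSusp m).pt
  | 0, y, h => by
    have hy : ∀ b : Bool, (degZero b).2 = 0 → b = false := by
      intro b hb
      cases b
      · rfl
      · simp [degZero] at hb
    exact hy y h
  | m + 1, y, h => by
    obtain ⟨x, τ, rfl⟩ := degSuspMk_surjective y
    have h' : (degG m x).2 * degBeta τ = 0 := h
    rcases mul_eq_zero.1 h' with h1 | h1
    · exact degSuspMk_eq_pt (Or.inl (eq_pt_of_degG_snd m x h1))
    · exact degSuspMk_eq_pt (Or.inr (degBeta_eq_zero_iff.1 h1))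

/-- **The maps `Γ_m : Σ^m S⁰ → ℝ^ℕ × ℝ` are injective.** -/
theorem degG_injective : ∀ m : ℕ, Function.Injective (degG m)
  | 0 => by
    have hy : ∀ a b : Bool, degZero a = degZero b → a = b := by
      intro a b h
      have h2 := congrArg Prod.snd h
      cases a <;> cases b <;> simp [degZero] at h2 ⊢
    exact fun a b h => hy a b h
  | m + 1 => by
    intro y y' h
    obtain ⟨x, τ, rfl⟩ := degSuspMk_surjective y
    obtain ⟨x', τ', rfl⟩ := degSuspMk_surjective y'
    have h2 : (degG m x).2 * degBeta τ = (degG m x').2 * degBeta τ' := congrArg Prod.snd h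
    have h1 : ∀ k : ℕ, (if k = m then (degG m x).2 * degKappa τ else (degG m x).1 k * degBeta τ) =
        (if k = m then (degG m x').2 * degKappa τ' else (degG m x').1 k * degBeta τ') :=
      fun k => congrFun (congrArg Prod.fst h) k
    by_cases h0 : (degG m x).2 * degBeta τ = 0
    · rw [eq_pt_of_degG_snd (m + 1) (degSuspMk x τ) h0,
        eq_pt_of_degG_snd (m + 1) (degSuspMk x' τ') (h2.symm.trans h0)]
    · have hb : degBeta τ ≠ 0 := right_ne_zero_of_mul h0
      have hm := h1 m
      rw [if_pos rfl, if_pos rfl] at hm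
      have hτ : (τ : ℝ) = τ' := by
        have e1 : (degG m x).2 * degBeta τ * (2 * (τ : ℝ) - 1) =
            (degG m x).2 * degBeta τ * (2 * (τ' : ℝ) - 1) := by
          calc (degG m x).2 * degBeta τ * (2 * (τ : ℝ) - 1)
              = 4 * ((degG m x).2 * degKappa τ) := by
                rw [mul_assoc, ← four_mul_degKappa]; ring
            _ = 4 * ((degG m x').2 * degKappa τ') := by rw [hm]
            _ = (degG m x').2 * degBeta τ' * (2 * (τ' : ℝ) - 1) := by
                rw [mul_assoc, ← four_mul_degKappa]; ring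
            _ = (degG m x).2 * degBeta τ * (2 * (τ' : ℝ) - 1) := by rw [h2]
        have e2 := mul_left_cancel₀ h0 e1
        linarith
      obtain rfl : τ = τ' := Subtype.ext hτ
      have hx : degG m x = degG m x' := by
        refine Prod.ext (funext fun k => ?_) (mul_right_cancel₀ hb h2)
        by_cases hk : k = m
        · rw [hk, degG_fst_of_le m x m le_rfl, degG_fst_of_le m x' m le_rfl]
        · have e := h1 k
          rw [if_neg hk, if_neg hk] at e
          exact mul_right_cancel₀ hb e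
      rw [degG_injective m hx]

/-- **The spheres `Σ^m S⁰` of `Statement.lean` (iterated quotient spaces) are Hausdorff spaces.** -/
instance t2Space_iterSusp (m : ℕ) : T2Space (S0.iterSusp m) :=
  T2Space.of_injective_continuous (degG_injective m) (continuous_degG m)

/-! ## 2. The fundamental cubes are collapse maps `I^M → I^M / ∂I^M = Σ^M S⁰` -/

theorem fundCube_succ_apply (M : ℕ) (t : Fin (M + 1) → I) :
    fundCube (M + 1) t =
      degSuspMk (fundCube M fun i => t (Fin.castAdd 1 i)) (t (Fin.natAdd M 0)) := rfl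

theorem fundCube_bd : ∀ (M : ℕ) (t : Fin M → I), fundCube M t = (S0.iterSusp M).pt →
    t ∈ Cube.boundary (Fin M)
  | 0, _, h => by
    have h' : (true : Bool) = false := h
    exact absurd h' (by simp)
  | M + 1, t, h => by
    rw [fundCube_succ_apply, degSuspMk_eq_pt_iff] at h
    rcases h with h | h
    · obtain ⟨i, hi⟩ := fundCube_bd M _ h
      exact ⟨Fin.castAdd 1 i, hi⟩
    · exact ⟨Fin.natAdd M 0, h⟩

theorem fundCube_inj : ∀ (M : ℕ) (a b : Fin M → I), fundCube M a ≠ (S0.iterSusp M).pt →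
    fundCube M a = fundCube M b → a = b
  | 0, _, _, _, _ => Subsingleton.elim _ _
  | M + 1, a, b, hne, h => by
    rw [fundCube_succ_apply] at hne
    rw [fundCube_succ_apply, fundCube_succ_apply] at h
    obtain ⟨h1, h2⟩ := degSuspMk_inj h hne
    have hne' : fundCube M (fun i => a (Fin.castAdd 1 i)) ≠ (S0.iterSusp M).pt :=
      fun h0 => hne (degSuspMk_eq_pt (Or.inl h0))
    have h3 := fundCube_inj M _ _ hne' h1
    funext i
    induction i using Fin.addCases with
    | left i => exact congrFun h3 i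
    | right j =>
      obtain rfl : j = 0 := Subsingleton.elim _ _
      exact h2

theorem fundCube_surj : ∀ (M : ℕ) (y : S0.iterSusp M), y ≠ (S0.iterSusp M).pt →
    ∃ t, fundCube M t = y
  | 0, y, hy => by
    have hb : ∀ b : Bool, b ≠ false → true = b := by
      intro b hb
      cases b
      · exact absurd rfl hb
      · rfl
    exact ⟨fun i => i.elim0, hb y hy⟩
  | M + 1, y, hy => by
    obtain ⟨x, τ, rfl⟩ := degSuspMk_surjective y
    have hx : x ≠ (S0.iterSusp M).pt := fun h0 => hy (degSuspMk_eq_pt (Or.inl h0))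
    obtain ⟨t, rfl⟩ := fundCube_surj M x hx
    refine ⟨Fin.append t (fun _ => τ), ?_⟩
    rw [fundCube_succ_apply]
    have e1 : (fun i => Fin.append t (fun _ : Fin 1 => τ) (Fin.castAdd 1 i)) = t :=
      funext fun i => Fin.append_left _ _ i
    have e2 : Fin.append t (fun _ : Fin 1 => τ) (Fin.natAdd M 0) = τ := Fin.append_right _ _ 0
    rw [e1, e2]

/-- **The fundamental cube of `Σ^{M+1} S⁰` induces a bijection `I^{M+1} / ∂I^{M+1} → Σ^{M+1} S⁰`.** -/
theorem isCollapse_fundCube (M : ℕ) : IsCollapse (fundCube (M + 1)) where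
  surj y := by
    by_cases hy : y = (S0.iterSusp (M + 1)).pt
    · exact ⟨fun _ => 0, by rw [hy]; exact GenLoop.boundary _ _ ⟨0, Or.inl rfl⟩⟩
    · exact fundCube_surj _ y hy
  inj := fundCube_inj _
  bd a h := fundCube_bd _ a h

/-! ## 3. The unit of `π_0(S)`: infinite order, not divisible -/

theorem trackSeq_unitRep (M : ℕ) :
    trackSeq sphereSpectrum unitRep M = levelCls sphereSpectrum M (fundCube (M + 2)) := by
  have h : track sphereSpectrum unitRep (M + 2) = fundCube (M + 2) :=
    (track_pointLoop sphereSpectrum (true : Bool) (M + 2)).trans (iterStab_sphereSpectrum (M + 2))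
  show levelCls sphereSpectrum M (track sphereSpectrum unitRep (M + 2)) = _
  rw [h]

theorem germHom_unitRep : germHom sphereSpectrum (sphereSpectrum.sys.cls unitRep) =
    QuotientAddGroup.mk (trackSeq sphereSpectrum unitRep) := by
  rw [germHom, StableSystem.piLift_cls]

/-- **`1 ∈ π⋆(S)` is not divisible by a prime `ℓ`.** -/
theorem nsmul_ne_cls_unitRep (ℓ : ℕ) [Fact ℓ.Prime] (x : sphereSpectrum.sys.PiStar) :
    ℓ • x ≠ sphereSpectrum.sys.cls unitRep := by
  intro h
  have h1 := congrArg (germHom sphereSpectrum) h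
  rw [map_nsmul, germHom_unitRep] at h1
  obtain ⟨s, hs⟩ := QuotientAddGroup.mk_surjective (germHom sphereSpectrum x)
  rw [← hs, ← QuotientAddGroup.mk_nsmul, QuotientAddGroup.eq] at h1
  obtain ⟨M₀, hM⟩ := h1
  have h2 : -(ℓ • s M₀) + trackSeq sphereSpectrum unitRep M₀ = 0 := hM M₀ le_rfl
  rw [trackSeq_unitRep] at h2
  have h3 : levelCls sphereSpectrum M₀ (fundCube (M₀ + 2)) = ℓ • s M₀ :=
    (neg_add_eq_zero.1 h2).symm
  exact (isCollapse_fundCube (M₀ + 1)).ne_pow ℓ (Additive.toMul (s M₀))
    (congrArg Additive.toMul h3)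

/-- `1 ∈ π⋆(S)` has infinite order. -/
theorem nsmul_cls_unitRep_ne_zero (a : ℕ) (ha : a ≠ 0) :
    a • sphereSpectrum.sys.cls unitRep ≠ 0 := by
  intro h
  have h1 := congrArg (germHom sphereSpectrum) h
  rw [map_nsmul, germHom_unitRep, map_zero, ← QuotientAddGroup.mk_nsmul,
    QuotientAddGroup.eq_zero_iff] at h1
  obtain ⟨M₀, hM⟩ := h1
  have h2 : a • trackSeq sphereSpectrum unitRep M₀ = 0 := hM M₀ le_rfl
  rw [trackSeq_unitRep] at h2
  exact (isCollapse_fundCube (M₀ + 1)).pow_ne_one a ha (congrArg Additive.toMul h2)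

/-- **`a · 1 ≠ 0` in `π⋆(S)` for every integer `a ≠ 0`**: the homomorphism `ℤ → π_0(S)` is injective. -/
theorem zsmul_cls_unitRep_ne_zero (a : ℤ) (ha : a ≠ 0) :
    a • sphereSpectrum.sys.cls unitRep ≠ 0 := by
  intro h
  apply nsmul_cls_unitRep_ne_zero a.natAbs (Int.natAbs_ne_zero.2 ha)
  rw [← natCast_zsmul]
  rcases Int.natAbs_eq a with h' | h'
  · rw [← h']
    exact h
  · have e : ((a.natAbs : ℕ) : ℤ) = -a := by omega
    rw [e, neg_smul, h, neg_zero]

theorem injective_zsmul_cls_unitRep :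
    Function.Injective fun a : ℤ => a • sphereSpectrum.sys.cls unitRep := by
  intro a b h
  by_contra hab
  apply zsmul_cls_unitRep_ne_zero (a - b) (sub_ne_zero.2 hab)
  rw [sub_smul]
  exact sub_eq_zero.2 h

/-! ## 4. The sphere spectrum is not `p`-local -/

/-- Multiplication by a prime `ℓ` is not onto `π⋆` of the sphere spectrum, seen in the stable homotopy category. -/
theorem not_surjective_nsmul_piSHC_sphere (ℓ : ℕ) [Fact ℓ.Prime] :
    ¬ Function.Surjective fun z : piSHC.obj (toSHC.obj sphereSpectrum) => ℓ • z := by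
  intro hs
  let e : piSHC.obj (toSHC.obj sphereSpectrum) ≃+ sphereSpectrum.sys.PiStar :=
    (piSHCIso.app sphereSpectrum).addCommGroupIsoToAddEquiv
  obtain ⟨z, hz⟩ := hs (e.symm (sphereSpectrum.sys.cls unitRep))
  have hz' : ℓ • z = e.symm (sphereSpectrum.sys.cls unitRep) := hz
  apply nsmul_ne_cls_unitRep ℓ (e z)
  rw [← map_nsmul, hz', e.apply_symm_apply]

theorem exists_prime_not_dvd {p : ℕ} (hp : p.Prime) :
    ∃ ℓ : ℕ, ℓ.Prime ∧ ¬ (p : ℤ) ∣ (ℓ : ℤ) := by
  obtain ⟨ℓ, hℓ, hne⟩ : ∃ ℓ : ℕ, ℓ.Prime ∧ ℓ ≠ p := by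
    by_cases h2 : p = 2
    · exact ⟨3, Nat.prime_three, by omega⟩
    · exact ⟨2, Nat.prime_two, fun h => h2 h.symm⟩
  refine ⟨ℓ, hℓ, fun hd => hne ?_⟩
  exact ((Nat.prime_dvd_prime_iff_eq hp hℓ).1 (Int.natCast_dvd_natCast.1 hd)).symm

/-- On the target of a `p`-localisation, multiplication by a prime `ℓ ≠ p` is onto. -/
theorem IsPLocalization.surjective_nsmul {p : ℕ} (hp : p.Prime) {Y Z : SHC} {f : Y ⟶ Z}
    (hf : IsPLocalization p f) {ℓ : ℕ} (hℓ : ¬ (p : ℤ) ∣ (ℓ : ℤ)) :
    Function.Surjective fun z : piSHC.obj Z => ℓ • z := by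
  have hu := hf.isUnit_of_not_dvd hp hℓ
  rw [Module.End.isUnit_iff] at hu
  intro u
  obtain ⟨z, hz⟩ := hu.2 u
  refine ⟨z, ?_⟩
  rw [Module.algebraMap_end_apply] at hz
  show ℓ • z = u
  rw [← hz, natCast_zsmul]

/-- **Non-example**: no map to the sphere spectrum is a `p`-localisation: the sphere spectrum is not `p`-local. -/
theorem not_isPLocalization_to_sphere {p : ℕ} (hp : p.Prime) {Y : SHC}
    (f : Y ⟶ toSHC.obj sphereSpectrum) : ¬ IsPLocalization p f := by
  intro hf
  obtain ⟨ℓ, hℓ, hd⟩ := exists_prime_not_dvd hp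
  have : Fact ℓ.Prime := ⟨hℓ⟩
  exact not_surjective_nsmul_piSHC_sphere ℓ (hf.surjective_nsmul hp hd)

/-- **Non-example**: the identity of the sphere spectrum is not a `p`-localisation. -/
theorem not_isPLocalization_id_sphere {p : ℕ} (hp : p.Prime) :
    ¬ IsPLocalization p (𝟙 (toSHC.obj sphereSpectrum)) :=
  not_isPLocalization_to_sphere hp _

/-- **Non-example**: the sphere spectrum (a finite CW spectrum) is not a finite `p`-local spectrum. -/
theorem not_isFinitePLocal_sphereSpectrum {p : ℕ} (hp : p.Prime) :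
    ¬ IsFinitePLocal p (toSHC.obj sphereSpectrum) := by
  rintro ⟨Y, Z, f, -, hf, ⟨r⟩⟩
  obtain ⟨ℓ, hℓ, hd⟩ := exists_prime_not_dvd hp
  have : Fact ℓ.Prime := ⟨hℓ⟩
  apply not_surjective_nsmul_piSHC_sphere ℓ
  intro u
  obtain ⟨z, hz⟩ := hf.surjective_nsmul hp hd ((piSHC.map r.i).hom u)
  have hz' : ℓ • z = (piSHC.map r.i).hom u := hz
  have h1 : (piSHC.map r.r).hom ((piSHC.map r.i).hom u) = u := by
    have e : piSHC.map r.i ≫ piSHC.map r.r = 𝟙 _ := by
      rw [← piSHC.map_comp, r.retract, piSHC.map_id]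
    have := congrArg (fun g => g.hom u) e
    simpa using this
  refine ⟨(piSHC.map r.r).hom z, ?_⟩
  show ℓ • (piSHC.map r.r).hom z = u
  rw [← map_nsmul, hz', h1]

end Claimed.Open.R308
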