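import Claimed.Open.R308.SanityHopfGen
import Claimed.Open.R308.SanityDegree2

/-!
# Result 308: `π_0` of the sphere spectrum is `ℤ`, generated by `1`

`SanityDegree2.lean` shows `ℤ ↪ π_0(S)` for the presented group `π⋆` of `Statement.lean`: the relations are not too many.  Here: they are enough.

* `Spectrum.levelToPi`: the homomorphism `π_N(X_i) → π⋆(X)`, `[g] ↦ [g]`, from Mathlib's homotopy group of a space of a spectrum;
* `cls_fundCube`: the collapse map `I^M → Σ^M S⁰` represents `1 ∈ π_0(S)`;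
* `piDeg_zero_sphereSpectrum`: **`π_0(S)` is the subgroup generated by `1`** (Hopf's theorem `Hopf.IsCollapse.generates` of `SanityHopfGen.lean`: `π_n(Iⁿ/∂Iⁿ)` is generated by the collapse map);
* `piZeroSphereEquiv : ℤ ≃+ π_0(S)`, `k ↦ k · 1`;
* `eq_zsmul_of_mem_piDeg_zero`, `addMonoidHom_ext_piDeg_zero`: consequences.
-/

set_option autoImplicit false

open scoped unitInterval Topology Topology.Homotopy
open CategoryTheory

noncomputable section

namespace Claimed.Open.R308

/-- The map `π_N(X_i) → π⋆(X)`, `[g] ↦ [g]`. -/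
def Spectrum.levelFun (X : Spectrum) (i N : ℕ)
    (a : HomotopyGroup (Fin N) (X.space i) (X.space i).pt) : Multiplicative X.sys.PiStar :=
  Quotient.lift (fun g : Loops N (X.space i) => Multiplicative.ofAdd (X.sys.cls ⟨i, N, g⟩))
    (fun _ _ h => congrArg Multiplicative.ofAdd (X.sys.cls_htpy (i := i) h)) a

theorem Spectrum.levelFun_hcls (X : Spectrum) (i N : ℕ) (g : Loops N (X.space i)) :
    X.levelFun i N (hcls g) = Multiplicative.ofAdd (X.sys.cls ⟨i, N, g⟩) := rfl

/-- The homomorphism `π_N(X_i) → π⋆(X)` from Mathlib's homotopy group of the space `X_i`. -/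
def Spectrum.levelToPi (X : Spectrum) (i N : ℕ) [Nonempty (Fin N)] :
    HomotopyGroup (Fin N) (X.space i) (X.space i).pt →* Multiplicative X.sys.PiStar :=
  MonoidHom.mk' (X.levelFun i N) (fun a b => by
    obtain ⟨f, rfl⟩ : ∃ f, hcls f = a := Quotient.exists_rep a
    obtain ⟨g, rfl⟩ : ∃ g, hcls g = b := Quotient.exists_rep b
    rw [hcls_mul (Classical.arbitrary (Fin N)) f g, X.levelFun_hcls, X.levelFun_hcls,
      X.levelFun_hcls, X.sys.cls_transAt (i := i), add_comm]
    rfl)

theorem Spectrum.levelToPi_hcls (X : Spectrum) (i N : ℕ) [Nonempty (Fin N)]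
    (g : Loops N (X.space i)) :
    X.levelToPi i N (hcls g) = Multiplicative.ofAdd (X.sys.cls ⟨i, N, g⟩) := rfl

/-- The stabilisations of a point of `X_0` have the class of the point. -/
theorem cls_iterStab (X : Spectrum) (x : X.space 0) :
    ∀ M, X.sys.cls ⟨M, M, iterStab X x M⟩ = X.sys.cls ⟨0, 0, pointLoop x⟩
  | 0 => rfl
  | M + 1 => (X.sys.cls_stab () M (iterStab X x M)).symm.trans (cls_iterStab X x M)

/-- The collapse map `I^M → Σ^M S⁰` represents `1 ∈ π_0(S)`. -/
theorem cls_fundCube (M : ℕ) :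
    sphereSpectrum.sys.cls ⟨M, M, fundCube M⟩ = sphereSpectrum.sys.cls unitRep := by
  rw [← iterStab_sphereSpectrum M]
  exact cls_iterStab sphereSpectrum (true : Bool) M

/-- A cube `I^{M+1} → Σ^{M+1} S⁰` represents a multiple of `1` (Hopf). -/
theorem exists_zsmul_cls_level (M : ℕ) (g : Loops (M + 1) (sphereSpectrum.space (M + 1))) :
    ∃ k : ℤ, sphereSpectrum.sys.cls ⟨M + 1, M + 1, g⟩ = k • sphereSpectrum.sys.cls unitRep := by
  have hT : T2Space (sphereSpectrum.space (M + 1)) := t2Space_iterSusp (M + 1)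
  obtain ⟨k, hk⟩ := Subgroup.mem_zpowers_iff.1
    (Hopf.IsCollapse.generates (isCollapse_fundCube M) (hcls g))
  refine ⟨k, ?_⟩
  have h1 : sphereSpectrum.levelToPi (M + 1) (M + 1) (hcls (fundCube (M + 1))) ^ k =
      sphereSpectrum.levelToPi (M + 1) (M + 1) (hcls g) :=
    (map_zpow (sphereSpectrum.levelToPi (M + 1) (M + 1)) (hcls (fundCube (M + 1))) k).symm.trans
      (congrArg (sphereSpectrum.levelToPi (M + 1) (M + 1)) hk)
  have h2 := congrArg Multiplicative.toAdd h1
  rw [toAdd_zpow] at h2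
  have h3 : k • sphereSpectrum.sys.cls ⟨M + 1, M + 1, fundCube (M + 1)⟩ =
      sphereSpectrum.sys.cls ⟨M + 1, M + 1, g⟩ := h2
  rw [← h3, cls_fundCube]

theorem cls_unitRep_mem_piDeg_zero :
    sphereSpectrum.sys.cls unitRep ∈ sphereSpectrum.sys.piDeg 0 := by
  have h := sphereSpectrum.sys.cls_mem_piDeg unitRep
  rwa [deg_unitRep] at h

/-- **`π_0(S)` is generated by `1`.** -/
theorem piDeg_zero_sphereSpectrum :
    sphereSpectrum.sys.piDeg 0 = AddSubgroup.zmultiples (sphereSpectrum.sys.cls unitRep) := by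
  apply le_antisymm
  · refine (AddSubgroup.closure_le _).2 ?_
    rintro _ ⟨⟨i, N, g⟩, hr, rfl⟩
    have hr' : (N : ℤ) - (i : ℤ) = 0 := hr
    obtain rfl : N = i := by omega
    show sphereSpectrum.sys.cls ⟨N, N, g⟩ ∈ AddSubgroup.zmultiples (sphereSpectrum.sys.cls unitRep)
    cases N with
    | zero =>
      rw [sphereSpectrum.sys.cls_stab () 0 g]
      obtain ⟨k, hk⟩ := exists_zsmul_cls_level 0 ((sphereSpectrum.bond 0).onLoops g)
      exact AddSubgroup.mem_zmultiples_iff.2 ⟨k, hk.symm⟩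
    | succ M =>
      obtain ⟨k, hk⟩ := exists_zsmul_cls_level M g
      exact AddSubgroup.mem_zmultiples_iff.2 ⟨k, hk.symm⟩
  · rw [AddSubgroup.zmultiples_le]
    exact cls_unitRep_mem_piDeg_zero

/-- Every class of degree `0` of the sphere spectrum is an integer multiple of `1`, for exactly one integer. -/
theorem eq_zsmul_of_mem_piDeg_zero {x : sphereSpectrum.sys.PiStar}
    (hx : x ∈ sphereSpectrum.sys.piDeg 0) : ∃! k : ℤ, x = k • sphereSpectrum.sys.cls unitRep := by
  rw [piDeg_zero_sphereSpectrum] at hx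
  obtain ⟨k, hk⟩ := AddSubgroup.mem_zmultiples_iff.1 hx
  exact ⟨k, hk.symm, fun l hl => injective_zsmul_cls_unitRep (hl.symm.trans hk.symm)⟩

/-- **`π_0(S) = ℤ`**: the isomorphism `k ↦ k · 1`. -/
def piZeroSphereEquiv : ℤ ≃+ sphereSpectrum.sys.piDeg 0 :=
  AddEquiv.ofBijective
    (zmultiplesHom (sphereSpectrum.sys.piDeg 0) ⟨_, cls_unitRep_mem_piDeg_zero⟩)
    ⟨fun a b h => injective_zsmul_cls_unitRep (by
        have h' := congrArg (Subtype.val) h
        simpa using h'),
      fun x => by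
        obtain ⟨k, hk, -⟩ := eq_zsmul_of_mem_piDeg_zero x.2
        exact ⟨k, Subtype.ext (by simpa using hk.symm)⟩⟩

theorem piZeroSphereEquiv_apply (k : ℤ) :
    ((piZeroSphereEquiv k : sphereSpectrum.sys.piDeg 0) : sphereSpectrum.sys.PiStar) =
      k • sphereSpectrum.sys.cls unitRep := by
  show (((zmultiplesHom (sphereSpectrum.sys.piDeg 0)) ⟨_, cls_unitRep_mem_piDeg_zero⟩ k :
    sphereSpectrum.sys.piDeg 0) : sphereSpectrum.sys.PiStar) = _
  rw [zmultiplesHom_apply]
  rfl

/-- Two homomorphisms out of `π⋆(S)` that agree at `1` agree on `π_0(S)`. -/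
theorem addMonoidHom_ext_piDeg_zero {A : Type} [AddCommGroup A] (f g : sphereSpectrum.sys.PiStar →+ A)
    (h : f (sphereSpectrum.sys.cls unitRep) = g (sphereSpectrum.sys.cls unitRep))
    {x : sphereSpectrum.sys.PiStar} (hx : x ∈ sphereSpectrum.sys.piDeg 0) : f x = g x := by
  obtain ⟨k, rfl, -⟩ := eq_zsmul_of_mem_piDeg_zero hx
  rw [map_zsmul, map_zsmul, h]

end Claimed.Open.R308
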