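import Claimed.Open.R308.SanityTelLocal

/-!
# Result 308: a spectrum that is not a finite CW spectrum

A cardinality invariant gives a **non-example** of `IsFiniteCWSpectrum`.

* `mk_le_continuum_of_finite_cw`: a finite CW complex (in Mathlib's sense) has at most continuum many points;
* `Spectrum.mk_piStar_le`: if all the spaces of a spectrum have at most continuum many points, then `π⋆` has at most `2 ^ 𝔠` elements (count all functions `I^N → X_i`);
* `Spectrum.shiftToPi_surjective`: the homomorphism `π⋆(sh^d X) → π⋆(X)`, `[g] ↦ [g]`, is onto;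
* `IsFiniteCWSpectrum.mk_piSHC_le`, `IsFinitePLocal.mk_piSHC_le`: **`π⋆` of a finite CW spectrum, and of a finite `p`-local spectrum, has at most `2 ^ 𝔠` elements**;
* `suspensionSpectrumMap`: the suspension spectrum is functorial for based maps;
* `injective_cls_bigSpectrum`: in the suspension spectrum `bigSpectrum` of the discrete space `Set (Set ℝ)` the classes of the points are pairwise different
  (retract onto `S⁰` and use `1 ≠ 0` in `π_0` of the sphere spectrum);
* `not_isFiniteCWSpectrum_bigSpectrum`: **non-example**: `bigSpectrum` is not a finite CW spectrum;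
* `not_isFinitePLocal_bigLoc`, `exists_wellPointed_local_not_finitePLocal`: **non-example**: the telescope `bigLoc p` of `bigSpectrum` is levelwise well pointed, all integers prime to `p` act
  invertibly on its `π⋆`, and it is not a finite `p`-local spectrum: the word "finite" of the second clause of `SmithTodaExists p n` has content.
-/

set_option autoImplicit false

open scoped unitInterval Topology Cardinal
open CategoryTheory

noncomputable section

namespace Claimed.Open.R308

/-! ## 1. Counting -/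

theorem mk_nat_arrow_real : #(ℕ → ℝ) = 𝔠 := by
  rw [← Cardinal.power_def, Cardinal.mk_real, Cardinal.mk_nat, Cardinal.continuum_power_aleph0]

theorem mk_fin_arrow_real_le (N : ℕ) : #(Fin N → ℝ) ≤ 𝔠 := by
  rw [← mk_nat_arrow_real]
  refine Cardinal.mk_le_of_injective (f := fun f n => if h : n < N then f ⟨n, h⟩ else 0) ?_
  intro f g hfg
  funext i
  have := congrFun hfg i.1
  simpa only [i.2, dif_pos] using this

theorem mk_cube_le (N : ℕ) : #(Fin N → I) ≤ 𝔠 := by
  refine le_trans ?_ (mk_fin_arrow_real_le N)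
  refine Cardinal.mk_le_of_injective (f := fun f n => (f n : ℝ)) ?_
  intro f g hfg
  funext i
  exact Subtype.ext (congrFun hfg i)

theorem continuum_power_continuum : (𝔠 : Cardinal.{0}) ^ (𝔠 : Cardinal.{0}) = 2 ^ (𝔠 : Cardinal.{0}) := by
  calc (𝔠 : Cardinal.{0}) ^ (𝔠 : Cardinal.{0}) = (2 ^ ℵ₀) ^ (𝔠 : Cardinal.{0}) := by
        rw [Cardinal.two_power_aleph0]
    _ = 2 ^ (ℵ₀ * 𝔠) := (Cardinal.power_mul).symm
    _ = 2 ^ (𝔠 : Cardinal.{0}) := by rw [Cardinal.aleph0_mul_continuum]

theorem aleph0_le_two_power_continuum : ℵ₀ ≤ (2 : Cardinal.{0}) ^ (𝔠 : Cardinal.{0}) :=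
  Cardinal.aleph0_le_continuum.trans (Cardinal.cantor _).le

/-- A space with at most continuum many points has at most `2 ^ 𝔠` cubes. -/
theorem mk_loops_le {A : Ptd} (hA : #A ≤ 𝔠) (N : ℕ) : #(Loops N A) ≤ 2 ^ (𝔠 : Cardinal.{0}) := by
  have h1 : #(Loops N A) ≤ #((Fin N → I) → A) := by
    refine Cardinal.mk_le_of_injective (f := fun g t => g t) ?_
    intro g g' h
    ext t
    exact congrFun h t
  refine h1.trans ?_
  rw [← Cardinal.power_def, ← continuum_power_continuum]
  rcases eq_or_ne (#A) 0 with h0 | h0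
  · exact absurd h0 (Cardinal.mk_ne_zero_iff.2 ⟨A.pt⟩)
  · exact (Cardinal.power_le_power_left h0 (mk_cube_le N)).trans (Cardinal.power_le_power_right hA)

/-- If all the spaces of a spectrum have at most continuum many points, then `π⋆` has at most `2 ^ 𝔠` elements. -/
theorem Spectrum.mk_piStar_le (X : Spectrum) (h : ∀ i, #(X.space i) ≤ 𝔠) :
    #X.sys.PiStar ≤ 2 ^ (𝔠 : Cardinal.{0}) := by
  have hRep : #X.sys.Rep ≤ 2 ^ (𝔠 : Cardinal.{0}) := by
    have h1 : #X.sys.Rep ≤ #(Σ i : ℕ, Σ N : ℕ, Loops N (X.space i)) := by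
      refine Cardinal.mk_le_of_injective (f := fun r => ⟨r.idx, r.N, r.cube⟩) ?_
      rintro ⟨i, N, g⟩ ⟨i', N', g'⟩ h
      simp only [Sigma.mk.injEq] at h
      obtain ⟨rfl, h⟩ := h
      simp only [heq_eq_eq, Sigma.mk.injEq] at h
      obtain ⟨rfl, h⟩ := h
      rw [eq_of_heq h]
    refine h1.trans ?_
    rw [Cardinal.mk_sigma]
    refine (Cardinal.sum_le_sum _ (fun _ => 2 ^ (𝔠 : Cardinal.{0})) fun i => ?_).trans ?_
    · rw [Cardinal.mk_sigma]
      refine (Cardinal.sum_le_sum _ (fun _ => 2 ^ (𝔠 : Cardinal.{0})) fun N =>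
        mk_loops_le (h i) N).trans ?_
      rw [Cardinal.sum_const', Cardinal.mk_nat]
      exact Cardinal.mul_le_of_le aleph0_le_two_power_continuum aleph0_le_two_power_continuum le_rfl
    · rw [Cardinal.sum_const', Cardinal.mk_nat]
      exact Cardinal.mul_le_of_le aleph0_le_two_power_continuum aleph0_le_two_power_continuum le_rfl
  have hinf : Infinite X.sys.Rep :=
    Infinite.of_injective (fun i : ℕ => (⟨i, 0, GenLoop.const⟩ : X.sys.Rep)) fun i j hij =>
      congrArg StableSystem.Rep.idx hij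
  have hF : #(FreeAbelianGroup X.sys.Rep) ≤ 2 ^ (𝔠 : Cardinal.{0}) := by
    rw [Cardinal.mk_congr (FreeAbelianGroup.equivFinsupp X.sys.Rep).toEquiv,
      Cardinal.mk_finsupp_of_infinite]
    refine max_le hRep ?_
    rw [Cardinal.mk_int]
    exact aleph0_le_two_power_continuum
  refine le_trans ?_ hF
  exact Cardinal.mk_le_of_surjective
    (f := fun z : FreeAbelianGroup X.sys.Rep => (QuotientAddGroup.mk z : X.sys.PiStar))
    (QuotientAddGroup.mk_surjective)

/-! ## 2. Finite CW complexes and their suspensions -/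

/-- A finite CW complex (in Mathlib's sense) has at most continuum many points. -/
theorem mk_le_continuum_of_finite_cw (K : Type) [TopologicalSpace K] [T2Space K]
    [Topology.CWComplex (Set.univ : Set K)] [Topology.CWComplex.Finite (Set.univ : Set K)] :
    #K ≤ 𝔠 := by
  have hfin : Finite (Σ n, Topology.RelCWComplex.cell (Set.univ : Set K) n) :=
    Topology.RelCWComplex.finite_cells_of_finite
  have hU : (Set.univ : Set K) =
      ⋃ (x : Σ n, Topology.RelCWComplex.cell (Set.univ : Set K) n),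
        Topology.RelCWComplex.closedCell x.1 x.2 := by
    have h := Topology.RelCWComplex.union (C := (Set.univ : Set K)) (D := ∅)
    rw [Set.empty_union] at h
    refine h.symm.trans ?_
    ext y
    simp only [Set.mem_iUnion, Sigma.exists]
  rw [← Cardinal.mk_univ, hU]
  refine Cardinal.mk_iUnion_le_sum_mk.trans ?_
  refine (Cardinal.sum_le_sum _ (fun _ => 𝔠) fun x => ?_).trans ?_
  · unfold Topology.RelCWComplex.closedCell
    exact Cardinal.mk_image_le.trans ((Cardinal.mk_set_le _).trans (mk_fin_arrow_real_le x.1))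
  · rw [Cardinal.sum_const']
    exact Cardinal.mul_le_of_le Cardinal.aleph0_le_continuum
      ((Cardinal.lt_aleph0_of_finite _).le.trans Cardinal.aleph0_le_continuum) le_rfl

theorem mk_unitInterval_le : #I ≤ 𝔠 := by
  rw [← Cardinal.mk_real]
  exact Cardinal.mk_set_le _

theorem mk_iterSusp_le {K : Ptd} (h : #K ≤ 𝔠) : ∀ n, #(K.iterSusp n) ≤ 𝔠
  | 0 => h
  | n + 1 => by
    refine (Cardinal.mk_quotient_le (α := K.iterSusp n × I)).trans ?_
    rw [Cardinal.mk_prod, Cardinal.lift_id, Cardinal.lift_id]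
    exact Cardinal.mul_le_of_le Cardinal.aleph0_le_continuum (mk_iterSusp_le h n) mk_unitInterval_le

/-! ## 3. The shift -/

/-- The homomorphism `π⋆(sh^d X) → π⋆(X)`: a cube of `(sh^d X)_n = X_{d+n}` is a cube of `X_{d+n}`. -/
def Spectrum.shiftToPi (X : Spectrum) (d : ℕ) : (X.shift d).sys.PiStar →+ X.sys.PiStar :=
  (X.shift d).sys.piLift (fun r => X.sys.cls ⟨d + r.idx, r.N, r.cube⟩)
    (fun i _ _ _ h => X.sys.cls_htpy (i := d + i) h)
    (fun i _ j g g' => X.sys.cls_transAt (i := d + i) j g g')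
    (fun _ i _ g => X.sys.cls_stab () (d + i) g)

theorem Spectrum.shiftToPi_cls (X : Spectrum) (d : ℕ) (r : (X.shift d).sys.Rep) :
    X.shiftToPi d ((X.shift d).sys.cls r) = X.sys.cls ⟨d + r.idx, r.N, r.cube⟩ :=
  (X.shift d).sys.piLift_cls _ _ _ _ r

theorem Spectrum.shiftToPi_surjective (X : Spectrum) (d : ℕ) :
    Function.Surjective (X.shiftToPi d) := by
  have hb : ∀ n N (g : Loops N (X.space (d + n))), X.sys.cls ⟨d + n, N, g⟩ ∈ (X.shiftToPi d).range :=
    fun n N g => ⟨(X.shift d).sys.cls ⟨n, N, g⟩, X.shiftToPi_cls d _⟩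
  have hdown : ∀ k i, (∀ N (g : Loops N (X.space (i + k))),
      X.sys.cls ⟨i + k, N, g⟩ ∈ (X.shiftToPi d).range) →
      ∀ N (g : Loops N (X.space i)), X.sys.cls ⟨i, N, g⟩ ∈ (X.shiftToPi d).range := by
    intro k
    induction k with
    | zero => exact fun i h => h
    | succ k ih =>
      intro i h
      refine ih i fun N g => ?_
      rw [X.sys.cls_stab () (i + k) g]
      exact h _ _
  have hall : ∀ r : X.sys.Rep, X.sys.cls r ∈ (X.shiftToPi d).range := by
    rintro ⟨i, N, g⟩
    refine hdown d i ?_ N g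
    rw [Nat.add_comm i d]
    exact hb i
  intro y
  have hy : y ∈ (⊤ : AddSubgroup X.sys.PiStar) := trivial
  rw [← X.sys.closure_range_cls] at hy
  exact (AddSubgroup.closure_le _).2 (by rintro _ ⟨r, rfl⟩; exact hall r) hy

/-! ## 4. The invariant -/

/-- **`π⋆` of a finite CW spectrum has at most `2 ^ 𝔠` elements.** -/
theorem IsFiniteCWSpectrum.mk_piSHC_le {Y : SHC} (h : IsFiniteCWSpectrum Y) :
    #(piSHC.obj Y) ≤ 2 ^ (𝔠 : Cardinal.{0}) := by
  obtain ⟨X, d, K, hT2, hCW, hfin, ⟨e₁⟩, ⟨e₂⟩⟩ := h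
  obtain ⟨f₂⟩ := nonempty_piStar_addEquiv e₂
  have hK : #K ≤ 𝔠 := mk_le_continuum_of_finite_cw K
  let f₁ : piSHC.obj Y ≃+ X.sys.PiStar :=
    (piSHC.mapIso e₁ ≪≫ piSHCIso.app X : piSHC.obj Y ≅ piFunctor.obj X).addCommGroupIsoToAddEquiv
  calc #(piSHC.obj Y) = #X.sys.PiStar := Cardinal.mk_congr f₁.toEquiv
    _ ≤ #(X.shift d).sys.PiStar := Cardinal.mk_le_of_surjective (X.shiftToPi_surjective d)
    _ = #(suspensionSpectrum K).sys.PiStar := Cardinal.mk_congr f₂.toEquiv
    _ ≤ 2 ^ (𝔠 : Cardinal.{0}) := (suspensionSpectrum K).mk_piStar_le (mk_iterSusp_le hK)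

theorem mk_piSHC_toSHC (W : Spectrum) : #(piSHC.obj (toSHC.obj W)) = #W.sys.PiStar :=
  Cardinal.mk_congr (piSHCIso.app W).addCommGroupIsoToAddEquiv.toEquiv

/-- The target of a `p`-localisation is not bigger than its source (if that is infinite). -/
theorem IsPLocalization.mk_piSHC_le {p : ℕ} {Y Z : SHC} {f : Y ⟶ Z} (hf : IsPLocalization p f)
    (hY : #(piSHC.obj Y) ≤ 2 ^ (𝔠 : Cardinal.{0})) : #(piSHC.obj Z) ≤ 2 ^ (𝔠 : Cardinal.{0}) := by
  have hloc : IsLocalizedModule (primeTo p) (piSHC.map f).hom.toIntLinearMap := hf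
  have h1 : #(piSHC.obj Z) ≤ #(piSHC.obj Y × primeTo p) :=
    Cardinal.mk_le_of_surjective
      (IsLocalizedModule.mk'_surjective (primeTo p) (piSHC.map f).hom.toIntLinearMap)
  refine h1.trans ?_
  rw [Cardinal.mk_prod, Cardinal.lift_id, Cardinal.lift_id]
  refine Cardinal.mul_le_of_le aleph0_le_two_power_continuum hY ?_
  refine le_trans ?_ aleph0_le_two_power_continuum
  rw [← Cardinal.mk_int]
  exact Cardinal.mk_set_le _

/-- **`π⋆` of a finite `p`-local spectrum has at most `2 ^ 𝔠` elements.** -/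
theorem IsFinitePLocal.mk_piSHC_le {p : ℕ} {X : SHC} (h : IsFinitePLocal p X) :
    #(piSHC.obj X) ≤ 2 ^ (𝔠 : Cardinal.{0}) := by
  obtain ⟨Y, Z, f, hY, hf, ⟨r⟩⟩ := h
  refine le_trans ?_ (hf.mk_piSHC_le hY.mk_piSHC_le)
  refine Cardinal.mk_le_of_injective (f := (piSHC.map r.i).hom) ?_
  have h1 : ∀ u, (piSHC.map r.r).hom ((piSHC.map r.i).hom u) = u := by
    intro u
    have e : piSHC.map r.i ≫ piSHC.map r.r = 𝟙 _ := by
      rw [← piSHC.map_comp, r.retract, piSHC.map_id]
    have := congrArg (fun g => g.hom u) e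
    simpa using this
  intro u v huv
  rw [← h1 u, huv, h1 v]

/-! ## 5. Maps of suspension spectra -/

/-- The iterated suspension of a based map. -/
def iterSuspMap {A B : Ptd} (f : PtdMap A B) : ∀ n, PtdMap (A.iterSusp n) (B.iterSusp n)
  | 0 => f
  | n + 1 => ((suspUnit (B.iterSusp n)).precomp (iterSuspMap f n)).adj

/-- The map of suspension spectra induced by a based map. -/
def suspensionSpectrumMap {A B : Ptd} (f : PtdMap A B) :
    suspensionSpectrum A ⟶ suspensionSpectrum B :=
  ⟨iterSuspMap f, fun n x r =>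
    ((suspUnit (B.iterSusp n)).precomp (iterSuspMap f n)).adj_suspUnit x r⟩

theorem piMap_suspensionSpectrumMap_pointLoop {A B : Ptd} (f : PtdMap A B) (a : A) :
    Spectrum.Hom.piMap (suspensionSpectrumMap f) ((suspensionSpectrum A).sys.cls ⟨0, 0, pointLoop a⟩) =
      (suspensionSpectrum B).sys.cls ⟨0, 0, pointLoop (f.toMap a)⟩ := rfl

/-- The class of the base point is zero. -/
theorem Spectrum.cls_pointLoop_pt (X : Spectrum) :
    X.sys.cls ⟨0, 0, pointLoop (X.space 0).pt⟩ = 0 := by
  have e : (pointLoop (X.space 0).pt : Loops 0 (X.space 0)) = GenLoop.const := rfl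
  rw [X.sys.cls_stab () 0 (pointLoop (X.space 0).pt), e, LoopMap.onLoops_const]
  exact X.sys.cls_const _ _ Nat.one_pos

/-! ## 6. The non-example -/

/-- The set `Set (Set ℝ)`, of cardinality `2 ^ 2 ^ 𝔠`, as a discrete space with base point `∅`. -/
def bigDiscrete : Ptd := @Ptd.mk (Set (Set ℝ)) ⊥ ∅

instance bigDiscrete.instDiscreteTopology : DiscreteTopology bigDiscrete := ⟨rfl⟩

/-- Its suspension spectrum: a wedge of `2 ^ 2 ^ 𝔠` sphere spectra. -/
def bigSpectrum : Spectrum := suspensionSpectrum bigDiscrete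

open Classical in
/-- The retraction of `bigDiscrete` onto `S⁰ = {∅, d}`. -/
def bigRetr (d : bigDiscrete) (hd : d ≠ bigDiscrete.pt) : PtdMap bigDiscrete S0 where
  toMap := ⟨fun x => (decide (x = d) : Bool), continuous_of_discreteTopology⟩
  map_pt := by
    show (decide (bigDiscrete.pt = d) : Bool) = false
    exact decide_eq_false hd.symm

/-- The homomorphism `π⋆(bigSpectrum) → π⋆(S)` induced by the retraction. -/
def bigRetrHom (d : bigDiscrete) (hd : d ≠ bigDiscrete.pt) :
    bigSpectrum.sys.PiStar →+ sphereSpectrum.sys.PiStar :=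
  Spectrum.Hom.piMap (suspensionSpectrumMap (bigRetr d hd))

theorem bigRetrHom_self (d : bigDiscrete) (hd : d ≠ bigDiscrete.pt) :
    bigRetrHom d hd (bigSpectrum.sys.cls ⟨0, 0, pointLoop d⟩) = sphereSpectrum.sys.cls unitRep := by
  have e1 : (bigRetr d hd).toMap d = (true : Bool) := by
    classical
    exact decide_eq_true rfl
  have h := piMap_suspensionSpectrumMap_pointLoop (bigRetr d hd) d
  rw [e1] at h
  exact h

theorem bigRetrHom_of_ne (d : bigDiscrete) (hd : d ≠ bigDiscrete.pt) {d' : bigDiscrete}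
    (hne : d' ≠ d) : bigRetrHom d hd (bigSpectrum.sys.cls ⟨0, 0, pointLoop d'⟩) = 0 := by
  have e2 : (bigRetr d hd).toMap d' = S0.pt := by
    classical
    exact decide_eq_false hne
  have h := piMap_suspensionSpectrumMap_pointLoop (bigRetr d hd) d'
  rw [e2] at h
  exact h.trans sphereSpectrum.cls_pointLoop_pt

/-- The classes of the points of `bigDiscrete` in `π⋆(bigSpectrum)` are pairwise different. -/
theorem injective_cls_bigSpectrum :
    Function.Injective fun d : bigDiscrete => bigSpectrum.sys.cls ⟨0, 0, pointLoop d⟩ := by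
  have key : ∀ d d' : bigDiscrete, d ≠ bigDiscrete.pt → d' ≠ d →
      bigSpectrum.sys.cls ⟨0, 0, pointLoop d⟩ ≠ bigSpectrum.sys.cls ⟨0, 0, pointLoop d'⟩ := by
    intro d d' hd hne h
    have h1 := congrArg (bigRetrHom d hd) h
    rw [bigRetrHom_self, bigRetrHom_of_ne d hd hne] at h1
    exact cls_unitRep_ne_zero h1
  intro d d' h
  by_contra hne
  by_cases hd : d = bigDiscrete.pt
  · exact key d' d (fun h' => hne (hd.trans h'.symm)) hne h.symm
  · exact key d d' hd (fun h' => hne h'.symm) h

theorem two_power_continuum_lt_mk : (2 : Cardinal.{0}) ^ (𝔠 : Cardinal.{0}) < #(Set (Set ℝ)) := by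
  rw [Cardinal.mk_set, Cardinal.mk_set, Cardinal.mk_real]
  exact Cardinal.cantor _

/-- **Non-example**: the suspension spectrum of the discrete space `Set (Set ℝ)` is not a finite CW spectrum. -/
theorem not_isFiniteCWSpectrum_bigSpectrum : ¬ IsFiniteCWSpectrum (toSHC.obj bigSpectrum) := by
  intro h
  have h1 : #(Set (Set ℝ)) ≤ #bigSpectrum.sys.PiStar :=
    Cardinal.mk_le_of_injective injective_cls_bigSpectrum
  have h2 := h.mk_piSHC_le
  rw [mk_piSHC_toSHC] at h2
  exact absurd (h1.trans h2) (not_le.2 two_power_continuum_lt_mk)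

/-! ## 7. A `p`-local spectrum that is not a finite `p`-local spectrum -/

/-- The telescope of `bigSpectrum` that inverts the primes `≠ p`: a wedge of `2 ^ 2 ^ 𝔠` copies of the `p`-local sphere spectrum. -/
def bigLoc (p : ℕ) : Spectrum := bigSpectrum.tel (pLocSeq p)

/-- `π⋆(bigSpectrum) → π⋆(bigLoc p)` is the localisation at the integers prime to `p`; in particular these act invertibly on `π⋆(bigLoc p)`. -/
theorem isLocalizedModule_telHom_bigSpectrum {p : ℕ} (hp : p.Prime) :
    IsLocalizedModule (primeTo p) (bigSpectrum.telHom (pLocSeq p)).toIntLinearMap :=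
  isLocalizedModule_telHom bigSpectrum p (pLocSeq p) (pLocSeq_mem hp) (dvd_telProd_pLocSeq hp)

/-- The images in `π⋆(bigLoc p)` of the classes of the points of `bigDiscrete` are pairwise different. -/
theorem injective_telHom_cls_bigSpectrum {p : ℕ} (hp : p.Prime) :
    Function.Injective fun d : bigDiscrete =>
      bigSpectrum.telHom (pLocSeq p) (bigSpectrum.sys.cls ⟨0, 0, pointLoop d⟩) := by
  have hloc := isLocalizedModule_telHom_bigSpectrum hp
  have key : ∀ d d' : bigDiscrete, d ≠ bigDiscrete.pt → d' ≠ d →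
      bigSpectrum.telHom (pLocSeq p) (bigSpectrum.sys.cls ⟨0, 0, pointLoop d⟩) ≠
        bigSpectrum.telHom (pLocSeq p) (bigSpectrum.sys.cls ⟨0, 0, pointLoop d'⟩) := by
    intro d d' hd hne h
    have h' : (bigSpectrum.telHom (pLocSeq p)).toIntLinearMap
        (bigSpectrum.sys.cls ⟨0, 0, pointLoop d⟩) =
        (bigSpectrum.telHom (pLocSeq p)).toIntLinearMap
          (bigSpectrum.sys.cls ⟨0, 0, pointLoop d'⟩) := h
    obtain ⟨c, hc⟩ := IsLocalizedModule.exists_of_eq (S := primeTo p) h'
    have hc' : (c : ℤ) • bigSpectrum.sys.cls ⟨0, 0, pointLoop d⟩ =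
        (c : ℤ) • bigSpectrum.sys.cls ⟨0, 0, pointLoop d'⟩ := hc
    have hc0 : (c : ℤ) ≠ 0 := by
      intro h0
      have h1 := (mem_primeTo_iff hp (c : ℤ)).1 c.2
      rw [h0] at h1
      exact h1 (dvd_zero _)
    have h1 := congrArg (bigRetrHom d hd) hc'
    rw [map_zsmul, map_zsmul, bigRetrHom_self, bigRetrHom_of_ne d hd hne, smul_zero] at h1
    exact zsmul_cls_unitRep_ne_zero (c : ℤ) hc0 h1
  intro d d' h
  by_contra hne
  by_cases hd : d = bigDiscrete.pt
  · exact key d' d (fun h' => hne (hd.trans h'.symm)) hne h.symm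
  · exact key d d' hd (fun h' => hne h'.symm) h

/-- **Non-example**: `bigLoc p`, on whose `π⋆` all integers prime to `p` act invertibly, is not a **finite** `q`-local spectrum, for any `q`. -/
theorem not_isFinitePLocal_bigLoc {p : ℕ} (hp : p.Prime) (q : ℕ) :
    ¬ IsFinitePLocal q (toSHC.obj (bigLoc p)) := by
  intro h
  have h1 : #(Set (Set ℝ)) ≤ #(bigLoc p).sys.PiStar :=
    Cardinal.mk_le_of_injective (injective_telHom_cls_bigSpectrum hp)
  have h2 := h.mk_piSHC_le
  rw [mk_piSHC_toSHC] at h2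
  exact absurd (h1.trans h2) (not_le.2 two_power_continuum_lt_mk)

open Classical in
/-- A discrete space is well pointed. -/
theorem wellPointed_bigDiscrete : bigDiscrete.WellPointed := by
  refine ⟨⟨fun a => if a = bigDiscrete.pt then 0 else 1, continuous_of_discreteTopology⟩,
    ⟨fun z => z.1, continuous_fst⟩, ?_, fun _ => rfl, fun _ => rfl, ?_⟩
  · intro a
    change (if a = bigDiscrete.pt then (0 : I) else 1) = 0 ↔ a = bigDiscrete.pt
    by_cases h : a = bigDiscrete.pt <;> simp [h]
  · intro a h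
    change (if a = bigDiscrete.pt then (0 : I) else 1) < 1 at h
    change a = bigDiscrete.pt
    by_contra h'
    simp [h'] at h

/-- **The word "finite" of the second clause of `SmithTodaExists p n` has content**: there is a levelwise well-pointed spectrum on whose `π⋆` all integers prime to `p` act invertibly and
which is not a finite `p`-local spectrum. -/
theorem exists_wellPointed_local_not_finitePLocal {p : ℕ} (hp : p.Prime) :
    ∃ X : Spectrum, (∀ b, (X.space b).WellPointed) ∧
      (∀ s : primeTo p, IsUnit (algebraMap ℤ (Module.End ℤ X.sys.PiStar) s)) ∧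
      ¬ IsFinitePLocal p (toSHC.obj X) :=
  ⟨bigLoc p, wellPointed_suspensionSpectrum wellPointed_bigDiscrete,
    isUnit_algebraMap_tel bigSpectrum p (pLocSeq p) (dvd_telProd_pLocSeq hp),
    not_isFinitePLocal_bigLoc hp p⟩

end Claimed.Open.R308
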