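import Claimed.Open.R308.SanityDesusp2
import Claimed.Open.R308.SanityNotFinite

/-!
# Result 308: the shift `sh^d` of `Statement.lean` is the `d`-fold suspension: `π_k(sh^d X) = π_{k-d}(X)`

`IsFiniteCWSpectrum Y` of `Statement.lean` says `Y ≅ X` with `sh^d X ≅ Σ^∞ K`, and `CLAIM.md` reads this as `X ≅ Σ^{-d} Σ^∞ K`.  Here the direction and the size of the shift are checked on homotopy groups:

* `Spectrum.shiftToPi_bijective`: the homomorphism `π⋆(sh^d X) → π⋆(X)`, `[g] ↦ [g]`, of `SanityNotFinite.lean` is bijective;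
* `Spectrum.map_shiftToPi_piDeg`: it maps `π_k(sh^d X)` **onto** `π_{k-d}(X)`;
* `Spectrum.shiftToPi_mem_piDeg_iff`: a class of `sh^d X` has degree `k` if and only if its image has degree `k - d`;
* `Spectrum.shiftPiDegEquiv`: `π_k(sh^d X) ≃+ π_{k-d}(X)`, as for `Σ^d` (and not `Σ^{-d}`).
* `isFiniteCWSpectrum_unsh_sphereSpectrum`, `exists_ne_zero_mem_piDeg_unsh_sphereSpectrum`: **example with `d > 0`**: the `(-1)`-sphere spectrum `unsh S` is a finite CW spectrum, and its `π_{-1}` is not zero.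

**Proof of the bijectivity.**  For `d = 1` the map is the composite `π⋆(sh1 W) ≅ π⋆(unsh (sh1 W)) → π⋆(W)` of `unshEquiv` and of the stable equivalence `unshSh W` of `SanityDesusp.lean`; induction on `d` with
`sh^{d+1} X ≅ sh1 (sh^d X)`.
-/

set_option autoImplicit false

open scoped unitInterval Topology
open CategoryTheory

noncomputable section

namespace Claimed.Open.R308

/-- A cube and its transport along an equality of levels have the same class. -/
theorem Spectrum.cls_castMap (X : Spectrum) {m n : ℕ} (h : m = n) (N : ℕ) (g : Loops N (X.space m)) :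
    X.sys.cls ⟨n, N, (X.castMap h).onLoops g⟩ = X.sys.cls ⟨m, N, g⟩ := by
  subst h; rfl

/-- `π⋆(sh1 W) → π⋆(W)`: a cube of `(sh1 W)_n = W_{n+1}` is a cube of `W_{n+1}`. -/
def Spectrum.sh1ToPi (W : Spectrum) : W.sh1.sys.PiStar →+ W.sys.PiStar :=
  (Spectrum.Hom.piMap (unshSh W)).comp (unshPiInv W.sh1)

theorem Spectrum.sh1ToPi_cls (W : Spectrum) (n N : ℕ) (g : Loops N (W.space (n + 1))) :
    W.sh1ToPi (W.sh1.sys.cls ⟨n, N, g⟩) = W.sys.cls ⟨n + 1, N, g⟩ :=
  congrArg (Spectrum.Hom.piMap (unshSh W)) (unshPiInv_cls W.sh1 ⟨n, N, g⟩)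

theorem Spectrum.sh1ToPi_bijective (W : Spectrum) : Function.Bijective W.sh1ToPi := by
  have h1 : Function.Bijective (unshPiInv W.sh1) := (unshEquiv W.sh1).symm.bijective
  have h2 : IsIso (piFunctor.map (unshSh W)) := stableEquivalences_unshSh W
  have h3 : Function.Bijective (Spectrum.Hom.piMap (unshSh W)) :=
    (asIso (piFunctor.map (unshSh W))).addCommGroupIsoToAddEquiv.bijective
  exact h3.comp h1

theorem Spectrum.piMap_bijective_of_iso {X Y : Spectrum} (e : X ≅ Y) :
    Function.Bijective (Spectrum.Hom.piMap e.hom) :=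
  (piFunctor.mapIso e).addCommGroupIsoToAddEquiv.bijective

theorem Spectrum.shiftToPi_zero (X : Spectrum) :
    X.shiftToPi 0 = Spectrum.Hom.piMap X.shiftZero.hom := by
  refine StableSystem.hom_ext fun r => ?_
  obtain ⟨n, N, g⟩ := r
  exact (X.shiftToPi_cls 0 ⟨n, N, g⟩).trans (X.cls_castMap (Nat.zero_add n) N g).symm

theorem Spectrum.shiftToPi_succ (X : Spectrum) (d : ℕ) :
    X.shiftToPi (d + 1) =
      ((X.shiftToPi d).comp (X.shift d).sh1ToPi).comp (Spectrum.Hom.piMap (X.shiftSucc d).hom) := by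
  refine StableSystem.hom_ext fun r => ?_
  obtain ⟨n, N, g⟩ := r
  refine (X.shiftToPi_cls (d + 1) ⟨n, N, g⟩).trans ?_
  refine (X.cls_castMap (Nat.succ_add d n) N g).symm.trans ?_
  refine (X.shiftToPi_cls d ⟨n + 1, N, (X.castMap (Nat.succ_add d n)).onLoops g⟩).symm.trans ?_
  exact congrArg (X.shiftToPi d)
    ((X.shift d).sh1ToPi_cls n N ((X.castMap (Nat.succ_add d n)).onLoops g)).symm

/-- **`π⋆(sh^d X) → π⋆(X)` is bijective.** -/
theorem Spectrum.shiftToPi_bijective (X : Spectrum) (d : ℕ) : Function.Bijective (X.shiftToPi d) := by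
  induction d with
  | zero =>
    rw [X.shiftToPi_zero]
    exact Spectrum.piMap_bijective_of_iso X.shiftZero
  | succ d ih =>
    rw [X.shiftToPi_succ]
    exact (ih.comp (X.shift d).sh1ToPi_bijective).comp
      (Spectrum.piMap_bijective_of_iso (X.shiftSucc d))

/-! ## The degrees -/

theorem Spectrum.deg_sys (X : Spectrum) (n N : ℕ) (g : Loops N (X.space n)) :
    X.sys.deg ⟨n, N, g⟩ = (N : ℤ) - (n : ℤ) := rfl

/-- **`π⋆(sh^d X) → π⋆(X)` maps `π_k(sh^d X)` onto `π_{k-d}(X)`.** -/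
theorem Spectrum.map_shiftToPi_piDeg (X : Spectrum) (d : ℕ) (k : ℤ) :
    ((X.shift d).sys.piDeg k).map (X.shiftToPi d) = X.sys.piDeg (k - d) := by
  apply le_antisymm
  · rw [AddSubgroup.map_le_iff_le_comap]
    refine (AddSubgroup.closure_le _).2 ?_
    rintro _ ⟨⟨n, N, g⟩, hr, rfl⟩
    show X.shiftToPi d ((X.shift d).sys.cls ⟨n, N, g⟩) ∈ X.sys.piDeg (k - d)
    rw [X.shiftToPi_cls d ⟨n, N, g⟩]
    have h1 : (N : ℤ) - (n : ℤ) = k := hr
    have h2 : X.sys.deg ⟨d + n, N, g⟩ = k - d := by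
      show (N : ℤ) - ((d + n : ℕ) : ℤ) = k - d
      push_cast; omega
    rw [← h2]
    exact X.sys.cls_mem_piDeg _
  · set M := ((X.shift d).sys.piDeg k).map (X.shiftToPi d) with hM
    have hb : ∀ n N (g : Loops N (X.space (d + n))), (N : ℤ) - ((d + n : ℕ) : ℤ) = k - d →
        X.sys.cls ⟨d + n, N, g⟩ ∈ M := by
      intro n N g h
      refine ⟨(X.shift d).sys.cls ⟨n, N, g⟩, ?_, X.shiftToPi_cls d _⟩
      have h2 : (X.shift d).sys.deg ⟨n, N, g⟩ = k := by
        show (N : ℤ) - (n : ℤ) = k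
        push_cast at h; omega
      rw [← h2]
      exact (X.shift d).sys.cls_mem_piDeg _
    have hdown : ∀ j i, (∀ N (g : Loops N (X.space (i + j))), (N : ℤ) - ((i + j : ℕ) : ℤ) = k - d →
        X.sys.cls ⟨i + j, N, g⟩ ∈ M) →
        ∀ N (g : Loops N (X.space i)), (N : ℤ) - (i : ℤ) = k - d → X.sys.cls ⟨i, N, g⟩ ∈ M := by
      intro j
      induction j with
      | zero => exact fun i h => h
      | succ j ih =>
        intro i h
        refine ih i fun N g hN => ?_
        rw [X.sys.cls_stab () (i + j) g]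
        refine h _ _ ?_
        push_cast at hN ⊢
        omega
    refine (AddSubgroup.closure_le _).2 ?_
    rintro _ ⟨⟨i, N, g⟩, hr, rfl⟩
    have h1 : (N : ℤ) - (i : ℤ) = k - d := hr
    refine hdown d i ?_ N g h1
    rw [Nat.add_comm i d]
    exact hb i

/-- A class of `sh^d X` has degree `k` if and only if its image in `π⋆(X)` has degree `k - d`. -/
theorem Spectrum.shiftToPi_mem_piDeg_iff (X : Spectrum) (d : ℕ) (k : ℤ) (y : (X.shift d).sys.PiStar) :
    X.shiftToPi d y ∈ X.sys.piDeg (k - d) ↔ y ∈ (X.shift d).sys.piDeg k := by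
  rw [← X.map_shiftToPi_piDeg d k]
  exact AddSubgroup.mem_map_iff_mem (X.shiftToPi_bijective d).1

/-- **`π_k(sh^d X) ≃+ π_{k-d}(X)`**: the shift `sh^d` of `Statement.lean` raises the degrees by `d`, as `Σ^d` does. -/
def Spectrum.shiftPiDegEquiv (X : Spectrum) (d : ℕ) (k : ℤ) :
    (X.shift d).sys.piDeg k ≃+ X.sys.piDeg (k - d) :=
  (((X.shift d).sys.piDeg k).equivMapOfInjective (X.shiftToPi d) (X.shiftToPi_bijective d).1).trans
    (AddEquiv.addSubgroupCongr (X.map_shiftToPi_piDeg d k))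

theorem Spectrum.shiftPiDegEquiv_apply (X : Spectrum) (d : ℕ) (k : ℤ)
    (y : (X.shift d).sys.piDeg k) :
    ((X.shiftPiDegEquiv d k y : X.sys.piDeg (k - d)) : X.sys.PiStar) = X.shiftToPi d y := rfl

/-! ## An example of a finite CW spectrum with `d > 0` -/

/-- **The `(-1)`-sphere spectrum `unsh S` is a finite CW spectrum** (with `d = 1`, `K = S⁰`). -/
theorem isFiniteCWSpectrum_unsh_sphereSpectrum : IsFiniteCWSpectrum (toSHC.obj sphereSpectrum.unsh) :=
  ⟨sphereSpectrum.unsh, 1, S0, inferInstance, inferInstance, finite_cw_of_discrete S0,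
    ⟨Iso.refl _⟩,
    ⟨toSHC.mapIso (sphereSpectrum.shiftUnsh 0 ≪≫ sphereSpectrum.shiftZero)⟩⟩

/-- **`π_{-1}` of the `(-1)`-sphere spectrum is not zero.** -/
theorem exists_ne_zero_mem_piDeg_unsh_sphereSpectrum :
    ∃ y ∈ sphereSpectrum.unsh.sys.piDeg (-1), y ≠ 0 := by
  refine ⟨unshPiInv sphereSpectrum (sphereSpectrum.sys.cls unitRep), ?_, ?_⟩
  · rw [unshPiInv_cls]
    exact sphereSpectrum.unsh.sys.cls_mem_piDeg ⟨unitRep.idx + 1, unitRep.N, unitRep.cube⟩
  · intro h
    exact cls_unitRep_ne_zero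
      ((unshEquiv sphereSpectrum).symm.injective (h.trans (map_zero _).symm))

end Claimed.Open.R308
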