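import Claimed.Open.R308.SanityTelMap

/-!
# Result 308: the `p`-local sphere spectrum: a non-zero finite `p`-local spectrum

`sphereLoc p` is the telescope of the sphere spectrum for the sequence `d n =` the prime-to-`p` part of `n!`: its spaces are the spheres `Σ^n S⁰`, its
`n`-th bonding map is the `d n`-th power of the bonding map of the sphere spectrum.

* `isPLocalization_sphereLocMap`: **example**: the map of spectra `sphereLocMap p : S ⟶ sphereLoc p` is a `p`-localisation in the sense of `Statement.lean`;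
* `isFinitePLocal_sphereLoc`: **example**: `sphereLoc p` is a finite `p`-local spectrum;
* `nontrivial_piStar_sphereLoc`: it is not zero;
* `exists_nonzero_wellPointed_finitePLocal`: a **non-zero** spectrum meets the first two clauses of `SmithTodaExists p n`.
* `nsmul_ne_piMap_sphereLocMap_unit`: the image of `1` in `π⋆(sphereLoc p)` is not divisible by `p`;
* `not_isFinitePLocal_sphereLoc_of_ne`: **non-example**: `sphereLoc p` is not a finite `q`-local spectrum for a prime `q ≠ p`.
-/

set_option autoImplicit false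

open scoped unitInterval Topology Topology.Homotopy Nat
open CategoryTheory

noncomputable section

namespace Claimed.Open.R308

/-! ## 1. From spectra to the stable homotopy category -/

/-- A map of spectra that is a localisation at the integers prime to `p` on `π⋆` is a `p`-localisation in the stable homotopy category. -/
theorem isPLocalization_toSHC_map (p : ℕ) {X Y : Spectrum} (f : X ⟶ Y)
    (h : IsLocalizedModule (primeTo p) (Spectrum.Hom.piMap f).toIntLinearMap) :
    IsPLocalization p (toSHC.map f) := by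
  let eX : piSHC.obj (toSHC.obj X) ≃+ X.sys.PiStar :=
    (piSHCIso.app X).addCommGroupIsoToAddEquiv
  let eY : piSHC.obj (toSHC.obj Y) ≃+ Y.sys.PiStar :=
    (piSHCIso.app Y).addCommGroupIsoToAddEquiv
  have hnat : ∀ z, eY ((piSHC.map (toSHC.map f)).hom z) = Spectrum.Hom.piMap f (eX z) := by
    intro z
    have := congrArg (fun g => g.hom z) (piSHCIso.hom.naturality f)
    exact this
  have e : (piSHC.map (toSHC.map f)).hom.toIntLinearMap =
      eY.symm.toIntLinearEquiv.toLinearMap ∘ₗ
        ((Spectrum.Hom.piMap f).toIntLinearMap ∘ₗ eX.toIntLinearEquiv.toLinearMap) := by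
    ext z
    show (piSHC.map (toSHC.map f)).hom z = eY.symm (Spectrum.Hom.piMap f (eX z))
    rw [← hnat, eY.symm_apply_apply]
  unfold IsPLocalization
  rw [e]
  infer_instance

/-! ## 2. The sequence -/

/-- The prime-to-`p` part of `n!`. -/
def pLocSeq (p n : ℕ) : ℕ := ordCompl[p] n !

theorem pLocSeq_mem {p : ℕ} (hp : p.Prime) (n : ℕ) : (pLocSeq p n : ℤ) ∈ primeTo p := by
  show IsCoprime (pLocSeq p n : ℤ) (p : ℤ)
  rw [Nat.isCoprime_iff_coprime]
  exact (Nat.coprime_ordCompl hp (Nat.factorial_ne_zero n)).symm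

theorem dvd_pLocSeq {p : ℕ} {t n : ℕ} (ht : (t : ℤ) ∈ primeTo p) (h0 : 0 < t) (htn : t ≤ n) :
    t ∣ pLocSeq p n := by
  have h1 : t ∣ ordProj[p] n ! * ordCompl[p] n ! := by
    rw [Nat.ordProj_mul_ordCompl_eq_self]
    exact Nat.dvd_factorial h0 htn
  have h2 : Nat.Coprime t p := Nat.isCoprime_iff_coprime.1 ht
  exact (Nat.Coprime.pow_right _ h2).dvd_of_dvd_mul_left h1

theorem dvd_telProd_pLocSeq {p : ℕ} (hp : p.Prime) (t : ℕ) (ht : (t : ℤ) ∈ primeTo p) :
    ∃ m, ∀ i, t ∣ telProd (pLocSeq p) i m := by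
  have h0 : 0 < t := by
    rcases Nat.eq_zero_or_pos t with rfl | h
    · have h2 : Nat.Coprime 0 p := Nat.isCoprime_iff_coprime.1 ht
      rw [Nat.coprime_zero_left] at h2
      exact absurd h2 hp.one_lt.ne'
    · exact h
  refine ⟨t + 1, fun i => ?_⟩
  rw [telProd_succ]
  exact Dvd.dvd.mul_left (dvd_pLocSeq ht h0 (by omega)) _

/-! ## 3. The `p`-local sphere spectrum -/

/-- **The `p`-local sphere spectrum.** -/
def sphereLoc (p : ℕ) : Spectrum := sphereSpectrum.tel (pLocSeq p)

/-- **The `p`-localisation map of the sphere spectrum.** -/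
def sphereLocMap (p : ℕ) : sphereSpectrum ⟶ sphereLoc p := telMap (pLocSeq p)

/-- `π⋆(S) → π⋆(S_(p))` is the localisation at the integers prime to `p`. -/
theorem isLocalizedModule_piMap_sphereLocMap {p : ℕ} (hp : p.Prime) :
    IsLocalizedModule (primeTo p) (Spectrum.Hom.piMap (sphereLocMap p)).toIntLinearMap := by
  have h := isLocalizedModule_telHom sphereSpectrum p (pLocSeq p) (pLocSeq_mem hp)
    (dvd_telProd_pLocSeq hp)
  rw [← telMap_piMap] at h
  exact h

/-- **Example**: a `p`-localisation between non-zero spectra. -/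
theorem isPLocalization_sphereLocMap {p : ℕ} (hp : p.Prime) :
    IsPLocalization p (toSHC.map (sphereLocMap p)) :=
  isPLocalization_toSHC_map p _ (isLocalizedModule_piMap_sphereLocMap hp)

/-- **Example**: the `p`-local sphere spectrum is a finite `p`-local spectrum. -/
theorem isFinitePLocal_sphereLoc {p : ℕ} (hp : p.Prime) :
    IsFinitePLocal p (toSHC.obj (sphereLoc p)) :=
  ⟨_, _, toSHC.map (sphereLocMap p), isFiniteCWSpectrum_sphereSpectrum,
    isPLocalization_sphereLocMap hp, ⟨Retract.refl _⟩⟩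

/-- The image of `a · 1`, `a ≠ 0`, in `π⋆(S_(p))` is not zero. -/
theorem piMap_sphereLocMap_zsmul_ne_zero {p : ℕ} (hp : p.Prime) (a : ℤ) (ha : a ≠ 0) :
    Spectrum.Hom.piMap (sphereLocMap p) (a • sphereSpectrum.sys.cls unitRep) ≠ 0 := by
  intro h
  have := isLocalizedModule_piMap_sphereLocMap hp
  have h' : (Spectrum.Hom.piMap (sphereLocMap p)).toIntLinearMap
      (a • sphereSpectrum.sys.cls unitRep) = 0 := h
  obtain ⟨c, hc⟩ := (IsLocalizedModule.eq_zero_iff (primeTo p)
    (Spectrum.Hom.piMap (sphereLocMap p)).toIntLinearMap).1 h'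
  have hc0 : (c : ℤ) ≠ 0 := by
    intro h0
    have h1 := (mem_primeTo_iff hp (c : ℤ)).1 c.2
    rw [h0] at h1
    exact h1 (dvd_zero _)
  have h2 : ((c : ℤ) * a) • sphereSpectrum.sys.cls unitRep = 0 := by
    rw [mul_smul]
    exact hc
  exact zsmul_cls_unitRep_ne_zero _ (mul_ne_zero hc0 ha) h2

/-- **The `p`-local sphere spectrum is not zero.** -/
theorem nontrivial_piStar_sphereLoc {p : ℕ} (hp : p.Prime) : Nontrivial (sphereLoc p).sys.PiStar :=
  ⟨⟨_, 0, piMap_sphereLocMap_zsmul_ne_zero hp 1 one_ne_zero⟩⟩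

/-- **A non-zero spectrum meets the first two clauses of `SmithTodaExists p n`**: it is levelwise well pointed and finite `p`-local. -/
theorem exists_nonzero_wellPointed_finitePLocal {p : ℕ} (hp : p.Prime) :
    ∃ X : Spectrum, (∀ b, (X.space b).WellPointed) ∧ IsFinitePLocal p (toSHC.obj X) ∧
      Nontrivial X.sys.PiStar :=
  ⟨sphereLoc p, sphereSpectrum_wellPointed_and_finite.1, isFinitePLocal_sphereLoc hp,
    nontrivial_piStar_sphereLoc hp⟩

/-! ## 4. The prime `p` is not inverted: the `p`-local sphere spectrum is not `q`-local for `q ≠ p` -/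

/-- **The image of `1` in `π⋆(S_(p))` is not divisible by `p`.** -/
theorem nsmul_ne_piMap_sphereLocMap_unit {p : ℕ} (hp : p.Prime) (y : (sphereLoc p).sys.PiStar) :
    p • y ≠ Spectrum.Hom.piMap (sphereLocMap p) (sphereSpectrum.sys.cls unitRep) := by
  intro h
  have hloc := isLocalizedModule_piMap_sphereLocMap hp
  obtain ⟨⟨x, s⟩, hx⟩ := IsLocalizedModule.surj (primeTo p)
    (Spectrum.Hom.piMap (sphereLocMap p)).toIntLinearMap y
  have hx' : (s : ℤ) • y = Spectrum.Hom.piMap (sphereLocMap p) x := hx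
  have h1 : (Spectrum.Hom.piMap (sphereLocMap p)).toIntLinearMap ((p : ℤ) • x) =
      (Spectrum.Hom.piMap (sphereLocMap p)).toIntLinearMap
        ((s : ℤ) • sphereSpectrum.sys.cls unitRep) := by
    show Spectrum.Hom.piMap (sphereLocMap p) ((p : ℤ) • x) =
      Spectrum.Hom.piMap (sphereLocMap p) ((s : ℤ) • sphereSpectrum.sys.cls unitRep)
    rw [map_zsmul, map_zsmul, ← hx', ← h, smul_comm, natCast_zsmul]
  obtain ⟨c, hc⟩ := IsLocalizedModule.exists_of_eq (S := primeTo p) h1
  have hc' : (c : ℤ) • (p : ℤ) • x = (c : ℤ) • (s : ℤ) • sphereSpectrum.sys.cls unitRep := hc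
  obtain ⟨a, b, hab⟩ : IsCoprime ((c : ℤ) * (s : ℤ)) (p : ℤ) := (c * s).2
  have : Fact p.Prime := ⟨hp⟩
  apply nsmul_ne_cls_unitRep p (a • (c : ℤ) • x + b • sphereSpectrum.sys.cls unitRep)
  have e : sphereSpectrum.sys.cls unitRep =
      (a * ((c : ℤ) * (s : ℤ)) + b * (p : ℤ)) • sphereSpectrum.sys.cls unitRep := by
    rw [hab, one_smul]
  conv_rhs => rw [e]
  rw [add_smul, mul_smul a, mul_smul (c : ℤ), ← hc', ← natCast_zsmul, smul_add, mul_smul b,
    smul_comm (p : ℤ) a, smul_comm (p : ℤ) (c : ℤ), smul_comm (p : ℤ) b]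

/-- On a finite `q`-local spectrum, the multiplication by an integer prime to `q` is onto. -/
theorem IsFinitePLocal.surjective_nsmul {q : ℕ} (hq : q.Prime) {X : SHC} (h : IsFinitePLocal q X)
    {ℓ : ℕ} (hℓ : ¬ (q : ℤ) ∣ (ℓ : ℤ)) : Function.Surjective fun z : piSHC.obj X => ℓ • z := by
  obtain ⟨Y, Z, f, -, hf, ⟨r⟩⟩ := h
  intro u
  obtain ⟨z, hz⟩ := hf.surjective_nsmul hq hℓ ((piSHC.map r.i).hom u)
  have hz' : ℓ • z = (piSHC.map r.i).hom u := hz
  have h1 : (piSHC.map r.r).hom ((piSHC.map r.i).hom u) = u := by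
    have e : piSHC.map r.i ≫ piSHC.map r.r = 𝟙 _ := by
      rw [← piSHC.map_comp, r.retract, piSHC.map_id]
    have := congrArg (fun g => g.hom u) e
    simpa using this
  refine ⟨(piSHC.map r.r).hom z, ?_⟩
  show ℓ • (piSHC.map r.r).hom z = u
  rw [← map_nsmul, hz', h1]

/-- **Non-example**: for primes `q ≠ p`, the `p`-local sphere spectrum is not a finite `q`-local spectrum: the predicate `IsFinitePLocal` depends on the prime. -/
theorem not_isFinitePLocal_sphereLoc_of_ne {p q : ℕ} (hp : p.Prime) (hq : q.Prime) (hpq : p ≠ q) :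
    ¬ IsFinitePLocal q (toSHC.obj (sphereLoc p)) := by
  intro h
  have hd : ¬ (q : ℤ) ∣ (p : ℤ) := fun hd =>
    hpq ((Nat.prime_dvd_prime_iff_eq hq hp).1 (Int.natCast_dvd_natCast.1 hd)).symm
  let e : piSHC.obj (toSHC.obj (sphereLoc p)) ≃+ (sphereLoc p).sys.PiStar :=
    (piSHCIso.app (sphereLoc p)).addCommGroupIsoToAddEquiv
  obtain ⟨z, hz⟩ := h.surjective_nsmul hq hd
    (e.symm (Spectrum.Hom.piMap (sphereLocMap p) (sphereSpectrum.sys.cls unitRep)))
  have hz' : p • z =
      e.symm (Spectrum.Hom.piMap (sphereLocMap p) (sphereSpectrum.sys.cls unitRep)) := hz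
  apply nsmul_ne_piMap_sphereLocMap_unit hp (e z)
  rw [← map_nsmul, hz', e.apply_symm_apply]

end Claimed.Open.R308
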