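import Claimed.Open.R308.SanityConnGen
import Claimed.Open.R308.SanityHopf
import Claimed.Open.R308.SanityTelLocal
import Claimed.Open.R308.SanityShift

/-!
# Result 308: the sphere spectrum and the `p`-local sphere spectrum have no homotopy in negative degrees

* `Spectrum.cls_eq_zero_of_collapse`, `Spectrum.piDeg_eq_bot_of_collapse`: if every space `X_{i+1}` of a spectrum is a sphere `I^{i+1}/∂I^{i+1}` (a Hausdorff space with a collapse map, `IsCollapse` of
  `SanityDegCore.lean`), then a cube `I^N → X_i` with `N < i` has the class `0`, and `π_k(X) = 0` for `k < 0` (connectivity of the spheres: `Conn.IsCollapse.homotopic_const_of_lt` of `SanityConnGen.lean`);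
* `piDeg_sphereSpectrum_of_neg`: **`π_k(S) = 0` for `k < 0`**;
* `piDeg_tel_sphereSpectrum_of_neg`, `piDeg_sphereLoc_of_neg`: the same for the telescopes `S.tel d`, in particular for `S_(p)`;
* `piDeg_unsh_sphereSpectrum_of_lt`: `π_k(Σ^{-1} S) = 0` for `k < -1`, while `π_{-1}(Σ^{-1} S) ≠ 0` (`SanityShift.lean`).
* `exists_smul_eq_zsmul_of_mem_piDeg_zero_sphereLoc`: **`π_0(S_(p)) = ℤ_(p) · 1`**: for every class `x` of degree `0` of `S_(p)` there are an integer `m` prime to `p` and an integer `k` with `m x = k · 1`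
  (and `k · 1 ≠ 0` for `k ≠ 0`: `piMap_sphereLocMap_zsmul_ne_zero` of `SanityTelLocal.lean`).
-/

set_option autoImplicit false

open scoped unitInterval Topology Topology.Homotopy
open CategoryTheory

noncomputable section

namespace Claimed.Open.R308

/-- In a spectrum of spheres a cube of dimension smaller than the level has the class `0`. -/
theorem Spectrum.cls_eq_zero_of_collapse (X : Spectrum) (hT : ∀ i, T2Space (X.space (i + 1)))
    (c : ∀ i, Loops (i + 1) (X.space (i + 1))) (hc : ∀ i, IsCollapse (c i)) {i N : ℕ} (h : N < i)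
    (g : Loops N (X.space i)) : X.sys.cls ⟨i, N, g⟩ = 0 := by
  have := hT i
  rw [X.sys.cls_stab () i g]
  have h1 : GenLoop.Homotopic ((X.bond i).onLoops g) GenLoop.const :=
    Conn.IsCollapse.homotopic_const_of_lt (hc i) (Nat.succ_lt_succ h) _
  exact (X.sys.cls_htpy (i := i + 1) h1).trans (X.sys.cls_const (i + 1) (N + 1) (Nat.succ_pos N))

/-- **A spectrum of spheres has no homotopy in negative degrees.** -/
theorem Spectrum.piDeg_eq_bot_of_collapse (X : Spectrum) (hT : ∀ i, T2Space (X.space (i + 1)))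
    (c : ∀ i, Loops (i + 1) (X.space (i + 1))) (hc : ∀ i, IsCollapse (c i)) {k : ℤ} (hk : k < 0) :
    X.sys.piDeg k = ⊥ := by
  rw [eq_bot_iff]
  refine (AddSubgroup.closure_le _).2 ?_
  rintro _ ⟨⟨i, N, g⟩, hr, rfl⟩
  have hr' : (N : ℤ) - (i : ℤ) = k := hr
  exact AddSubgroup.mem_bot.2 (X.cls_eq_zero_of_collapse hT c hc (by omega) g)

/-- **`π_k(S.tel d) = 0` for `k < 0`**, for every telescope of the sphere spectrum. -/
theorem piDeg_tel_sphereSpectrum_of_neg (d : ℕ → ℕ) {k : ℤ} (hk : k < 0) :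
    (sphereSpectrum.tel d).sys.piDeg k = ⊥ :=
  (sphereSpectrum.tel d).piDeg_eq_bot_of_collapse (fun i => t2Space_iterSusp (i + 1))
    (fun i => fundCube (i + 1)) isCollapse_fundCube hk

/-- **`π_k(S) = 0` for `k < 0`.** -/
theorem piDeg_sphereSpectrum_of_neg {k : ℤ} (hk : k < 0) : sphereSpectrum.sys.piDeg k = ⊥ :=
  sphereSpectrum.piDeg_eq_bot_of_collapse (fun i => t2Space_iterSusp (i + 1))
    (fun i => fundCube (i + 1)) isCollapse_fundCube hk

/-- **`π_k(S_(p)) = 0` for `k < 0`.** -/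
theorem piDeg_sphereLoc_of_neg (p : ℕ) {k : ℤ} (hk : k < 0) : (sphereLoc p).sys.piDeg k = ⊥ :=
  piDeg_tel_sphereSpectrum_of_neg (pLocSeq p) hk

/-- **`π_k(Σ^{-1} S) = 0` for `k < -1`.** -/
theorem piDeg_unsh_sphereSpectrum_of_lt {k : ℤ} (hk : k < -1) :
    sphereSpectrum.unsh.sys.piDeg k = ⊥ := by
  have h := map_unshEquiv_piDeg sphereSpectrum k
  rw [piDeg_sphereSpectrum_of_neg (by omega)] at h
  exact (AddSubgroup.map_eq_bot_iff_of_injective _ (unshEquiv sphereSpectrum).injective).1 h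

/-! ## `π_0` of the `p`-local sphere spectrum -/

/-- The classes `x` with `m x = k u` for some `m` prime to `p` and some integer `k`. -/
def fracSubgroup (p : ℕ) {G : Type} [AddCommGroup G] (u : G) : AddSubgroup G where
  carrier := {x | ∃ m : ℤ, m ∈ primeTo p ∧ ∃ k : ℤ, m • x = k • u}
  zero_mem' := ⟨1, (primeTo p).one_mem, 0, by simp⟩
  add_mem' := by
    rintro x y ⟨m, hm, k, hk⟩ ⟨m', hm', k', hk'⟩
    refine ⟨m * m', (primeTo p).mul_mem hm hm', m' * k + m * k', ?_⟩
    rw [smul_add, mul_comm m m', mul_smul, hk, mul_comm m' m, mul_smul, hk', add_smul, mul_smul,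
      mul_smul]
  neg_mem' := by
    rintro x ⟨m, hm, k, hk⟩
    exact ⟨m, hm, -k, by rw [smul_neg, hk, neg_smul]⟩

/-- **`π_0(S_(p)) = ℤ_(p) · 1`.** -/
theorem exists_smul_eq_zsmul_of_mem_piDeg_zero_sphereLoc {p : ℕ} (hp : p.Prime)
    {x : (sphereLoc p).sys.PiStar} (hx : x ∈ (sphereLoc p).sys.piDeg 0) :
    ∃ m : ℤ, m ∈ primeTo p ∧ ∃ k : ℤ,
      m • x = k • Spectrum.Hom.piMap (sphereLocMap p) (sphereSpectrum.sys.cls unitRep) := by
  have h : (sphereLoc p).sys.piDeg 0 ≤
      fracSubgroup p (Spectrum.Hom.piMap (sphereLocMap p) (sphereSpectrum.sys.cls unitRep)) := by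
    refine (AddSubgroup.closure_le _).2 ?_
    rintro _ ⟨⟨i, N, g⟩, hr, rfl⟩
    have h0 : sphereSpectrum.sys.cls ⟨i, N, g⟩ ∈ sphereSpectrum.sys.piDeg 0 := by
      have h1 := sphereSpectrum.sys.cls_mem_piDeg ⟨i, N, g⟩
      have h2 : sphereSpectrum.sys.deg ⟨i, N, g⟩ = 0 := hr
      rwa [h2] at h1
    obtain ⟨k, hk, -⟩ := eq_zsmul_of_mem_piDeg_zero h0
    refine ⟨(telProd (pLocSeq p) 0 i : ℤ), (telProdS p (pLocSeq p) (pLocSeq_mem hp) 0 i).2, k, ?_⟩
    have e : Spectrum.Hom.piMap (sphereLocMap p) (sphereSpectrum.sys.cls ⟨i, N, g⟩) =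
        telProd (pLocSeq p) 0 i • (sphereLoc p).sys.cls ⟨i, N, g⟩ := by
      show Spectrum.Hom.piMap (telMap (pLocSeq p)) _ = _
      rw [telMap_piMap]
      exact sphereSpectrum.telHom_cls (pLocSeq p) ⟨i, N, g⟩
    rw [natCast_zsmul, ← e, hk, map_zsmul]
  exact h hx

end Claimed.Open.R308
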