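/- Copy, up to the name of the namespace, of the file `SanityHopfDefs.lean` of the folder of result 313; written there by the seats 131, 241, 223 (board hopf_post of helper223). -/
import Claimed.Open.R308.SanityDegCore
import Claimed.Open.R308.SanityDegDefs

/-!
# Result 308, sanity: Hopf's theorem (`π_n` of an `n`-sphere is generated by the collapse map).  Definitions

`X` is a space with a based loop `c : (Iⁿ, ∂Iⁿ) → (X, x₀)` (in the end a collapse map, `IsCollapse c` of `SanityDegCore.lean`, so that `X = Iⁿ/∂Iⁿ`).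
`q c v = c (v + centre, clamped to the cube)` is the chart `ℝⁿ → X`; it is `x₀` as soon as `‖v‖ ≥ 1/2` (sup norm).
For an open subset `O` of the open cube and a continuous `θ : ℝⁿ → ℝⁿ` with `‖θ‖ ≥ 1/2` on the frontier of `O` (`Adm O θ`),
`Lp c h` is the based loop `t ↦ q c (θ t)` on `O`, `x₀` off `O`.
-/

set_option autoImplicit false

open Topology unitInterval Set
open scoped Topology.Homotopy

namespace Claimed.Open.R308.Hopf

open Claimed.Open.R308.Deg (V)

noncomputable section

variable {n : ℕ} {X : Type} [TopologicalSpace X] {x₀ : X}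

/-- the real coordinates of a point of the cube -/
def toV (t : Fin n → I) : V n := fun i => (t i : ℝ)

/-- the centre of the cube -/
def ctr (n : ℕ) : V n := fun _ => 1 / 2

/-- `v ↦ v + centre`, clamped to the cube -/
def clampC (v : V n) : Fin n → I := fun i => Set.projIcc 0 1 zero_le_one (v i + 1 / 2)

/-- the chart `ℝⁿ → X` -/
def q (c : Ω^ (Fin n) X x₀) (v : V n) : X := c (clampC v)

theorem continuous_toV : Continuous (toV (n := n)) :=
  continuous_pi fun i => continuous_subtype_val.comp (continuous_apply i)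

theorem continuous_clampC : Continuous (clampC (n := n)) :=
  continuous_pi fun i => continuous_projIcc.comp ((continuous_apply i).add continuous_const)

theorem continuous_q (c : Ω^ (Fin n) X x₀) : Continuous (q c) :=
  c.1.continuous.comp continuous_clampC

/-- the chart is `x₀` outside the open cube of half side `1/2` -/
theorem q_eq_base (c : Ω^ (Fin n) X x₀) {v : V n} (hv : 1 / 2 ≤ ‖v‖) : q c v = x₀ := by
  have hex : ∃ i, 1 / 2 ≤ ‖v i‖ := by
    by_contra hcon
    have hcon' : ∀ i, ‖v i‖ < 1 / 2 := fun i => not_le.1 fun hi => hcon ⟨i, hi⟩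
    exact absurd ((pi_norm_lt_iff (by norm_num : (0 : ℝ) < 1 / 2)).2 hcon') (not_lt.2 hv)
  obtain ⟨i, hi⟩ := hex
  refine c.2 _ ⟨i, ?_⟩
  rw [Real.norm_eq_abs, le_abs] at hi
  rcases hi with hi | hi
  · right
    show Set.projIcc 0 1 zero_le_one (v i + 1 / 2) = 1
    exact Set.projIcc_of_right_le _ (by linarith)
  · left
    show Set.projIcc 0 1 zero_le_one (v i + 1 / 2) = 0
    exact Set.projIcc_of_le_left _ (by linarith)

/-- the chart at `t - centre` is `c t` -/
theorem q_toV_sub (c : Ω^ (Fin n) X x₀) (t : Fin n → I) : q c (toV t - ctr n) = c t := by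
  have h : clampC (toV t - ctr n) = t := by
    funext i
    show Set.projIcc 0 1 zero_le_one ((t i : ℝ) - 1 / 2 + 1 / 2) = t i
    rw [sub_add_cancel]
    exact Set.projIcc_val zero_le_one (t i)
  show c (clampC (toV t - ctr n)) = c t
  rw [h]

/-- admissible pairs -/
structure Adm (O : Set (V n)) (θ : V n → V n) : Prop where
  isOpen : IsOpen O
  sub : ∀ x ∈ O, ∀ i, 0 < x i ∧ x i < 1
  cont : Continuous θ
  big : ∀ x ∈ frontier O, 1 / 2 ≤ ‖θ x‖

open Classical in
/-- `q c ∘ θ` on `O`, `x₀` off `O` -/
def lpFun (c : Ω^ (Fin n) X x₀) (O : Set (V n)) (θ : V n → V n) (x : V n) : X :=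
  if x ∈ O then q c (θ x) else x₀

theorem lpFun_of_mem (c : Ω^ (Fin n) X x₀) {O : Set (V n)} (θ : V n → V n) {x : V n} (hx : x ∈ O) :
    lpFun c O θ x = q c (θ x) := if_pos hx

theorem lpFun_of_notMem (c : Ω^ (Fin n) X x₀) {O : Set (V n)} (θ : V n → V n) {x : V n}
    (hx : x ∉ O) : lpFun c O θ x = x₀ := if_neg hx

theorem continuous_lpFun (c : Ω^ (Fin n) X x₀) {O : Set (V n)} {θ : V n → V n} (h : Adm O θ) :
    Continuous (lpFun c O θ) := by
  classical
  have h1 : lpFun c O θ = fun x => if x ∈ O then q c (θ x) else x₀ := by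
    funext x
    unfold lpFun
    congr
  rw [h1]
  exact Continuous.if (fun a ha => q_eq_base c (h.big a ha)) ((continuous_q c).comp h.cont)
    continuous_const

theorem toV_notMem_of_boundary {O : Set (V n)} {θ : V n → V n} (h : Adm O θ) {t : Fin n → I}
    (ht : t ∈ Cube.boundary (Fin n)) : toV t ∉ O := by
  intro hO
  obtain ⟨i, hi⟩ := ht
  have h1 := h.sub _ hO i
  have h2 : toV t i = (t i : ℝ) := rfl
  rcases hi with hi | hi
  · rw [h2, hi] at h1
    exact lt_irrefl _ h1.1
  · rw [h2, hi] at h1
    exact lt_irrefl _ h1.2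

/-- **the loop of an admissible pair** -/
def Lp (c : Ω^ (Fin n) X x₀) {O : Set (V n)} {θ : V n → V n} (h : Adm O θ) : Ω^ (Fin n) X x₀ :=
  ⟨⟨fun t => lpFun c O θ (toV t), (continuous_lpFun c h).comp continuous_toV⟩,
    fun _ ht => lpFun_of_notMem c θ (toV_notMem_of_boundary h ht)⟩

theorem Lp_apply (c : Ω^ (Fin n) X x₀) {O : Set (V n)} {θ : V n → V n} (h : Adm O θ)
    (t : Fin n → I) : Lp c h t = lpFun c O θ (toV t) := rfl

theorem hcls_eq_of_homotopic {f g : Ω^ (Fin n) X x₀} (h : GenLoop.Homotopic f g) :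
    hcls f = hcls g := Quotient.sound h

/-- the closure of an admissible open set lies in the closed cube -/
theorem Adm.closure_sub {O : Set (V n)} {θ : V n → V n} (h : Adm O θ) :
    closure O ⊆ Icc (0 : V n) 1 :=
  closure_minimal (fun x hx => ⟨fun i => (h.sub x hx i).1.le, fun i => (h.sub x hx i).2.le⟩)
    isClosed_Icc

theorem Adm.isCompact_closure {O : Set (V n)} {θ : V n → V n} (h : Adm O θ) :
    IsCompact (closure O) :=
  isCompact_Icc.of_isClosed_subset isClosed_closure h.closure_sub

/-- the closed sup-norm ball of radius `δ` around `z` lies in the closed cube -/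
def InCube (z : V n) (δ : ℝ) : Prop := ∀ i, 0 ≤ z i - δ ∧ z i + δ ≤ 1

/-- the diagonal map with entries `ε i` -/
def signMap (ε : Fin n → ℝ) : V n →L[ℝ] V n :=
  ContinuousLinearMap.pi fun i => ε i • ContinuousLinearMap.proj i

theorem signMap_apply (ε : Fin n → ℝ) (v : V n) (i : Fin n) : signMap ε v i = ε i * v i := rfl

end

end Claimed.Open.R308.Hopf
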