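/- Copy, up to the name of the namespace, of the file `SanityConnDefs.lean` of the folder of result 313; written there by the seats 223 (board hopf_post of helper223). -/
import Claimed.Open.R308.SanityHopfDefs

/-!
# Result 308, sanity: `π_k` of an `n`-sphere vanishes for `k < n`.  Definitions, homotopies

The loops `Lp c h` of `SanityHopfDefs.lean` with a source cube of another dimension `k`: `c : (Iⁿ, ∂Iⁿ) → (X, x₀)` is a based loop with chart `Hopf.q c : ℝⁿ → X`,
`O` an open subset of the open cube of `ℝᵏ`, `θ : ℝᵏ → ℝⁿ` continuous with `‖θ‖ ≥ 1/2` on the frontier of `O`; the loop is `q c ∘ θ` on `O` and `x₀` off `O`.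
-/

set_option autoImplicit false

open Topology unitInterval Set
open scoped Topology.Homotopy

namespace Claimed.Open.R308.Conn

open Claimed.Open.R308.Deg (V)
open Claimed.Open.R308.Hopf (toV ctr q continuous_toV continuous_q q_eq_base q_toV_sub)

noncomputable section

variable {k n : ℕ} {X : Type} [TopologicalSpace X] {x₀ : X}

/-- admissible pairs -/
structure Adm (O : Set (V k)) (θ : V k → V n) : Prop where
  isOpen : IsOpen O
  sub : ∀ x ∈ O, ∀ i, 0 < x i ∧ x i < 1
  cont : Continuous θ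
  big : ∀ x ∈ frontier O, 1 / 2 ≤ ‖θ x‖

open Classical in
/-- `q c ∘ θ` on `O`, `x₀` off `O` -/
def lpFun (c : Ω^ (Fin n) X x₀) (O : Set (V k)) (θ : V k → V n) (x : V k) : X :=
  if x ∈ O then q c (θ x) else x₀

theorem lpFun_of_mem (c : Ω^ (Fin n) X x₀) {O : Set (V k)} (θ : V k → V n) {x : V k} (hx : x ∈ O) :
    lpFun c O θ x = q c (θ x) := if_pos hx

theorem lpFun_of_notMem (c : Ω^ (Fin n) X x₀) {O : Set (V k)} (θ : V k → V n) {x : V k}
    (hx : x ∉ O) : lpFun c O θ x = x₀ := if_neg hx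

theorem continuous_lpFun (c : Ω^ (Fin n) X x₀) {O : Set (V k)} {θ : V k → V n} (h : Adm O θ) :
    Continuous (lpFun c O θ) := by
  classical
  have h1 : lpFun c O θ = fun x => if x ∈ O then q c (θ x) else x₀ := by
    funext x
    unfold lpFun
    congr
  rw [h1]
  exact Continuous.if (fun a ha => q_eq_base c (h.big a ha)) ((continuous_q c).comp h.cont)
    continuous_const

theorem toV_notMem_of_boundary {O : Set (V k)} {θ : V k → V n} (h : Adm O θ) {t : Fin k → I}
    (ht : t ∈ Cube.boundary (Fin k)) : toV t ∉ O := by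
  intro hO
  obtain ⟨i, hi⟩ := ht
  have h1 := h.sub _ hO i
  have h2 : toV t i = (t i : ℝ) := rfl
  rcases hi with hi | hi
  · rw [h2, hi] at h1
    exact lt_irrefl _ h1.1
  · rw [h2, hi] at h1
    exact lt_irrefl _ h1.2

/-- **the loop of an admissible pair** -/
def Lp (c : Ω^ (Fin n) X x₀) {O : Set (V k)} {θ : V k → V n} (h : Adm O θ) : Ω^ (Fin k) X x₀ :=
  ⟨⟨fun t => lpFun c O θ (toV t), (continuous_lpFun c h).comp continuous_toV⟩,
    fun _ ht => lpFun_of_notMem c θ (toV_notMem_of_boundary h ht)⟩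

theorem Lp_apply (c : Ω^ (Fin n) X x₀) {O : Set (V k)} {θ : V k → V n} (h : Adm O θ)
    (t : Fin k → I) : Lp c h t = lpFun c O θ (toV t) := rfl

/-- the closure of an admissible open set lies in the closed cube -/
theorem Adm.closure_sub {O : Set (V k)} {θ : V k → V n} (h : Adm O θ) :
    closure O ⊆ Icc (0 : V k) 1 :=
  closure_minimal (fun x hx => ⟨fun i => (h.sub x hx i).1.le, fun i => (h.sub x hx i).2.le⟩)
    isClosed_Icc

theorem Adm.isCompact_closure {O : Set (V k)} {θ : V k → V n} (h : Adm O θ) :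
    IsCompact (closure O) :=
  isCompact_Icc.of_isClosed_subset isClosed_closure h.closure_sub

theorem Lp_homotopic (c : Ω^ (Fin n) X x₀) {O : Set (V k)} {Θ : ℝ → V k → V n}
    (hΘ : ContinuousOn (fun p : ℝ × V k => Θ p.1 p.2) (Icc (0 : ℝ) 1 ×ˢ univ)) (h0 : Adm O (Θ 0))
    (h1 : Adm O (Θ 1))
    (hbig : ∀ s ∈ Icc (0 : ℝ) 1, ∀ x ∈ frontier O, 1 / 2 ≤ ‖Θ s x‖) :
    GenLoop.Homotopic (Lp c h0) (Lp c h1) := by
  classical
  have hcΘ : Continuous (fun p : I × (Fin k → I) => Θ (p.1 : ℝ) (toV p.2)) := by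
    have h2 : Continuous (fun p : I × (Fin k → I) => ((p.1 : ℝ), toV p.2)) :=
      (continuous_subtype_val.comp continuous_fst).prodMk (continuous_toV.comp continuous_snd)
    exact hΘ.comp_continuous h2 (fun p => ⟨p.1.2, mem_univ _⟩)
  have hF : Continuous (fun p : I × (Fin k → I) =>
      if toV p.2 ∈ O then q c (Θ (p.1 : ℝ) (toV p.2)) else x₀) := by
    refine continuous_if ?_ ((continuous_q c).comp hcΘ).continuousOn continuous_const.continuousOn
    intro p hp
    have hp' : toV p.2 ∈ frontier O :=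
      (continuous_toV.comp continuous_snd).frontier_preimage_subset O hp
    exact q_eq_base c (hbig _ p.1.2 _ hp')
  refine ⟨⟨⟨⟨_, hF⟩, ?_, ?_⟩, ?_⟩⟩
  · intro t
    show (if toV t ∈ O then q c (Θ ((0 : I) : ℝ) (toV t)) else x₀) = Lp c h0 t
    rw [Lp_apply]
    rfl
  · intro t
    show (if toV t ∈ O then q c (Θ ((1 : I) : ℝ) (toV t)) else x₀) = Lp c h1 t
    rw [Lp_apply]
    rfl
  · intro s t ht
    show (if toV t ∈ O then q c (Θ (s : ℝ) (toV t)) else x₀) = Lp c h0 t
    rw [Lp_apply, lpFun_of_notMem c _ (toV_notMem_of_boundary h0 ht),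
      if_neg (toV_notMem_of_boundary h0 ht)]

theorem Lp_congr (c : Ω^ (Fin n) X x₀) {O O' : Set (V k)} {θ θ' : V k → V n} (h : Adm O θ)
    (h' : Adm O' θ') (he : ∀ x ∈ Icc (0 : V k) 1, lpFun c O θ x = lpFun c O' θ' x) :
    Lp c h = Lp c h' := by
  ext t
  rw [Lp_apply, Lp_apply]
  exact he _ ⟨fun i => (t i).2.1, fun i => (t i).2.2⟩

theorem Adm.smul {O : Set (V k)} {θ : V k → V n} (h : Adm O θ) {l : ℝ} (hl : 1 ≤ l) :
    Adm O (fun x => l • θ x) := by
  refine ⟨h.isOpen, h.sub, h.cont.const_smul l, fun x hx => ?_⟩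
  rw [norm_smul, Real.norm_of_nonneg (le_trans zero_le_one hl)]
  have h1 := h.big x hx
  nlinarith [norm_nonneg (θ x)]

theorem Lp_smul_homotopic (c : Ω^ (Fin n) X x₀) {O : Set (V k)} {θ : V k → V n} (h : Adm O θ)
    {l : ℝ} (hl : 1 ≤ l) : GenLoop.Homotopic (Lp c h) (Lp c (h.smul hl)) := by
  have hs : ∀ s ∈ Icc (0 : ℝ) 1, (1 : ℝ) ≤ 1 + s * (l - 1) := fun s hs => by
    nlinarith [hs.1, hs.2]
  have e0 : (fun x => (1 + (0 : ℝ) * (l - 1)) • θ x) = θ := by
    funext x
    rw [zero_mul, add_zero, one_smul]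
  have e1 : (fun x => (1 + (1 : ℝ) * (l - 1)) • θ x) = fun x => l • θ x := by
    funext x
    congr 1
    ring
  have h0 : Adm O (fun x => (1 + (0 : ℝ) * (l - 1)) • θ x) := by rw [e0]; exact h
  have h1 : Adm O (fun x => (1 + (1 : ℝ) * (l - 1)) • θ x) := by rw [e1]; exact h.smul hl
  have key := Lp_homotopic c (O := O) (Θ := fun s x => (1 + s * (l - 1)) • θ x)
    (Continuous.continuousOn (by
      have := h.cont
      fun_prop)) h0 h1
    (fun s hs' x hx => (h.smul (hs s hs')).big x hx)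
  have a0 : Lp c h0 = Lp c h := Lp_congr c h0 h (fun x _ => by rw [e0])
  have a1 : Lp c h1 = Lp c (h.smul hl) := Lp_congr c h1 (h.smul hl) (fun x _ => by rw [e1])
  rw [← a0, ← a1]
  exact key

/-- no zero: the loop is null homotopic -/
theorem Lp_homotopic_const (c : Ω^ (Fin n) X x₀) {O : Set (V k)} {θ : V k → V n}
    (h : Adm O θ) (hne : ∀ x ∈ closure O, θ x ≠ 0) : GenLoop.Homotopic (Lp c h) GenLoop.const := by
  obtain ⟨m, hm0, hm⟩ : ∃ m : ℝ, 0 < m ∧ ∀ x ∈ closure O, m ≤ ‖θ x‖ := by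
    rcases (closure O).eq_empty_or_nonempty with he | hnon
    · exact ⟨1, one_pos, fun x hx => by rw [he] at hx; exact hx.elim⟩
    · obtain ⟨x1, hx1, hmin⟩ := h.isCompact_closure.exists_isMinOn hnon h.cont.norm.continuousOn
      exact ⟨‖θ x1‖, norm_pos_iff.2 (hne x1 hx1), fun x hx => hmin hx⟩
  have hl : (1 : ℝ) ≤ max 1 (1 / (2 * m)) := le_max_left _ _
  have e : Lp c (h.smul hl) = GenLoop.const := by
    ext t
    rw [Lp_apply]
    show _ = x₀
    by_cases ht : toV t ∈ O
    · rw [lpFun_of_mem c _ ht]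
      apply q_eq_base
      rw [norm_smul, Real.norm_of_nonneg (le_trans zero_le_one hl)]
      have h1 : m ≤ ‖θ (toV t)‖ := hm _ (subset_closure ht)
      have h2 : 1 / (2 * m) ≤ max 1 (1 / (2 * m)) := le_max_right _ _
      calc (1 : ℝ) / 2 = 1 / (2 * m) * m := by field_simp
        _ ≤ max 1 (1 / (2 * m)) * ‖θ (toV t)‖ :=
          mul_le_mul h2 h1 hm0.le (le_trans zero_le_one hl)
    · exact lpFun_of_notMem c _ ht
  rw [← e]
  exact Lp_smul_homotopic c h hl

end

end Claimed.Open.R308.Conn
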