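/- Copy, up to the name of the namespace, of the file `SanityConnMiss.lean` of the folder of result 313; written there by the seats 38 (board hopf_post of helper223). -/
import Claimed.Open.R308.SanityDegApprox
import Claimed.Open.R308.SanityDegIntA

/-! # Result 308, sanity (Hopf II, post C5): approximation of maps `ℝᵏ → ℝⁿ`; a `C²` map from a smaller dimension misses points arbitrarily close to `0`. -/

set_option autoImplicit false

open Set

namespace Claimed.Open.R308.Conn

open Claimed.Open.R308.Deg (V)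

/-- `C²` approximation on a box, target of any dimension (components: `Deg.exists_approx_real`). -/
theorem exists_approx₂ {k n : ℕ} {a b : V k} {F : V k → V n} (hF : ContinuousOn F (Icc a b)) {δ : ℝ}
    (hδ : 0 < δ) : ∃ P : V k → V n, ContDiff ℝ 2 P ∧ ∀ x ∈ Icc a b, ‖P x - F x‖ < δ := by
  have h : ∀ i : Fin n, ∃ p : V k → ℝ, ContDiff ℝ 2 p ∧ ∀ x ∈ Icc a b, |p x - F x i| < δ := fun i =>
    Deg.exists_approx_real ((continuous_apply i).comp_continuousOn hF) hδ
  choose p hp hpF using h
  refine ⟨fun x i => p i x, contDiff_pi.mpr hp, fun x hx => ?_⟩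
  rw [pi_norm_lt_iff hδ]
  intro i
  simpa [Real.norm_eq_abs] using hpF i x hx

/-- the projection `ℝⁿ → ℝᵏ` to the first `k` coordinates -/
noncomputable def firstL {k n : ℕ} (h : k ≤ n) : V n →L[ℝ] V k :=
  ContinuousLinearMap.pi fun i => ContinuousLinearMap.proj (Fin.castLE h i)

theorem firstL_apply {k n : ℕ} (h : k ≤ n) (z : V n) (i : Fin k) :
    firstL h z i = z (Fin.castLE h i) := rfl

theorem firstL_surjective {k n : ℕ} (h : k ≤ n) : Function.Surjective (firstL h) := by
  intro x
  refine ⟨fun j => if hj : (j : ℕ) < k then x ⟨j, hj⟩ else 0, ?_⟩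
  funext i
  rw [firstL_apply]
  simp

/-- a `C²` map `ℝᵏ → ℝⁿ`, `k < n`, misses points arbitrarily close to `0` -/
theorem exists_notMem_range {k n : ℕ} (hk : k < n) {P : V k → V n} (hP : ContDiff ℝ 2 P) {η : ℝ}
    (hη : 0 < η) : ∃ y₀ : V n, ‖y₀‖ < η ∧ ∀ x, P x ≠ y₀ := by
  set R : V n →L[ℝ] V k := firstL hk.le with hR
  set P' : V n → V n := fun z => P (R z) with hP'
  have hP'c : ContDiff ℝ 2 P' := hP.comp R.contDiff
  obtain ⟨y₀, hy₀, hreg⟩ := Deg.exists_regular_value hP'c (univ : Set (V n)) hη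
  refine ⟨y₀, hy₀, fun x hx => ?_⟩
  obtain ⟨z, rfl⟩ := firstL_surjective hk.le x
  refine hreg z (mem_univ z) hx ?_
  -- the derivative kills a basis vector
  have hd : HasFDerivAt P' ((fderiv ℝ P (R z)).comp R) z :=
    ((hP.differentiable (by norm_num) (R z)).hasFDerivAt).comp z R.hasFDerivAt
  rw [hd.fderiv]
  unfold ContinuousLinearMap.det
  rw [LinearMap.det_eq_zero_iff_ker_ne_bot]
  intro hbot
  set e : V n := Pi.single (⟨k, hk⟩ : Fin n) 1 with he
  have hRe : R e = 0 := by
    funext i
    rw [hR, firstL_apply, he, Pi.single_apply, if_neg]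
    · rfl
    · intro h
      have := congrArg Fin.val h
      simp at this
      exact absurd this (ne_of_lt i.2)
  have hker : e ∈ LinearMap.ker (((fderiv ℝ P (R z)).comp R : V n →L[ℝ] V n) : V n →ₗ[ℝ] V n) := by
    rw [LinearMap.mem_ker]
    show (fderiv ℝ P (R z)) (R e) = 0
    rw [hRe, map_zero]
  rw [hbot, Submodule.mem_bot] at hker
  have h1 := congrFun hker (⟨k, hk⟩ : Fin n)
  rw [he, Pi.single_eq_same] at h1
  exact one_ne_zero h1

end Claimed.Open.R308.Conn
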