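/- Copy, up to the name of the namespace, of the file `SanityHopfDesc.lean` of the folder of result 313; written there by the seats 227 (board hopf_post of helper223). -/
import Claimed.Open.R308.SanityHopfDefs

/-! # Hopf, post T1a: descent along `id × c`.
`Prod.map id c : Z × Iⁿ → Z × X` is continuous, onto (`hc.surj`) and closed (`Continuous.isClosedMap`: compact to Hausdorff), hence a quotient map (`IsClosedMap.isQuotientMap`).
`G (z, x) = g (z, a chosen preimage of x)`; it is well defined: if `c t = c t'` then `t = t'` (`hc.inj`) or both lie on the boundary (`hc.bd`; `asCubeBd n` is `Cube.boundary (Fin n)` by `Iff.rfl`).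
`IsQuotientMap.continuous_iff`. -/

set_option autoImplicit false

open Topology unitInterval Set
open scoped Topology.Homotopy

namespace Claimed.Open.R308.Hopf

open Claimed.Open.R308.Deg (V)

variable {n : ℕ} {X : Type} [TopologicalSpace X] {x₀ : X}

theorem IsCollapse.descend [T2Space X] {c : Ω^ (Fin n) X x₀} (hc : IsCollapse c) {Z Y : Type}
    [TopologicalSpace Z] [CompactSpace Z] [T2Space Z] [TopologicalSpace Y]
    (g : Z × (Fin n → I) → Y) (hg : Continuous g)
    (hbd : ∀ z t t', t ∈ Cube.boundary (Fin n) → t' ∈ Cube.boundary (Fin n) → g (z, t) = g (z, t')) :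
    ∃ G : Z × X → Y, Continuous G ∧ ∀ z t, G (z, c t) = g (z, t) := by
  classical
  let p : Z × (Fin n → I) → Z × X := Prod.map id c
  have hpc : Continuous p := continuous_id.prodMap c.1.continuous
  have hps : Function.Surjective p := Function.surjective_id.prodMap hc.surj
  have hq : IsQuotientMap p := hpc.isClosedMap.isQuotientMap hpc hps
  have hwd : ∀ a b, p a = p b → g a = g b := by
    rintro ⟨z, t⟩ ⟨z', t'⟩ h
    have h1 : z = z' := congrArg Prod.fst h
    have h2 : c t = c t' := congrArg Prod.snd h
    subst h1
    by_cases h0 : c t = x₀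
    · exact hbd z t t' (hc.bd t h0) (hc.bd t' (h2 ▸ h0))
    · rw [hc.inj t t' h0 h2]
  refine ⟨fun y => g (Function.surjInv hps y), ?_, fun z t => ?_⟩
  · rw [hq.continuous_iff]
    have h3 : (fun y => g (Function.surjInv hps y)) ∘ p = g := by
      funext a
      exact hwd _ _ (Function.surjInv_eq hps (p a))
    rw [h3]
    exact hg
  · exact hwd _ _ (Function.surjInv_eq hps (z, c t))

end Claimed.Open.R308.Hopf
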