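/- Copy, up to the name of the namespace, of the file `SanityHopfExp.lean` of the folder of result 313; written there by the seats 159 (board hopf_post of helper223). -/
import Claimed.Open.R308.SanityHopfDesc

/-! # Hopf, post T1b: every loop is homotopic to its composite with the expansion `c t ↦ q c (2 (t - centre))`.
`IsCollapse.descend` with `Z = I`, `g (s, t) = q c ((1 + s) • (toV t - ctr n))` (on the boundary `‖toV t - ctr n‖ = 1/2`: `q_eq_base`) gives `e : I × X → X`;
`e (0, x) = x` (`q_toV_sub`, `hc.surj`), `e (s, x₀) = x₀` (`x₀ = c t` with `t` on the boundary; for `n = 0` there is no `IsCollapse`: `hc.bd`).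
The loop is `t ↦ e (1, f t)`, the homotopy `(s, t) ↦ e (s, f t)`. -/

set_option autoImplicit false

open Topology unitInterval Set
open scoped Topology.Homotopy

namespace Claimed.Open.R308.Hopf

open Claimed.Open.R308.Deg (V)

variable {n : ℕ} {X : Type} [TopologicalSpace X] {x₀ : X}

theorem norm_toV_sub_ctr_of_boundary {t : Fin n → I} (ht : t ∈ Cube.boundary (Fin n)) :
    ‖toV t - ctr n‖ = 1 / 2 := by
  obtain ⟨i, hi⟩ := ht
  apply le_antisymm
  · rw [pi_norm_le_iff_of_nonneg (by norm_num)]
    intro j
    have h0 := (t j).2.1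
    have h1 := (t j).2.2
    simp only [Pi.sub_apply, toV, ctr, Real.norm_eq_abs]
    rw [abs_le]
    constructor <;> linarith
  · refine le_trans ?_ (norm_le_pi_norm (toV t - ctr n) i)
    simp only [Pi.sub_apply, toV, ctr, Real.norm_eq_abs]
    rcases hi with hi | hi <;> rw [hi] <;> norm_num

theorem t1b_base (c : Ω^ (Fin n) X x₀) (s : I) {t : Fin n → I} (ht : t ∈ Cube.boundary (Fin n)) :
    q c ((1 + (s : ℝ)) • (toV t - ctr n)) = x₀ := by
  apply q_eq_base
  rw [norm_smul, norm_toV_sub_ctr_of_boundary ht, Real.norm_eq_abs,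
    abs_of_nonneg (by have := s.2.1; linarith)]
  have := s.2.1
  linarith

theorem homotopic_expand [T2Space X] {c : Ω^ (Fin n) X x₀} (hc : IsCollapse c)
    (f : Ω^ (Fin n) X x₀) :
    ∃ g : Ω^ (Fin n) X x₀, GenLoop.Homotopic f g ∧
      ∀ t t', f t = c t' → g t = q c ((2 : ℝ) • (toV t' - ctr n)) := by
  have hg0 : Continuous (fun p : I × (Fin n → I) => q c ((1 + (p.1 : ℝ)) • (toV p.2 - ctr n))) := by
    have h1 : Continuous (fun p : I × (Fin n → I) => (1 + (p.1 : ℝ))) :=
      continuous_const.add (continuous_subtype_val.comp continuous_fst)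
    have h2 : Continuous (fun p : I × (Fin n → I) => toV p.2 - ctr n) :=
      (continuous_toV.comp continuous_snd).sub continuous_const
    exact (continuous_q c).comp (h1.smul h2)
  obtain ⟨e, he, hev⟩ := IsCollapse.descend hc
    (fun p : I × (Fin n → I) => q c ((1 + (p.1 : ℝ)) • (toV p.2 - ctr n))) hg0
    (fun z t t' ht ht' => by
      show q c ((1 + (z : ℝ)) • (toV t - ctr n)) = q c ((1 + (z : ℝ)) • (toV t' - ctr n))
      rw [t1b_base c z ht, t1b_base c z ht'])
  have hev' : ∀ (z : I) (t : Fin n → I), e (z, c t) = q c ((1 + (z : ℝ)) • (toV t - ctr n)) := hev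
  have e0 : ∀ x, e (0, x) = x := by
    intro x
    obtain ⟨t, rfl⟩ := hc.surj x
    rw [hev']
    simp only [Set.Icc.coe_zero, add_zero, one_smul]
    exact q_toV_sub c t
  have eb : ∀ s : I, e (s, x₀) = x₀ := by
    intro s
    obtain ⟨t, ht⟩ := hc.surj x₀
    have hb : t ∈ Cube.boundary (Fin n) := hc.bd t ht
    rw [← ht, hev', t1b_base c s hb, ht]
  have hcont : Continuous (fun p : I × (Fin n → I) => e (p.1, f p.2)) :=
    he.comp (continuous_fst.prodMk (f.1.continuous.comp continuous_snd))
  refine ⟨⟨⟨fun t => e (1, f t), he.comp (continuous_const.prodMk f.1.continuous)⟩,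
    fun t ht => ?_⟩, ?_, ?_⟩
  · show e (1, f t) = x₀
    have hf : f t = x₀ := f.2 t ht
    rw [hf, eb]
  · refine ⟨{ toFun := fun p => e (p.1, f p.2)
              continuous_toFun := hcont
              map_zero_left := fun t => e0 _
              map_one_left := fun t => rfl
              prop' := fun s t ht => ?_ }⟩
    show e (s, f t) = f t
    have hf : f t = x₀ := f.2 t ht
    rw [hf, eb]
  · intro t t' h
    show e (1, f t) = _
    rw [h, hev']
    congr 2
    simp only [Set.Icc.coe_one]
    norm_num

end Claimed.Open.R308.Hopf
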