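/- Copy, up to the name of the namespace, of the file `SanityHopfNu.lean` of the folder of result 313; written there by the seats 97 (board hopf_post of helper223). -/
import Claimed.Open.R308.SanityHopfExp

/-! # Hopf, post T1c: the two functions `ν`, `Θ` on `X = Iⁿ/∂Iⁿ`.
`IsCollapse.descend` with `Z = PUnit` (or `I`, ignoring the first variable); on the boundary `‖toV t - ctr n‖ = 1/2` (`norm_toV_sub_ctr_of_boundary`), so `2 - 4 * (1/2) = 0` and `Θ` vanishes there. -/

set_option autoImplicit false

open Topology unitInterval Set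
open scoped Topology.Homotopy

namespace Claimed.Open.R308.Hopf

open Claimed.Open.R308.Deg (V)

variable {n : ℕ} {X : Type} [TopologicalSpace X] {x₀ : X}

theorem exists_nu [T2Space X] {c : Ω^ (Fin n) X x₀} (hc : IsCollapse c) :
    ∃ ν : X → ℝ, Continuous ν ∧ ∀ t, ν (c t) = ‖toV t - ctr n‖ := by
  obtain ⟨G, hG, hGc⟩ := IsCollapse.descend hc (Z := PUnit) (Y := ℝ)
    (fun p => ‖toV p.2 - ctr n‖)
    (((continuous_toV.comp continuous_snd).sub continuous_const).norm)
    (fun _ t t' ht ht' => by
      rw [norm_toV_sub_ctr_of_boundary ht, norm_toV_sub_ctr_of_boundary ht'])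
  exact ⟨fun x => G (PUnit.unit, x), hG.comp (continuous_const.prodMk continuous_id),
    fun t => hGc _ t⟩

theorem exists_Theta [T2Space X] {c : Ω^ (Fin n) X x₀} (hc : IsCollapse c) :
    ∃ Θ : X → V n, Continuous Θ ∧
      ∀ t, Θ (c t) = (2 * min 1 (2 - 4 * ‖toV t - ctr n‖)) • (toV t - ctr n) := by
  have hd : Continuous fun p : PUnit × (Fin n → I) => toV p.2 - ctr n :=
    (continuous_toV.comp continuous_snd).sub continuous_const
  obtain ⟨G, hG, hGc⟩ := IsCollapse.descend hc (Z := PUnit) (Y := V n)
    (fun p => (2 * min 1 (2 - 4 * ‖toV p.2 - ctr n‖)) • (toV p.2 - ctr n))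
    ((continuous_const.mul (continuous_const.min
      (continuous_const.sub (continuous_const.mul hd.norm)))).smul hd)
    (fun _ t t' ht ht' => by
      have h0 : (2 : ℝ) * min 1 (2 - 4 * (1 / 2)) = 0 := by norm_num
      simp only [norm_toV_sub_ctr_of_boundary ht, norm_toV_sub_ctr_of_boundary ht', h0, zero_smul])
  exact ⟨fun x => G (PUnit.unit, x), hG.comp (continuous_const.prodMk continuous_id),
    fun t => hGc _ t⟩

end Claimed.Open.R308.Hopf
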