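/- Copy, up to the name of the namespace, of the file `SanityHopfPres.lean` of the folder of result 313; written there by the seats 74, 9 (board hopf_post of helper223). -/
import Claimed.Open.R308.SanityHopfNu

/-! # Hopf, post T1d: every based loop of `X = Iⁿ/∂Iⁿ` is homotopic to a loop `Lp c h`.
`g` from `homotopic_expand hc f`, `ν` from `exists_nu hc`, `Θ` from `exists_Theta hc`.  `proj x = (projIcc 0 1 (x i))_i : Fin n → I` (continuous; `proj (toV t) = t`).
`O = {x | (∀ i, 0 < x i ∧ x i < 1) ∧ ν (f (proj x)) < 1/4}` (open), `θ x = Θ (f (proj x))`.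
FRONTIER of `O` (`= closure O \ O`): `closure O ⊆ {x | (∀ i, 0 ≤ x i ∧ x i ≤ 1) ∧ ν (f (proj x)) ≤ 1/4}` (closed).  If some `x i ∈ {0, 1}` then `proj x` is on the boundary, `f (proj x) = x₀ = c t` with `t` on the boundary
(`hc.surj`, `hc.bd`), `ν = 1/2 > 1/4`: excluded.  So `x` is in the open cube and `ν (f (proj x)) = 1/4`; with `f (proj x) = c t'`, `v = toV t' - ctr n`, `‖v‖ = 1/4`: `θ x = (2 * min 1 1) • v`, of norm `1/2`.
`g = Lp c h` pointwise: `f t = c t'`, `v = toV t' - ctr n`, `g t = q c (2 • v)`.  If `toV t ∈ O`: `‖v‖ < 1/4`, `θ (toV t) = 2 • v`.  If not: `t` on the boundary (`g t = x₀`, `g` is a loop) or `‖v‖ ≥ 1/4`, `q_eq_base`. -/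

set_option autoImplicit false

open Topology unitInterval Set
open scoped Topology.Homotopy

namespace Claimed.Open.R308.Hopf

open Claimed.Open.R308.Deg (V)

variable {n : ℕ} {X : Type} [TopologicalSpace X] {x₀ : X}

/-- clamping to the cube -/
noncomputable def t1d_proj (x : V n) : Fin n → I := fun i => Set.projIcc 0 1 zero_le_one (x i)

theorem t1d_continuous_proj : Continuous (t1d_proj (n := n)) :=
  continuous_pi fun i => continuous_projIcc.comp (continuous_apply i)

theorem t1d_proj_toV (t : Fin n → I) : t1d_proj (toV t) = t := by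
  funext i
  exact Set.projIcc_val zero_le_one (t i)

theorem t1d_proj_mem_boundary {x : V n} {i : Fin n} (h : x i ≤ 0 ∨ 1 ≤ x i) :
    t1d_proj x ∈ Cube.boundary (Fin n) := by
  refine ⟨i, ?_⟩
  rcases h with h | h
  · left
    exact Set.projIcc_of_le_left zero_le_one h
  · right
    exact Set.projIcc_of_right_le zero_le_one h

theorem exists_presentation [T2Space X] {c : Ω^ (Fin n) X x₀} (hc : IsCollapse c)
    (f : Ω^ (Fin n) X x₀) :
    ∃ (O : Set (V n)) (θ : V n → V n) (h : Adm O θ), GenLoop.Homotopic f (Lp c h) := by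
  obtain ⟨g, hfg, hg⟩ := homotopic_expand hc f
  obtain ⟨ν, hνc, hν⟩ := exists_nu hc
  obtain ⟨Θ, hΘc, hΘ⟩ := exists_Theta hc
  have hfp : Continuous fun x : V n => f (t1d_proj x) := f.1.continuous.comp t1d_continuous_proj
  have hνf : Continuous fun x : V n => ν (f (t1d_proj x)) := hνc.comp hfp
  -- the value of `ν` at the base point
  have hν0 : ν x₀ = 1 / 2 := by
    obtain ⟨t, ht⟩ := hc.surj x₀
    have hb : t ∈ Cube.boundary (Fin n) := hc.bd t ht
    rw [← ht, hν, norm_toV_sub_ctr_of_boundary hb]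
  have hopen1 : IsOpen {x : V n | ∀ i, 0 < x i ∧ x i < 1} := by
    have e : {x : V n | ∀ i, 0 < x i ∧ x i < 1} = ⋂ i : Fin n, {x : V n | 0 < x i ∧ x i < 1} := by
      ext x
      simp
    rw [e]
    exact isOpen_iInter_of_finite fun i =>
      (isOpen_lt continuous_const (continuous_apply i)).inter (isOpen_lt (continuous_apply i) continuous_const)
  have hclosed1 : IsClosed {x : V n | ∀ i, 0 ≤ x i ∧ x i ≤ 1} := by
    have e : {x : V n | ∀ i, 0 ≤ x i ∧ x i ≤ 1} = ⋂ i : Fin n, {x : V n | 0 ≤ x i ∧ x i ≤ 1} := by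
      ext x
      simp
    rw [e]
    exact isClosed_iInter fun i =>
      (isClosed_le continuous_const (continuous_apply i)).inter (isClosed_le (continuous_apply i) continuous_const)
  have hO : IsOpen {x : V n | (∀ i, 0 < x i ∧ x i < 1) ∧ ν (f (t1d_proj x)) < 1 / 4} :=
    hopen1.inter (isOpen_lt hνf continuous_const)
  have hC : IsClosed {x : V n | (∀ i, 0 ≤ x i ∧ x i ≤ 1) ∧ ν (f (t1d_proj x)) ≤ 1 / 4} :=
    hclosed1.inter (isClosed_le hνf continuous_const)
  have h : Adm {x : V n | (∀ i, 0 < x i ∧ x i < 1) ∧ ν (f (t1d_proj x)) < 1 / 4}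
      (fun x => Θ (f (t1d_proj x))) := by
    refine ⟨hO, fun x hx => hx.1, hΘc.comp hfp, ?_⟩
    intro x hx
    rw [hO.frontier_eq] at hx
    obtain ⟨hx1, hx2⟩ := hx
    have hsub : {x : V n | (∀ i, 0 < x i ∧ x i < 1) ∧ ν (f (t1d_proj x)) < 1 / 4}
        ⊆ {x : V n | (∀ i, 0 ≤ x i ∧ x i ≤ 1) ∧ ν (f (t1d_proj x)) ≤ 1 / 4} := by
      intro y hy
      exact ⟨fun i => ⟨(hy.1 i).1.le, (hy.1 i).2.le⟩, hy.2.le⟩
    have hx3 : x ∈ {x : V n | (∀ i, 0 ≤ x i ∧ x i ≤ 1) ∧ ν (f (t1d_proj x)) ≤ 1 / 4} :=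
      closure_minimal hsub hC hx1
    obtain ⟨_, hx5⟩ := hx3
    have hin : ∀ i, 0 < x i ∧ x i < 1 := by
      by_contra hcon
      push Not at hcon
      obtain ⟨i, hi⟩ := hcon
      have hb : t1d_proj x ∈ Cube.boundary (Fin n) := by
        apply t1d_proj_mem_boundary (i := i)
        by_cases h0 : 0 < x i
        · exact Or.inr (hi h0)
        · exact Or.inl (not_lt.1 h0)
      have : f (t1d_proj x) = x₀ := f.2 _ hb
      rw [this, hν0] at hx5
      norm_num at hx5
    have hx6 : ν (f (t1d_proj x)) = 1 / 4 := by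
      refine le_antisymm hx5 (not_lt.1 fun hlt => hx2 ⟨hin, hlt⟩)
    obtain ⟨t', ht'⟩ := hc.surj (f (t1d_proj x))
    rw [← ht', hν] at hx6
    show 1 / 2 ≤ ‖Θ (f (t1d_proj x))‖
    rw [← ht', hΘ, hx6, norm_smul, hx6]
    norm_num
  refine ⟨_, _, h, ?_⟩
  have hgL : g = Lp c h := by
    apply GenLoop.ext
    intro t
    obtain ⟨t', ht'⟩ := hc.surj (f t)
    rw [hg t t' ht'.symm, Lp_apply]
    by_cases hO' : toV t ∈ {x : V n | (∀ i, 0 < x i ∧ x i < 1) ∧ ν (f (t1d_proj x)) < 1 / 4}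
    · rw [lpFun_of_mem c _ hO']
      have h1 : ν (f (t1d_proj (toV t))) < 1 / 4 := hO'.2
      rw [t1d_proj_toV, ← ht', hν] at h1
      show _ = q c (Θ (f (t1d_proj (toV t))))
      rw [t1d_proj_toV, ← ht', hΘ, min_eq_left (by linarith), mul_one]
    · rw [lpFun_of_notMem c _ hO']
      by_cases hb : t ∈ Cube.boundary (Fin n)
      · rw [← hg t t' ht'.symm]
        exact g.2 t hb
      · apply q_eq_base
        have hin : ∀ i, 0 < toV t i ∧ toV t i < 1 := by
          intro i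
          have h0 : t i ≠ 0 := fun h0 => hb ⟨i, Or.inl h0⟩
          have h1 : t i ≠ 1 := fun h1 => hb ⟨i, Or.inr h1⟩
          exact ⟨unitInterval.pos_iff_ne_zero.2 h0, unitInterval.lt_one_iff_ne_one.2 h1⟩
        have h2 : ¬ ν (f (t1d_proj (toV t))) < 1 / 4 := fun hlt => hO' ⟨hin, hlt⟩
        rw [t1d_proj_toV, ← ht', hν, not_lt] at h2
        rw [norm_smul]
        norm_num
        linarith
  rw [← hgL]
  exact hfg

end Claimed.Open.R308.Hopf
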