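/- Copy, up to the name of the namespace, of the file `SanityConnPres.lean` of the folder of result 313; written there by the seats 223 (board hopf_post of helper223). -/
import Claimed.Open.R308.SanityConnDefs
import Claimed.Open.R308.SanityHopfPres

/-!
# `π_k` of an `n`-sphere vanishes for `k < n`: every based loop `(Iᵏ, ∂Iᵏ) → (X, x₀)`, `X = Iⁿ/∂Iⁿ`, is homotopic to a loop `Lp c h`

The statements and proofs of `SanityHopfExp.lean`, `SanityHopfPres.lean` for a source cube of any dimension `k` (the functions `ν`, `Θ` on `X` and the descent along `c` are used as they are).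
-/

set_option autoImplicit false

open Topology unitInterval Set
open scoped Topology.Homotopy

namespace Claimed.Open.R308.Conn

open Claimed.Open.R308.Deg (V)
open Claimed.Open.R308.Hopf (toV ctr q continuous_toV continuous_q q_eq_base q_toV_sub t1b_base
  norm_toV_sub_ctr_of_boundary exists_nu exists_Theta t1d_proj t1d_continuous_proj t1d_proj_toV
  t1d_proj_mem_boundary)

variable {k n : ℕ} {X : Type} [TopologicalSpace X] {x₀ : X}

theorem homotopic_expand [T2Space X] {c : Ω^ (Fin n) X x₀} (hc : IsCollapse c)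
    (f : Ω^ (Fin k) X x₀) :
    ∃ g : Ω^ (Fin k) X x₀, GenLoop.Homotopic f g ∧
      ∀ t t', f t = c t' → g t = q c ((2 : ℝ) • (toV t' - ctr n)) := by
  have hg0 : Continuous (fun p : I × (Fin n → I) => q c ((1 + (p.1 : ℝ)) • (toV p.2 - ctr n))) := by
    have h1 : Continuous (fun p : I × (Fin n → I) => (1 + (p.1 : ℝ))) :=
      continuous_const.add (continuous_subtype_val.comp continuous_fst)
    have h2 : Continuous (fun p : I × (Fin n → I) => toV p.2 - ctr n) :=
      (continuous_toV.comp continuous_snd).sub continuous_const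
    exact (continuous_q c).comp (h1.smul h2)
  obtain ⟨e, he, hev⟩ := Hopf.IsCollapse.descend hc
    (fun p : I × (Fin n → I) => q c ((1 + (p.1 : ℝ)) • (toV p.2 - ctr n))) hg0
    (fun z t t' ht ht' => by
      show q c ((1 + (z : ℝ)) • (toV t - ctr n)) = q c ((1 + (z : ℝ)) • (toV t' - ctr n))
      rw [t1b_base c z ht, t1b_base c z ht'])
  have hev' : ∀ (z : I) (t : Fin n → I), e (z, c t) = q c ((1 + (z : ℝ)) • (toV t - ctr n)) := hev
  have e0 : ∀ x, e (0, x) = x := by
    intro x
    obtain ⟨t, rfl⟩ := hc.surj x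
    rw [hev']
    simp only [Set.Icc.coe_zero, add_zero, one_smul]
    exact q_toV_sub c t
  have eb : ∀ s : I, e (s, x₀) = x₀ := by
    intro s
    obtain ⟨t, ht⟩ := hc.surj x₀
    have hb : t ∈ Cube.boundary (Fin n) := hc.bd t ht
    rw [← ht, hev', t1b_base c s hb, ht]
  have hcont : Continuous (fun p : I × (Fin k → I) => e (p.1, f p.2)) :=
    he.comp (continuous_fst.prodMk (f.1.continuous.comp continuous_snd))
  refine ⟨⟨⟨fun t => e (1, f t), he.comp (continuous_const.prodMk f.1.continuous)⟩,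
    fun t ht => ?_⟩, ?_, ?_⟩
  · show e (1, f t) = x₀
    have hf : f t = x₀ := f.2 t ht
    rw [hf, eb]
  · refine ⟨{ toFun := fun p => e (p.1, f p.2)
              continuous_toFun := hcont
              map_zero_left := fun t => e0 _
              map_one_left := fun t => rfl
              prop' := fun s t ht => ?_ }⟩
    show e (s, f t) = f t
    have hf : f t = x₀ := f.2 t ht
    rw [hf, eb]
  · intro t t' h
    show e (1, f t) = _
    rw [h, hev']
    congr 2
    simp only [Set.Icc.coe_one]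
    norm_num

theorem exists_presentation [T2Space X] {c : Ω^ (Fin n) X x₀} (hc : IsCollapse c)
    (f : Ω^ (Fin k) X x₀) :
    ∃ (O : Set (V k)) (θ : V k → V n) (h : Adm O θ), GenLoop.Homotopic f (Lp c h) := by
  obtain ⟨g, hfg, hg⟩ := homotopic_expand hc f
  obtain ⟨ν, hνc, hν⟩ := exists_nu hc
  obtain ⟨Θ, hΘc, hΘ⟩ := exists_Theta hc
  have hfp : Continuous fun x : V k => f (t1d_proj x) := f.1.continuous.comp t1d_continuous_proj
  have hνf : Continuous fun x : V k => ν (f (t1d_proj x)) := hνc.comp hfp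
  -- the value of `ν` at the base point
  have hν0 : ν x₀ = 1 / 2 := by
    obtain ⟨t, ht⟩ := hc.surj x₀
    have hb : t ∈ Cube.boundary (Fin n) := hc.bd t ht
    rw [← ht, hν, norm_toV_sub_ctr_of_boundary hb]
  have hopen1 : IsOpen {x : V k | ∀ i, 0 < x i ∧ x i < 1} := by
    have e : {x : V k | ∀ i, 0 < x i ∧ x i < 1} = ⋂ i : Fin k, {x : V k | 0 < x i ∧ x i < 1} := by
      ext x
      simp
    rw [e]
    exact isOpen_iInter_of_finite fun i =>
      (isOpen_lt continuous_const (continuous_apply i)).inter (isOpen_lt (continuous_apply i) continuous_const)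
  have hclosed1 : IsClosed {x : V k | ∀ i, 0 ≤ x i ∧ x i ≤ 1} := by
    have e : {x : V k | ∀ i, 0 ≤ x i ∧ x i ≤ 1} = ⋂ i : Fin k, {x : V k | 0 ≤ x i ∧ x i ≤ 1} := by
      ext x
      simp
    rw [e]
    exact isClosed_iInter fun i =>
      (isClosed_le continuous_const (continuous_apply i)).inter (isClosed_le (continuous_apply i) continuous_const)
  have hO : IsOpen {x : V k | (∀ i, 0 < x i ∧ x i < 1) ∧ ν (f (t1d_proj x)) < 1 / 4} :=
    hopen1.inter (isOpen_lt hνf continuous_const)
  have hC : IsClosed {x : V k | (∀ i, 0 ≤ x i ∧ x i ≤ 1) ∧ ν (f (t1d_proj x)) ≤ 1 / 4} :=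
    hclosed1.inter (isClosed_le hνf continuous_const)
  have h : Adm {x : V k | (∀ i, 0 < x i ∧ x i < 1) ∧ ν (f (t1d_proj x)) < 1 / 4}
      (fun x => Θ (f (t1d_proj x))) := by
    refine ⟨hO, fun x hx => hx.1, hΘc.comp hfp, ?_⟩
    intro x hx
    rw [hO.frontier_eq] at hx
    obtain ⟨hx1, hx2⟩ := hx
    have hsub : {x : V k | (∀ i, 0 < x i ∧ x i < 1) ∧ ν (f (t1d_proj x)) < 1 / 4}
        ⊆ {x : V k | (∀ i, 0 ≤ x i ∧ x i ≤ 1) ∧ ν (f (t1d_proj x)) ≤ 1 / 4} := by
      intro y hy
      exact ⟨fun i => ⟨(hy.1 i).1.le, (hy.1 i).2.le⟩, hy.2.le⟩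
    have hx3 : x ∈ {x : V k | (∀ i, 0 ≤ x i ∧ x i ≤ 1) ∧ ν (f (t1d_proj x)) ≤ 1 / 4} :=
      closure_minimal hsub hC hx1
    obtain ⟨_, hx5⟩ := hx3
    have hin : ∀ i, 0 < x i ∧ x i < 1 := by
      by_contra hcon
      push Not at hcon
      obtain ⟨i, hi⟩ := hcon
      have hb : t1d_proj x ∈ Cube.boundary (Fin k) := by
        apply t1d_proj_mem_boundary (i := i)
        by_cases h0 : 0 < x i
        · exact Or.inr (hi h0)
        · exact Or.inl (not_lt.1 h0)
      have : f (t1d_proj x) = x₀ := f.2 _ hb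
      rw [this, hν0] at hx5
      norm_num at hx5
    have hx6 : ν (f (t1d_proj x)) = 1 / 4 := by
      refine le_antisymm hx5 (not_lt.1 fun hlt => hx2 ⟨hin, hlt⟩)
    obtain ⟨t', ht'⟩ := hc.surj (f (t1d_proj x))
    rw [← ht', hν] at hx6
    show 1 / 2 ≤ ‖Θ (f (t1d_proj x))‖
    rw [← ht', hΘ, hx6, norm_smul, hx6]
    norm_num
  refine ⟨_, _, h, ?_⟩
  have hgL : g = Lp c h := by
    apply GenLoop.ext
    intro t
    obtain ⟨t', ht'⟩ := hc.surj (f t)
    rw [hg t t' ht'.symm, Lp_apply]
    by_cases hO' : toV t ∈ {x : V k | (∀ i, 0 < x i ∧ x i < 1) ∧ ν (f (t1d_proj x)) < 1 / 4}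
    · rw [lpFun_of_mem c _ hO']
      have h1 : ν (f (t1d_proj (toV t))) < 1 / 4 := hO'.2
      rw [t1d_proj_toV, ← ht', hν] at h1
      show _ = q c (Θ (f (t1d_proj (toV t))))
      rw [t1d_proj_toV, ← ht', hΘ, min_eq_left (by linarith), mul_one]
    · rw [lpFun_of_notMem c _ hO']
      by_cases hb : t ∈ Cube.boundary (Fin k)
      · rw [← hg t t' ht'.symm]
        exact g.2 t hb
      · apply q_eq_base
        have hin : ∀ i, 0 < toV t i ∧ toV t i < 1 := by
          intro i
          have h0 : t i ≠ 0 := fun h0 => hb ⟨i, Or.inl h0⟩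
          have h1 : t i ≠ 1 := fun h1 => hb ⟨i, Or.inr h1⟩
          exact ⟨unitInterval.pos_iff_ne_zero.2 h0, unitInterval.lt_one_iff_ne_one.2 h1⟩
        have h2 : ¬ ν (f (t1d_proj (toV t))) < 1 / 4 := fun hlt => hO' ⟨hin, hlt⟩
        rw [t1d_proj_toV, ← ht', hν, not_lt] at h2
        rw [norm_smul]
        norm_num
        linarith
  rw [← hgL]
  exact hfg

end Claimed.Open.R308.Conn
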