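/- Copy, up to the name of the namespace, of the file `SanityConnGen.lean` of the folder of result 313; written there by the seats 223 (board hopf_post of helper223). -/
import Claimed.Open.R308.SanityConnPres
import Claimed.Open.R308.SanityConnMiss

/-!
# `π_k` of an `n`-sphere vanishes for `k < n`

`f ≃ Lp c (O, θ)` (`exists_presentation`); `θ : ℝᵏ → ℝⁿ` is replaced by `P₀ - y₀` with `P₀` of class `C²` close to `4 θ` and `y₀` small and not a value of `P₀` (`exists_notMem_range`: the image of `ℝᵏ` has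
measure zero); a loop `Lp c (O, P)` with `P` without zeros is null homotopic (`Lp_homotopic_const`).
-/

set_option autoImplicit false

open Topology unitInterval Set
open scoped Topology.Homotopy

namespace Claimed.Open.R308.Conn

open Claimed.Open.R308.Deg (V)

variable {k n : ℕ} {X : Type} [TopologicalSpace X] {x₀ : X}

/-- equal maps give equal loops -/
theorem Lp_eq_of_eq (c : Ω^ (Fin n) X x₀) {O : Set (V k)} {θ θ' : V k → V n} (e : θ = θ')
    (h : Adm O θ) (h' : Adm O θ') : Lp c h = Lp c h' := by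
  subst e
  rfl

/-- for `k < n` the map `θ` can be moved off `0` -/
theorem exists_nowhere_zero (hk : k < n) (c : Ω^ (Fin n) X x₀) {O : Set (V k)} {θ : V k → V n}
    (h : Adm O θ) :
    ∃ (P : V k → V n) (hP : Adm O P), (∀ x, P x ≠ 0) ∧ GenLoop.Homotopic (Lp c h) (Lp c hP) := by
  have h4 : Adm O (fun x => (4 : ℝ) • θ x) := h.smul (by norm_num)
  have hc4 : Continuous fun x => (4 : ℝ) • θ x := h4.cont
  obtain ⟨P₀, hP₀, happ⟩ := exists_approx₂ (a := (0 : V k)) (b := 1)
    (F := fun x => (4 : ℝ) • θ x) hc4.continuousOn (δ := 1 / 2) (by norm_num)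
  obtain ⟨y₀, hy₀, hreg⟩ := exists_notMem_range hk hP₀ (η := 1 / 2) (by norm_num)
  set P : V k → V n := fun x => P₀ x - y₀ with hPdef
  have hP : ContDiff ℝ 2 P := hP₀.sub contDiff_const
  have hPc : Continuous P := hP.continuous
  -- the segment
  set Θ : ℝ → V k → V n := fun s x => (1 - s) • ((4 : ℝ) • θ x) + s • P x with hΘ
  have hbig : ∀ s ∈ Icc (0 : ℝ) 1, ∀ x ∈ frontier O, 1 / 2 ≤ ‖Θ s x‖ := by
    intro s hs x hx
    have hxI : x ∈ Icc (0 : V k) 1 := h.closure_sub (frontier_subset_closure hx)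
    have h1 : 2 ≤ ‖(4 : ℝ) • θ x‖ := by
      rw [norm_smul, Real.norm_of_nonneg (by norm_num)]
      have := h.big x hx
      linarith
    have h2 : ‖P x - (4 : ℝ) • θ x‖ < 1 := by
      have e : P x - (4 : ℝ) • θ x = (P₀ x - (4 : ℝ) • θ x) - y₀ := by
        simp only [hPdef]; abel
      rw [e]
      calc ‖(P₀ x - (4 : ℝ) • θ x) - y₀‖ ≤ ‖P₀ x - (4 : ℝ) • θ x‖ + ‖y₀‖ := norm_sub_le _ _
        _ < 1 / 2 + 1 / 2 := add_lt_add (happ x hxI) hy₀
        _ = 1 := by norm_num
    have e : Θ s x = (4 : ℝ) • θ x + s • (P x - (4 : ℝ) • θ x) := by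
      simp only [hΘ, sub_smul, smul_sub, one_smul]; abel
    have h3 : ‖s • (P x - (4 : ℝ) • θ x)‖ ≤ 1 := by
      rw [norm_smul, Real.norm_of_nonneg hs.1]
      calc s * ‖P x - (4 : ℝ) • θ x‖ ≤ 1 * 1 :=
            mul_le_mul hs.2 h2.le (norm_nonneg _) (by norm_num)
        _ = 1 := by norm_num
    have h4' : ‖(4 : ℝ) • θ x‖ ≤ ‖Θ s x‖ + ‖s • (P x - (4 : ℝ) • θ x)‖ := by
      have : (4 : ℝ) • θ x = Θ s x - s • (P x - (4 : ℝ) • θ x) := by rw [e]; abel
      calc ‖(4 : ℝ) • θ x‖ = ‖Θ s x - s • (P x - (4 : ℝ) • θ x)‖ := by rw [← this]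
        _ ≤ _ := norm_sub_le _ _
    linarith
  have e0 : Θ 0 = fun x => (4 : ℝ) • θ x := by
    funext x; simp [hΘ]
  have e1 : Θ 1 = P := by
    funext x; simp [hΘ]
  have hAP : Adm O P :=
    ⟨h.isOpen, h.sub, hPc, fun x hx => by
      have := hbig 1 ⟨zero_le_one, le_rfl⟩ x hx
      rwa [e1] at this⟩
  have hA0 : Adm O (Θ 0) := by rw [e0]; exact h4
  have hA1 : Adm O (Θ 1) := by rw [e1]; exact hAP
  have hcont : Continuous fun p : ℝ × V k => Θ p.1 p.2 :=
    ((continuous_const.sub continuous_fst).smul (hc4.comp continuous_snd)).add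
      (continuous_fst.smul (hPc.comp continuous_snd))
  have hH := Lp_homotopic c hcont.continuousOn hA0 hA1 hbig
  rw [Lp_eq_of_eq c e0 hA0 h4, Lp_eq_of_eq c e1 hA1 hAP] at hH
  exact ⟨P, hAP, fun x hx => hreg x (sub_eq_zero.1 hx),
    (Lp_smul_homotopic c h (by norm_num)).trans hH⟩

/-- **Connectivity of the sphere**: if `c : (Iⁿ, ∂Iⁿ) → (X, x₀)` is a relative homeomorphism onto a Hausdorff space and `k < n`, every based loop `(Iᵏ, ∂Iᵏ) → (X, x₀)` is null homotopic. -/
theorem IsCollapse.homotopic_const_of_lt [T2Space X] {c : Ω^ (Fin n) X x₀} (hc : IsCollapse c)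
    (hk : k < n) (f : Ω^ (Fin k) X x₀) : GenLoop.Homotopic f GenLoop.const := by
  obtain ⟨O, θ, h, e1⟩ := exists_presentation hc f
  obtain ⟨P, hP, hne, e2⟩ := exists_nowhere_zero hk c h
  exact (e1.trans e2).trans (Lp_homotopic_const c hP fun x _ => hne x)

theorem IsCollapse.subsingleton_homotopyGroup_of_lt [T2Space X] {c : Ω^ (Fin n) X x₀}
    (hc : IsCollapse c) (hk : k < n) : Subsingleton (HomotopyGroup (Fin k) X x₀) := by
  refine ⟨fun x y => ?_⟩
  induction x using Quotient.inductionOn with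
  | _ f =>
    induction y using Quotient.inductionOn with
    | _ g =>
      exact Quotient.sound ((IsCollapse.homotopic_const_of_lt hc hk f).trans
        (IsCollapse.homotopic_const_of_lt hc hk g).symm)

end Claimed.Open.R308.Conn
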