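import Claimed.Open.R308.SanityDegree2

/-!
# Result 308: every `p`-localisation of the sphere spectrum is non-trivial

`SanityDegree2.lean` proves `a · 1 ≠ 0` in `π_0` of the sphere spectrum `S` for `a ≠ 0` and shows that no map **to** `S` is a `p`-localisation.
Here are the consequences for the maps **out of** `S`:

* `not_isOfFinAddOrder_cls_unitRep`: `1 ∈ π_0(S)` has infinite order, so `π⋆(S)` is not a torsion group;
* `nontrivial_of_isPLocalization_sphere`: if `f : S ⟶ Z` is a `p`-localisation, then `π⋆(Z) ≠ 0`; more precisely the image of `1` is not zero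
  (`IsPLocalization.map_unitSHC_ne_zero`);
* `not_isPLocalization_sphere_point`: **non-example**: no map from `S` to the trivial spectrum is a `p`-localisation.

So `IsPLocalization p` cannot be met by killing the sphere: the `p`-localisation of `S` itself is not zero (a retract of it may be zero).
-/

set_option autoImplicit false

open CategoryTheory

noncomputable section

namespace Claimed.Open.R308

/-- `1 ∈ π_0(S)` has infinite order: `π⋆(S)` is not a torsion group. -/
theorem not_isOfFinAddOrder_cls_unitRep : ¬ IsOfFinAddOrder (sphereSpectrum.sys.cls unitRep) := by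
  intro h
  obtain ⟨a, ha, h0⟩ := isOfFinAddOrder_iff_nsmul_eq_zero.1 h
  exact nsmul_cls_unitRep_ne_zero a ha.ne' h0

/-- The unit of `π_0(S)`, in the homotopy groups of the object of `SHC`. -/
def unitSHC : piSHC.obj (toSHC.obj sphereSpectrum) :=
  (piSHCIso.app sphereSpectrum).addCommGroupIsoToAddEquiv.symm (sphereSpectrum.sys.cls unitRep)

theorem zsmul_unitSHC_ne_zero (a : ℤ) (ha : a ≠ 0) : a • unitSHC ≠ 0 := by
  intro h
  have := congrArg (piSHCIso.app sphereSpectrum).addCommGroupIsoToAddEquiv h
  rw [map_zsmul, map_zero] at this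
  have hx : (piSHCIso.app sphereSpectrum).addCommGroupIsoToAddEquiv unitSHC =
      sphereSpectrum.sys.cls unitRep := AddEquiv.apply_symm_apply _ _
  rw [hx] at this
  exact zsmul_cls_unitRep_ne_zero a ha this

/-- A `p`-localisation of the sphere spectrum does not kill `1 ∈ π_0(S)`. -/
theorem IsPLocalization.map_unitSHC_ne_zero {p : ℕ} (hp : p.Prime) {Z : SHC}
    {f : toSHC.obj sphereSpectrum ⟶ Z} (hf : IsPLocalization p f) :
    (piSHC.map f).hom unitSHC ≠ 0 := by
  intro h
  have : IsLocalizedModule (primeTo p) (piSHC.map f).hom.toIntLinearMap := hf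
  obtain ⟨c, hc⟩ := (IsLocalizedModule.eq_zero_iff (primeTo p) (piSHC.map f).hom.toIntLinearMap).1 h
  have hc0 : (c : ℤ) ≠ 0 := by
    intro h0
    have := ((mem_primeTo_iff hp (c : ℤ)).1 c.2)
    rw [h0] at this
    exact this (dvd_zero _)
  exact zsmul_unitSHC_ne_zero _ hc0 hc

/-- **Every `p`-localisation of the sphere spectrum is non-trivial.** -/
theorem nontrivial_of_isPLocalization_sphere {p : ℕ} (hp : p.Prime) {Z : SHC}
    (f : toSHC.obj sphereSpectrum ⟶ Z) (hf : IsPLocalization p f) : Nontrivial (piSHC.obj Z) :=
  ⟨⟨_, 0, hf.map_unitSHC_ne_zero hp⟩⟩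

/-- **Non-example**: no map from the sphere spectrum to the trivial spectrum is a `p`-localisation. -/
theorem not_isPLocalization_sphere_point {p : ℕ} (hp : p.Prime)
    (f : toSHC.obj sphereSpectrum ⟶ toSHC.obj pointSpectrum) : ¬ IsPLocalization p f := by
  intro hf
  have h1 : Subsingleton (piSHC.obj (toSHC.obj pointSpectrum)) := by
    have : Subsingleton (piFunctor.obj pointSpectrum) := subsingleton_piStar_pointSpectrum
    exact (piSHCIso.app pointSpectrum).addCommGroupIsoToAddEquiv.toEquiv.subsingleton
  have := nontrivial_of_isPLocalization_sphere hp f hf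
  exact not_subsingleton _ h1

end Claimed.Open.R308
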