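import Claimed.Open.R308.SanityCWSphere

/-!
# Result 308: every finite CW spectrum has a `p`-localisation

`IsFinitePLocal p X` of `Statement.lean` asks for a retract of the target of **some** `p`-localisation `Y ⟶ Z` of a finite CW spectrum `Y`.  If such maps did not exist for most `Y`, the class
would be smaller than the class of the papers.  Here:

* `IsFiniteCWSpectrum.exists_isPLocalization`: **every** finite CW spectrum `Y` (desuspensions included) has a `p`-localisation `Y ⟶ Z` in the stable homotopy category `SHC`;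
* `IsFiniteCWSpectrum.exists_isFinitePLocal`: its target is a finite `p`-local spectrum;
* `IsFinitePLocal.bijective_nsmul`: on a finite `p`-local spectrum every integer prime to `p` acts bijectively on `π⋆`.

**Proof.**  `Y ≅ X` with `sh^d X ≅ Σ^∞ K` in `SHC`, `K` a finite CW complex; `Σ^∞ K` has a `p`-localisation by `SanityTelSusp.lean`.  To go back from `sh^d X` to `X`: the functor `unsh`
(`(unsh W)_0 = pt`, `(unsh W)_{n+1} = W_n`) has `π⋆(unsh W) ≅ π⋆(W)` naturally (`unshNatIso`), so it preserves stable equivalences and induces a functor `unshSHC` of `SHC` with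
`π⋆ ∘ unshSHC ≅ π⋆` (`unshSHCPi`), which therefore preserves `p`-localisations (`IsPLocalization.unshSHC_map`); the map of spectra `unsh (sh1 W) ⟶ W` is a stable equivalence
(`stableEquivalences_unshSh`); and `sh^{d+1} X ≅ sh1 (sh^d X)` (`Spectrum.shiftSucc`).
-/

set_option autoImplicit false

open scoped unitInterval Topology Topology.Homotopy
open CategoryTheory

noncomputable section

namespace Claimed.Open.R308

/-! ## 1. Localisations of abelian groups and isomorphisms -/

theorem isLocalizedModule_conj {A B A' B' : Type} [AddCommGroup A] [AddCommGroup B]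
    [AddCommGroup A'] [AddCommGroup B'] (S : Submonoid ℤ) (eA : A' ≃+ A) (eB : B' ≃+ B)
    (φ : A →+ B) (φ' : A' →+ B') (h : ∀ z, eB (φ' z) = φ (eA z))
    (hφ : IsLocalizedModule S φ.toIntLinearMap) : IsLocalizedModule S φ'.toIntLinearMap := by
  have e : φ'.toIntLinearMap =
      eB.symm.toIntLinearEquiv.toLinearMap ∘ₗ
        (φ.toIntLinearMap ∘ₗ eA.toIntLinearEquiv.toLinearMap) := by
    ext z
    show φ' z = eB.symm (φ (eA z))
    rw [← h, eB.symm_apply_apply]
  rw [e]
  infer_instance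

/-- `Y` has a `p`-localisation. -/
def HasPLoc (p : ℕ) (Y : SHC) : Prop := ∃ (Z : SHC) (f : Y ⟶ Z), IsPLocalization p f

theorem IsPLocalization.precomp_iso {p : ℕ} {A B Z : SHC} (e : A ≅ B) {f : B ⟶ Z}
    (hf : IsPLocalization p f) : IsPLocalization p (e.hom ≫ f) := by
  refine isLocalizedModule_conj (primeTo p) (piSHC.mapIso e).addCommGroupIsoToAddEquiv
    (AddEquiv.refl _) (piSHC.map f).hom (piSHC.map (e.hom ≫ f)).hom (fun z => ?_) hf
  rw [piSHC.map_comp]
  rfl

theorem HasPLoc.of_iso {p : ℕ} {A B : SHC} (e : A ≅ B) (h : HasPLoc p B) : HasPLoc p A := by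
  obtain ⟨Z, f, hf⟩ := h
  exact ⟨Z, e.hom ≫ f, hf.precomp_iso e⟩

/-! ## 2. The functor `unsh`: `(unsh W)_0 = pt`, `(unsh W)_{n+1} = W_n` -/

/-- The spaces of `unsh W`. -/
def unshSpace (W : Spectrum) : ℕ → Ptd
  | 0 => ptdPoint
  | n + 1 => W.space n

/-- The bonding maps of `unsh W`. -/
def unshBond (W : Spectrum) : ∀ n, LoopMap 1 (unshSpace W n) (unshSpace W (n + 1))
  | 0 => LoopMap.trivial _ _
  | n + 1 => W.bond n

/-- **The desuspension** `unsh W` of a spectrum: `(unsh W)_0 = pt`, `(unsh W)_{n+1} = W_n`. -/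
def Spectrum.unsh (W : Spectrum) : Spectrum where
  space := unshSpace W
  bond := unshBond W

/-- `unsh` on maps, levelwise. -/
def unshMapAux {W W' : Spectrum} (f : W ⟶ W') : ∀ n, PtdMap (unshSpace W n) (unshSpace W' n)
  | 0 => PtdMap.id _
  | n + 1 => f.map n

/-- `unsh` on maps. -/
def unshMap {W W' : Spectrum} (f : W ⟶ W') : W.unsh ⟶ W'.unsh :=
  ⟨unshMapAux f, fun n x r => by
    cases n with
    | zero => exact (f.map 0).map_pt
    | succ n => exact f.comm n x r⟩

/-- `unsh` as a functor. -/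
def unshF : Spectrum ⥤ Spectrum where
  obj W := W.unsh
  map f := unshMap f
  map_id W := Spectrum.Hom.ext (funext fun n => by cases n <;> rfl)
  map_comp f g := Spectrum.Hom.ext (funext fun n => by cases n <;> rfl)

/-! ## 3. `π⋆(unsh W) = π⋆(W)`, naturally -/

/-- The classes of level `0` of `unsh W` vanish. -/
theorem unsh_cls_zero (W : Spectrum) (N : ℕ) (g : Loops N (W.unsh.space 0)) :
    W.unsh.sys.cls ⟨0, N, g⟩ = 0 := by
  rw [W.unsh.sys.cls_stab () 0 g]
  show W.unsh.sys.cls ⟨1, N + 1, (LoopMap.trivial _ _).onLoops g⟩ = 0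
  rw [LoopMap.trivial_onLoops]
  exact W.unsh.sys.cls_const _ _ (Nat.succ_pos N)

/-- A cube of level `n + 1` of `unsh W` is a cube of level `n` of `W`. -/
def unshRepFun (W : Spectrum) : W.unsh.sys.Rep → W.sys.PiStar
  | ⟨0, _, _⟩ => 0
  | ⟨n + 1, N, g⟩ => W.sys.cls ⟨n, N, g⟩

/-- `π⋆(unsh W) → π⋆(W)`. -/
def unshPi (W : Spectrum) : W.unsh.sys.PiStar →+ W.sys.PiStar :=
  W.unsh.sys.piLift (unshRepFun W)
    (fun i N g g' h => by
      cases i with
      | zero => rfl
      | succ n => exact W.sys.cls_htpy (i := n) h)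
    (fun i N j g g' => by
      cases i with
      | zero => exact (add_zero 0).symm
      | succ n => exact W.sys.cls_transAt (i := n) j g g')
    (fun _ i N g => by
      cases i with
      | zero =>
        show (0 : W.sys.PiStar) = W.sys.cls ⟨0, N + 1, (LoopMap.trivial _ _).onLoops g⟩
        rw [LoopMap.trivial_onLoops]
        exact (W.sys.cls_const _ _ (Nat.succ_pos N)).symm
      | succ n => exact W.sys.cls_stab () n g)

/-- `π⋆(W) → π⋆(unsh W)`. -/
def unshPiInv (W : Spectrum) : W.sys.PiStar →+ W.unsh.sys.PiStar :=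
  W.sys.piLift (fun r => W.unsh.sys.cls ⟨r.idx + 1, r.N, r.cube⟩)
    (fun i _ _ _ h => W.unsh.sys.cls_htpy (i := i + 1) h)
    (fun i _ j g g' => W.unsh.sys.cls_transAt (i := i + 1) j g g')
    (fun _ i _ g => W.unsh.sys.cls_stab () (i + 1) g)

theorem unshPi_cls_succ (W : Spectrum) (n N : ℕ) (g : Loops N (W.space n)) :
    unshPi W (W.unsh.sys.cls ⟨n + 1, N, g⟩) = W.sys.cls ⟨n, N, g⟩ :=
  W.unsh.sys.piLift_cls _ _ _ _ _

theorem unshPi_cls_zero (W : Spectrum) (N : ℕ) (g : Loops N (W.unsh.space 0)) :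
    unshPi W (W.unsh.sys.cls ⟨0, N, g⟩) = 0 :=
  W.unsh.sys.piLift_cls _ _ _ _ _

theorem unshPiInv_cls (W : Spectrum) (r : W.sys.Rep) :
    unshPiInv W (W.sys.cls r) = W.unsh.sys.cls ⟨r.idx + 1, r.N, r.cube⟩ :=
  W.sys.piLift_cls _ _ _ _ _

/-- **`π⋆(unsh W) ≅ π⋆(W)`** (the degrees are shifted by one). -/
def unshEquiv (W : Spectrum) : W.unsh.sys.PiStar ≃+ W.sys.PiStar where
  toFun := unshPi W
  invFun := unshPiInv W
  left_inv := by
    have h : (unshPiInv W).comp (unshPi W) = AddMonoidHom.id _ := by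
      refine StableSystem.hom_ext fun r => ?_
      obtain ⟨i, N, g⟩ := r
      show unshPiInv W (unshPi W (W.unsh.sys.cls ⟨i, N, g⟩)) = W.unsh.sys.cls ⟨i, N, g⟩
      cases i with
      | zero =>
        exact ((congrArg (unshPiInv W) (unshPi_cls_zero W N g)).trans (map_zero _)).trans
          (unsh_cls_zero W N g).symm
      | succ n =>
        exact (congrArg (unshPiInv W) (unshPi_cls_succ W n N g)).trans (unshPiInv_cls W ⟨n, N, g⟩)
    exact fun y => DFunLike.congr_fun h y
  right_inv := by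
    have h : (unshPi W).comp (unshPiInv W) = AddMonoidHom.id _ := by
      refine StableSystem.hom_ext fun r => ?_
      show unshPi W (unshPiInv W (W.sys.cls r)) = W.sys.cls r
      rw [unshPiInv_cls, unshPi_cls_succ]
    exact fun y => DFunLike.congr_fun h y
  map_add' := map_add _

/-- The isomorphism `π⋆(unsh W) ≅ π⋆(W)` is natural. -/
def unshNatIso : unshF ⋙ piFunctor ≅ piFunctor :=
  NatIso.ofComponents (fun W => (unshEquiv W).toAddCommGrpIso) (by
    intro W W' f
    refine AddCommGrpCat.hom_ext (StableSystem.hom_ext fun r => ?_)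
    obtain ⟨i, N, g⟩ := r
    show unshPi W' (Spectrum.Hom.piMap (unshMap f) (W.unsh.sys.cls ⟨i, N, g⟩)) =
      Spectrum.Hom.piMap f (unshPi W (W.unsh.sys.cls ⟨i, N, g⟩))
    cases i with
    | zero =>
      exact (unshPi_cls_zero W' N ((unshMapAux f 0).onLoops g)).trans
        ((congrArg (Spectrum.Hom.piMap f) (unshPi_cls_zero W N g)).trans (map_zero _)).symm
    | succ n =>
      exact (unshPi_cls_succ W' n N ((f.map n).onLoops g)).trans
        (congrArg (Spectrum.Hom.piMap f) (unshPi_cls_succ W n N g)).symm)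

theorem stableEquivalences_unshMap {W W' : Spectrum} (f : W ⟶ W') (hf : stableEquivalences f) :
    stableEquivalences (unshF.map f) := by
  have h : IsIso (piFunctor.map f) := hf
  exact (NatIso.isIso_map_iff unshNatIso f).2 h

/-! ## 4. The functor on the stable homotopy category -/

/-- The desuspension functor of the stable homotopy category. -/
def unshSHC : SHC ⥤ SHC :=
  Localization.lift (unshF ⋙ toSHC)
    (show stableEquivalences.IsInvertedBy (unshF ⋙ toSHC) from fun _ _ f hf =>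
      isIso_toSHC_map _ (stableEquivalences_unshMap f hf)) toSHC

/-- It restricts to `unsh` on spectra. -/
def unshSHCIso : toSHC ⋙ unshSHC ≅ unshF ⋙ toSHC := Localization.fac _ _ _

/-- `π⋆` of the desuspension is `π⋆`, naturally on the stable homotopy category. -/
def unshSHCPi : unshSHC ⋙ piSHC ≅ piSHC :=
  letI : Localization.Lifting toSHC stableEquivalences (unshF ⋙ toSHC) unshSHC := ⟨unshSHCIso⟩
  letI : Localization.Lifting toSHC stableEquivalences piFunctor piSHC := ⟨piSHCIso⟩
  Localization.liftNatIso toSHC stableEquivalences ((unshF ⋙ toSHC) ⋙ piSHC) piFunctor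
    (unshSHC ⋙ piSHC) piSHC
    (Functor.associator _ _ _ ≪≫ Functor.isoWhiskerLeft unshF piSHCIso ≪≫ unshNatIso)

/-- The desuspension of a `p`-localisation is a `p`-localisation. -/
theorem IsPLocalization.unshSHC_map {p : ℕ} {A Z : SHC} {g : A ⟶ Z} (hg : IsPLocalization p g) :
    IsPLocalization p (unshSHC.map g) := by
  refine isLocalizedModule_conj (primeTo p) (unshSHCPi.app A).addCommGroupIsoToAddEquiv
    (unshSHCPi.app Z).addCommGroupIsoToAddEquiv (piSHC.map g).hom
    (piSHC.map (unshSHC.map g)).hom (fun z => ?_) hg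
  exact congrArg (fun k => k.hom z) (unshSHCPi.hom.naturality g)

/-! ## 5. The stable equivalence `unsh (sh1 W) ⟶ W` -/

/-- The one-step shift: `(sh1 W)_n = W_{n+1}`. -/
def Spectrum.sh1 (W : Spectrum) : Spectrum where
  space n := W.space (n + 1)
  bond n := W.bond (n + 1)

/-- The maps `(unsh (sh1 W))_n → W_n`: the inclusion of the base point for `n = 0`, the identity for `n > 0`. -/
def unshShAux (W : Spectrum) : ∀ n, PtdMap (unshSpace W.sh1 n) (W.space n)
  | 0 => ⟨ContinuousMap.const _ (W.space 0).pt, rfl⟩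
  | _ + 1 => PtdMap.id _

/-- The map of spectra `unsh (sh1 W) ⟶ W`. -/
def unshSh (W : Spectrum) : W.sh1.unsh ⟶ W :=
  ⟨unshShAux W, fun n x r => by
    cases n with
    | zero =>
      show (W.space 1).pt = (W.bond 0).toMap (W.space 0).pt r
      rw [(W.bond 0).map_pt]
      rfl
    | succ n => rfl⟩

/-- A cube of level `0` of `W` is stabilised once. -/
def unshShRepFun (W : Spectrum) : W.sys.Rep → W.sh1.unsh.sys.PiStar
  | ⟨0, N, g⟩ => W.sh1.unsh.sys.cls ⟨1, N + 1, (W.bond 0).onLoops g⟩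
  | ⟨n + 1, N, g⟩ => W.sh1.unsh.sys.cls ⟨n + 1, N, g⟩

/-- `π⋆(W) → π⋆(unsh (sh1 W))`. -/
def unshShInv (W : Spectrum) : W.sys.PiStar →+ W.sh1.unsh.sys.PiStar :=
  W.sys.piLift (unshShRepFun W)
    (fun i N g g' h => by
      cases i with
      | zero => exact W.sh1.unsh.sys.cls_htpy (i := 1) ((W.bond 0).onLoops_homotopic h)
      | succ n => exact W.sh1.unsh.sys.cls_htpy (i := n + 1) h)
    (fun i N j g g' => by
      cases i with
      | zero =>
        have e := LoopMap.onLoops_transAt (W.bond 0) j g g'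
        exact (congrArg (fun h => W.sh1.unsh.sys.cls ⟨1, N + 1, h⟩) e).trans
          (W.sh1.unsh.sys.cls_transAt (i := 1) _ _ _)
      | succ n => exact W.sh1.unsh.sys.cls_transAt (i := n + 1) j g g')
    (fun _ i N g => by
      cases i with
      | zero => rfl
      | succ n => exact W.sh1.unsh.sys.cls_stab () (n + 1) g)

theorem unshShInv_cls_zero (W : Spectrum) (N : ℕ) (g : Loops N (W.space 0)) :
    unshShInv W (W.sys.cls ⟨0, N, g⟩) = W.sh1.unsh.sys.cls ⟨1, N + 1, (W.bond 0).onLoops g⟩ :=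
  W.sys.piLift_cls _ _ _ _ _

theorem unshShInv_cls_succ (W : Spectrum) (n N : ℕ) (g : Loops N (W.space (n + 1))) :
    unshShInv W (W.sys.cls ⟨n + 1, N, g⟩) = W.sh1.unsh.sys.cls ⟨n + 1, N, g⟩ :=
  W.sys.piLift_cls _ _ _ _ _

/-- **`unsh (sh1 W) ⟶ W` is a stable equivalence.** -/
theorem stableEquivalences_unshSh (W : Spectrum) : stableEquivalences (unshSh W) := by
  show IsIso (piFunctor.map (unshSh W))
  refine ⟨⟨AddCommGrpCat.ofHom (unshShInv W), ?_, ?_⟩⟩
  · refine AddCommGrpCat.hom_ext (StableSystem.hom_ext fun r => ?_)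
    obtain ⟨i, N, g⟩ := r
    show unshShInv W (Spectrum.Hom.piMap (unshSh W) (W.sh1.unsh.sys.cls ⟨i, N, g⟩)) =
      W.sh1.unsh.sys.cls ⟨i, N, g⟩
    cases i with
    | zero =>
      have e : (W.bond 0).onLoops ((unshShAux W 0).onLoops g) = GenLoop.const :=
        (W.bond 0).onLoops_const N
      exact ((unshShInv_cls_zero W N ((unshShAux W 0).onLoops g)).trans
        ((congrArg (fun h => W.sh1.unsh.sys.cls ⟨1, N + 1, h⟩) e).trans
          (W.sh1.unsh.sys.cls_const 1 (N + 1) (Nat.succ_pos N)))).trans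
        (unsh_cls_zero W.sh1 N g).symm
    | succ n => exact unshShInv_cls_succ W n N g
  · refine AddCommGrpCat.hom_ext (StableSystem.hom_ext fun r => ?_)
    obtain ⟨i, N, g⟩ := r
    show Spectrum.Hom.piMap (unshSh W) (unshShInv W (W.sys.cls ⟨i, N, g⟩)) = W.sys.cls ⟨i, N, g⟩
    cases i with
    | zero =>
      exact (congrArg (Spectrum.Hom.piMap (unshSh W)) (unshShInv_cls_zero W N g)).trans
        (W.sys.cls_stab () 0 g).symm
    | succ n => exact congrArg (Spectrum.Hom.piMap (unshSh W)) (unshShInv_cls_succ W n N g)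

/-- If `sh1 W` has a `p`-localisation, then so has `W`. -/
theorem HasPLoc.of_sh1 {p : ℕ} {W : Spectrum} (h : HasPLoc p (toSHC.obj W.sh1)) :
    HasPLoc p (toSHC.obj W) := by
  obtain ⟨Z, g, hg⟩ := h
  have := isIso_toSHC_map _ (stableEquivalences_unshSh W)
  have h1 : HasPLoc p (unshSHC.obj (toSHC.obj W.sh1)) := ⟨_, _, hg.unshSHC_map⟩
  have h2 : HasPLoc p (toSHC.obj W.sh1.unsh) := h1.of_iso (unshSHCIso.app W.sh1).symm
  exact h2.of_iso (asIso (toSHC.map (unshSh W))).symm

/-! ## 6. The shifts of `Statement.lean` -/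

/-- `sh^{d+1} X ≅ sh1 (sh^d X)`. -/
def Spectrum.shiftSucc (X : Spectrum) (d : ℕ) : X.shift (d + 1) ≅ (X.shift d).sh1 where
  hom := ⟨fun n => X.castMap (Nat.succ_add d n), fun n x r => X.castMap_bond (Nat.succ_add d n) x r⟩
  inv := ⟨fun n => X.castMap (Nat.succ_add d n).symm,
    fun n x r => X.castMap_bond (Nat.succ_add d n).symm x r⟩
  hom_inv_id := Spectrum.Hom.ext (funext fun n => X.castMap_comp (Nat.succ_add d n))
  inv_hom_id := Spectrum.Hom.ext (funext fun n => X.castMap_comp (Nat.succ_add d n).symm)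

/-- If a shift `sh^d X` has a `p`-localisation, then so has `X`. -/
theorem HasPLoc.of_shift {p : ℕ} : ∀ (d : ℕ) (X : Spectrum), HasPLoc p (toSHC.obj (X.shift d)) →
    HasPLoc p (toSHC.obj X)
  | 0, X, h => h.of_iso (toSHC.mapIso X.shiftZero).symm
  | d + 1, X, h =>
    HasPLoc.of_shift d X (HasPLoc.of_sh1 (h.of_iso (toSHC.mapIso (X.shiftSucc d)).symm))

/-! ## 7. Every finite CW spectrum has a `p`-localisation -/

/-- **Every finite CW spectrum has a `p`-localisation** in the sense of `Statement.lean`. -/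
theorem IsFiniteCWSpectrum.exists_isPLocalization {p : ℕ} (hp : p.Prime) {Y : SHC}
    (hY : IsFiniteCWSpectrum Y) : ∃ (Z : SHC) (f : Y ⟶ Z), IsPLocalization p f := by
  obtain ⟨X, d, K, hT2, hCW, hfin, ⟨i⟩, ⟨e⟩⟩ := hY
  have : CompactSpace K := Compact.compactSpace_of_finite_cw K
  have h1 : HasPLoc p (toSHC.obj (suspensionSpectrum K)) := ⟨_, _, isPLocalization_kTelMap hp K⟩
  exact (HasPLoc.of_shift d X (h1.of_iso e)).of_iso i

/-- Every finite CW spectrum `Y` maps by a `p`-localisation to a finite `p`-local spectrum. -/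
theorem IsFiniteCWSpectrum.exists_isFinitePLocal {p : ℕ} (hp : p.Prime) {Y : SHC}
    (hY : IsFiniteCWSpectrum Y) :
    ∃ (Z : SHC) (f : Y ⟶ Z), IsPLocalization p f ∧ IsFinitePLocal p Z := by
  obtain ⟨Z, f, hf⟩ := hY.exists_isPLocalization hp
  exact ⟨Z, f, hf, Y, Z, f, hY, hf, ⟨Retract.refl _⟩⟩

/-- **Finite `p`-local spectra are `p`-local**: every integer prime to `p` acts bijectively on `π⋆`. -/
theorem IsFinitePLocal.bijective_nsmul {p : ℕ} (hp : p.Prime) {X : SHC} (h : IsFinitePLocal p X)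
    {ℓ : ℕ} (hℓ : ¬ (p : ℤ) ∣ (ℓ : ℤ)) : Function.Bijective fun z : piSHC.obj X => ℓ • z := by
  refine ⟨?_, h.surjective_nsmul hp hℓ⟩
  obtain ⟨Y, Z, f, -, hf, ⟨r⟩⟩ := h
  have hu := hf.isUnit_of_not_dvd hp hℓ
  rw [Module.End.isUnit_iff] at hu
  intro u u' huu
  have huu' : ℓ • u = ℓ • u' := huu
  have h1 : ∀ w : piSHC.obj X, (piSHC.map r.r).hom ((piSHC.map r.i).hom w) = w := by
    intro w
    have e : piSHC.map r.i ≫ piSHC.map r.r = 𝟙 _ := by
      rw [← piSHC.map_comp, r.retract, piSHC.map_id]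
    have := congrArg (fun g => g.hom w) e
    simpa using this
  have h2 : (piSHC.map r.i).hom u = (piSHC.map r.i).hom u' := by
    apply hu.1
    rw [Module.algebraMap_end_apply, Module.algebraMap_end_apply, natCast_zsmul, natCast_zsmul,
      ← map_nsmul, ← map_nsmul, huu']
  rw [← h1 u, ← h1 u', h2]

end Claimed.Open.R308
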