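import Claimed.Open.R308.SanityDesusp

/-!
# Result 308: the functor `unsh` is the desuspension; the classes of the statement are closed under it

* `map_unshEquiv_piDeg`: the isomorphism `π⋆(W.unsh) ≅ π⋆(W)` of `SanityDesusp.lean` maps `π_k(W.unsh)` **onto** `π_{k+1}(W)`: on homotopy groups `unsh` is the desuspension;
* `Spectrum.shiftUnsh`: `sh^{d+1} (X.unsh) ≅ sh^d X`;
* `IsFiniteCWSpectrum.unshSHC`, `IsFinitePLocal.unshSHC`: the finite CW spectra and the finite `p`-local spectra of `Statement.lean` are closed under the desuspension functor `unshSHC` of `SHC`;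
* `isFinitePLocal_unsh_sphereLoc`, `exists_ne_zero_mem_piDeg_unsh_sphereLoc`, `exists_wellPointed_finitePLocal_deg_neg_one`: `Σ^{-1} S_(p)` is a finite `p`-local spectrum, levelwise well pointed, with
  `π_{-1} ≠ 0` (the image of `1 ∈ π_0(S)`).
-/

set_option autoImplicit false

open scoped unitInterval Topology
open CategoryTheory

noncomputable section

namespace Claimed.Open.R308

/-! ## 1. The degrees -/

theorem unshPi_mem_piDeg (W : Spectrum) {k : ℤ} {x : W.unsh.sys.PiStar} (hx : x ∈ W.unsh.sys.piDeg k) :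
    unshPi W x ∈ W.sys.piDeg (k + 1) := by
  have h : W.unsh.sys.piDeg k ≤ (W.sys.piDeg (k + 1)).comap (unshPi W) := by
    refine (AddSubgroup.closure_le _).2 ?_
    rintro _ ⟨⟨i, N, g⟩, hr, rfl⟩
    show unshPi W (W.unsh.sys.cls ⟨i, N, g⟩) ∈ W.sys.piDeg (k + 1)
    cases i with
    | zero =>
      rw [unshPi_cls_zero]
      exact zero_mem _
    | succ n =>
      have e0 : unshPi W (W.unsh.sys.cls ⟨n + 1, N, g⟩) = W.sys.cls ⟨n, N, g⟩ :=
        unshPi_cls_succ W n N g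
      refine e0.symm ▸ ?_
      have e : W.sys.deg ⟨n, N, g⟩ = k + 1 := by
        have hr' : (N : ℤ) - ((n + 1 : ℕ) : ℤ) = k := hr
        show (N : ℤ) - (n : ℤ) = k + 1
        push_cast at hr'
        omega
      rw [← e]
      exact W.sys.cls_mem_piDeg _
  exact h hx

theorem unshPiInv_mem_piDeg (W : Spectrum) {k : ℤ} {y : W.sys.PiStar} (hy : y ∈ W.sys.piDeg (k + 1)) :
    unshPiInv W y ∈ W.unsh.sys.piDeg k := by
  have h : W.sys.piDeg (k + 1) ≤ (W.unsh.sys.piDeg k).comap (unshPiInv W) := by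
    refine (AddSubgroup.closure_le _).2 ?_
    rintro _ ⟨⟨i, N, g⟩, hr, rfl⟩
    show unshPiInv W (W.sys.cls ⟨i, N, g⟩) ∈ W.unsh.sys.piDeg k
    rw [unshPiInv_cls]
    have e : W.unsh.sys.deg ⟨i + 1, N, g⟩ = k := by
      have hr' : (N : ℤ) - (i : ℤ) = k + 1 := hr
      show (N : ℤ) - ((i + 1 : ℕ) : ℤ) = k
      push_cast
      omega
    rw [← e]
    exact W.unsh.sys.cls_mem_piDeg _
  exact h hy

/-- **`π_k(W.unsh) ≅ π_{k+1}(W)`**: on homotopy groups `unsh` is the desuspension. -/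
theorem map_unshEquiv_piDeg (W : Spectrum) (k : ℤ) :
    (W.unsh.sys.piDeg k).map (unshEquiv W).toAddMonoidHom = W.sys.piDeg (k + 1) := by
  apply le_antisymm
  · rintro _ ⟨x, hx, rfl⟩
    exact unshPi_mem_piDeg W hx
  · intro y hy
    exact ⟨unshPiInv W y, unshPiInv_mem_piDeg W hy, (unshEquiv W).apply_symm_apply y⟩

/-! ## 2. Closure under the desuspension -/

/-- `sh^{d+1} (X.unsh) ≅ sh^d X`. -/
def Spectrum.shiftUnsh (X : Spectrum) (d : ℕ) : X.unsh.shift (d + 1) ≅ X.shift d :=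
  X.unsh.shiftSucc d

/-- **The finite CW spectra are closed under the desuspension.** -/
theorem IsFiniteCWSpectrum.unshSHC {Y : SHC} (hY : IsFiniteCWSpectrum Y) :
    IsFiniteCWSpectrum (unshSHC.obj Y) := by
  obtain ⟨X, d, K, hT2, hCW, hfin, ⟨i⟩, ⟨e⟩⟩ := hY
  exact ⟨X.unsh, d + 1, K, hT2, hCW, hfin, ⟨Claimed.Open.R308.unshSHC.mapIso i ≪≫ unshSHCIso.app X⟩,
    ⟨toSHC.mapIso (X.shiftUnsh d) ≪≫ e⟩⟩

/-- **The finite `p`-local spectra are closed under the desuspension.** -/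
theorem IsFinitePLocal.unshSHC {p : ℕ} {X : SHC} (h : IsFinitePLocal p X) :
    IsFinitePLocal p (unshSHC.obj X) := by
  obtain ⟨Y, Z, f, hY, hf, ⟨r⟩⟩ := h
  exact ⟨_, _, Claimed.Open.R308.unshSHC.map f, hY.unshSHC, hf.unshSHC_map,
    ⟨r.map Claimed.Open.R308.unshSHC⟩⟩

/-! ## 3. The example `Σ^{-1} S_(p)` -/

theorem isFinitePLocal_unsh_sphereLoc {p : ℕ} (hp : p.Prime) :
    IsFinitePLocal p (toSHC.obj (sphereLoc p).unsh) :=
  (isFinitePLocal_sphereLoc hp).unshSHC.of_retract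
    ⟨(unshSHCIso.app (sphereLoc p)).inv, (unshSHCIso.app (sphereLoc p)).hom, Iso.inv_hom_id _⟩

theorem nontrivial_piStar_unsh_sphereLoc {p : ℕ} (hp : p.Prime) :
    Nontrivial (sphereLoc p).unsh.sys.PiStar :=
  have := nontrivial_piStar_sphereLoc hp
  (unshEquiv (sphereLoc p)).toEquiv.nontrivial

/-- A map of spectra preserves the degrees. -/
theorem Spectrum.Hom.piMap_mem_piDeg {X Y : Spectrum} (f : X ⟶ Y) {k : ℤ} {x : X.sys.PiStar}
    (hx : x ∈ X.sys.piDeg k) : Spectrum.Hom.piMap f x ∈ Y.sys.piDeg k := by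
  have h : X.sys.piDeg k ≤ (Y.sys.piDeg k).comap (Spectrum.Hom.piMap f) := by
    refine (AddSubgroup.closure_le _).2 ?_
    rintro _ ⟨⟨i, N, g⟩, hr, rfl⟩
    show Y.sys.cls ⟨i, N, (f.map i).onLoops g⟩ ∈ Y.sys.piDeg k
    have e : Y.sys.deg ⟨i, N, (f.map i).onLoops g⟩ = k := hr
    rw [← e]
    exact Y.sys.cls_mem_piDeg _
  exact h hx

/-- **`π_{-1}(Σ^{-1} S_(p)) ≠ 0`**: the image of `1 ∈ π_0(S)`. -/
theorem exists_ne_zero_mem_piDeg_unsh_sphereLoc {p : ℕ} (hp : p.Prime) :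
    ∃ x ∈ (sphereLoc p).unsh.sys.piDeg (-1), x ≠ 0 := by
  have h1 : sphereSpectrum.sys.cls unitRep ∈ sphereSpectrum.sys.piDeg 0 := by
    have := sphereSpectrum.sys.cls_mem_piDeg unitRep
    rwa [deg_unitRep] at this
  have h2 : Spectrum.Hom.piMap (sphereLocMap p) (sphereSpectrum.sys.cls unitRep) ∈
      (sphereLoc p).sys.piDeg (-1 + 1) := by
    rw [neg_add_cancel]
    exact Spectrum.Hom.piMap_mem_piDeg _ h1
  refine ⟨_, unshPiInv_mem_piDeg _ h2, fun h0 => ?_⟩
  have h3 := piMap_sphereLocMap_zsmul_ne_zero hp 1 one_ne_zero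
  rw [one_smul] at h3
  apply h3
  have h4 := (unshEquiv (sphereLoc p)).apply_symm_apply
    (Spectrum.Hom.piMap (sphereLocMap p) (sphereSpectrum.sys.cls unitRep))
  rw [← h4]
  exact (congrArg (unshEquiv (sphereLoc p)) h0).trans (map_zero _)

/-- The spaces of `W.unsh` are well pointed if those of `W` are. -/
theorem wellPointed_unsh {W : Spectrum} (h : ∀ b, (W.space b).WellPointed) :
    ∀ b, (W.unsh.space b).WellPointed
  | 0 => wellPointed_ptdPoint
  | n + 1 => h n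

/-- **A second non-zero spectrum that meets the first two clauses of `SmithTodaExists p n`**, with homotopy in degree `-1`. -/
theorem exists_wellPointed_finitePLocal_deg_neg_one {p : ℕ} (hp : p.Prime) :
    ∃ X : Spectrum, (∀ b, (X.space b).WellPointed) ∧ IsFinitePLocal p (toSHC.obj X) ∧
      ∃ x ∈ X.sys.piDeg (-1), x ≠ 0 :=
  ⟨(sphereLoc p).unsh, wellPointed_unsh sphereSpectrum_wellPointed_and_finite.1,
    isFinitePLocal_unsh_sphereLoc hp, exists_ne_zero_mem_piDeg_unsh_sphereLoc hp⟩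

end Claimed.Open.R308
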