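import Claimed.Open.R308.Sanity

/-!
# Result 308: Hazewinkel's formal group law, checked against Mathlib's `FormalGroup`

`Statement.lean` defines `hazFGL p = log⁻¹ (log x + log y)` for Hazewinkel's logarithm
`log = ∑ ℓ_n x^{p^n}`.  Here we check that

* its constant term is `0` and the coefficients of `x` and `y` are `1`
  (`hazCoeff_zero_zero`, `hazCoeff_one_zero`, `hazCoeff_zero_one`): the images of the coefficients
  `a₀₀`, `a₁₀`, `a₀₁` of the formal group law of `MU` under `θ : MU_⋆ → BP_⋆` are `0`, `1`,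
  `1`;
* `F (f, g) = log⁻¹ (log f + log g)` for all power series `f`, `g` without constant term
  (`subst_hazFGL`);
* it is a commutative one-dimensional formal group law in the sense of Mathlib
  (`hazFormalGroup : FormalGroup (MvPolynomial ℕ ℚ)`, `hazFormalGroup.instIsComm`);
* the coefficient of `x y` is `-v₁` at `p = 2` and `0` at `p ≠ 2` (`hazCoeff_one_one_two`,
  `hazCoeff_one_one_of_ne_two`), as in the tables of the literature
  (`F (x, y) = x + y - v₁ x y + ⋯` at the prime `2`), so `θ(a₁₁) = -v₁ ∈ BP_⋆` there.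
-/

set_option autoImplicit false

noncomputable section

namespace Claimed.Open.R308

theorem coeff_single_one_mul_eq_zero {σ R : Type} [CommRing R] (s : σ) {u w : MvPowerSeries σ R}
    (hu : MvPowerSeries.constantCoeff u = 0) (hw : MvPowerSeries.constantCoeff w = 0) :
    MvPowerSeries.coeff (Finsupp.single s 1) (u * w) = 0 := by
  classical
  rw [MvPowerSeries.coeff_mul]
  refine Finset.sum_eq_zero ?_
  rintro ⟨a, b⟩ hab
  rw [Finset.HasAntidiagonal.mem_antidiagonal] at hab
  simp only [] at hab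
  have h0 : a = 0 ∨ b = 0 := by
    by_cases h : a s = 0
    · left
      ext t
      have := DFunLike.congr_fun hab t
      by_cases ht : t = s
      · subst ht; simpa using h
      · simp [Ne.symm ht] at this
        simp [this.1]
    · right
      ext t
      have := DFunLike.congr_fun hab t
      by_cases ht : t = s
      · subst ht
        simp at this
        simp; omega
      · simp [Ne.symm ht] at this
        simp [this.2]
  rcases h0 with rfl | rfl
  · simp only [MvPowerSeries.coeff_zero_eq_constantCoeff_apply, hu, zero_mul]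
  · simp only [MvPowerSeries.coeff_zero_eq_constantCoeff_apply, hw, mul_zero]

theorem coeff_single_one_subst {σ R : Type} [CommRing R] (s : σ) {a : MvPowerSeries σ R}
    (ha : MvPowerSeries.constantCoeff a = 0) (f : PowerSeries R)
    (hf : PowerSeries.constantCoeff f = 0) :
    MvPowerSeries.coeff (Finsupp.single s 1) (PowerSeries.subst a f) =
      PowerSeries.coeff 1 f * MvPowerSeries.coeff (Finsupp.single s 1) a := by
  have hs : PowerSeries.HasSubst a := PowerSeries.HasSubst.of_constantCoeff_zero ha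
  have hd : (PowerSeries.X : PowerSeries R) ^ 2 ∣
      f - PowerSeries.C (PowerSeries.coeff 1 f) * PowerSeries.X := by
    rw [PowerSeries.X_pow_dvd_iff]
    intro m hm
    interval_cases m
    · simp [hf]
    · simp
  obtain ⟨h, hh⟩ := hd
  have hf' : f = PowerSeries.C (PowerSeries.coeff 1 f) * PowerSeries.X + PowerSeries.X ^ 2 * h := by
    rw [← hh]; ring
  conv_lhs => rw [hf']
  rw [PowerSeries.subst_add hs, PowerSeries.subst_mul hs, PowerSeries.subst_mul hs,
    PowerSeries.subst_pow hs, PowerSeries.subst_X hs, PowerSeries.subst_C, map_add,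
    MvPowerSeries.coeff_C_mul, sq, mul_assoc,
    coeff_single_one_mul_eq_zero s ha (by rw [map_mul, ha, zero_mul]), add_zero]

/-- Power series over `BP_⋆ ⊗ ℚ`. -/
abbrev HazSeries (σ : Type) : Type := MvPowerSeries σ (MvPolynomial ℕ ℚ)

/-- `log x + log y`. -/
def hazSum (p : ℕ) {σ : Type} (f g : MvPowerSeries σ (MvPolynomial ℕ ℚ)) :
    MvPowerSeries σ (MvPolynomial ℕ ℚ) :=
  PowerSeries.subst f (hazLog p) + PowerSeries.subst g (hazLog p)

theorem hazFGL_eq (p : ℕ) :
    hazFGL p = PowerSeries.subst (hazSum p (MvPowerSeries.X 0) (MvPowerSeries.X 1))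
      (hazLog p).substInv := rfl

theorem constantCoeff_hazSum (p : ℕ) {σ : Type} {f g : MvPowerSeries σ (MvPolynomial ℕ ℚ)}
    (hf : MvPowerSeries.constantCoeff f = 0) (hg : MvPowerSeries.constantCoeff g = 0) :
    MvPowerSeries.constantCoeff (hazSum p f g) = 0 := by
  rw [hazSum, map_add, PowerSeries.constantCoeff_subst_eq_zero hf _ (constantCoeff_hazLog p),
    PowerSeries.constantCoeff_subst_eq_zero hg _ (constantCoeff_hazLog p), add_zero]

/-- `exp (B)` has no constant term. -/
theorem constantCoeff_hazExp (p : ℕ) {σ : Type} {B : MvPowerSeries σ (MvPolynomial ℕ ℚ)}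
    (hB : MvPowerSeries.constantCoeff B = 0) :
    MvPowerSeries.constantCoeff (PowerSeries.subst B (hazLog p).substInv) = 0 :=
  PowerSeries.constantCoeff_subst_eq_zero hB _ (PowerSeries.constantCoeff_substInv _)

/-- `log (exp B) = B`. -/
theorem hazLog_hazExp (p : ℕ) {σ : Type} {B : MvPowerSeries σ (MvPolynomial ℕ ℚ)}
    (hB : MvPowerSeries.constantCoeff B = 0) :
    PowerSeries.subst (PowerSeries.subst B (hazLog p).substInv) (hazLog p) = B := by
  have hs : PowerSeries.HasSubst B := PowerSeries.HasSubst.of_constantCoeff_zero hB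
  rw [← PowerSeries.subst_comp_subst_apply (PowerSeries.HasSubst.substInv _) hs,
    PowerSeries.subst_substInv_right _ (constantCoeff_hazLog p), PowerSeries.subst_X hs]

/-- `F (f, g) = exp (log f + log g)`. -/
theorem subst_hazFGL (p : ℕ) {σ : Type} {f g : MvPowerSeries σ (MvPolynomial ℕ ℚ)}
    (hf : MvPowerSeries.constantCoeff f = 0) (hg : MvPowerSeries.constantCoeff g = 0) :
    MvPowerSeries.subst ![f, g] (hazFGL p) =
      PowerSeries.subst (hazSum p f g) (hazLog p).substInv := by
  have hb : MvPowerSeries.HasSubst ![f, g] :=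
    MvPowerSeries.hasSubst_of_constantCoeff_zero (fun s => by fin_cases s <;> simpa)
  have hX : ∀ i : Fin 2, PowerSeries.HasSubst
      (MvPowerSeries.X i : MvPowerSeries (Fin 2) (MvPolynomial ℕ ℚ)) := fun i =>
    PowerSeries.HasSubst.X i
  have hA : PowerSeries.HasSubst (hazSum p (MvPowerSeries.X 0 : MvPowerSeries (Fin 2) _)
      (MvPowerSeries.X 1)) :=
    PowerSeries.HasSubst.of_constantCoeff_zero (constantCoeff_hazSum p (by simp) (by simp))
  have h1 : ∀ i : Fin 2, MvPowerSeries.subst ![f, g] (PowerSeries.subst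
      (MvPowerSeries.X i : MvPowerSeries (Fin 2) (MvPolynomial ℕ ℚ)) (hazLog p)) =
      PowerSeries.subst (![f, g] i) (hazLog p) := by
    intro i
    rw [PowerSeries.subst_def, MvPowerSeries.subst_comp_subst_apply (hX i).const hb,
      PowerSeries.subst_def]
    congr 1
    funext _
    exact MvPowerSeries.subst_X hb i
  rw [hazFGL_eq, PowerSeries.subst_def, MvPowerSeries.subst_comp_subst_apply hA.const hb,
    PowerSeries.subst_def]
  congr 1
  funext _
  change MvPowerSeries.subst ![f, g] (hazSum p (MvPowerSeries.X 0) (MvPowerSeries.X 1)) = _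
  rw [hazSum, MvPowerSeries.subst_add hb, h1, h1]
  rfl

theorem constantCoeff_hazFGL (p : ℕ) : MvPowerSeries.constantCoeff (hazFGL p) = 0 :=
  constantCoeff_hazExp p (constantCoeff_hazSum p (by simp) (by simp))

theorem coeff_single_hazFGL (p : ℕ) (i : Fin 2) :
    MvPowerSeries.coeff (Finsupp.single i 1) (hazFGL p) = 1 := by
  rw [hazFGL_eq, coeff_single_one_subst i (constantCoeff_hazSum p (by simp) (by simp)) _
    (PowerSeries.constantCoeff_substInv _), PowerSeries.coeff_one_substInv, hazSum, map_add,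
    PowerSeries.coeff_subst_single, PowerSeries.coeff_subst_single]
  have h1 : ⅟(PowerSeries.coeff 1 (hazLog p)) = 1 := by
    rw [invOf_eq_right_inv]
    rw [coeff_one_hazLog, one_mul]
  rw [h1, one_mul]
  fin_cases i
  · simp [coeff_one_hazLog]
  · simp [coeff_one_hazLog]

/-- The constant term of Hazewinkel's law vanishes (`θ(a₀₀) = 0`). -/
theorem hazCoeff_zero_zero (p : ℕ) : hazCoeff p 0 0 = 0 := by
  simpa [hazCoeff] using constantCoeff_hazFGL p

/-- The coefficient of `x` in Hazewinkel's law is `1` (`θ(a₁₀) = 1`). -/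
theorem hazCoeff_one_zero (p : ℕ) : hazCoeff p 1 0 = 1 := by
  simpa [hazCoeff] using coeff_single_hazFGL p 0

/-- The coefficient of `y` in Hazewinkel's law is `1` (`θ(a₀₁) = 1`). -/
theorem hazCoeff_zero_one (p : ℕ) : hazCoeff p 0 1 = 1 := by
  simpa [hazCoeff] using coeff_single_hazFGL p 1

/-- Associativity: `F (F (x, y), z) = F (x, F (y, z))`. -/
theorem hazFGL_assoc (p : ℕ) :
    MvPowerSeries.subst
        ![MvPowerSeries.subst ![(MvPowerSeries.X 0 : HazSeries (Fin 3)), MvPowerSeries.X 1]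
          (hazFGL p), MvPowerSeries.X 2] (hazFGL p) =
      MvPowerSeries.subst
        ![(MvPowerSeries.X 0 : HazSeries (Fin 3)),
          MvPowerSeries.subst ![(MvPowerSeries.X 1 : HazSeries (Fin 3)), MvPowerSeries.X 2]
            (hazFGL p)] (hazFGL p) := by
  have c : ∀ i : Fin 3, MvPowerSeries.constantCoeff
      (MvPowerSeries.X i : HazSeries (Fin 3)) = 0 := fun i => by simp
  have e01 := subst_hazFGL p (c 0) (c 1)
  have e12 := subst_hazFGL p (c 1) (c 2)
  have eL := subst_hazFGL p (constantCoeff_hazExp p (constantCoeff_hazSum p (c 0) (c 1))) (c 2)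
  have eR := subst_hazFGL p (c 0) (constantCoeff_hazExp p (constantCoeff_hazSum p (c 1) (c 2)))
  have sL : hazSum p (PowerSeries.subst
        (hazSum p (MvPowerSeries.X 0 : HazSeries (Fin 3)) (MvPowerSeries.X 1))
        (hazLog p).substInv) (MvPowerSeries.X 2) =
      hazSum p (MvPowerSeries.X 0 : HazSeries (Fin 3)) (PowerSeries.subst
        (hazSum p (MvPowerSeries.X 1 : HazSeries (Fin 3)) (MvPowerSeries.X 2))
        (hazLog p).substInv) := by
    unfold hazSum
    have a1 := hazLog_hazExp p (constantCoeff_hazSum p (c 0) (c 1))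
    have a2 := hazLog_hazExp p (constantCoeff_hazSum p (c 1) (c 2))
    unfold hazSum at a1 a2
    rw [a1, a2, add_assoc]
  rw [e01, e12, eL, eR, sL]

/-- **Hazewinkel's law is a formal group law** in the sense of Mathlib. -/
def hazFormalGroup (p : ℕ) : FormalGroup (MvPolynomial ℕ ℚ) where
  toPowerSeries := hazFGL p
  zero_constantCoeff := constantCoeff_hazFGL p
  lin_coeff_X := coeff_single_hazFGL p 0
  lin_coeff_Y := coeff_single_hazFGL p 1
  assoc := hazFGL_assoc p

/-- Hazewinkel's law is commutative. -/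
instance hazFormalGroup.instIsComm (p : ℕ) : (hazFormalGroup p).IsComm where
  comm := by
    change hazFGL p = MvPowerSeries.subst ![MvPowerSeries.X 1, MvPowerSeries.X 0] (hazFGL p)
    have h := subst_hazFGL p (σ := Fin 2) (f := MvPowerSeries.X 1) (g := MvPowerSeries.X 0)
      (by simp) (by simp)
    rw [h, hazFGL_eq]
    unfold hazSum
    rw [add_comm]

/-! ### Consequences for `θ : MU_⋆ → BP_⋆` -/

/-- `BP_⋆ → BP_⋆ ⊗ ℚ` is injective, so the image `c` in `IsImageOfCoeff p r c` is determined by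
the indices `(i, j)` of the coefficient. -/
theorem toRat_injective (p : ℕ) : Function.Injective (toRat p) :=
  MvPolynomial.map_injective _ (ZLoc p).subtype_injective

/-- `θ(a₀₀) = 0`. -/
theorem IsFGLFamily.isImageOfCoeff_zero_zero {f : ℕ → ℕ → MUsys.Rep} (hf : IsFGLFamily f)
    (p : ℕ) : IsImageOfCoeff p (f 0 0) 0 :=
  ⟨f, 0, 0, hf, rfl, by rw [map_zero, hazCoeff_zero_zero]⟩

/-- `θ(a₁₀) = 1`. -/
theorem IsFGLFamily.isImageOfCoeff_one_zero {f : ℕ → ℕ → MUsys.Rep} (hf : IsFGLFamily f)
    (p : ℕ) : IsImageOfCoeff p (f 1 0) 1 :=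
  ⟨f, 1, 0, hf, rfl, by rw [map_one, hazCoeff_one_zero]⟩

/-- `θ(a₀₁) = 1`. -/
theorem IsFGLFamily.isImageOfCoeff_zero_one {f : ℕ → ℕ → MUsys.Rep} (hf : IsFGLFamily f)
    (p : ℕ) : IsImageOfCoeff p (f 0 1) 1 :=
  ⟨f, 0, 1, hf, rfl, by rw [map_one, hazCoeff_zero_one]⟩

/-! ### The coefficient of `x y` -/

/-- The exponent of the monomial `x y`. -/
def e11 : Fin 2 →₀ ℕ := Finsupp.single 0 1 + Finsupp.single 1 1

theorem antidiagonal_e11 : Finset.HasAntidiagonal.antidiagonal e11 =
    {(0, e11), (Finsupp.single 0 1, Finsupp.single 1 1),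
      (Finsupp.single 1 1, Finsupp.single 0 1), (e11, 0)} := by
  ext ⟨a, b⟩
  simp only [Finset.HasAntidiagonal.mem_antidiagonal, Finset.mem_insert, Finset.mem_singleton, Prod.mk.injEq]
  constructor
  · intro h
    have h0 := DFunLike.congr_fun h 0
    have h1 := DFunLike.congr_fun h 1
    simp [e11] at h0 h1
    have ha : a = Finsupp.single 0 (a 0) + Finsupp.single 1 (a 1) := by
      ext i; fin_cases i <;> simp
    have hb : b = Finsupp.single 0 (b 0) + Finsupp.single 1 (b 1) := by
      ext i; fin_cases i <;> simp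
    rcases (by omega : (a 0 = 0 ∧ b 0 = 1) ∨ (a 0 = 1 ∧ b 0 = 0)) with ⟨x, y⟩ | ⟨x, y⟩ <;>
    rcases (by omega : (a 1 = 0 ∧ b 1 = 1) ∨ (a 1 = 1 ∧ b 1 = 0)) with ⟨z, w⟩ | ⟨z, w⟩ <;>
    rw [ha, hb, x, y, z, w] <;> simp [e11]
  · rintro (⟨rfl, rfl⟩ | ⟨rfl, rfl⟩ | ⟨rfl, rfl⟩ | ⟨rfl, rfl⟩) <;> simp [e11, add_comm]

theorem coeff_e11_mul {R : Type} [CommRing R] {u w : MvPowerSeries (Fin 2) R}
    (hu : MvPowerSeries.constantCoeff u = 0) (hw : MvPowerSeries.constantCoeff w = 0) :
    MvPowerSeries.coeff e11 (u * w) =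
      MvPowerSeries.coeff (Finsupp.single 0 1) u * MvPowerSeries.coeff (Finsupp.single 1 1) w +
      MvPowerSeries.coeff (Finsupp.single 1 1) u * MvPowerSeries.coeff (Finsupp.single 0 1) w := by
  have n1 : (Finsupp.single (0 : Fin 2) 1 : Fin 2 →₀ ℕ) ≠ Finsupp.single 1 1 := by
    intro h; have := DFunLike.congr_fun h 0; simp at this
  have n2 : (0 : Fin 2 →₀ ℕ) ≠ Finsupp.single 0 1 := by
    intro h; have := DFunLike.congr_fun h 0; simp at this
  have n3 : (0 : Fin 2 →₀ ℕ) ≠ Finsupp.single 1 1 := by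
    intro h; have := DFunLike.congr_fun h 1; simp at this
  have n4 : (0 : Fin 2 →₀ ℕ) ≠ e11 := by
    intro h; have := DFunLike.congr_fun h 0; simp [e11] at this
  have n5 : (Finsupp.single (0 : Fin 2) 1 : Fin 2 →₀ ℕ) ≠ e11 := by
    intro h; have := DFunLike.congr_fun h 1; simp [e11] at this
  have n6 : (Finsupp.single (1 : Fin 2) 1 : Fin 2 →₀ ℕ) ≠ e11 := by
    intro h; have := DFunLike.congr_fun h 0; simp [e11] at this
  rw [MvPowerSeries.coeff_mul, antidiagonal_e11, Finset.sum_insert, Finset.sum_insert,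
    Finset.sum_insert, Finset.sum_singleton]
  · simp only [MvPowerSeries.coeff_zero_eq_constantCoeff_apply, hu, hw, zero_mul, mul_zero,
      zero_add, add_zero]
  · simp [n6]
  · simp [n1, n5]
  · simp [n2, n3, n4]

theorem coeff_e11_subst {R : Type} [CommRing R] {a : MvPowerSeries (Fin 2) R}
    (ha : MvPowerSeries.constantCoeff a = 0) (f : PowerSeries R)
    (hf : PowerSeries.constantCoeff f = 0) :
    MvPowerSeries.coeff e11 (PowerSeries.subst a f) =
      PowerSeries.coeff 1 f * MvPowerSeries.coeff e11 a +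
        PowerSeries.coeff 2 f * MvPowerSeries.coeff e11 (a * a) := by
  have hs : PowerSeries.HasSubst a := PowerSeries.HasSubst.of_constantCoeff_zero ha
  have hd : (PowerSeries.X : PowerSeries R) ^ 3 ∣
      f - PowerSeries.C (PowerSeries.coeff 1 f) * PowerSeries.X -
        PowerSeries.C (PowerSeries.coeff 2 f) * PowerSeries.X ^ 2 := by
    rw [PowerSeries.X_pow_dvd_iff]
    intro m hm
    interval_cases m
    · simp [hf]
    · simp [PowerSeries.coeff_X_pow]
    · simp [PowerSeries.coeff_X_pow]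
  obtain ⟨h, hh⟩ := hd
  have hf' : f = PowerSeries.C (PowerSeries.coeff 1 f) * PowerSeries.X +
      PowerSeries.C (PowerSeries.coeff 2 f) * PowerSeries.X ^ 2 + PowerSeries.X ^ 3 * h := by
    rw [← hh]; ring
  have h3 : MvPowerSeries.coeff e11 (a * (a * (a * PowerSeries.subst a h))) = 0 := by
    have c1 : MvPowerSeries.constantCoeff (a * PowerSeries.subst a h) = 0 := by
      rw [map_mul, ha, zero_mul]
    rw [coeff_e11_mul ha (by rw [map_mul, ha, zero_mul]),
      coeff_single_one_mul_eq_zero _ ha c1, coeff_single_one_mul_eq_zero _ ha c1, mul_zero,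
      mul_zero, add_zero]
  conv_lhs => rw [hf']
  rw [PowerSeries.subst_add hs, PowerSeries.subst_add hs, PowerSeries.subst_mul hs,
    PowerSeries.subst_mul hs, PowerSeries.subst_mul hs, PowerSeries.subst_pow hs,
    PowerSeries.subst_pow hs, PowerSeries.subst_X hs, PowerSeries.subst_C, PowerSeries.subst_C,
    map_add, map_add, MvPowerSeries.coeff_C_mul, MvPowerSeries.coeff_C_mul,
    show a ^ 3 * PowerSeries.subst a h = a * (a * (a * PowerSeries.subst a h)) by ring, h3,
    add_zero, sq]

/-- The coefficient of `x y` in Hazewinkel's law is `-2 ·` (the coefficient of `x²` in `log`). -/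
theorem hazCoeff_one_one (p : ℕ) : hazCoeff p 1 1 = -2 * PowerSeries.coeff 2 (hazLog p) := by
  have n5 : e11 ≠ Finsupp.single 0 1 := by
    intro h; have := DFunLike.congr_fun h 1; simp [e11] at this
  have n6 : e11 ≠ Finsupp.single 1 1 := by
    intro h; have := DFunLike.congr_fun h 0; simp [e11] at this
  have h := congrArg (MvPowerSeries.coeff e11) (hazLog_hazFGL p)
  rw [coeff_e11_subst (constantCoeff_hazFGL p) _ (constantCoeff_hazLog p), coeff_one_hazLog,
    coeff_e11_mul (constantCoeff_hazFGL p) (constantCoeff_hazFGL p), coeff_single_hazFGL,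
    coeff_single_hazFGL, map_add, PowerSeries.coeff_subst_single,
    PowerSeries.coeff_subst_single] at h
  have a0 : e11 0 = 1 := by simp [e11]
  have a1 : e11 1 = 1 := by simp [e11]
  rw [a0, a1, if_neg n5, if_neg n6] at h
  change MvPowerSeries.coeff e11 (hazFGL p) = _
  linear_combination h

/-- At `p = 2`: `F (x, y) = x + y - v₁ x y + ⋯`. -/
theorem hazCoeff_one_one_two : hazCoeff 2 1 1 = -MvPolynomial.X 0 := by
  have h2 : PowerSeries.coeff 2 (hazLog 2) = MvPolynomial.C (1 / 2 : ℚ) * MvPolynomial.X 0 := by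
    have := coeff_hazLog_pow (p := 2) (by norm_num) 1
    rw [pow_one, hazL_one] at this
    simpa using this
  rw [hazCoeff_one_one, h2, ← mul_assoc]
  have : (-2 : MvPolynomial ℕ ℚ) * MvPolynomial.C (1 / 2 : ℚ) = -1 := by
    rw [show (-2 : MvPolynomial ℕ ℚ) = MvPolynomial.C (-2 : ℚ) by
      rw [MvPolynomial.C_neg]; rfl, ← MvPolynomial.C_mul]
    norm_num
  rw [this, neg_one_mul]

/-- At `p ≠ 2`: `F (x, y) = x + y + 0 · x y + ⋯`. -/
theorem hazCoeff_one_one_of_ne_two {p : ℕ} (hp : p ≠ 2) : hazCoeff p 1 1 = 0 := by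
  have hl : Nat.log p 2 = 0 := by
    rcases Nat.lt_or_ge 2 p with h | h
    · exact Nat.log_of_lt h
    · exact Nat.log_of_left_le_one (by omega) 2
  have h2 : PowerSeries.coeff 2 (hazLog p) = 0 := by
    simp [hazLog, hl]
  rw [hazCoeff_one_one, h2, mul_zero]

/-- `θ(a₁₁) = -v₁` at the prime `2`. -/
theorem IsFGLFamily.isImageOfCoeff_one_one_two {f : ℕ → ℕ → MUsys.Rep} (hf : IsFGLFamily f) :
    IsImageOfCoeff 2 (f 1 1) (-vGen 2 1) :=
  ⟨f, 1, 1, hf, rfl, by rw [hazCoeff_one_one_two]; simp [toRat, vGen]⟩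

end Claimed.Open.R308
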