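import Claimed.Open.R308.SanityLines

/-!
# Result 308: the formulas in the doc-strings of sections 4, 6, 8, 9, 10, and degrees in `MU ∧ MU`

The constructions below are written in `Statement.lean` with `ContinuousMap.curry`, `smashLift` and
subtypes; each doc-string gives a formula on points.  This file checks these formulas, and that the
operations on representatives which enter `coactionGraph` are additive in the degree.

* `Formulas.loopRight_apply`, `loopLeft_apply`, `fixRight_apply`, `muBond_apply`,
  `smashLeft_apply`, `smashRight_apply`, `ptdSmashLeft_apply`, `onInvMaps_apply`: the formulas.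
* `Formulas.mu2MulFst_mu2Pair`, `mu2MulSnd_mu2Pair`: `(x ∧ y) · g = (x · g) ∧ y`, resp.
  `x ∧ (y · g)`: the two module structures of `MU ∧ MU` act on the factor named in the doc-string.
* `Formulas.deg_actFst`, `deg_actSnd`, `deg_kunneth`, `deg_etaRep`, `deg_oneMUMU`: degrees add;
  `deg_kunneth_one`: `1 ⊗ h` and `η(h)` have the degree of `h`, so the relation "`h` is primitive"
  is homogeneous.
-/

set_option autoImplicit false

open scoped unitInterval Topology
open InnerProductSpace

noncomputable section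

namespace Claimed.Open.R308

namespace Formulas

/-! ### formulas on points -/

theorem loopRight_apply {A B C : Ptd} (β : Pairing A B C) {N : ℕ} (f : Loops N B) (a : A)
    (t : I^(Fin N)) : (β.loopRight f).toMap a t = β.toMap (a, f t) := rfl

theorem loopLeft_apply {A B C : Ptd} (β : Pairing A B C) {N : ℕ} (c : Loops N A) (b : B)
    (t : I^(Fin N)) : (β.loopLeft c).toMap b t = β.toMap (c t, b) := rfl

theorem fixRight_apply {A B C : Ptd} (β : Pairing A B C) (b : B) (a : A) :
    (β.fixRight b).toMap a = β.toMap (a, b) := rfl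

/-- The bonding map of `MU` is `x ↦ (r ↦ x · ι(r))`. -/
theorem muBond_apply (a : ℕ) (x : MU a) (r : I^(Fin 2)) :
    (muBond a).toMap x r = (muMul a 1).toMap (x, muIota r) := rfl

theorem smashLeft_apply {d : ℕ} {A A' : Ptd} (φ : LoopMap d A A') (B : Ptd) (a : A) (b : B)
    (r : I^(Fin d)) : (φ.smashLeft B).toMap (smashMk (a, b)) r = smashMk (φ.toMap a r, b) := rfl

theorem smashRight_apply {d : ℕ} {B B' : Ptd} (φ : LoopMap d B B') (A : Ptd) (a : A) (b : B)
    (r : I^(Fin d)) : (φ.smashRight A).toMap (smashMk (a, b)) r = smashMk (a, φ.toMap b r) := rfl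

theorem ptdSmashLeft_apply {A A' : Ptd} (f : PtdMap A A') (B : Ptd) (a : A) (b : B) :
    (f.smashLeft B).toMap (smashMk (a, b)) = smashMk (f.toMap a, b) := rfl

theorem onInvMaps_apply {d : ℕ} {A B : Ptd} (φ : LoopMap d A B) (Y : Type) [TopologicalSpace Y]
    [LocallyCompactSpace Y] (R : Y → Y → Prop) (q : InvMaps Y R A) (r : I^(Fin d)) (y : Y) :
    ((φ.onInvMaps Y R).toMap q r).1 y = φ.toMap (q.1 y) r := rfl

/-- The bonding map of the function spectrum `MUcoh N` is the bonding map of `MU`, pointwise. -/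
theorem MUcoh_bond_apply (N a : ℕ) (q : CohSpace N a) (r : I^(Fin 2)) (y : Sph N × Sph N) :
    (((MUcoh N).bond () a).toMap q r).1 y = (muMul a 1).toMap (q.1 y, muIota r) := rfl

/-! ### the two module structures of `MU ∧ MU` -/

/-- `(x ∧ y) · g = (x · g) ∧ y`. -/
theorem mu2MulFst_mu2Pair (a b m : ℕ) (x : MU a) (y : MU b) (g : MU m) :
    (mu2MulFst a b m).toMap ((mu2Pair a b).toMap (x, y), g) =
      (mu2Pair (a + m) b).toMap ((muMul a m).toMap (x, g), y) :=
  Subtype.ext (p := fun z => z ∈ MU2set (a + m) b)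
    (amb2MulFst_ambPair (Lines.toAmb x) (Lines.toAmb y) (Lines.toAmb g))

/-- `(x ∧ y) · g = x ∧ (y · g)`. -/
theorem mu2MulSnd_mu2Pair (a b m : ℕ) (x : MU a) (y : MU b) (g : MU m) :
    (mu2MulSnd a b m).toMap ((mu2Pair a b).toMap (x, y), g) =
      (mu2Pair a (b + m)).toMap (x, (muMul b m).toMap (y, g)) :=
  Subtype.ext (p := fun z => z ∈ MU2set a (b + m))
    (amb2MulSnd_ambPair (Lines.toAmb x) (Lines.toAmb y) (Lines.toAmb g))

/-! ### degrees -/

theorem deg_actFst (f : MUsys.Rep) (g : MUMU.Rep) :
    MUMU.deg (actFst f g) = MUMU.deg g + MUsys.deg f := by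
  simp only [StableSystem.deg, actFst]
  push_cast
  ring

theorem deg_actSnd (f : MUsys.Rep) (g : MUMU.Rep) :
    MUMU.deg (actSnd f g) = MUMU.deg g + MUsys.deg f := by
  simp only [StableSystem.deg, actSnd]
  push_cast
  ring

theorem deg_kunneth {X : Spectrum} (c : MUMU.Rep) (h : (MUX X).Rep) :
    (MUMUX X).deg (kunneth c h) = MUMU.deg c + (MUX X).deg h := by
  simp only [StableSystem.deg, kunneth]
  push_cast
  ring

theorem deg_etaRep {X : Spectrum} (g : (MUX X).Rep) :
    (MUMUX X).deg (etaRep g) = (MUX X).deg g := by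
  simp only [StableSystem.deg, etaRep]
  push_cast
  ring

theorem deg_oneMUMU : MUMU.deg oneMUMU = 0 := by
  simp [StableSystem.deg, oneMUMU]

/-- `1 ⊗ h` and `η(h)` have the same degree, that of `h`. -/
theorem deg_kunneth_one {X : Spectrum} (h : (MUX X).Rep) :
    (MUMUX X).deg (kunneth oneMUMU h) = (MUMUX X).deg (etaRep h) := by
  rw [deg_kunneth, deg_oneMUMU, deg_etaRep, zero_add]

end Formulas

end Claimed.Open.R308
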