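import Claimed.Open.R308.SanityLocTensor

/-!
# Result 308: `π_0(S_(p))` is `ℤ_(p)` as soon as `π_0(S)` is `ℤ`

* `StableSystem.degProj`: the projection of `π⋆` onto `π_k`; it is natural for maps of spectra (`Spectrum.Hom.piMap_degProj`);
* `exists_mem_piDeg_of_isLocalizedModule`: the localisation is graded: for `x ∈ π_k(S_(p))` there are `s` prime to `p` and `y ∈ π_k(S)` with `s • x = f_⋆ y`;
* `exists_addEquiv_ZLoc_piDeg_zero_sphereLoc`: if every element of `π_0(S)` is a multiple of `1`, then `ℤ_(p) ≃+ π_0(S_(p))`, `1 ↦` the image of `1`.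
-/

set_option autoImplicit false

open scoped TensorProduct
open CategoryTheory

noncomputable section

namespace Claimed.Open.R308

namespace StableSystem

variable (S : StableSystem)

/-- The projection of `π⋆` onto its summand `π_k`. -/
def degProj (k : ℤ) : S.PiStar →+ S.PiStar where
  toFun x := S.degSplit x k
  map_zero' := by rw [map_zero]; rfl
  map_add' x y := by rw [map_add]; exact DirectSum.add_apply _ _ _

theorem degProj_of_mem {k : ℤ} {x : S.PiStar} (hx : x ∈ S.piDeg k) : S.degProj k x = x := by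
  show S.degSplit x k = x
  rw [S.degSplit_of_mem hx]
  exact DirectSum.of_eq_same _ _

theorem degProj_cls (k : ℤ) (r : S.Rep) :
    S.degProj k (S.cls r) = if S.deg r = k then S.cls r else 0 := by
  by_cases h : S.deg r = k
  · rw [if_pos h]
    exact S.degProj_of_mem (h ▸ S.cls_mem_piDeg r)
  · rw [if_neg h]
    show S.degSplit (S.cls r) k = 0
    rw [S.degSplit_of_mem (S.cls_mem_piDeg r)]
    exact DirectSum.of_eq_of_ne _ _ _ (Ne.symm h)

theorem degProj_mem (k : ℤ) (x : S.PiStar) : S.degProj k x ∈ S.piDeg k := by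
  have h : (⊤ : AddSubgroup S.PiStar) ≤ (S.piDeg k).comap (S.degProj k) := by
    rw [← S.closure_range_cls, AddSubgroup.closure_le]
    rintro _ ⟨r, rfl⟩
    show S.degProj k (S.cls r) ∈ S.piDeg k
    rw [degProj_cls]
    split_ifs with h
    · exact h ▸ S.cls_mem_piDeg r
    · exact zero_mem _
  exact h trivial

end StableSystem

/-- The projections onto the degrees are natural. -/
theorem Spectrum.Hom.piMap_degProj {X Y : Spectrum} (f : X ⟶ Y) (k : ℤ) (x : X.sys.PiStar) :
    Spectrum.Hom.piMap f (X.sys.degProj k x) = Y.sys.degProj k (Spectrum.Hom.piMap f x) := by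
  have h : (Spectrum.Hom.piMap f).comp (X.sys.degProj k) =
      (Y.sys.degProj k).comp (Spectrum.Hom.piMap f) := by
    refine StableSystem.hom_ext fun r => ?_
    obtain ⟨i, N, g⟩ := r
    show Spectrum.Hom.piMap f (X.sys.degProj k (X.sys.cls ⟨i, N, g⟩)) =
      Y.sys.degProj k (Y.sys.cls ⟨i, N, (f.map i).onLoops g⟩)
    rw [StableSystem.degProj_cls, StableSystem.degProj_cls]
    have e : Y.sys.deg ⟨i, N, (f.map i).onLoops g⟩ = X.sys.deg ⟨i, N, g⟩ := rfl
    rw [e]
    split_ifs
    · rfl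
    · exact map_zero _
  exact DFunLike.congr_fun h x

/-- **The localisation is graded.** -/
theorem exists_mem_piDeg_of_isLocalizedModule {p : ℕ} {X Y : Spectrum} (f : X ⟶ Y)
    (hf : IsLocalizedModule (primeTo p) (Spectrum.Hom.piMap f).toIntLinearMap) {k : ℤ}
    {x : Y.sys.PiStar} (hx : x ∈ Y.sys.piDeg k) :
    ∃ (s : primeTo p) (y : X.sys.PiStar), y ∈ X.sys.piDeg k ∧
      (s : ℤ) • x = Spectrum.Hom.piMap f y := by
  obtain ⟨⟨y, s⟩, hy⟩ := IsLocalizedModule.surj (primeTo p)
    (Spectrum.Hom.piMap f).toIntLinearMap x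
  have hy' : (s : ℤ) • x = Spectrum.Hom.piMap f y := hy
  refine ⟨s, X.sys.degProj k y, X.sys.degProj_mem k y, ?_⟩
  rw [Spectrum.Hom.piMap_degProj, ← hy', map_zsmul, Y.sys.degProj_of_mem hx]

/-- **`π_0(S_(p)) = ℤ_(p)`**, if every element of `π_0(S)` is a multiple of `1`. -/
theorem exists_addEquiv_ZLoc_piDeg_zero_sphereLoc {p : ℕ} (hp : p.Prime)
    (hZ : ∀ y ∈ sphereSpectrum.sys.piDeg 0, ∃ a : ℤ, y = a • sphereSpectrum.sys.cls unitRep) :
    ∃ ψ : ZLoc p ≃+ (sphereLoc p).sys.piDeg 0,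
      ((ψ 1 : (sphereLoc p).sys.piDeg 0) : (sphereLoc p).sys.PiStar) =
        Spectrum.Hom.piMap (sphereLocMap p) (sphereSpectrum.sys.cls unitRep) := by
  obtain ⟨φ, hφ, h1⟩ := exists_injective_ZLoc_piStar_sphereLoc hp
  have hloc := isLocalizedModule_piMap_sphereLocMap hp
  have hinj : ∀ (s : primeTo p) (a b : (sphereLoc p).sys.PiStar),
      (s : ℤ) • a = (s : ℤ) • b → a = b := by
    intro s a b hab
    have hu := IsLocalizedModule.map_units (Spectrum.Hom.piMap (sphereLocMap p)).toIntLinearMap s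
    rw [Module.End.isUnit_iff] at hu
    exact hu.1 hab
  have hu0 : sphereSpectrum.sys.cls unitRep ∈ sphereSpectrum.sys.piDeg 0 := by
    have := sphereSpectrum.sys.cls_mem_piDeg unitRep
    rwa [deg_unitRep] at this
  have hfu : Spectrum.Hom.piMap (sphereLocMap p) (sphereSpectrum.sys.cls unitRep) ∈
      (sphereLoc p).sys.piDeg 0 := by
    have h := Spectrum.Hom.piMap_degProj (sphereLocMap p) 0 (sphereSpectrum.sys.cls unitRep)
    rw [sphereSpectrum.sys.degProj_of_mem hu0] at h
    rw [h]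
    exact StableSystem.degProj_mem _ _ _
  have hmem : ∀ z, φ z ∈ (sphereLoc p).sys.piDeg 0 := by
    intro z
    have hden : ¬ p ∣ (z : ℚ).den := (mem_ZLoc_iff hp _).1 z.2
    let s : primeTo p := ⟨((z : ℚ).den : ℤ), (mem_primeTo_iff hp _).2
      fun h => hden (Int.natCast_dvd_natCast.1 h)⟩
    have hd : ((z : ℚ).den : ℤ) • z = (z : ℚ).num • (1 : ZLoc p) := by
      apply Subtype.ext
      rw [zsmul_eq_mul, zsmul_eq_mul, mul_one, Subring.coe_mul, Subring.coe_intCast,
        Subring.coe_intCast, Int.cast_natCast, mul_comm]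
      exact Rat.mul_den_eq_num _
    have e1 : (s : ℤ) • φ z = (z : ℚ).num •
        Spectrum.Hom.piMap (sphereLocMap p) (sphereSpectrum.sys.cls unitRep) := by
      show ((z : ℚ).den : ℤ) • φ z = _
      rw [← map_zsmul, hd, map_zsmul, h1]
    have e2 : (s : ℤ) • (sphereLoc p).sys.degProj 0 (φ z) = (s : ℤ) • φ z := by
      rw [← map_zsmul, e1, map_zsmul, (sphereLoc p).sys.degProj_of_mem hfu]
    rw [← hinj s _ _ e2]
    exact StableSystem.degProj_mem _ _ _
  have hsurj : ∀ x ∈ (sphereLoc p).sys.piDeg 0, ∃ z, φ z = x := by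
    intro x hx
    obtain ⟨s, y, hy, hs⟩ := exists_mem_piDeg_of_isLocalizedModule (sphereLocMap p) hloc hx
    obtain ⟨a, rfl⟩ := hZ y hy
    have := isLocalization_ZLoc hp
    refine ⟨IsLocalization.mk' (ZLoc p) a s, hinj s _ _ ?_⟩
    rw [hs, ← map_zsmul φ, map_zsmul (Spectrum.Hom.piMap (sphereLocMap p)), ← h1, ← map_zsmul φ]
    congr 1
    rw [zsmul_eq_mul, zsmul_eq_mul, mul_one, mul_comm]
    have h := IsLocalization.mk'_spec (ZLoc p) a s
    simpa using h
  refine ⟨AddEquiv.ofBijective (φ.codRestrict ((sphereLoc p).sys.piDeg 0) hmem) ⟨?_, ?_⟩, h1⟩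
  · intro a b hab
    exact hφ (congrArg Subtype.val hab)
  · rintro ⟨x, hx⟩
    obtain ⟨z, hz⟩ := hsurj x hx
    exact ⟨z, Subtype.ext hz⟩

end Claimed.Open.R308
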