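import Claimed.Open.R308.SanityConn
import Claimed.Open.R308.SanityLocDeg

/-!
# Result 308: the grading of `π⋆` is an invariant of the stable homotopy category

`SHC` of `Statement.lean` inverts the maps that are isomorphisms on the **total** group `π⋆`, and `piSHC` is the total group.  Here: nothing of the grading is lost.

* `piDegFunctor k`: the functor `π_k` on spectra; a stable equivalence is an isomorphism on every `π_k` (`stableEquivalences_isInvertedBy_piDegFunctor`);
* `piDegSHC k`, `piDegSHCIso k`: **`π_k` descends to `SHC`**; `nonempty_piDeg_addEquiv`: spectra that are isomorphic in `SHC` have isomorphic `π_k` for every `k`;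
* `sphereSpectrum_not_iso_unsh`, `sphereLoc_not_iso_unsh`: **non-examples**: `S ≇ Σ^{-1} S` and `S_(p) ≇ Σ^{-1} S_(p)` in `SHC`: the localisation does not collapse the suspension (the total groups `π⋆` of the two
  are isomorphic, by `unshEquiv`);
* `isFiniteCWSpectrum_unshIter_sphereSpectrum`, `isEmpty_iso_unshIter_sphereSpectrum`: the spheres `Σ^{-m} S`, `m ≥ 0`, are finite CW spectra, pairwise not isomorphic in `SHC`;
* `Spectrum.Hom.isLocalizedModule_piDegMap`: `IsPLocalization` of `Statement.lean` is stated for the total group `π⋆`; a map of spectra that localises `π⋆` at the integers prime to `p` localises every `π_k`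
  (`isLocalizedModule_piDegMap_sphereLocMap`: `π_k(S) → π_k(S_(p))`);
* `exists_addEquiv_ZLoc_piDeg_zero_sphereLoc_of_hopf`: **`π_0` of the `p`-local sphere spectrum is the ring `ℤ_(p)` of `Statement.lean`** (the coefficients of `BP_⋆`), `1` going to the image of `1 ∈ π_0(S)`
  (`SanityLocDeg.lean` with `π_0(S) = ℤ` from `SanityHopf.lean`).

The projections `π⋆ → π_k` and their naturality are those of `SanityLocDeg.lean` (`StableSystem.degProj`, `Spectrum.Hom.piMap_degProj`).
-/

set_option autoImplicit false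

open scoped unitInterval Topology
open CategoryTheory

noncomputable section

namespace Claimed.Open.R308

/-- The map `π_k(X) → π_k(Y)` of a map of spectra. -/
def Spectrum.Hom.piDegMap {X Y : Spectrum} (f : X ⟶ Y) (k : ℤ) : X.sys.piDeg k →+ Y.sys.piDeg k :=
  ((Spectrum.Hom.piMap f).comp (X.sys.piDeg k).subtype).codRestrict (Y.sys.piDeg k)
    (fun x => Spectrum.Hom.piMap_mem_piDeg f x.2)

theorem Spectrum.Hom.piDegMap_coe {X Y : Spectrum} (f : X ⟶ Y) (k : ℤ) (x : X.sys.piDeg k) :
    ((Spectrum.Hom.piDegMap f k x : Y.sys.piDeg k) : Y.sys.PiStar) = Spectrum.Hom.piMap f x := rfl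

/-- A map that is bijective on `π⋆` is bijective on every `π_k`. -/
theorem Spectrum.Hom.piDegMap_bijective {X Y : Spectrum} (f : X ⟶ Y)
    (hf : Function.Bijective (Spectrum.Hom.piMap f)) (k : ℤ) :
    Function.Bijective (Spectrum.Hom.piDegMap f k) := by
  constructor
  · intro a b h
    exact Subtype.ext (hf.1 (congrArg Subtype.val h))
  · intro y
    obtain ⟨x, hx⟩ := hf.2 y.1
    refine ⟨⟨X.sys.degProj k x, X.sys.degProj_mem k x⟩, Subtype.ext ?_⟩
    show Spectrum.Hom.piMap f (X.sys.degProj k x) = y.1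
    rw [Spectrum.Hom.piMap_degProj, hx, Y.sys.degProj_of_mem y.2]

/-- The functor `π_k` on spectra. -/
def piDegFunctor (k : ℤ) : Spectrum ⥤ AddCommGrpCat.{0} where
  obj X := AddCommGrpCat.of (X.sys.piDeg k)
  map f := AddCommGrpCat.ofHom (Spectrum.Hom.piDegMap f k)
  map_id X := AddCommGrpCat.hom_ext (AddMonoidHom.ext fun x => Subtype.ext
    (DFunLike.congr_fun (congrArg AddCommGrpCat.Hom.hom (piFunctor.map_id X)) x.1))
  map_comp f g := AddCommGrpCat.hom_ext (AddMonoidHom.ext fun x => Subtype.ext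
    (DFunLike.congr_fun (congrArg AddCommGrpCat.Hom.hom (piFunctor.map_comp f g)) x.1))

/-- **A stable equivalence is an isomorphism on every `π_k`.** -/
theorem stableEquivalences_isInvertedBy_piDegFunctor (k : ℤ) :
    stableEquivalences.IsInvertedBy (piDegFunctor k) := by
  intro X Y f hf
  have h2 : IsIso (piFunctor.map f) := hf
  have h3 : Function.Bijective (Spectrum.Hom.piMap f) :=
    (asIso (piFunctor.map f)).addCommGroupIsoToAddEquiv.bijective
  exact (ConcreteCategory.isIso_iff_bijective ((piDegFunctor k).map f)).2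
    (Spectrum.Hom.piDegMap_bijective f h3 k)

/-- **`π_k` on the stable homotopy category.** -/
def piDegSHC (k : ℤ) : SHC ⥤ AddCommGrpCat.{0} :=
  Localization.lift (piDegFunctor k) (stableEquivalences_isInvertedBy_piDegFunctor k) toSHC

/-- On spectra it is `π_k`. -/
def piDegSHCIso (k : ℤ) : toSHC ⋙ piDegSHC k ≅ piDegFunctor k := Localization.fac _ _ _

/-- **Spectra that are isomorphic in `SHC` have isomorphic `π_k`, for every `k`.** -/
theorem nonempty_piDeg_addEquiv {X Y : Spectrum} (e : toSHC.obj X ≅ toSHC.obj Y) (k : ℤ) :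
    Nonempty (X.sys.piDeg k ≃+ Y.sys.piDeg k) :=
  ⟨(((piDegSHCIso k).app X).symm ≪≫ (piDegSHC k).mapIso e ≪≫
    (piDegSHCIso k).app Y : (piDegFunctor k).obj X ≅ (piDegFunctor k).obj Y).addCommGroupIsoToAddEquiv⟩

/-- If `π_k(X) = 0` and `π_k(Y) ≠ 0`, then `X` and `Y` are not isomorphic in `SHC`. -/
theorem isEmpty_iso_of_piDeg {X Y : Spectrum} {k : ℤ} (hX : X.sys.piDeg k = ⊥)
    (hY : ∃ y ∈ Y.sys.piDeg k, y ≠ 0) : IsEmpty (toSHC.obj X ≅ toSHC.obj Y) := by
  refine ⟨fun e => ?_⟩
  obtain ⟨f⟩ := nonempty_piDeg_addEquiv e k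
  obtain ⟨y, hy, hy0⟩ := hY
  have h1 : f.symm ⟨y, hy⟩ = 0 := by
    have h2 : ((f.symm ⟨y, hy⟩ : X.sys.piDeg k) : X.sys.PiStar) ∈ (⊥ : AddSubgroup X.sys.PiStar) :=
      hX ▸ (f.symm ⟨y, hy⟩).2
    exact Subtype.ext (AddSubgroup.mem_bot.1 h2)
  have h3 : (⟨y, hy⟩ : Y.sys.piDeg k) = 0 := by
    rw [← f.apply_symm_apply ⟨y, hy⟩, h1, map_zero]
  exact hy0 (congrArg Subtype.val h3)

/-- **`S ≇ Σ^{-1} S` in the stable homotopy category.** -/
theorem sphereSpectrum_not_iso_unsh :
    IsEmpty (toSHC.obj sphereSpectrum ≅ toSHC.obj sphereSpectrum.unsh) :=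
  isEmpty_iso_of_piDeg (k := -1) (piDeg_sphereSpectrum_of_neg (by norm_num))
    exists_ne_zero_mem_piDeg_unsh_sphereSpectrum

/-- **`S_(p) ≇ Σ^{-1} S_(p)` in the stable homotopy category.** -/
theorem sphereLoc_not_iso_unsh {p : ℕ} (hp : p.Prime) :
    IsEmpty (toSHC.obj (sphereLoc p) ≅ toSHC.obj (sphereLoc p).unsh) :=
  isEmpty_iso_of_piDeg (k := -1) (piDeg_sphereLoc_of_neg p (by norm_num))
    (exists_ne_zero_mem_piDeg_unsh_sphereLoc hp)

/-! ## The spheres `Σ^{-m} S` -/

/-- The `m`-fold desuspension. -/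
def Spectrum.unshIter (W : Spectrum) : ℕ → Spectrum
  | 0 => W
  | m + 1 => (W.unshIter m).unsh

theorem Spectrum.piDeg_unshIter_eq_bot (W : Spectrum) : ∀ (m : ℕ) (k : ℤ), W.sys.piDeg (k + m) = ⊥ →
    (W.unshIter m).sys.piDeg k = ⊥
  | 0, k, h => by
    rw [Nat.cast_zero, add_zero] at h
    exact h
  | m + 1, k, h => by
    have h1 : (W.unshIter m).sys.piDeg (k + 1) = ⊥ :=
      W.piDeg_unshIter_eq_bot m (k + 1) (by rw [← h]; congr 1; push_cast; ring)
    have h2 := map_unshEquiv_piDeg (W.unshIter m) k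
    rw [h1] at h2
    exact (AddSubgroup.map_eq_bot_iff_of_injective _ (unshEquiv (W.unshIter m)).injective).1 h2

theorem Spectrum.exists_ne_zero_mem_piDeg_unshIter (W : Spectrum) : ∀ (m : ℕ) (k : ℤ),
    (∃ y ∈ W.sys.piDeg (k + m), y ≠ 0) → ∃ y ∈ (W.unshIter m).sys.piDeg k, y ≠ 0
  | 0, k, h => by
    rw [Nat.cast_zero, add_zero] at h
    exact h
  | m + 1, k, h => by
    obtain ⟨y, hy, hy0⟩ := W.exists_ne_zero_mem_piDeg_unshIter m (k + 1) (by
      have e : k + 1 + (m : ℤ) = k + ((m + 1 : ℕ) : ℤ) := by push_cast; ring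
      rw [e]; exact h)
    refine ⟨unshPiInv (W.unshIter m) y, unshPiInv_mem_piDeg _ hy, fun h0 => hy0 ?_⟩
    exact (unshEquiv (W.unshIter m)).symm.injective (h0.trans (map_zero _).symm)

/-- All the spheres `Σ^{-m} S` are finite CW spectra in the sense of `Statement.lean`. -/
theorem isFiniteCWSpectrum_unshIter_sphereSpectrum :
    ∀ m, IsFiniteCWSpectrum (toSHC.obj (sphereSpectrum.unshIter m))
  | 0 => isFiniteCWSpectrum_sphereSpectrum
  | m + 1 => by
    obtain ⟨X, d, K, hT2, hCW, hfin, ⟨e₁⟩, he₂⟩ :=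
      (isFiniteCWSpectrum_unshIter_sphereSpectrum m).unshSHC
    exact ⟨X, d, K, hT2, hCW, hfin,
      ⟨(unshSHCIso.app (sphereSpectrum.unshIter m)).symm ≪≫ e₁⟩, he₂⟩

/-- **The finite CW spectra `Σ^{-m} S`, `m ≥ 0`, are pairwise not isomorphic in `SHC`.** -/
theorem isEmpty_iso_unshIter_sphereSpectrum {m m' : ℕ} (h : m ≠ m') :
    IsEmpty (toSHC.obj (sphereSpectrum.unshIter m) ≅ toSHC.obj (sphereSpectrum.unshIter m')) := by
  have key : ∀ {a b : ℕ}, a < b →
      IsEmpty (toSHC.obj (sphereSpectrum.unshIter a) ≅ toSHC.obj (sphereSpectrum.unshIter b)) := by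
    intro a b hab
    refine isEmpty_iso_of_piDeg (k := -(b : ℤ)) ?_ ?_
    · exact sphereSpectrum.piDeg_unshIter_eq_bot a _ (piDeg_sphereSpectrum_of_neg (by omega))
    · refine sphereSpectrum.exists_ne_zero_mem_piDeg_unshIter b _ ?_
      rw [neg_add_cancel]
      exact ⟨_, cls_unitRep_mem_piDeg_zero, cls_unitRep_ne_zero⟩
  rcases lt_or_gt_of_ne h with h | h
  · exact key h
  · exact ⟨fun e => (key h).false e.symm⟩

/-! ## A `p`-localisation is a `p`-localisation in every degree -/

/-- **If `π⋆(X) → π⋆(Y)` is the localisation at the integers prime to `p`, then so is `π_k(X) → π_k(Y)` for every `k`.** -/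
theorem Spectrum.Hom.isLocalizedModule_piDegMap {p : ℕ} {X Y : Spectrum} (f : X ⟶ Y)
    (hf : IsLocalizedModule (primeTo p) (Spectrum.Hom.piMap f).toIntLinearMap) (k : ℤ) :
    IsLocalizedModule (primeTo p) (Spectrum.Hom.piDegMap f k).toIntLinearMap where
  map_units s := by
    have hu := hf.map_units s
    rw [Module.End.isUnit_iff] at hu ⊢
    constructor
    · intro a b hab
      apply Subtype.ext
      apply hu.1
      rw [Module.algebraMap_end_apply, Module.algebraMap_end_apply] at hab ⊢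
      exact congrArg Subtype.val hab
    · intro y
      obtain ⟨z, hz⟩ := hu.2 y.1
      rw [Module.algebraMap_end_apply] at hz
      refine ⟨⟨Y.sys.degProj k z, Y.sys.degProj_mem k z⟩, Subtype.ext ?_⟩
      rw [Module.algebraMap_end_apply]
      show (s : ℤ) • Y.sys.degProj k z = y.1
      rw [← map_zsmul, hz, Y.sys.degProj_of_mem y.2]
  surj y := by
    obtain ⟨s, x, hx, h⟩ := exists_mem_piDeg_of_isLocalizedModule f hf y.2
    exact ⟨(⟨x, hx⟩, s), Subtype.ext h⟩
  exists_of_eq {a b} hab := by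
    have h1 : (Spectrum.Hom.piMap f).toIntLinearMap a.1 = (Spectrum.Hom.piMap f).toIntLinearMap b.1 :=
      congrArg Subtype.val hab
    obtain ⟨c, hc⟩ := hf.exists_of_eq h1
    exact ⟨c, Subtype.ext hc⟩

/-- **`π_k(S) → π_k(S_(p))` is the localisation at the integers prime to `p`, for every `k`.** -/
theorem isLocalizedModule_piDegMap_sphereLocMap {p : ℕ} (hp : p.Prime) (k : ℤ) :
    IsLocalizedModule (primeTo p) (Spectrum.Hom.piDegMap (sphereLocMap p) k).toIntLinearMap :=
  Spectrum.Hom.isLocalizedModule_piDegMap _ (isLocalizedModule_piMap_sphereLocMap hp) k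

/-! ## `π_0(S_(p))` is the ring `ℤ_(p)` of the statement -/

/-- **`π_0(S_(p)) ≅ ℤ_(p)`**, the ring `ZLoc p` of `Statement.lean`, with `1 ↦` the image of `1 ∈ π_0(S)`: the theorem of `SanityLocDeg.lean`, whose hypothesis is Hopf's theorem (`SanityHopf.lean`). -/
theorem exists_addEquiv_ZLoc_piDeg_zero_sphereLoc_of_hopf {p : ℕ} (hp : p.Prime) :
    ∃ ψ : ZLoc p ≃+ (sphereLoc p).sys.piDeg 0,
      ((ψ 1 : (sphereLoc p).sys.piDeg 0) : (sphereLoc p).sys.PiStar) =
        Spectrum.Hom.piMap (sphereLocMap p) (sphereSpectrum.sys.cls unitRep) :=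
  exists_addEquiv_ZLoc_piDeg_zero_sphereLoc hp fun _ hy => (eq_zsmul_of_mem_piDeg_zero hy).exists

end Claimed.Open.R308
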