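import Claimed.Open.R308.SanityFGL

/-!
# Result 308: integrality of Hazewinkel's formal group law, definitions

Goal of the files `SanityHaz*.lean`: `hazCoeff_integral`: every coefficient of `hazFGL p` (`p` prime) lies in
`BP_⋆ = ℤ_(p)[v₁, v₂, …]` (Hazewinkel's functional equation lemma; Ravenel, Theorem A2.2.3).

Notation: `K = ℚ[v]`, `A = ℤ_(p)[v]`, `σ : v_i ↦ v_i^p` (a lift of Frobenius), `Φ H = (σ H)(x^p, y^p)`,
`J_n` = the series in `K[[x, y]]` without terms of total degree `≤ n`.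
-/

set_option autoImplicit false

noncomputable section

namespace Claimed.Open.R308.Haz

/-- `K = BP_⋆ ⊗ ℚ = ℚ[v₁, v₂, …]` -/
abbrev KK : Type := MvPolynomial ℕ ℚ
/-- `K[[x, y]]` -/
abbrev RR : Type := MvPowerSeries (Fin 2) KK
/-- `K[x, y]` -/
abbrev PP : Type := MvPolynomial (Fin 2) KK
/-- `A[x, y]`, `A = BP_⋆` -/
abbrev BB (p : ℕ) : Type := MvPolynomial (Fin 2) (BPCoeff p)

/-- `σ : K → K`, `v_i ↦ v_i^p` -/
def sig (p : ℕ) : KK →+* KK := (MvPolynomial.expand p : KK →ₐ[ℚ] KK)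
/-- `σ : A → A`, `v_i ↦ v_i^p` -/
def sigA (p : ℕ) : BPCoeff p →+* BPCoeff p :=
  (MvPolynomial.expand p : BPCoeff p →ₐ[ZLoc p] BPCoeff p)
/-- `Φ H = (σ H)(x^p, y^p)` on `K[x, y]` -/
def Phi (p : ℕ) : PP →+* PP :=
  ((MvPolynomial.expand p : PP →ₐ[KK] PP) : PP →+* PP).comp (MvPolynomial.map (sig p))
/-- `Φ` on `A[x, y]` -/
def PhiB (p : ℕ) : BB p →+* BB p :=
  ((MvPolynomial.expand p : BB p →ₐ[BPCoeff p] BB p) : BB p →+* BB p).comp
    (MvPolynomial.map (sigA p))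
/-- `A[x, y] ⊆ K[x, y]` -/
def theta (p : ℕ) : BB p →+* PP := MvPolynomial.map (toRat p)
/-- `K[x, y] ⊆ K[[x, y]]` -/
def iota : PP →+* RR := MvPolynomial.coeToMvPowerSeries.ringHom

/-- `J_n`: the series without terms of total degree `≤ n` -/
def JJ (n : ℕ) : Ideal RR where
  carrier := {H | ∀ d : Fin 2 →₀ ℕ, d.degree ≤ n → MvPowerSeries.coeff d H = 0}
  add_mem' := by
    intro a b ha hb d hd
    rw [map_add, ha d hd, hb d hd, add_zero]
  zero_mem' := by
    intro d _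
    exact map_zero _
  smul_mem' := by
    classical
    intro c H hH d hd
    rw [smul_eq_mul, MvPowerSeries.coeff_mul]
    refine Finset.sum_eq_zero ?_
    rintro ⟨u, v⟩ huv
    rw [Finset.HasAntidiagonal.mem_antidiagonal] at huv
    have : v.degree ≤ n := by
      have h := congrArg Finsupp.degree huv
      rw [map_add] at h
      simp only at h
      omega
    rw [hH v this, mul_zero]

/-- `I_n = J_n ∩ K[x, y]` -/
def II (n : ℕ) : Ideal PP := (JJ n).comap iota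

/-- `L_N(c, Z) = ∑_{m ≤ N} c_m Z^{p^m}` -/
def LL (p : ℕ) (c : ℕ → KK) (N : ℕ) (Z : PP) : PP :=
  ∑ m ∈ Finset.range (N + 1), MvPolynomial.C (c m) * Z ^ p ^ m

end Claimed.Open.R308.Haz
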