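/- R308 sanity, Hazewinkel integrality, module Rec: the two recursions for `ℓ_m`; `p^m ℓ_m` is integral. -/
import Claimed.Open.R308.SanityHazDefs

set_option autoImplicit false

namespace Claimed.Open.R308.Haz

theorem sig_X (p i : ℕ) : sig p (MvPolynomial.X i) = (MvPolynomial.X i : KK) ^ p := by
  simp [sig]

theorem sig_C (p : ℕ) (c : ℚ) : sig p (MvPolynomial.C c) = MvPolynomial.C c := by
  simp [sig]

theorem sig_iter_eq (p j : ℕ) (x : KK) : (sig p)^[j] x = (sig p ^ j) x := by
  rw [RingHom.coe_pow]

theorem sig_iter_X (p j i : ℕ) :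
    (sig p)^[j] (MvPolynomial.X i) = (MvPolynomial.X i : KK) ^ p ^ j := by
  induction j with
  | zero => simp
  | succ j ih =>
    rw [Function.iterate_succ_apply', ih, map_pow, sig_X, ← pow_mul, ← pow_succ']

theorem sig_iter_C (p j : ℕ) (c : ℚ) : (sig p)^[j] (MvPolynomial.C c) = MvPolynomial.C c := by
  induction j with
  | zero => simp
  | succ j ih => rw [Function.iterate_succ_apply', ih, sig_C]

/-- the definition, with a sum over `Finset.range` -/
theorem hazL_succ (p m : ℕ) : hazL p (m + 1) = MvPolynomial.C (1 / (p : ℚ)) *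
    ∑ i ∈ Finset.range (m + 1), hazL p i * (MvPolynomial.X (m - i) : KK) ^ p ^ i := by
  rw [hazL, ← Fin.sum_univ_eq_sum_range
    (fun i => hazL p i * (MvPolynomial.X (m - i) : KK) ^ p ^ i) (m + 1)]

/-- exchange of the order of summation over the triangle `j ≤ i < m` -/
theorem sum_triangle {M : Type} [AddCommMonoid M] (m : ℕ) (g : ℕ → ℕ → M) :
    ∑ i ∈ Finset.range m, ∑ j ∈ Finset.range (i + 1), g j (i - j) =
      ∑ j ∈ Finset.range m, ∑ k ∈ Finset.range (m - j), g j k := by
  rw [Finset.sum_comm' (s' := fun j => Finset.Ico j m) (t' := Finset.range m)]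
  · refine Finset.sum_congr rfl fun j _ => ?_
    rw [Finset.sum_Ico_eq_sum_range]
    refine Finset.sum_congr rfl fun k _ => ?_
    rw [Nat.add_sub_cancel_left]
  · intro i j
    simp only [Finset.mem_range, Finset.mem_Ico]
    omega

/-- **(REC1)** the other recursion `ℓ_{m+1} = ∑_{i ≤ m} (v_{i+1} / p) σ^{i+1}(ℓ_{m-i})`. -/
theorem REC1 (p m : ℕ) : hazL p (m + 1) = MvPolynomial.C (1 / (p : ℚ)) *
    ∑ i ∈ Finset.range (m + 1), (MvPolynomial.X i : KK) * (sig p)^[i + 1] (hazL p (m - i)) := by
  induction m using Nat.strong_induction_on with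
  | _ m ih =>
    have h0 : hazL p 0 = 1 := by simp [hazL]
    -- left side
    have hL : ∑ i ∈ Finset.range (m + 1), hazL p i * (MvPolynomial.X (m - i) : KK) ^ p ^ i =
        MvPolynomial.X m + MvPolynomial.C (1 / (p : ℚ)) *
          ∑ i ∈ Finset.range m, ∑ j ∈ Finset.range (i + 1),
            (MvPolynomial.X j : KK) * (sig p)^[j + 1] (hazL p (i - j)) *
              (MvPolynomial.X (m - 1 - (j + (i - j))) : KK) ^ p ^ (j + (i - j) + 1) := by
      rw [Finset.sum_range_succ', h0, Finset.mul_sum, add_comm]
      congr 1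
      · simp
      · refine Finset.sum_congr rfl fun i hi => ?_
        have hi' : i < m := Finset.mem_range.1 hi
        rw [ih i hi', mul_assoc, Finset.sum_mul]
        congr 1
        refine Finset.sum_congr rfl fun j hj => ?_
        have hj' : j < i + 1 := Finset.mem_range.1 hj
        have e1 : j + (i - j) = i := by omega
        have e2 : m - (i + 1) = m - 1 - i := by omega
        rw [e1, e2]
    -- right side
    have hR : ∑ i ∈ Finset.range (m + 1),
          (MvPolynomial.X i : KK) * (sig p)^[i + 1] (hazL p (m - i)) =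
        MvPolynomial.X m + MvPolynomial.C (1 / (p : ℚ)) *
          ∑ j ∈ Finset.range m, ∑ k ∈ Finset.range (m - j),
            (MvPolynomial.X j : KK) * (sig p)^[j + 1] (hazL p k) *
              (MvPolynomial.X (m - 1 - (j + k)) : KK) ^ p ^ (j + k + 1) := by
      rw [Finset.sum_range_succ, Nat.sub_self, h0, Finset.mul_sum, add_comm]
      congr 1
      · rw [sig_iter_eq, map_one, mul_one]
      · refine Finset.sum_congr rfl fun j hj => ?_
        have hj' : j < m := Finset.mem_range.1 hj
        have e1 : m - j = (m - 1 - j) + 1 := by omega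
        rw [e1, hazL_succ, sig_iter_eq, map_mul, map_sum, ← sig_iter_eq, sig_iter_C,
          Finset.mul_sum, Finset.mul_sum, Finset.mul_sum]
        refine Finset.sum_congr rfl fun k hk => ?_
        have hk' : k < m - 1 - j + 1 := Finset.mem_range.1 hk
        rw [map_mul, map_pow, ← sig_iter_eq, ← sig_iter_eq, sig_iter_X, ← pow_mul, ← pow_add]
        have e2 : m - 1 - j - k = m - 1 - (j + k) := by omega
        have e3 : j + 1 + k = j + k + 1 := by omega
        rw [e2, e3]
        ring
    rw [hazL_succ, hL, hR,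
      sum_triangle m (fun j k => (MvPolynomial.X j : KK) * (sig p)^[j + 1] (hazL p k) *
        (MvPolynomial.X (m - 1 - (j + k)) : KK) ^ p ^ (j + k + 1))]

/-- `p^m ℓ_m ∈ A` -/
theorem exists_int_hazL {p : ℕ} (hp : p ≠ 0) (m : ℕ) :
    ∃ a : BPCoeff p, toRat p a = (p : KK) ^ m * hazL p m := by
  suffices h : (p : KK) ^ m * hazL p m ∈ (toRat p).range from h
  induction m using Nat.strong_induction_on with
  | _ m ih =>
    cases m with
    | zero => exact ⟨1, by simp [hazL]⟩
    | succ m =>
      have hpK : (p : KK) * MvPolynomial.C (1 / (p : ℚ)) = 1 := by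
        have : (p : KK) = MvPolynomial.C (p : ℚ) := by simp
        rw [this, ← map_mul, mul_one_div_cancel (by exact_mod_cast hp), map_one]
      have hpm : (p : KK) ∈ (toRat p).range := ⟨(p : BPCoeff p), by simp⟩
      have hX : ∀ i, (MvPolynomial.X i : KK) ∈ (toRat p).range := fun i =>
        ⟨MvPolynomial.X i, by simp [toRat]⟩
      have key : (p : KK) ^ (m + 1) * hazL p (m + 1) =
          ∑ i ∈ Finset.range (m + 1), (p : KK) ^ (m - i) * ((p : KK) ^ i * hazL p i) *
            (MvPolynomial.X (m - i) : KK) ^ p ^ i := by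
        rw [hazL_succ, pow_succ, mul_assoc, ← mul_assoc (p : KK), hpK, one_mul, Finset.mul_sum]
        refine Finset.sum_congr rfl fun i hi => ?_
        have hi' : i < m + 1 := Finset.mem_range.1 hi
        have : (p : KK) ^ m = (p : KK) ^ (m - i) * (p : KK) ^ i := by
          rw [← pow_add]; congr 1; omega
        rw [this]; ring
      rw [key]
      refine Subring.sum_mem _ fun i hi => ?_
      exact mul_mem (mul_mem (pow_mem hpm _) (ih i (Finset.mem_range.1 hi))) (pow_mem (hX _) _)

end Claimed.Open.R308.Haz
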