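/- R308 sanity, Hazewinkel integrality, module Alg: the functional equation of the logarithm, in finite form. -/
import Claimed.Open.R308.SanityHazRec

set_option autoImplicit false

namespace Claimed.Open.R308.Haz

/-- **(ALG)** insert `REC1` and exchange the two sums (`m = i + m'`; `Z^{p^{i+1+m'}} = (Z^{p^{i+1}})^{p^{m'}}`). -/
theorem ALG (p N : ℕ) (Z : PP) :
    ∑ m ∈ Finset.range N, MvPolynomial.C (hazL p (m + 1)) * Z ^ p ^ (m + 1) =
      ∑ i ∈ Finset.range N, MvPolynomial.C (MvPolynomial.C (1 / (p : ℚ)) * MvPolynomial.X i) *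
        LL p (fun m => (sig p)^[i + 1] (hazL p m)) (N - 1 - i) (Z ^ p ^ (i + 1)) := by
  have hL : ∑ m ∈ Finset.range N, MvPolynomial.C (hazL p (m + 1)) * Z ^ p ^ (m + 1) =
      ∑ m ∈ Finset.range N, ∑ i ∈ Finset.range (m + 1),
        (MvPolynomial.C (MvPolynomial.C (1 / (p : ℚ)) * MvPolynomial.X i) : PP) *
          (MvPolynomial.C ((sig p)^[i + 1] (hazL p (m - i))) *
            (Z ^ p ^ (i + 1)) ^ p ^ (m - i)) := by
    refine Finset.sum_congr rfl fun m _ => ?_
    rw [REC1, Finset.mul_sum, map_sum, Finset.sum_mul]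
    refine Finset.sum_congr rfl fun i hi => ?_
    have hi' : i < m + 1 := Finset.mem_range.1 hi
    have e : p ^ (m + 1) = p ^ (i + 1) * p ^ (m - i) := by
      rw [← pow_add]; congr 1; omega
    rw [e, pow_mul, ← mul_assoc (MvPolynomial.C (1 / (p : ℚ)) : KK), map_mul, mul_assoc]
  rw [hL, sum_triangle N (fun i k =>
    (MvPolynomial.C (MvPolynomial.C (1 / (p : ℚ)) * MvPolynomial.X i) : PP) *
      (MvPolynomial.C ((sig p)^[i + 1] (hazL p k)) * (Z ^ p ^ (i + 1)) ^ p ^ k))]
  refine Finset.sum_congr rfl fun i hi => ?_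
  have hi' : i < N := Finset.mem_range.1 hi
  have e : N - 1 - i + 1 = N - i := by omega
  rw [LL, e, Finset.mul_sum]

end Claimed.Open.R308.Haz
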