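/- R308 sanity, Hazewinkel integrality, module Frob: `Φ` is a lift of Frobenius on `A[x, y]`. -/
import Claimed.Open.R308.SanityHazDefs

set_option autoImplicit false

namespace Claimed.Open.R308.Haz

/-- Generic: for a ring endomorphism `φ` of a commutative ring, `{b | p ∣ b^p - φ b}` is a subring (`add_pow_prime_eq`; `-1`: `(-1)^p + 1 ∈ {0, 2}`). -/
theorem frob_subring {B : Type} [CommRing B] {p : ℕ} (hp : p.Prime) (φ : B →+* B) :
    ∃ S : Subring B, ∀ b, b ∈ S ↔ (p : B) ∣ b ^ p - φ b := by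
  have hmul : ∀ a b : B, (p : B) ∣ a ^ p - φ a → (p : B) ∣ b ^ p - φ b → (p : B) ∣ (a * b) ^ p - φ (a * b) := by
    intro a b ha hb
    have e : (a * b) ^ p - φ (a * b) = (a ^ p - φ a) * b ^ p + φ a * (b ^ p - φ b) := by
      rw [mul_pow, map_mul]
      ring
    rw [e]
    exact dvd_add (Dvd.dvd.mul_right ha _) (Dvd.dvd.mul_left hb _)
  have hneg1 : (p : B) ∣ (-1 : B) ^ p - φ (-1) := by
    rw [map_neg, map_one]
    rcases hp.eq_two_or_odd' with h2 | hodd
    · subst h2
      refine ⟨1, ?_⟩
      norm_num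
    · rw [hodd.neg_one_pow]
      simp
  refine ⟨{ carrier := {b | (p : B) ∣ b ^ p - φ b}
            mul_mem' := fun {a b} ha hb => hmul a b ha hb
            one_mem' := by
              show (p : B) ∣ (1 : B) ^ p - φ 1
              simp
            add_mem' := by
              intro a b ha hb
              show (p : B) ∣ (a + b) ^ p - φ (a + b)
              obtain ⟨r, hr⟩ := exists_add_pow_prime_eq hp a b
              have e : (a + b) ^ p - φ (a + b) = (a ^ p - φ a) + (b ^ p - φ b) + (p : B) * (a * b * r) := by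
                rw [hr, map_add]
                ring
              rw [e]
              exact dvd_add (dvd_add ha hb) (dvd_mul_right _ _)
            zero_mem' := by
              show (p : B) ∣ (0 : B) ^ p - φ 0
              rw [zero_pow hp.ne_zero, map_zero, sub_zero]
              exact dvd_zero _
            neg_mem' := by
              intro a ha
              show (p : B) ∣ (-a) ^ p - φ (-a)
              have := hmul (-1) a hneg1 ha
              rwa [neg_one_mul] at this }, fun b => Iff.rfl⟩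

/-- Fermat in `ℤ_(p)` (`Subring.closure_induction` on `ZLoc p` with `frob_subring` for `φ = id`; `(1/m)^p - 1/m = -(m^p - m) / m^{p+1}`) -/
theorem zloc_fermat {p : ℕ} (hp : p.Prime) (c : ZLoc p) : (p : ZLoc p) ∣ c ^ p - c := by
  obtain ⟨S, hS⟩ := frob_subring (B := ZLoc p) hp (RingHom.id _)
  have key : ∀ (q : ℚ) (hq : q ∈ ZLoc p), (⟨q, hq⟩ : ZLoc p) ∈ S := by
    intro q hq
    refine Subring.closure_induction (p := fun q hq => (⟨q, hq⟩ : ZLoc p) ∈ S) ?_ ?_ ?_ ?_ ?_ ?_ hq
    · rintro x ⟨m, hm, rfl⟩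
      rw [hS]
      have hm0 : (m : ℚ) ≠ 0 := by
        intro h
        apply hm
        have : m = 0 := by exact_mod_cast h
        rw [this]
        exact dvd_zero _
      have : Fact p.Prime := ⟨hp⟩
      have hF : (p : ℤ) ∣ m ^ p - m := by
        rw [← ZMod.intCast_zmod_eq_zero_iff_dvd]
        push_cast
        rw [ZMod.pow_card, sub_self]
      obtain ⟨k, hk⟩ := hF
      have hmem : ((m : ℚ)⁻¹) ∈ ZLoc p := Subring.subset_closure ⟨m, hm, rfl⟩
      refine ⟨-(k : ZLoc p) * (⟨(m : ℚ)⁻¹, hmem⟩ : ZLoc p) ^ (p + 1), ?_⟩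
      apply Subtype.ext
      have hk' : (m : ℚ) ^ p - m = p * k := by exact_mod_cast hk
      simp only [RingHom.id_apply]
      push_cast
      have e1 : ((m : ℚ)⁻¹) ^ p - (m : ℚ)⁻¹ = -((m : ℚ) ^ p - m) * ((m : ℚ)⁻¹) ^ (p + 1) := by
        rw [pow_succ, inv_pow]
        field_simp
        ring
      rw [e1, hk']
      ring
    · exact S.zero_mem
    · exact S.one_mem
    · intro x y hx hy h1 h2
      exact S.add_mem h1 h2
    · intro x hx h1
      exact S.neg_mem h1
    · intro x y hx hy h1 h2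
      exact S.mul_mem h1 h2
  have := (hS c).1 (key c.1 c.2)
  simpa using this

theorem frobA {p : ℕ} (hp : p.Prime) (a : BPCoeff p) : (p : BPCoeff p) ∣ a ^ p - sigA p a := by
  obtain ⟨S, hS⟩ := frob_subring (B := BPCoeff p) hp (sigA p)
  rw [← hS]
  induction a using MvPolynomial.induction_on with
  | C a =>
    rw [hS]
    obtain ⟨c, hc⟩ := zloc_fermat hp a
    refine ⟨MvPolynomial.C c, ?_⟩
    have e1 : sigA p (MvPolynomial.C a) = MvPolynomial.C a := by
      simp [sigA]
    have e2 : (p : BPCoeff p) = MvPolynomial.C (p : ZLoc p) := by simp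
    rw [e1, e2, ← map_pow, ← MvPolynomial.C_sub, hc, MvPolynomial.C_mul]
  | add a b ha hb => exact S.add_mem ha hb
  | mul_X a i ha =>
    refine S.mul_mem ha ?_
    rw [hS]
    have e1 : sigA p (MvPolynomial.X i) = MvPolynomial.X i ^ p := by
      simp [sigA]
    rw [e1, sub_self]
    exact dvd_zero _

/-- `MvPolynomial.induction_on` + `frob_subring` -/
theorem frobB_one {p : ℕ} (hp : p.Prime) (b : BB p) : (p : BB p) ∣ b ^ p - PhiB p b := by
  obtain ⟨S, hS⟩ := frob_subring (B := BB p) hp (PhiB p)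
  rw [← hS]
  induction b using MvPolynomial.induction_on with
  | C a =>
    rw [hS]
    obtain ⟨c, hc⟩ := frobA hp a
    refine ⟨MvPolynomial.C c, ?_⟩
    have e1 : PhiB p (MvPolynomial.C a) = MvPolynomial.C (sigA p a) := by
      simp [PhiB]
    have e2 : (p : BB p) = MvPolynomial.C (p : BPCoeff p) := by simp
    rw [e1, e2, ← map_pow, ← MvPolynomial.C_sub, hc, MvPolynomial.C_mul]
  | add a b ha hb => exact S.add_mem ha hb
  | mul_X a i ha =>
    refine S.mul_mem ha ?_
    rw [hS]
    have e1 : PhiB p (MvPolynomial.X i) = MvPolynomial.X i ^ p := by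
      simp [PhiB]
    rw [e1, sub_self]
    exact dvd_zero _

/-- induction on `j`: `b^{p^{j+1}} - Φ^{j+1} b = ((b^{p^j})^p - (Φ^j b)^p) + ((Φ^j b)^p - Φ (Φ^j b))` -/
theorem frobB {p : ℕ} (hp : p.Prime) (j : ℕ) (b : BB p) :
    (p : BB p) ∣ b ^ p ^ j - (PhiB p)^[j] b := by
  induction j with
  | zero => simp
  | succ j ih =>
    have e : b ^ p ^ (j + 1) - (PhiB p)^[j + 1] b
        = ((b ^ p ^ j) ^ p - ((PhiB p)^[j] b) ^ p) + (((PhiB p)^[j] b) ^ p - PhiB p ((PhiB p)^[j] b)) := by
      rw [Function.iterate_succ_apply', pow_succ, pow_mul]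
      ring
    rw [e]
    exact dvd_add (ih.trans (sub_dvd_pow_sub_pow (R := BB p) _ _ _)) (frobB_one hp _)

end Claimed.Open.R308.Haz
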