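/- R308 sanity, Hazewinkel integrality, module J: the ideals `J_n`. -/
import Claimed.Open.R308.SanityHazDefs

set_option autoImplicit false

namespace Claimed.Open.R308.Haz

theorem mem_JJ {n : ℕ} {H : RR} :
    H ∈ JJ n ↔ ∀ d : Fin 2 →₀ ℕ, d.degree ≤ n → MvPowerSeries.coeff d H = 0 := Iff.rfl

theorem JJ_anti {m n : ℕ} (h : m ≤ n) : JJ n ≤ JJ m := fun _ hH d hd => hH d (hd.trans h)

theorem mem_JJ_zero_iff {H : RR} : H ∈ JJ 0 ↔ MvPowerSeries.constantCoeff H = 0 := by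
  constructor
  · intro h
    have := h 0 (by simp)
    rwa [MvPowerSeries.coeff_zero_eq_constantCoeff_apply] at this
  · intro h d hd
    have hd0 : d = 0 := by
      rw [← Finsupp.degree_eq_zero_iff]
      omega
    rw [hd0, MvPowerSeries.coeff_zero_eq_constantCoeff_apply, h]

/-- `J_a J_b ⊆ J_{a+b+1}`: in `∑_{u+v=d} H_u G_v` with `|d| ≤ a+b+1` one has `|u| ≤ a` or `|v| ≤ b` -/
theorem mul_mem_JJ {a b : ℕ} {H G : RR} (hH : H ∈ JJ a) (hG : G ∈ JJ b) :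
    H * G ∈ JJ (a + b + 1) := by
  classical
  intro d hd
  rw [MvPowerSeries.coeff_mul]
  refine Finset.sum_eq_zero ?_
  rintro ⟨u, v⟩ huv
  rw [Finset.HasAntidiagonal.mem_antidiagonal] at huv
  have h := congrArg Finsupp.degree huv
  rw [map_add] at h
  simp only at h
  rcases le_or_gt u.degree a with h1 | h1
  · rw [hH u h1, zero_mul]
  · rw [hG v (by omega), mul_zero]

theorem pow_mem_JJ {H : RR} (hH : H ∈ JJ 0) (M : ℕ) : H ^ (M + 1) ∈ JJ M := by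
  induction M with
  | zero => simpa using hH
  | succ M ih =>
    rw [pow_succ]
    exact mul_mem_JJ ih hH

/-- `a - b ∣ a^k - b^k` (`sub_dvd_pow_sub_pow`) -/
theorem sub_pow_mem_JJ {n : ℕ} {a b : RR} (h : a - b ∈ JJ n) (k : ℕ) : a ^ k - b ^ k ∈ JJ n := by
  obtain ⟨c, hc⟩ := sub_dvd_pow_sub_pow a b k
  rw [hc]
  exact Ideal.mul_mem_right _ _ h

/-- `a^k - b^k = (a - b) ∑_{j<k} a^j b^{k-1-j}`, and for `k ≥ 2` the sum lies in `J_0` -/
theorem sub_pow_mem_JJ_succ {n : ℕ} {a b : RR} (h : a - b ∈ JJ n) (ha : a ∈ JJ 0) (hb : b ∈ JJ 0)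
    {k : ℕ} (hk : 2 ≤ k) : a ^ k - b ^ k ∈ JJ (n + 1) := by
  rw [← (Commute.all a b).mul_geom_sum₂ k]
  refine mul_mem_JJ (b := 0) h (Ideal.sum_mem _ fun i hi => ?_)
  rw [Finset.mem_range] at hi
  rcases Nat.eq_zero_or_pos i with h0 | h0
  · exact Ideal.mul_mem_left _ _ (Ideal.pow_mem_of_mem _ hb _ (by omega))
  · exact Ideal.mul_mem_right _ _ (Ideal.pow_mem_of_mem _ ha _ h0)

theorem mem_II {n : ℕ} {f : PP} : f ∈ II n ↔ iota f ∈ JJ n := Iff.rfl

theorem mem_II_iff_coeff {n : ℕ} {f : PP} :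
    f ∈ II n ↔ ∀ d : Fin 2 →₀ ℕ, d.degree ≤ n → MvPolynomial.coeff d f = 0 := by
  rw [mem_II, mem_JJ]
  refine forall_congr' fun d => imp_congr_right fun _ => ?_
  show MvPowerSeries.coeff d ((f : PP) : RR) = 0 ↔ _
  rw [MvPolynomial.coeff_coe]

theorem II_anti {m n : ℕ} (h : m ≤ n) : II n ≤ II m := fun _ hH => JJ_anti h hH

theorem iota_X (s : Fin 2) : iota (MvPolynomial.X s) = MvPowerSeries.X s := MvPolynomial.coe_X s

theorem iota_C (c : KK) : iota (MvPolynomial.C c) = MvPowerSeries.C c := MvPolynomial.coe_C c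

theorem X_mem_JJ_zero (s : Fin 2) : (MvPowerSeries.X s : RR) ∈ JJ 0 := by
  rw [mem_JJ_zero_iff, MvPowerSeries.constantCoeff_X]

end Claimed.Open.R308.Haz
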