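/- R308 sanity, Hazewinkel integrality, module Log: `log F = log x + log y`, truncated. -/
import Claimed.Open.R308.SanityHazJ

set_option autoImplicit false

namespace Claimed.Open.R308.Haz

theorem hazFGL_mem_JJ_zero (p : ℕ) : hazFGL p ∈ JJ 0 :=
  mem_JJ_zero_iff.2 (constantCoeff_hazFGL p)

/-- `hazLog p = ∑_{m ≤ N} ℓ_m Z^{p^m} + Z^{p^{N+1}} g`, and `H^{p^{N+1}} ∈ J_k` for `k < p^{N+1}` -/
theorem subst_hazLog_sub_mem {p : ℕ} (hp : p.Prime) {H : RR} (hH : H ∈ JJ 0) (N k : ℕ)
    (hk : k < p ^ (N + 1)) :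
    PowerSeries.subst H (hazLog p) -
      ∑ m ∈ Finset.range (N + 1), MvPowerSeries.C (hazL p m) * H ^ p ^ m ∈ JJ k := by
  have hs : PowerSeries.HasSubst H :=
    PowerSeries.HasSubst.of_constantCoeff_zero (mem_JJ_zero_iff.1 hH)
  have hd : (PowerSeries.X : PowerSeries KK) ^ (p ^ (N + 1)) ∣
      hazLog p - ∑ m ∈ Finset.range (N + 1), PowerSeries.C (hazL p m) * PowerSeries.X ^ p ^ m := by
    rw [PowerSeries.X_pow_dvd_iff]
    intro j hj
    rw [map_sub, map_sum]
    simp only [PowerSeries.coeff_C_mul_X_pow]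
    by_cases h : p ^ Nat.log p j = j
    · have hlog : Nat.log p j < N + 1 := by
        rw [← h] at hj
        exact (Nat.pow_lt_pow_iff_right hp.one_lt).1 hj
      rw [Finset.sum_eq_single (Nat.log p j)]
      · simp [hazLog, h]
      · intro m _ hm
        rw [if_neg]
        intro hjm
        apply hm
        rw [hjm, Nat.log_pow hp.one_lt]
      · intro hn
        exact absurd (Finset.mem_range.2 hlog) hn
    · rw [Finset.sum_eq_zero]
      · simp [hazLog, h]
      · intro m _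
        rw [if_neg]
        intro hjm
        apply h
        rw [hjm, Nat.log_pow hp.one_lt]
  obtain ⟨g, hg⟩ := hd
  have hf' : hazLog p = ∑ m ∈ Finset.range (N + 1), PowerSeries.C (hazL p m) * PowerSeries.X ^ p ^ m
      + PowerSeries.X ^ (p ^ (N + 1)) * g := by
    rw [← hg]; ring
  have hsum : PowerSeries.subst H
      (∑ m ∈ Finset.range (N + 1), PowerSeries.C (hazL p m) * PowerSeries.X ^ p ^ m) =
      ∑ m ∈ Finset.range (N + 1), MvPowerSeries.C (hazL p m) * H ^ p ^ m := by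
    rw [← PowerSeries.coe_substAlgHom hs, map_sum]
    refine Finset.sum_congr rfl fun m _ => ?_
    rw [PowerSeries.coe_substAlgHom hs, PowerSeries.subst_mul hs, PowerSeries.subst_pow hs,
      PowerSeries.subst_X hs, PowerSeries.subst_C]
  have e : PowerSeries.subst H (hazLog p) -
      ∑ m ∈ Finset.range (N + 1), MvPowerSeries.C (hazL p m) * H ^ p ^ m =
      H ^ (p ^ (N + 1)) * PowerSeries.subst H g := by
    conv_lhs => rw [hf']
    rw [PowerSeries.subst_add hs, hsum, PowerSeries.subst_mul hs, PowerSeries.subst_pow hs,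
      PowerSeries.subst_X hs]
    ring
  rw [e]
  refine Ideal.mul_mem_right _ _ ?_
  have h1 : p ^ (N + 1) = (p ^ (N + 1) - 1) + 1 := by omega
  rw [h1]
  exact JJ_anti (by omega) (pow_mem_JJ hH _)

/-- `log F = log x + log y` -/
theorem subst_hazFGL_hazLog (p : ℕ) :
    PowerSeries.subst (hazFGL p) (hazLog p) =
      PowerSeries.subst (MvPowerSeries.X 0 : RR) (hazLog p) +
        PowerSeries.subst (MvPowerSeries.X 1 : RR) (hazLog p) := hazLog_hazFGL p

/-- **(EF)** the truncated functional equation of `F` -/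
theorem EF {p : ℕ} (hp : p.Prime) (N k : ℕ) (hk : k < p ^ (N + 1)) :
    ∑ m ∈ Finset.range (N + 1), MvPowerSeries.C (hazL p m) *
      ((hazFGL p) ^ p ^ m - (MvPowerSeries.X 0 : RR) ^ p ^ m - (MvPowerSeries.X 1 : RR) ^ p ^ m)
      ∈ JJ k := by
  have hF := subst_hazLog_sub_mem hp (hazFGL_mem_JJ_zero p) N k hk
  have h0 := subst_hazLog_sub_mem hp (X_mem_JJ_zero 0) N k hk
  have h1 := subst_hazLog_sub_mem hp (X_mem_JJ_zero 1) N k hk
  have e : ∑ m ∈ Finset.range (N + 1), MvPowerSeries.C (hazL p m) *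
      ((hazFGL p) ^ p ^ m - (MvPowerSeries.X 0 : RR) ^ p ^ m - (MvPowerSeries.X 1 : RR) ^ p ^ m) =
      (PowerSeries.subst (MvPowerSeries.X 0 : RR) (hazLog p) -
        ∑ m ∈ Finset.range (N + 1), MvPowerSeries.C (hazL p m) * (MvPowerSeries.X 0 : RR) ^ p ^ m) +
      (PowerSeries.subst (MvPowerSeries.X 1 : RR) (hazLog p) -
        ∑ m ∈ Finset.range (N + 1), MvPowerSeries.C (hazL p m) * (MvPowerSeries.X 1 : RR) ^ p ^ m) -
      (PowerSeries.subst (hazFGL p) (hazLog p) -
        ∑ m ∈ Finset.range (N + 1), MvPowerSeries.C (hazL p m) * (hazFGL p) ^ p ^ m) := by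
    rw [subst_hazFGL_hazLog]
    simp only [mul_sub, Finset.sum_sub_distrib]
    ring
  rw [e]
  exact Ideal.sub_mem _ (Ideal.add_mem _ h0 h1) hF

end Claimed.Open.R308.Haz
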