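/- R308 sanity, Hazewinkel integrality, module Phi: formal properties of `Φ`. -/
import Claimed.Open.R308.SanityHazJ

set_option autoImplicit false

namespace Claimed.Open.R308.Haz

theorem toRat_sigA (p : ℕ) (a : BPCoeff p) : toRat p (sigA p a) = sig p (toRat p a) :=
  MvPolynomial.map_expand p (ZLoc p).subtype a

theorem toRat_sigA_iter (p j : ℕ) (a : BPCoeff p) :
    toRat p ((sigA p)^[j] a) = (sig p)^[j] (toRat p a) :=
  (show Function.Semiconj (toRat p) (sigA p) (sig p) from toRat_sigA p).iterate_right j a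

theorem theta_PhiB (p : ℕ) (b : BB p) : theta p (PhiB p b) = Phi p (theta p b) := by
  show MvPolynomial.map (toRat p) (MvPolynomial.expand p (MvPolynomial.map (sigA p) b)) =
    MvPolynomial.expand p (MvPolynomial.map (sig p) (MvPolynomial.map (toRat p) b))
  rw [MvPolynomial.map_expand, MvPolynomial.map_map, MvPolynomial.map_map]
  have h : (toRat p).comp (sigA p) = (sig p).comp (toRat p) := RingHom.ext (toRat_sigA p)
  rw [h]

theorem theta_PhiB_iter (p j : ℕ) (b : BB p) :
    theta p ((PhiB p)^[j] b) = (Phi p)^[j] (theta p b) :=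
  (show Function.Semiconj (theta p) (PhiB p) (Phi p) from theta_PhiB p).iterate_right j b

theorem theta_C (p : ℕ) (a : BPCoeff p) :
    theta p (MvPolynomial.C a) = MvPolynomial.C (toRat p a) := MvPolynomial.map_C _ _

theorem theta_X (p : ℕ) (s : Fin 2) : theta p (MvPolynomial.X s) = MvPolynomial.X s :=
  MvPolynomial.map_X _ _

theorem Phi_C (p : ℕ) (c : KK) : Phi p (MvPolynomial.C c) = MvPolynomial.C (sig p c) := by
  show MvPolynomial.expand p (MvPolynomial.map (sig p) (MvPolynomial.C c)) = _
  rw [MvPolynomial.map_C, MvPolynomial.expand_C]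

theorem Phi_X (p : ℕ) (s : Fin 2) : Phi p (MvPolynomial.X s) = (MvPolynomial.X s : PP) ^ p := by
  show MvPolynomial.expand p (MvPolynomial.map (sig p) (MvPolynomial.X s)) = _
  rw [MvPolynomial.map_X, MvPolynomial.expand_X]

theorem Phi_iter_C (p j : ℕ) (c : KK) :
    (Phi p)^[j] (MvPolynomial.C c) = MvPolynomial.C ((sig p)^[j] c) := by
  induction j with
  | zero => rfl
  | succ j ih => rw [Function.iterate_succ_apply', ih, Phi_C, Function.iterate_succ_apply']

theorem Phi_iter_X (p j : ℕ) (s : Fin 2) :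
    (Phi p)^[j] (MvPolynomial.X s) = (MvPolynomial.X s : PP) ^ p ^ j := by
  induction j with
  | zero => simp
  | succ j ih => rw [Function.iterate_succ_apply', ih, map_pow, Phi_X, ← pow_mul, pow_succ']

/-- an iterate of a ring endomorphism is a ring endomorphism (`RingHom.coe_pow`) -/
theorem Phi_iter_LL (p j : ℕ) (c : ℕ → KK) (N : ℕ) (Z : PP) :
    (Phi p)^[j] (LL p c N Z) = LL p (fun m => (sig p)^[j] (c m)) N ((Phi p)^[j] Z) := by
  have h : ∀ x, (Phi p)^[j] x = ((Phi p) ^ j) x := fun x => by rw [RingHom.coe_pow]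
  rw [h, LL, map_sum, LL]
  refine Finset.sum_congr rfl fun m _ => ?_
  rw [map_mul, map_pow, ← h, ← h, Phi_iter_C]

/-- `Φ` multiplies the order of vanishing by `p` -/
theorem Phi_mem_II {p : ℕ} (hp : 0 < p) {k : ℕ} {f : PP} (hf : f ∈ II k) :
    Phi p f ∈ II (p * (k + 1) - 1) := by
  rw [mem_II_iff_coeff] at hf ⊢
  intro d hd
  show MvPolynomial.coeff d (MvPolynomial.expand p (MvPolynomial.map (sig p) f)) = 0
  by_cases h : ∀ i, p ∣ d i
  · have hdm : d = p • d.mapRange (· / p) (Nat.zero_div p) := by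
      ext i
      simp only [Finsupp.smul_apply, Finsupp.mapRange_apply, smul_eq_mul]
      exact (Nat.mul_div_cancel' (h i)).symm
    set m := d.mapRange (· / p) (Nat.zero_div p) with hm
    have hdeg : d.degree = p * m.degree := by
      rw [hdm, map_nsmul, smul_eq_mul]
    have hmk : m.degree ≤ k := by
      have h1 : p * m.degree < p * (k + 1) := by
        have : 0 < p * (k + 1) := Nat.mul_pos hp (Nat.succ_pos k)
        omega
      have := Nat.lt_of_mul_lt_mul_left h1
      omega
    rw [hdm, MvPolynomial.coeff_expand_smul p hp.ne', MvPolynomial.coeff_map, hf m hmk, map_zero]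
  · rw [not_forall] at h
    obtain ⟨i, hi⟩ := h
    exact MvPolynomial.coeff_expand_of_not_dvd _ hi

theorem Phi_iter_mem_II {p : ℕ} (hp : 0 < p) (j : ℕ) {k : ℕ} {f : PP} (hf : f ∈ II k) :
    (Phi p)^[j] f ∈ II (p ^ j * (k + 1) - 1) := by
  induction j with
  | zero => simpa using hf
  | succ j ih =>
    rw [Function.iterate_succ_apply']
    have h := Phi_mem_II hp ih
    have h1 : 0 < p ^ j * (k + 1) := Nat.mul_pos (pow_pos hp j) (Nat.succ_pos k)
    have h2 : p ^ j * (k + 1) - 1 + 1 = p ^ j * (k + 1) := by omega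
    rw [h2, ← mul_assoc, ← pow_succ'] at h
    exact h

end Claimed.Open.R308.Haz
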