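/- R308 sanity, Hazewinkel integrality, module Step: the induction on the total degree. -/
import Claimed.Open.R308.SanityHazLog
import Claimed.Open.R308.SanityHazFrob
import Claimed.Open.R308.SanityHazPhi
import Claimed.Open.R308.SanityHazAlg

set_option autoImplicit false

namespace Claimed.Open.R308.Haz

theorem iota_LL (p : ℕ) (c : ℕ → KK) (N : ℕ) (Z : PP) :
    iota (LL p c N Z) = ∑ m ∈ Finset.range (N + 1), MvPowerSeries.C (c m) * (iota Z) ^ p ^ m := by
  simp only [LL, map_sum, map_mul, map_pow, iota_C]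

/-- `σ^j(ℓ_m) (T^{p^j p^m} - (Φ^j T)^{p^m}) ∈ p A[x, y]` for `T ∈ A[x, y]` -/
theorem partA {p : ℕ} (hp : p.Prime) (j N' : ℕ) (b : BB p) :
    ∃ w : BB p, LL p (fun m => (sig p)^[j] (hazL p m)) N' ((theta p b) ^ p ^ j) -
      LL p (fun m => (sig p)^[j] (hazL p m)) N' ((Phi p)^[j] (theta p b)) =
        (p : PP) * theta p w := by
  have key : ∀ m : ℕ, ∃ w : BB p,
      MvPolynomial.C ((sig p)^[j] (hazL p m)) * ((theta p b) ^ p ^ j) ^ p ^ m -
        MvPolynomial.C ((sig p)^[j] (hazL p m)) * ((Phi p)^[j] (theta p b)) ^ p ^ m =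
          (p : PP) * theta p w := by
    intro m
    obtain ⟨a, ha⟩ := exists_int_hazL hp.ne_zero m
    obtain ⟨u, hu⟩ := dvd_sub_pow_of_dvd_sub (R := BB p) (frobB hp j b) m
    refine ⟨MvPolynomial.C ((sigA p)^[j] a) * u, ?_⟩
    have h1 : ((theta p b) ^ p ^ j) ^ p ^ m - ((Phi p)^[j] (theta p b)) ^ p ^ m =
        (p : PP) ^ (m + 1) * theta p u := by
      have := congrArg (theta p) hu
      simpa only [map_sub, map_pow, map_mul, theta_PhiB_iter, map_natCast] using this
    have h2 : MvPolynomial.C ((sig p)^[j] (hazL p m)) * (p : PP) ^ m =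
        theta p (MvPolynomial.C ((sigA p)^[j] a)) := by
      rw [theta_C, toRat_sigA_iter, ha, iterate_map_mul, iterate_map_pow,
        Function.iterate_fixed (map_natCast (sig p) p) j, MvPolynomial.C_mul, MvPolynomial.C_pow,
        map_natCast]
      ring
    calc _ = MvPolynomial.C ((sig p)^[j] (hazL p m)) *
          (((theta p b) ^ p ^ j) ^ p ^ m - ((Phi p)^[j] (theta p b)) ^ p ^ m) := by ring
      _ = (p : PP) * (MvPolynomial.C ((sig p)^[j] (hazL p m)) * (p : PP) ^ m) * theta p u := by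
          rw [h1]; ring
      _ = _ := by rw [h2, map_mul]; ring
  choose w hw using key
  refine ⟨∑ m ∈ Finset.range (N' + 1), w m, ?_⟩
  rw [map_sum, Finset.mul_sum, LL, LL, ← Finset.sum_sub_distrib]
  exact Finset.sum_congr rfl fun m _ => hw m

/-- the truncated functional equation for an approximation `T` of `F` -/
theorem partD {p : ℕ} (hp : p.Prime) (n N' : ℕ) (b : BB p)
    (hb : hazFGL p - iota (theta p b) ∈ JJ n) {k : ℕ} (hk1 : k ≤ n) (hk2 : k < p ^ (N' + 1)) :
    LL p (hazL p) N' (theta p b) - LL p (hazL p) N' (MvPolynomial.X 0) -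
      LL p (hazL p) N' (MvPolynomial.X 1) ∈ II k := by
  rw [mem_II]
  have e : iota (LL p (hazL p) N' (theta p b) - LL p (hazL p) N' (MvPolynomial.X 0) -
      LL p (hazL p) N' (MvPolynomial.X 1)) =
      (∑ m ∈ Finset.range (N' + 1), MvPowerSeries.C (hazL p m) *
        ((hazFGL p) ^ p ^ m - (MvPowerSeries.X 0 : RR) ^ p ^ m - (MvPowerSeries.X 1 : RR) ^ p ^ m)) -
      ∑ m ∈ Finset.range (N' + 1), MvPowerSeries.C (hazL p m) *
        ((hazFGL p) ^ p ^ m - (iota (theta p b)) ^ p ^ m) := by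
    rw [map_sub, map_sub, iota_LL, iota_LL, iota_LL, iota_X, iota_X, ← Finset.sum_sub_distrib,
      ← Finset.sum_sub_distrib, ← Finset.sum_sub_distrib]
    exact Finset.sum_congr rfl fun m _ => by ring
  rw [e]
  exact Ideal.sub_mem _ (EF hp N' k hk2) (Ideal.sum_mem _ fun m _ =>
    Ideal.mul_mem_left _ _ (JJ_anti hk1 (sub_pow_mem_JJ hb _)))

theorem partB {p : ℕ} (hp : p.Prime) (n N i : ℕ) (hi : i < N) (hN : n + 2 ≤ p ^ (N + 1))
    (b : BB p) (hb : hazFGL p - iota (theta p b) ∈ JJ n) :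
    LL p (fun m => (sig p)^[i + 1] (hazL p m)) (N - 1 - i) ((Phi p)^[i + 1] (theta p b)) -
      LL p (fun m => (sig p)^[i + 1] (hazL p m)) (N - 1 - i) (MvPolynomial.X 0 ^ p ^ (i + 1)) -
      LL p (fun m => (sig p)^[i + 1] (hazL p m)) (N - 1 - i) (MvPolynomial.X 1 ^ p ^ (i + 1))
      ∈ II (n + 1) := by
  have e : LL p (fun m => (sig p)^[i + 1] (hazL p m)) (N - 1 - i) ((Phi p)^[i + 1] (theta p b)) -
      LL p (fun m => (sig p)^[i + 1] (hazL p m)) (N - 1 - i) (MvPolynomial.X 0 ^ p ^ (i + 1)) -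
      LL p (fun m => (sig p)^[i + 1] (hazL p m)) (N - 1 - i) (MvPolynomial.X 1 ^ p ^ (i + 1)) =
      (Phi p)^[i + 1] (LL p (hazL p) (N - 1 - i) (theta p b) -
        LL p (hazL p) (N - 1 - i) (MvPolynomial.X 0) - LL p (hazL p) (N - 1 - i) (MvPolynomial.X 1)) := by
    rw [iterate_map_sub, iterate_map_sub, Phi_iter_LL, Phi_iter_LL, Phi_iter_LL,
      Phi_iter_X, Phi_iter_X]
  rw [e]
  have hN' : N - 1 - i + 1 = N - i := by omega
  have h2 : 2 ≤ p ^ (i + 1) := by
    calc 2 ≤ p := hp.two_le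
      _ = p ^ 1 := (pow_one p).symm
      _ ≤ p ^ (i + 1) := Nat.pow_le_pow_right hp.pos (by omega)
  have hpos : 0 < p ^ (N - i) := pow_pos hp.pos _
  rcases le_total (n + 1) (p ^ (N - i)) with h | h
  · have hD := partD hp n (N - 1 - i) b hb (k := n) le_rfl (by rw [hN']; omega)
    refine II_anti ?_ (Phi_iter_mem_II hp.pos (i + 1) hD)
    have : 2 * (n + 1) ≤ p ^ (i + 1) * (n + 1) := Nat.mul_le_mul_right _ h2
    omega
  · have hD := partD hp n (N - 1 - i) b hb (k := p ^ (N - i) - 1) (by omega) (by rw [hN']; omega)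
    refine II_anti ?_ (Phi_iter_mem_II hp.pos (i + 1) hD)
    have h3 : p ^ (N - i) - 1 + 1 = p ^ (N - i) := by omega
    have h4 : p ^ (i + 1) * p ^ (N - i) = p ^ (N + 1) := by
      rw [← pow_add]; congr 1; omega
    rw [h3, h4]
    omega

/-- **The induction step**: an integral approximation of `F` modulo degree `> n` yields one modulo degree `> n + 1`. -/
theorem step {p : ℕ} (hp : p.Prime) (n : ℕ) (b : BB p)
    (hb : hazFGL p - iota (theta p b) ∈ JJ n) :
    ∃ b' : BB p, hazFGL p - iota (theta p b') ∈ JJ (n + 1) := by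
  set N := n + 1 with hNdef
  have hN : n + 2 ≤ p ^ (N + 1) := by
    have : n + 2 < p ^ (n + 2) := Nat.lt_pow_self hp.one_lt
    exact this.le
  set T := theta p b with hT
  have hF0 : hazFGL p ∈ JJ 0 := hazFGL_mem_JJ_zero p
  have hT0 : iota T ∈ JJ 0 := by
    have := Ideal.sub_mem _ hF0 (JJ_anti (Nat.zero_le n) hb)
    simpa using this
  set Q : PP := ∑ m ∈ Finset.range N, MvPolynomial.C (hazL p (m + 1)) *
    (T ^ p ^ (m + 1) - MvPolynomial.X 0 ^ p ^ (m + 1) - MvPolynomial.X 1 ^ p ^ (m + 1)) with hQ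
  -- (S1)
  have S1 : hazFGL p - iota (MvPolynomial.X 0 + MvPolynomial.X 1 - Q) ∈ JJ (n + 1) := by
    have hEF := EF hp N (n + 1) (by omega)
    rw [Finset.sum_range_succ'] at hEF
    have e : hazFGL p - iota (MvPolynomial.X 0 + MvPolynomial.X 1 - Q) =
        (∑ m ∈ Finset.range N, MvPowerSeries.C (hazL p (m + 1)) *
          ((hazFGL p) ^ p ^ (m + 1) - (MvPowerSeries.X 0 : RR) ^ p ^ (m + 1) -
            (MvPowerSeries.X 1 : RR) ^ p ^ (m + 1)) +
          MvPowerSeries.C (hazL p 0) * ((hazFGL p) ^ p ^ 0 - (MvPowerSeries.X 0 : RR) ^ p ^ 0 -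
            (MvPowerSeries.X 1 : RR) ^ p ^ 0)) -
        ∑ m ∈ Finset.range N, MvPowerSeries.C (hazL p (m + 1)) *
          ((hazFGL p) ^ p ^ (m + 1) - (iota T) ^ p ^ (m + 1)) := by
      have h0 : hazL p 0 = 1 := by simp [hazL]
      rw [hQ, map_sub, map_add, map_sum, iota_X, iota_X, h0, map_one, pow_zero, pow_one, pow_one,
        pow_one, one_mul]
      have : ∀ m ∈ Finset.range N, iota (MvPolynomial.C (hazL p (m + 1)) *
          (T ^ p ^ (m + 1) - MvPolynomial.X 0 ^ p ^ (m + 1) - MvPolynomial.X 1 ^ p ^ (m + 1))) =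
          MvPowerSeries.C (hazL p (m + 1)) * ((hazFGL p) ^ p ^ (m + 1) -
            (MvPowerSeries.X 0 : RR) ^ p ^ (m + 1) - (MvPowerSeries.X 1 : RR) ^ p ^ (m + 1)) -
          MvPowerSeries.C (hazL p (m + 1)) * ((hazFGL p) ^ p ^ (m + 1) - (iota T) ^ p ^ (m + 1)) := by
        intro m _
        rw [map_mul, map_sub, map_sub, map_pow, map_pow, map_pow, iota_C, iota_X, iota_X]
        ring
      rw [Finset.sum_congr rfl this, Finset.sum_sub_distrib]
      ring
    rw [e]
    refine Ideal.sub_mem _ hEF (Ideal.sum_mem _ fun m _ => Ideal.mul_mem_left _ _ ?_)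
    refine sub_pow_mem_JJ_succ hb hF0 hT0 ?_
    calc 2 ≤ p := hp.two_le
      _ = p ^ 1 := (pow_one p).symm
      _ ≤ p ^ (m + 1) := Nat.pow_le_pow_right hp.pos (by omega)
  -- (S2)
  have S2 : ∃ w : BB p, Q - theta p w ∈ II (n + 1) := by
    choose w hw using fun i : ℕ => partA hp (i + 1) (N - 1 - i) b
    refine ⟨∑ i ∈ Finset.range N, MvPolynomial.C (MvPolynomial.X i) * w i, ?_⟩
    have hQ' : Q = ∑ i ∈ Finset.range N,
        MvPolynomial.C (MvPolynomial.C (1 / (p : ℚ)) * MvPolynomial.X i) *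
        (LL p (fun m => (sig p)^[i + 1] (hazL p m)) (N - 1 - i) (T ^ p ^ (i + 1)) -
          LL p (fun m => (sig p)^[i + 1] (hazL p m)) (N - 1 - i) (MvPolynomial.X 0 ^ p ^ (i + 1)) -
          LL p (fun m => (sig p)^[i + 1] (hazL p m)) (N - 1 - i) (MvPolynomial.X 1 ^ p ^ (i + 1))) := by
      have := ALG p N T
      have h0 := ALG p N (MvPolynomial.X 0)
      have h1 := ALG p N (MvPolynomial.X 1)
      rw [hQ]
      simp only [mul_sub, Finset.sum_sub_distrib]
      rw [this, h0, h1]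
    have e : Q - theta p (∑ i ∈ Finset.range N, MvPolynomial.C (MvPolynomial.X i) * w i) =
        ∑ i ∈ Finset.range N, MvPolynomial.C (MvPolynomial.C (1 / (p : ℚ)) * MvPolynomial.X i) *
        (LL p (fun m => (sig p)^[i + 1] (hazL p m)) (N - 1 - i) ((Phi p)^[i + 1] T) -
          LL p (fun m => (sig p)^[i + 1] (hazL p m)) (N - 1 - i) (MvPolynomial.X 0 ^ p ^ (i + 1)) -
          LL p (fun m => (sig p)^[i + 1] (hazL p m)) (N - 1 - i) (MvPolynomial.X 1 ^ p ^ (i + 1))) := by
      rw [hQ', map_sum, ← Finset.sum_sub_distrib]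
      refine Finset.sum_congr rfl fun i _ => ?_
      have hp0 : (p : ℚ) ≠ 0 := by exact_mod_cast hp.ne_zero
      have hc : MvPolynomial.C (MvPolynomial.C (1 / (p : ℚ)) * MvPolynomial.X i) * (p : PP) =
          theta p (MvPolynomial.C (MvPolynomial.X i)) := by
        rw [theta_C]
        have : toRat p (MvPolynomial.X i) = MvPolynomial.X i := by simp [toRat]
        rw [this]
        have h3 : (p : PP) = MvPolynomial.C (MvPolynomial.C (p : ℚ)) := by simp
        rw [h3, ← MvPolynomial.C_mul, mul_right_comm, ← MvPolynomial.C_mul,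
          one_div_mul_cancel hp0, MvPolynomial.C_1, one_mul]
      have hwi := hw i
      rw [map_mul (theta p), ← hc]
      linear_combination (MvPolynomial.C (MvPolynomial.C (1 / (p : ℚ)) * MvPolynomial.X i)) * hwi
    rw [e]
    exact Ideal.sum_mem _ fun i hi => Ideal.mul_mem_left _ _
      (partB hp n N i (Finset.mem_range.1 hi) hN b hb)
  obtain ⟨w, hw⟩ := S2
  refine ⟨MvPolynomial.X 0 + MvPolynomial.X 1 - w, ?_⟩
  have e : hazFGL p - iota (theta p (MvPolynomial.X 0 + MvPolynomial.X 1 - w)) =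
      (hazFGL p - iota (MvPolynomial.X 0 + MvPolynomial.X 1 - Q)) - iota (Q - theta p w) := by
    rw [map_sub (theta p), map_add (theta p), theta_X, theta_X]
    simp only [map_sub, map_add]
    ring
  rw [e]
  exact Ideal.sub_mem _ S1 hw

theorem exists_approx {p : ℕ} (hp : p.Prime) (n : ℕ) :
    ∃ b : BB p, hazFGL p - iota (theta p b) ∈ JJ n := by
  induction n with
  | zero => exact ⟨0, by simpa using hazFGL_mem_JJ_zero p⟩
  | succ n ih =>
    obtain ⟨b, hb⟩ := ih
    exact step hp n b hb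

end Claimed.Open.R308.Haz

namespace Claimed.Open.R308

open Haz in
/-- **Hazewinkel's formal group law is defined over `BP_⋆ = ℤ_(p)[v₁, v₂, …]`** (functional equation lemma; Ravenel, Theorem A2.2.3):
every coefficient of `hazFGL p`, `p` prime, is the image of an element of `BP_⋆`. -/
theorem hazCoeff_integral {p : ℕ} (hp : p.Prime) (i j : ℕ) :
    ∃ c : BPCoeff p, toRat p c = hazCoeff p i j := by
  obtain ⟨b, hb⟩ := exists_approx hp (i + j)
  refine ⟨MvPolynomial.coeff (Finsupp.single 0 i + Finsupp.single 1 j) b, ?_⟩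
  have hd : (Finsupp.single (0 : Fin 2) i + Finsupp.single 1 j).degree ≤ i + j := by
    rw [map_add, Finsupp.degree_single, Finsupp.degree_single]
  have h := hb _ hd
  rw [map_sub, sub_eq_zero] at h
  rw [hazCoeff, h]
  show _ = MvPowerSeries.coeff _ ((theta p b : PP) : RR)
  rw [MvPolynomial.coeff_coe, theta, MvPolynomial.coeff_map]

end Claimed.Open.R308
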