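/- R308 sanity, Hazewinkel's law is homogeneous: `|θ(a_ij)| = 2 (i + j - 1)`, so the tensor relations of `BP_⋆ ⊗_{MU_⋆} –` are homogeneous. -/
import Claimed.Open.R308.SanityHazStep

/-!
# Result 308: Hazewinkel's formal group law is homogeneous

`BPHomology.deg` grades `BP_⋆X = BP_⋆ ⊗_{MU_⋆} MU_⋆X` by `|v ⊗ x| = |v| + |x|`.  For this to be a grading the relations
`θ(a_ij) v ⊗ x = v ⊗ a_ij x` have to be homogeneous: `θ(a_ij)`, the coefficient of `x^i y^j` of Hazewinkel's law, has to be homogeneous of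
degree `|a_ij| = 2 (i + j - 1)` for `|v_k| = 2 (p^k - 1)` (`vDeg`).  This file proves it:

* `Haz.hazL_isWeightedHomogeneous`: `|ℓ_n| = 2 (p^n - 1)`;
* `hazCoeff_isWeightedHomogeneous`: `|hazCoeff p i j| = 2 (i + j - 1)`;
* `isWeightedHomogeneous_of_toRat_eq_hazCoeff`, `IsImageOfCoeff.exists_isWeightedHomogeneous`: the same for the element of `BP_⋆`;
* `deg_actX`, `BPHomology.relation_homogeneous`: the two sides of a relation of `bpRel` lie in the same `BPHomology.deg`.

Proof: with `|x| = |y| = -2` the logarithm is homogeneous of degree `-2`; induction on the total degree with the truncated equation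
`F = x + y - ∑_{m ≥ 1} ℓ_m (F^{p^m} - x^{p^m} - y^{p^m})` (`Haz.EF`).
-/

set_option autoImplicit false

open scoped TensorProduct

namespace Claimed.Open.R308.Haz

open MvPolynomial (IsWeightedHomogeneous)

/-- `|ℓ_n| = 2 (p^n - 1)` -/
theorem hazL_isWeightedHomogeneous {p : ℕ} (hp : 0 < p) (n : ℕ) :
    IsWeightedHomogeneous (vDeg p) (hazL p n) (2 * (p ^ n - 1)) := by
  induction n using Nat.strong_induction_on with
  | _ n ih =>
    cases n with
    | zero =>
      have h : hazL p 0 = 1 := by simp [hazL]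
      rw [h]
      simpa using MvPolynomial.isWeightedHomogeneous_one ℚ (vDeg p)
    | succ m =>
      rw [hazL_succ]
      refine IsWeightedHomogeneous.C_mul (IsWeightedHomogeneous.sum _ _ _ fun i hi => ?_) _
      rw [Finset.mem_range] at hi
      have h1 := ih i (by omega)
      have h2 := (MvPolynomial.isWeightedHomogeneous_X ℚ (vDeg p) (m - i)).pow (p ^ i)
      have h3 := h1.mul h2
      have e : 2 * (p ^ i - 1) + p ^ i • vDeg p (m - i) = 2 * (p ^ (m + 1) - 1) := by
        have e1 : p ^ i * p ^ (m - i + 1) = p ^ (m + 1) := by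
          rw [← pow_add]; congr 1; omega
        have e2 : 1 ≤ p ^ i := Nat.one_le_pow _ _ hp
        have e3 : 1 ≤ p ^ (m - i + 1) := Nat.one_le_pow _ _ hp
        have e4 : 1 ≤ p ^ (m + 1) := Nat.one_le_pow _ _ hp
        rw [vDeg, smul_eq_mul]
        obtain ⟨a, ha⟩ := Nat.exists_eq_add_of_le e2
        obtain ⟨b, hb⟩ := Nat.exists_eq_add_of_le e3
        rw [← e1, ha, hb]
        have : (1 + a) * (1 + b) - 1 = a + b + a * b := by
          have : (1 + a) * (1 + b) = a + b + a * b + 1 := by ring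
          omega
        rw [this, Nat.add_sub_cancel_left, Nat.add_sub_cancel_left]
        ring
      rw [e] at h3
      exact h3

/-- `𝓗_k`: the series that are homogeneous of degree `-2k` for `|x| = |y| = -2`, `|v_i| = 2 (p^i - 1)`: the coefficient of a monomial of
total degree `n` vanishes for `n < k` and is homogeneous of degree `2 (n - k)` -/
def HH (p k : ℕ) : AddSubgroup RR where
  carrier := {H | ∀ d : Fin 2 →₀ ℕ, (d.degree < k → MvPowerSeries.coeff d H = 0) ∧
    IsWeightedHomogeneous (vDeg p) (MvPowerSeries.coeff d H) (2 * (d.degree - k))}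
  add_mem' := by
    intro a b ha hb d
    refine ⟨fun h => by rw [map_add, (ha d).1 h, (hb d).1 h, add_zero], ?_⟩
    rw [map_add]
    exact (ha d).2.add (hb d).2
  zero_mem' := by
    intro d
    exact ⟨fun _ => map_zero _, by rw [map_zero]; exact MvPolynomial.isWeightedHomogeneous_zero _ _ _⟩
  neg_mem' := by
    intro a ha d
    refine ⟨fun h => by rw [map_neg, (ha d).1 h, neg_zero], ?_⟩
    rw [map_neg]
    exact (ha d).2.neg

theorem mem_HH {p k : ℕ} {H : RR} : H ∈ HH p k ↔ ∀ d : Fin 2 →₀ ℕ,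
    (d.degree < k → MvPowerSeries.coeff d H = 0) ∧
      IsWeightedHomogeneous (vDeg p) (MvPowerSeries.coeff d H) (2 * (d.degree - k)) := Iff.rfl

theorem mul_mem_HH {p a b : ℕ} {H G : RR} (hH : H ∈ HH p a) (hG : G ∈ HH p b) :
    H * G ∈ HH p (a + b) := by
  classical
  intro d
  rw [MvPowerSeries.coeff_mul]
  have key : ∀ uv ∈ Finset.HasAntidiagonal.antidiagonal d,
      uv.1.degree + uv.2.degree = d.degree := by
    rintro ⟨u, v⟩ huv
    rw [Finset.HasAntidiagonal.mem_antidiagonal] at huv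
    have h := congrArg Finsupp.degree huv
    rw [map_add] at h
    exact h
  constructor
  · intro hd
    refine Finset.sum_eq_zero fun uv huv => ?_
    have h := key uv huv
    rcases lt_or_ge uv.1.degree a with h1 | h1
    · rw [(hH uv.1).1 h1, zero_mul]
    · rw [(hG uv.2).1 (by omega), mul_zero]
  · refine IsWeightedHomogeneous.sum _ _ _ fun uv huv => ?_
    have h := key uv huv
    rcases lt_or_ge uv.1.degree a with h1 | h1
    · rw [(hH uv.1).1 h1, zero_mul]
      exact MvPolynomial.isWeightedHomogeneous_zero _ _ _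
    · rcases lt_or_ge uv.2.degree b with h2 | h2
      · rw [(hG uv.2).1 h2, mul_zero]
        exact MvPolynomial.isWeightedHomogeneous_zero _ _ _
      · have h3 := (hH uv.1).2.mul (hG uv.2).2
        have e : 2 * (uv.1.degree - a) + 2 * (uv.2.degree - b) = 2 * (d.degree - (a + b)) := by
          omega
        rw [e] at h3
        exact h3

theorem one_mem_HH (p : ℕ) : (1 : RR) ∈ HH p 0 := by
  classical
  intro d
  refine ⟨fun h => absurd h (Nat.not_lt_zero _), ?_⟩
  rw [MvPowerSeries.coeff_one]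
  split_ifs with h
  · subst h
    simpa using MvPolynomial.isWeightedHomogeneous_one ℚ (vDeg p)
  · exact MvPolynomial.isWeightedHomogeneous_zero _ _ _

theorem pow_mem_HH {p : ℕ} {H : RR} (hH : H ∈ HH p 1) (k : ℕ) : H ^ k ∈ HH p k := by
  induction k with
  | zero => simpa using one_mem_HH p
  | succ k ih =>
    rw [pow_succ]
    exact mul_mem_HH ih hH

theorem X_mem_HH (p : ℕ) (s : Fin 2) : (MvPowerSeries.X s : RR) ∈ HH p 1 := by
  classical
  intro d
  rw [MvPowerSeries.coeff_X]
  constructor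
  · intro hd
    rw [if_neg]
    rintro rfl
    rw [Finsupp.degree_single] at hd
    omega
  · split_ifs with h
    · subst h
      rw [Finsupp.degree_single]
      simpa using MvPolynomial.isWeightedHomogeneous_one ℚ (vDeg p)
    · exact MvPolynomial.isWeightedHomogeneous_zero _ _ _

/-- multiplication by a coefficient of degree `2e` maps `𝓗_{k+e}` to `𝓗_k` -/
theorem C_mul_mem_HH {p k e : ℕ} {c : KK} (hc : IsWeightedHomogeneous (vDeg p) c (2 * e)) {H : RR}
    (hH : H ∈ HH p (k + e)) : MvPowerSeries.C c * H ∈ HH p k := by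
  intro d
  rw [MvPowerSeries.coeff_C_mul]
  constructor
  · intro hd
    rw [(hH d).1 (by omega), mul_zero]
  · rcases lt_or_ge d.degree (k + e) with h | h
    · rw [(hH d).1 h, mul_zero]
      exact MvPolynomial.isWeightedHomogeneous_zero _ _ _
    · have h3 := hc.mul (hH d).2
      have e' : 2 * e + 2 * (d.degree - (k + e)) = 2 * (d.degree - k) := by omega
      rw [e'] at h3
      exact h3

theorem hazL_mul_pow_mem_HH {p : ℕ} (hp : 0 < p) {H : RR} (hH : H ∈ HH p 1) (m : ℕ) :
    MvPowerSeries.C (hazL p m) * H ^ p ^ m ∈ HH p 1 := by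
  refine C_mul_mem_HH (e := p ^ m - 1) (hazL_isWeightedHomogeneous hp m) ?_
  have h1 : 1 ≤ p ^ m := Nat.one_le_pow _ _ hp
  have h2 : 1 + (p ^ m - 1) = p ^ m := by omega
  rw [h2]
  exact pow_mem_HH hH _

/-- a homogeneous approximation of `F` modulo degree `> n` yields one modulo degree `> n + 1` -/
theorem homog_step {p : ℕ} (hp : p.Prime) (n : ℕ) {T : RR} (hT : T ∈ HH p 1)
    (hb : hazFGL p - T ∈ JJ n) : ∃ T' ∈ HH p 1, hazFGL p - T' ∈ JJ (n + 1) := by
  have hF0 : hazFGL p ∈ JJ 0 := hazFGL_mem_JJ_zero p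
  have hT0 : T ∈ JJ 0 := by
    have := Ideal.sub_mem _ hF0 (JJ_anti (Nat.zero_le n) hb)
    simpa using this
  have hN : n + 1 < p ^ (n + 1 + 1) :=
    lt_trans (Nat.lt_succ_self _) (Nat.lt_pow_self hp.one_lt)
  refine ⟨MvPowerSeries.X 0 + MvPowerSeries.X 1 -
    ∑ m ∈ Finset.range (n + 1), (MvPowerSeries.C (hazL p (m + 1)) * T ^ p ^ (m + 1) -
      MvPowerSeries.C (hazL p (m + 1)) * (MvPowerSeries.X 0 : RR) ^ p ^ (m + 1) -
      MvPowerSeries.C (hazL p (m + 1)) * (MvPowerSeries.X 1 : RR) ^ p ^ (m + 1)), ?_, ?_⟩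
  · refine (HH p 1).sub_mem ((HH p 1).add_mem (X_mem_HH p 0) (X_mem_HH p 1))
      ((HH p 1).sum_mem fun m _ => ?_)
    exact (HH p 1).sub_mem ((HH p 1).sub_mem (hazL_mul_pow_mem_HH hp.pos hT _)
      (hazL_mul_pow_mem_HH hp.pos (X_mem_HH p 0) _)) (hazL_mul_pow_mem_HH hp.pos (X_mem_HH p 1) _)
  · have hEF := EF hp (n + 1) (n + 1) hN
    rw [Finset.sum_range_succ'] at hEF
    have h0 : hazL p 0 = 1 := by simp [hazL]
    have e : hazFGL p - (MvPowerSeries.X 0 + MvPowerSeries.X 1 -
        ∑ m ∈ Finset.range (n + 1), (MvPowerSeries.C (hazL p (m + 1)) * T ^ p ^ (m + 1) -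
          MvPowerSeries.C (hazL p (m + 1)) * (MvPowerSeries.X 0 : RR) ^ p ^ (m + 1) -
          MvPowerSeries.C (hazL p (m + 1)) * (MvPowerSeries.X 1 : RR) ^ p ^ (m + 1))) =
        (∑ m ∈ Finset.range (n + 1), MvPowerSeries.C (hazL p (m + 1)) *
          ((hazFGL p) ^ p ^ (m + 1) - (MvPowerSeries.X 0 : RR) ^ p ^ (m + 1) -
            (MvPowerSeries.X 1 : RR) ^ p ^ (m + 1)) +
          MvPowerSeries.C (hazL p 0) * ((hazFGL p) ^ p ^ 0 - (MvPowerSeries.X 0 : RR) ^ p ^ 0 -
            (MvPowerSeries.X 1 : RR) ^ p ^ 0)) -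
        ∑ m ∈ Finset.range (n + 1), MvPowerSeries.C (hazL p (m + 1)) *
          ((hazFGL p) ^ p ^ (m + 1) - T ^ p ^ (m + 1)) := by
      rw [h0, map_one, pow_zero, pow_one, pow_one, pow_one, one_mul]
      simp only [mul_sub, Finset.sum_sub_distrib]
      ring
    rw [e]
    refine Ideal.sub_mem _ hEF (Ideal.sum_mem _ fun m _ => Ideal.mul_mem_left _ _ ?_)
    refine sub_pow_mem_JJ_succ hb hF0 hT0 ?_
    calc 2 ≤ p := hp.two_le
      _ = p ^ 1 := (pow_one p).symm
      _ ≤ p ^ (m + 1) := Nat.pow_le_pow_right hp.pos (by omega)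

theorem exists_homog_approx {p : ℕ} (hp : p.Prime) (n : ℕ) :
    ∃ T ∈ HH p 1, hazFGL p - T ∈ JJ n := by
  induction n with
  | zero => exact ⟨0, (HH p 1).zero_mem, by simpa using hazFGL_mem_JJ_zero p⟩
  | succ n ih =>
    obtain ⟨T, hT, hb⟩ := ih
    exact homog_step hp n hT hb

/-- Hazewinkel's law is homogeneous of degree `-2` for `|x| = |y| = -2` -/
theorem hazFGL_mem_HH {p : ℕ} (hp : p.Prime) : hazFGL p ∈ HH p 1 := by
  intro d
  obtain ⟨T, hT, hb⟩ := exists_homog_approx hp d.degree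
  have h := hb d le_rfl
  rw [map_sub, sub_eq_zero] at h
  rw [h]
  exact hT d

end Claimed.Open.R308.Haz

namespace Claimed.Open.R308

open Haz

/-- **The coefficient of `x^i y^j` of Hazewinkel's law is homogeneous of degree `2 (i + j - 1)`**, the degree of the coefficient `a_ij` of the
formal group law of `MU` (for `i = j = 0` the coefficient is `0`). -/
theorem hazCoeff_isWeightedHomogeneous {p : ℕ} (hp : p.Prime) (i j : ℕ) :
    MvPolynomial.IsWeightedHomogeneous (vDeg p) (hazCoeff p i j) (2 * (i + j - 1)) := by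
  have h := (hazFGL_mem_HH hp (Finsupp.single 0 i + Finsupp.single 1 j)).2
  rw [map_add, Finsupp.degree_single, Finsupp.degree_single] at h
  exact h

/-- The same for the element of `BP_⋆`. -/
theorem isWeightedHomogeneous_of_toRat_eq_hazCoeff {p : ℕ} (hp : p.Prime) {i j : ℕ} {c : BPCoeff p}
    (hc : toRat p c = hazCoeff p i j) :
    MvPolynomial.IsWeightedHomogeneous (vDeg p) c (2 * (i + j - 1)) := by
  intro d hd
  refine hazCoeff_isWeightedHomogeneous hp i j (d := d) ?_
  rw [← hc, toRat, MvPolynomial.coeff_map]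
  intro h0
  apply hd
  exact (ZLoc p).subtype_injective (by rw [h0, map_zero])

/-- `θ(a)` is homogeneous for every coefficient `a` of the formal group law of `MU`. -/
theorem IsImageOfCoeff.exists_isWeightedHomogeneous {p : ℕ} (hp : p.Prime) {r : MUsys.Rep}
    {c : BPCoeff p} (h : IsImageOfCoeff p r c) :
    ∃ (f : ℕ → ℕ → MUsys.Rep) (i j : ℕ), IsFGLFamily f ∧ r = f i j ∧
      MvPolynomial.IsWeightedHomogeneous (vDeg p) c (2 * (i + j - 1)) := by
  obtain ⟨f, i, j, hf, hr, hc⟩ := h
  exact ⟨f, i, j, hf, hr, isWeightedHomogeneous_of_toRat_eq_hazCoeff hp hc⟩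

/-- `|a x| = |a| + |x|` on representatives. -/
theorem deg_actX {X : Spectrum} (f : MUsys.Rep) (g : (MUX X).Rep) :
    (MUX X).deg (actX f g) = (MUX X).deg g + MUsys.deg f := by
  simp only [StableSystem.deg, actX]
  push_cast
  ring

/-- **The tensor relations of `BP_⋆X = BP_⋆ ⊗_{MU_⋆} MU_⋆X` are homogeneous**: for a representative `f i j` of `a_ij` in its degree
`2 (i + j - 1)`, a homogeneous `v ∈ BP_⋆` and a representative `g` of a class of `MU_⋆X`, the two sides `θ(a_ij) v ⊗ [g]` and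
`v ⊗ a_ij [g]` of the relation of `bpRel` lie in the same `BPHomology.deg`. -/
theorem BPHomology.relation_homogeneous {p : ℕ} (hp : p.Prime) {X : Spectrum}
    {f : ℕ → ℕ → MUsys.Rep} {i j : ℕ} (hdeg : MUsys.deg (f i j) = 2 * ((i : ℤ) + j - 1))
    {c v : BPCoeff p} (hc : toRat p c = hazCoeff p i j) {d : ℕ}
    (hv : MvPolynomial.IsWeightedHomogeneous (vDeg p) v d) (g : (MUX X).Rep) :
    BPHomology.mk (c * v) ((MUX X).cls g) ∈
        BPHomology.deg p X (2 * ((i : ℤ) + j - 1) + d + (MUX X).deg g) ∧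
      BPHomology.mk v ((MUX X).cls (actX (f i j) g)) ∈
        BPHomology.deg p X (2 * ((i : ℤ) + j - 1) + d + (MUX X).deg g) := by
  constructor
  · rcases Nat.eq_zero_or_pos (i + j) with h0 | h0
    · have hi : i = 0 := by omega
      have hj : j = 0 := by omega
      subst hi hj
      have hc0 : c = 0 := toRat_injective p (by rw [hc, hazCoeff_zero_zero, map_zero])
      have : BPHomology.mk (c * v) ((MUX X).cls g) = 0 := by
        rw [hc0, zero_mul, BPHomology.mk, TensorProduct.zero_tmul, Submodule.Quotient.mk_zero]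
        rfl
      rw [this]
      exact AddSubgroup.zero_mem _
    · refine AddSubgroup.subset_closure ⟨2 * (i + j - 1) + d, (MUX X).deg g, c * v, (MUX X).cls g,
        (isWeightedHomogeneous_of_toRat_eq_hazCoeff hp hc).mul hv,
        AddSubgroup.subset_closure ⟨g, rfl, rfl⟩, ?_, rfl⟩
      have : ((i + j - 1 : ℕ) : ℤ) = (i : ℤ) + j - 1 := by omega
      push_cast [this]
      ring
  · refine AddSubgroup.subset_closure ⟨d, (MUX X).deg (actX (f i j) g), v,
      (MUX X).cls (actX (f i j) g), hv, AddSubgroup.subset_closure ⟨_, rfl, rfl⟩, ?_, rfl⟩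
    rw [deg_actX, hdeg]
    ring

end Claimed.Open.R308
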