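/- R308 sanity, the `p`-series of Hazewinkel's law: definitions. -/
import Claimed.Open.R308.SanityHazStep

/-!
# Result 308: the `p`-series of Hazewinkel's law and the meaning of `(p, v₁, …, v_n)`

Goal of the files `SanityHazP*.lean`: `hazPSeries_height`: the `p`-series `[p]_F(x) = log⁻¹(p log x)` of Hazewinkel's law has coefficients in
`BP_⋆`, and modulo `(p, v₁, …, v_n)` (`smithTodaIdeal p n`) it is `v_{n+1} x^{p^{n+1}} + (higher terms)` (Ravenel, *Complex cobordism*, A2.2.4 /
4.3.2): the ideal of the statement is the ideal "height `> n`", and the generators `vGen p k` are the `v_k` of the chromatic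
filtration.
-/

set_option autoImplicit false

noncomputable section

namespace Claimed.Open.R308

/-- `[k]_F(x) = log⁻¹(k log x)` -/
def hazNSeries (p k : ℕ) : PowerSeries (MvPolynomial ℕ ℚ) :=
  PowerSeries.subst ((k : PowerSeries (MvPolynomial ℕ ℚ)) * hazLog p) (hazLog p).substInv

/-- the `p`-series `[p]_F(x)` of Hazewinkel's law -/
def hazPSeries (p : ℕ) : PowerSeries (MvPolynomial ℕ ℚ) := hazNSeries p p

namespace Haz

/-- `[p]_F(x)` as a series in `x, y` -/
def GG (p : ℕ) : RR := PowerSeries.subst (MvPowerSeries.X 0 : RR) (hazPSeries p)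

end Haz

end Claimed.Open.R308
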