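/- R308 sanity, the `p`-series of Hazewinkel's law, module POrd: order and leading coefficient of the correction terms `w`. -/
import Claimed.Open.R308.SanityHazPDefs

set_option autoImplicit false

namespace Claimed.Open.R308.Haz

/-- `a, b ∈ J_0`, `i + j = n + 1` ⟹ `a^i b^j ∈ J_n` -/
theorem h197_pow_mul_pow_mem_JJ {a b : RR} (ha : a ∈ JJ 0) (hb : b ∈ JJ 0) {i j n : ℕ}
    (hij : i + j = n + 1) : a ^ i * b ^ j ∈ JJ n := by
  rcases Nat.eq_zero_or_pos i with h0 | h0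
  · subst h0
    have : j = n + 1 := by omega
    subst this
    simpa using pow_mem_JJ hb n
  rcases Nat.eq_zero_or_pos j with h1 | h1
  · subst h1
    have : i = n + 1 := by omega
    subst this
    simpa using pow_mem_JJ ha n
  obtain ⟨i', rfl⟩ : ∃ i', i = i' + 1 := ⟨i - 1, by omega⟩
  obtain ⟨j', rfl⟩ : ∃ j', j = j' + 1 := ⟨j - 1, by omega⟩
  have := mul_mem_JJ (pow_mem_JJ ha i') (pow_mem_JJ hb j')
  have e : i' + j' + 1 = n := by omega
  rwa [e] at this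

/-- `a - b ∈ J_1`, `a, b ∈ J_0` ⟹ `a^q - b^q ∈ J_q` (`q ≥ 1`): `a^q - b^q = (a - b) ∑_{j<q} a^j b^{q-1-j}`, the sum lies in `J_{q-2}` for `q ≥ 2`
(`pow_mem_JJ`, `mul_mem_JJ`) -/
theorem sub_pow_mem_JJ_of_one {a b : RR} (h : a - b ∈ JJ 1) (ha : a ∈ JJ 0) (hb : b ∈ JJ 0)
    {q : ℕ} (hq : 1 ≤ q) : a ^ q - b ^ q ∈ JJ q := by
  rcases Nat.lt_or_ge q 2 with h2 | h2
  · have : q = 1 := by omega
    subst this
    simpa using h
  · rw [← (Commute.all a b).mul_geom_sum₂ q]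
    have hs : ∑ i ∈ Finset.range q, a ^ i * b ^ (q - 1 - i) ∈ JJ (q - 2) := by
      refine Ideal.sum_mem _ fun i hi => ?_
      rw [Finset.mem_range] at hi
      exact h197_pow_mul_pow_mem_JJ ha hb (by omega)
    have := mul_mem_JJ h hs
    have e : 1 + (q - 2) + 1 = q := by omega
    rwa [e] at this

/-- `p f ∈ I_k ⟹ f ∈ I_k` (characteristic `0`: multiply by `C (C (1/p))`) -/
theorem mem_II_of_natCast_mul {p : ℕ} (hp : p ≠ 0) {k : ℕ} {f : PP} (h : (p : PP) * f ∈ II k) :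
    f ∈ II k := by
  have hp' : (p : ℚ) ≠ 0 := by exact_mod_cast hp
  have e : f = MvPolynomial.C (MvPolynomial.C (1 / (p : ℚ))) * ((p : PP) * f) := by
    have h3 : (p : PP) = MvPolynomial.C (MvPolynomial.C (p : ℚ)) := by simp
    rw [h3, ← mul_assoc, ← MvPolynomial.C_mul, ← MvPolynomial.C_mul, one_div_mul_cancel hp',
      MvPolynomial.C_1, MvPolynomial.C_1, one_mul]
  rw [e]
  exact Ideal.mul_mem_left _ _ h

/-- `f ∈ I_0 ⟹ f^{M+1} ∈ I_M` -/
theorem pow_mem_II {f : PP} (hf : f ∈ II 0) (M : ℕ) : f ^ (M + 1) ∈ II M := by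
  rw [mem_II, map_pow]
  exact pow_mem_JJ hf M

/-- `coeff_d (θ w) = toRat (coeff_d w)` -/
theorem coeff_theta (p : ℕ) (d : Fin 2 →₀ ℕ) (w : BB p) :
    MvPolynomial.coeff d (theta p w) = toRat p (MvPolynomial.coeff d w) :=
  MvPolynomial.coeff_map _ _ _

/-- `Z ∈ I_k ⟹ L_N(c, Z) ∈ I_k` -/
theorem h197_LL_mem_II {p : ℕ} (hp : 0 < p) (c : ℕ → KK) (N : ℕ) {k : ℕ} {Z : PP}
    (hZ : Z ∈ II k) : LL p c N Z ∈ II k := by
  unfold LL
  exact Ideal.sum_mem _ fun m _ => Ideal.mul_mem_left _ _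
    (Ideal.pow_mem_of_mem _ hZ _ (pow_pos hp m))

/-- **(W1)** `w` vanishes to order `p^j`: every term `σ^j(ℓ_m) (T^{p^j})^{p^m}`, `σ^j(ℓ_m) (Φ^j T)^{p^m}` does (`pow_mem_II`, `Phi_iter_mem_II` with `k = 0`) -/
theorem w_order {p : ℕ} (hp : p.Prime) (j N' : ℕ) (b w : BB p) (hb0 : theta p b ∈ II 0)
    (hw : LL p (fun m => (sig p)^[j] (hazL p m)) N' ((theta p b) ^ p ^ j) -
      LL p (fun m => (sig p)^[j] (hazL p m)) N' ((Phi p)^[j] (theta p b)) = (p : PP) * theta p w)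
    (d : Fin 2 →₀ ℕ) (hd : d.degree < p ^ j) : MvPolynomial.coeff d w = 0 := by
  have hq : 0 < p ^ j := pow_pos hp.pos j
  have h1 : (theta p b) ^ p ^ j ∈ II (p ^ j - 1) := by
    have := pow_mem_II hb0 (p ^ j - 1)
    have e : p ^ j - 1 + 1 = p ^ j := by omega
    rwa [e] at this
  have h2 : (Phi p)^[j] (theta p b) ∈ II (p ^ j - 1) := by
    have := Phi_iter_mem_II hp.pos j hb0
    simpa using this
  have h3 : (p : PP) * theta p w ∈ II (p ^ j - 1) := by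
    rw [← hw]
    exact Ideal.sub_mem _ (h197_LL_mem_II hp.pos _ _ h1) (h197_LL_mem_II hp.pos _ _ h2)
  have h4 := mem_II_of_natCast_mul hp.ne_zero h3
  rw [mem_II_iff_coeff] at h4
  have h5 := h4 d (by omega)
  rw [coeff_theta] at h5
  exact toRat_injective p (by rw [h5, map_zero])

/-- `I_a I_b ⊆ I_{a+b+1}` -/
theorem h197_mul_mem_II {a b : ℕ} {f g : PP} (hf : f ∈ II a) (hg : g ∈ II b) :
    f * g ∈ II (a + b + 1) := by
  rw [mem_II, map_mul]
  exact mul_mem_JJ hf hg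

/-- `Z ∈ I_{q-1}`, `c_0 = 1` ⟹ `L_N(c, Z) - Z ∈ I_q` -/
theorem h197_LL_sub_mem_II {p : ℕ} (hp : 2 ≤ p) (c : ℕ → KK) (hc : c 0 = 1) (N : ℕ) {q : ℕ}
    (hq : 1 ≤ q) {Z : PP} (hZ : Z ∈ II (q - 1)) : LL p c N Z - Z ∈ II q := by
  unfold LL
  rw [Finset.sum_range_succ', hc, pow_zero, pow_one, MvPolynomial.C_1, one_mul, add_sub_cancel_right]
  refine Ideal.sum_mem _ fun m _ => Ideal.mul_mem_left _ _ ?_
  have h2 : 2 ≤ p ^ (m + 1) := by
    calc 2 ≤ p := hp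
      _ = p ^ 1 := (pow_one p).symm
      _ ≤ p ^ (m + 1) := Nat.pow_le_pow_right (by omega) (by omega)
  have e : Z ^ p ^ (m + 1) = Z * Z * Z ^ (p ^ (m + 1) - 2) := by
    rw [← sq, ← pow_add]
    congr 1
    omega
  rw [e]
  exact Ideal.mul_mem_right _ _ (II_anti (by omega) (h197_mul_mem_II hZ hZ))

/-- **(W2)** the coefficient of `x^q`, `q = p^j`, in `w` is `p^{q-1} - 1`: the terms `m ≥ 1` vanish to order `p^{j+1} > q`; the term `m = 0` is
`T^q - Φ^j T` (`σ^j(ℓ_0) = 1`), `T = p x + R`, `R ∈ I_1`: `T^q ≡ (p x)^q` modulo `I_q` (`sub_pow_mem_JJ_of_one`), `Φ^j T = p x^q + Φ^j R`,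
`Φ^j R ∈ I_{2q-1}` (`Phi_iter_mem_II` with `k = 1`); so `p · coeff = p^q - p`. -/
theorem w_lead {p : ℕ} (hp : p.Prime) (j N' : ℕ) (b w : BB p)
    (hb1 : theta p b - (p : PP) * MvPolynomial.X 0 ∈ II 1)
    (hw : LL p (fun m => (sig p)^[j] (hazL p m)) N' ((theta p b) ^ p ^ j) -
      LL p (fun m => (sig p)^[j] (hazL p m)) N' ((Phi p)^[j] (theta p b)) = (p : PP) * theta p w) :
    MvPolynomial.coeff (Finsupp.single 0 (p ^ j)) w = (p : BPCoeff p) ^ (p ^ j - 1) - 1 := by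
  have hq : 1 ≤ p ^ j := pow_pos hp.pos j
  have hX0 : (MvPolynomial.X 0 : PP) ∈ II 0 := by
    rw [mem_II, iota_X]
    exact X_mem_JJ_zero 0
  have hpx0 : (p : PP) * MvPolynomial.X 0 ∈ II 0 := Ideal.mul_mem_left _ _ hX0
  have hT0 : theta p b ∈ II 0 := by
    have := Ideal.add_mem _ (II_anti zero_le_one hb1) hpx0
    simpa using this
  have hc0 : (fun m => (sig p)^[j] (hazL p m)) 0 = 1 := by
    have h0 : hazL p 0 = 1 := by rw [hazL]
    show (sig p)^[j] (hazL p 0) = 1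
    rw [h0, ← RingHom.coe_pow, map_one]
  -- the two arguments lie in `I_{q-1}`
  have h1 : (theta p b) ^ p ^ j ∈ II (p ^ j - 1) := by
    have := pow_mem_II hT0 (p ^ j - 1)
    have e : p ^ j - 1 + 1 = p ^ j := by omega
    rwa [e] at this
  have h2 : (Phi p)^[j] (theta p b) ∈ II (p ^ j - 1) := by
    have := Phi_iter_mem_II hp.pos j hT0
    simpa using this
  have a1 := h197_LL_sub_mem_II hp.two_le (fun m => (sig p)^[j] (hazL p m)) hc0 N' hq h1
  have a2 := h197_LL_sub_mem_II hp.two_le (fun m => (sig p)^[j] (hazL p m)) hc0 N' hq h2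
  -- `T^q ≡ (p x)^q`
  have a3 : (theta p b) ^ p ^ j - ((p : PP) * MvPolynomial.X 0) ^ p ^ j ∈ II (p ^ j) := by
    rw [mem_II, map_sub, map_pow, map_pow]
    refine sub_pow_mem_JJ_of_one ?_ hT0 hpx0 hq
    rw [← map_sub]
    exact hb1
  -- `Φ^j T ≡ p x^q`
  have a4 : (Phi p)^[j] (theta p b) - (p : PP) * MvPolynomial.X 0 ^ p ^ j ∈ II (p ^ j) := by
    have e : (Phi p)^[j] (theta p b) - (p : PP) * MvPolynomial.X 0 ^ p ^ j =
        (Phi p)^[j] (theta p b - (p : PP) * MvPolynomial.X 0) := by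
      rw [← Phi_iter_X, ← RingHom.coe_pow, map_sub, map_mul, map_natCast]
    rw [e]
    exact II_anti (by omega) (Phi_iter_mem_II hp.pos j hb1)
  have a5 : (p : PP) * theta p w -
      (((p : PP) * MvPolynomial.X 0) ^ p ^ j - (p : PP) * MvPolynomial.X 0 ^ p ^ j) ∈ II (p ^ j) := by
    have e : (p : PP) * theta p w -
        (((p : PP) * MvPolynomial.X 0) ^ p ^ j - (p : PP) * MvPolynomial.X 0 ^ p ^ j) =
        (LL p (fun m => (sig p)^[j] (hazL p m)) N' ((theta p b) ^ p ^ j) - (theta p b) ^ p ^ j) -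
        (LL p (fun m => (sig p)^[j] (hazL p m)) N' ((Phi p)^[j] (theta p b)) -
          (Phi p)^[j] (theta p b)) +
        ((theta p b) ^ p ^ j - ((p : PP) * MvPolynomial.X 0) ^ p ^ j) -
        ((Phi p)^[j] (theta p b) - (p : PP) * MvPolynomial.X 0 ^ p ^ j) := by
      rw [← hw]; ring
    rw [e]
    exact Ideal.sub_mem _ (Ideal.add_mem _ (Ideal.sub_mem _ a1 a2) a3) a4
  rw [mem_II_iff_coeff] at a5
  have a6 := a5 (Finsupp.single 0 (p ^ j)) (by rw [Finsupp.degree_single])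
  have hpC : (p : PP) = MvPolynomial.C (p : KK) := by simp
  rw [mul_pow, hpC, ← MvPolynomial.C_pow, MvPolynomial.coeff_sub, MvPolynomial.coeff_sub,
    MvPolynomial.coeff_C_mul, MvPolynomial.coeff_C_mul, MvPolynomial.coeff_C_mul,
    MvPolynomial.coeff_X_pow, if_pos rfl, coeff_theta, mul_one, mul_one] at a6
  have hp0 : (p : KK) ≠ 0 := by exact_mod_cast hp.ne_zero
  apply toRat_injective p
  apply mul_left_cancel₀ hp0
  rw [map_sub, map_pow, map_natCast, map_one, mul_sub, mul_one, ← pow_succ']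
  have e : p ^ j - 1 + 1 = p ^ j := by omega
  rw [e]
  exact sub_eq_zero.1 a6

end Claimed.Open.R308.Haz
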