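/- R308 sanity, the `p`-series of Hazewinkel's law, module PLog: `log [p](x) = p log x`, truncated; `[k+1](x) = F([k](x), x)`. -/
import Claimed.Open.R308.SanityHazPDefs

set_option autoImplicit false

namespace Claimed.Open.R308

theorem h56_constantCoeff_nat_mul_hazLog (p k : ℕ) :
    MvPowerSeries.constantCoeff ((k : PowerSeries (MvPolynomial ℕ ℚ)) * hazLog p) = 0 := by
  rw [map_mul]
  have h : MvPowerSeries.constantCoeff (hazLog p) = 0 := constantCoeff_hazLog p
  rw [h, mul_zero]

theorem h56_subst_X_self (f : PowerSeries (MvPolynomial ℕ ℚ)) :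
    PowerSeries.subst (PowerSeries.X : PowerSeries (MvPolynomial ℕ ℚ)) f = f := by
  have h : (fun _ : Unit => (PowerSeries.X : PowerSeries (MvPolynomial ℕ ℚ))) =
      (MvPowerSeries.X : Unit → MvPowerSeries Unit (MvPolynomial ℕ ℚ)) := by
    funext u
    rfl
  rw [PowerSeries.subst_def, h, MvPowerSeries.subst_self]
  rfl

theorem constantCoeff_hazNSeries (p k : ℕ) : PowerSeries.constantCoeff (hazNSeries p k) = 0 :=
  constantCoeff_hazExp p (σ := Unit) (h56_constantCoeff_nat_mul_hazLog p k)

/-- `log [k](x) = k log x` (`hazLog_hazExp`) -/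
theorem subst_hazNSeries_hazLog (p k : ℕ) :
    PowerSeries.subst (hazNSeries p k) (hazLog p) =
      (k : PowerSeries (MvPolynomial ℕ ℚ)) * hazLog p :=
  hazLog_hazExp p (σ := Unit) (h56_constantCoeff_nat_mul_hazLog p k)

theorem hazNSeries_zero (p : ℕ) : hazNSeries p 0 = 0 := by
  rw [hazNSeries, Nat.cast_zero, zero_mul]
  exact PowerSeries.subst_zero_of_constantCoeff_zero (PowerSeries.constantCoeff_substInv _)

theorem hazNSeries_one (p : ℕ) : hazNSeries p 1 = PowerSeries.X := by
  rw [hazNSeries, Nat.cast_one, one_mul]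
  exact PowerSeries.subst_substInv_left _ (constantCoeff_hazLog p)

/-- `[k+1](x) = F([k](x), x)`: `hazNSeries p k` is the `k`-fold formal sum of `x` (`subst_hazFGL`, `hazSum`) -/
theorem hazNSeries_succ (p k : ℕ) : hazNSeries p (k + 1) =
    MvPowerSeries.subst ![hazNSeries p k, (PowerSeries.X : PowerSeries (MvPolynomial ℕ ℚ))]
      (hazFGL p) := by
  have hX : MvPowerSeries.constantCoeff (PowerSeries.X : PowerSeries (MvPolynomial ℕ ℚ)) = 0 :=
    PowerSeries.constantCoeff_X
  rw [subst_hazFGL p (σ := Unit) (constantCoeff_hazNSeries p k) hX, hazSum,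
    subst_hazNSeries_hazLog, h56_subst_X_self, hazNSeries, Nat.cast_add, Nat.cast_one, add_mul,
    one_mul]

namespace Haz

theorem GG_mem_JJ_zero (p : ℕ) : GG p ∈ JJ 0 :=
  mem_JJ_zero_iff.2 (PowerSeries.constantCoeff_subst_eq_zero (by simp) _
    (constantCoeff_hazNSeries p p))

/-- `log G = p log x` (`PowerSeries.subst_comp_subst_apply`, `subst_hazNSeries_hazLog`) -/
theorem subst_GG_hazLog (p : ℕ) : PowerSeries.subst (GG p) (hazLog p) =
    (p : RR) * PowerSeries.subst (MvPowerSeries.X 0 : RR) (hazLog p) := by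
  have hs : PowerSeries.HasSubst (hazPSeries p) :=
    PowerSeries.HasSubst.of_constantCoeff_zero (constantCoeff_hazNSeries p p)
  have h0 : PowerSeries.HasSubst (MvPowerSeries.X 0 : RR) := PowerSeries.HasSubst.X 0
  rw [GG, ← PowerSeries.subst_comp_subst_apply hs h0, hazPSeries, subst_hazNSeries_hazLog,
    PowerSeries.subst_mul h0, ← PowerSeries.coe_substAlgHom h0, map_natCast]

/-- the coefficients of `G` on the `x`-axis are those of the `p`-series -/
theorem coeff_GG (p k : ℕ) : MvPowerSeries.coeff (Finsupp.single 0 k) (GG p) =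
    PowerSeries.coeff k (hazPSeries p) := by
  classical
  have h0 : PowerSeries.HasSubst (MvPowerSeries.X 0 : RR) := PowerSeries.HasSubst.X 0
  rw [GG, PowerSeries.coeff_subst h0, finsum_eq_single _ k]
  · rw [MvPowerSeries.coeff_X_pow, if_pos rfl, smul_eq_mul, mul_one]
  · intro d hd
    rw [MvPowerSeries.coeff_X_pow, if_neg, smul_zero]
    intro h
    apply hd
    have := congrArg (fun f => f 0) h
    simpa using this.symm

/-- **(EG)** the truncated functional equation of `G` (as `EF` of `SanityHazLog.lean`, from `subst_hazLog_sub_mem`) -/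
theorem EG {p : ℕ} (hp : p.Prime) (N k : ℕ) (hk : k < p ^ (N + 1)) :
    ∑ m ∈ Finset.range (N + 1), MvPowerSeries.C (hazL p m) *
      ((GG p) ^ p ^ m - (p : RR) * (MvPowerSeries.X 0 : RR) ^ p ^ m) ∈ JJ k := by
  have hG := subst_hazLog_sub_mem hp (GG_mem_JJ_zero p) N k hk
  have h0 := subst_hazLog_sub_mem hp (X_mem_JJ_zero 0) N k hk
  have e : ∑ m ∈ Finset.range (N + 1), MvPowerSeries.C (hazL p m) *
      ((GG p) ^ p ^ m - (p : RR) * (MvPowerSeries.X 0 : RR) ^ p ^ m) =
      (p : RR) * (PowerSeries.subst (MvPowerSeries.X 0 : RR) (hazLog p) -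
        ∑ m ∈ Finset.range (N + 1), MvPowerSeries.C (hazL p m) * (MvPowerSeries.X 0 : RR) ^ p ^ m) -
      (PowerSeries.subst (GG p) (hazLog p) -
        ∑ m ∈ Finset.range (N + 1), MvPowerSeries.C (hazL p m) * (GG p) ^ p ^ m) := by
    rw [subst_GG_hazLog]
    simp only [mul_sub, Finset.sum_sub_distrib, Finset.mul_sum]
    have : ∀ m, MvPowerSeries.C (hazL p m) * ((p : RR) * (MvPowerSeries.X 0 : RR) ^ p ^ m) =
        (p : RR) * (MvPowerSeries.C (hazL p m) * (MvPowerSeries.X 0 : RR) ^ p ^ m) := fun m => by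
      ring
    simp only [this]
    ring
  rw [e]
  exact Ideal.sub_mem _ (Ideal.mul_mem_left _ _ h0) hG

end Haz

end Claimed.Open.R308
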