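/- R308 sanity, the `p`-series of Hazewinkel's law, module PStep: the induction on the degree, with the explicit form of the next approximation. -/
import Claimed.Open.R308.SanityHazPLog

set_option autoImplicit false

namespace Claimed.Open.R308.Haz

/-- the truncated functional equation for an approximation `T` of `G = [p]_F(x)` -/
theorem partDG {p : ℕ} (hp : p.Prime) (n N' : ℕ) (b : BB p)
    (hb : GG p - iota (theta p b) ∈ JJ n) {k : ℕ} (hk1 : k ≤ n) (hk2 : k < p ^ (N' + 1)) :
    LL p (hazL p) N' (theta p b) - (p : PP) * LL p (hazL p) N' (MvPolynomial.X 0) ∈ II k := by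
  rw [mem_II]
  have e : iota (LL p (hazL p) N' (theta p b) - (p : PP) * LL p (hazL p) N' (MvPolynomial.X 0)) =
      (∑ m ∈ Finset.range (N' + 1), MvPowerSeries.C (hazL p m) *
        ((GG p) ^ p ^ m - (p : RR) * (MvPowerSeries.X 0 : RR) ^ p ^ m)) -
      ∑ m ∈ Finset.range (N' + 1), MvPowerSeries.C (hazL p m) *
        ((GG p) ^ p ^ m - (iota (theta p b)) ^ p ^ m) := by
    rw [map_sub, map_mul, map_natCast, iota_LL, iota_LL, iota_X, Finset.mul_sum,
      ← Finset.sum_sub_distrib, ← Finset.sum_sub_distrib]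
    exact Finset.sum_congr rfl fun m _ => by ring
  rw [e]
  exact Ideal.sub_mem _ (EG hp N' k hk2) (Ideal.sum_mem _ fun m _ =>
    Ideal.mul_mem_left _ _ (JJ_anti hk1 (sub_pow_mem_JJ hb _)))

theorem partBG {p : ℕ} (hp : p.Prime) (n N i : ℕ) (hi : i < N) (hN : n + 2 ≤ p ^ (N + 1))
    (b : BB p) (hb : GG p - iota (theta p b) ∈ JJ n) :
    LL p (fun m => (sig p)^[i + 1] (hazL p m)) (N - 1 - i) ((Phi p)^[i + 1] (theta p b)) -
      (p : PP) * LL p (fun m => (sig p)^[i + 1] (hazL p m)) (N - 1 - i)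
        (MvPolynomial.X 0 ^ p ^ (i + 1)) ∈ II (n + 1) := by
  have e : LL p (fun m => (sig p)^[i + 1] (hazL p m)) (N - 1 - i) ((Phi p)^[i + 1] (theta p b)) -
      (p : PP) * LL p (fun m => (sig p)^[i + 1] (hazL p m)) (N - 1 - i)
        (MvPolynomial.X 0 ^ p ^ (i + 1)) =
      (Phi p)^[i + 1] (LL p (hazL p) (N - 1 - i) (theta p b) -
        (p : PP) * LL p (hazL p) (N - 1 - i) (MvPolynomial.X 0)) := by
    rw [iterate_map_sub, iterate_map_mul, Function.iterate_fixed (map_natCast (Phi p) p),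
      Phi_iter_LL, Phi_iter_LL, Phi_iter_X]
  rw [e]
  have hN' : N - 1 - i + 1 = N - i := by omega
  have h2 : 2 ≤ p ^ (i + 1) := by
    calc 2 ≤ p := hp.two_le
      _ = p ^ 1 := (pow_one p).symm
      _ ≤ p ^ (i + 1) := Nat.pow_le_pow_right hp.pos (by omega)
  have hpos : 0 < p ^ (N - i) := pow_pos hp.pos _
  rcases le_total (n + 1) (p ^ (N - i)) with h | h
  · have hD := partDG hp n (N - 1 - i) b hb (k := n) le_rfl (by rw [hN']; omega)
    refine II_anti ?_ (Phi_iter_mem_II hp.pos (i + 1) hD)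
    have : 2 * (n + 1) ≤ p ^ (i + 1) * (n + 1) := Nat.mul_le_mul_right _ h2
    omega
  · have hD := partDG hp n (N - 1 - i) b hb (k := p ^ (N - i) - 1) (by omega) (by rw [hN']; omega)
    refine II_anti ?_ (Phi_iter_mem_II hp.pos (i + 1) hD)
    have h3 : p ^ (N - i) - 1 + 1 = p ^ (N - i) := by omega
    have h4 : p ^ (i + 1) * p ^ (N - i) = p ^ (N + 1) := by
      rw [← pow_add]; congr 1; omega
    rw [h3, h4]
    omega

/-- **The induction step, in explicit form**: `G ≡ p x - ∑_i v_{i+1} w_i` modulo degree `> n + 1`, where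
`p w_i = L^{σ^{i+1}}(T^{p^{i+1}}) - L^{σ^{i+1}}(Φ^{i+1} T)` and `T` is an integral approximation of `G` modulo degree `> n`. -/
theorem gstep {p : ℕ} (hp : p.Prime) (n : ℕ) (b : BB p)
    (hb : GG p - iota (theta p b) ∈ JJ n) (w : ℕ → BB p)
    (hw : ∀ i, LL p (fun m => (sig p)^[i + 1] (hazL p m)) (n + 1 - 1 - i)
        ((theta p b) ^ p ^ (i + 1)) -
      LL p (fun m => (sig p)^[i + 1] (hazL p m)) (n + 1 - 1 - i) ((Phi p)^[i + 1] (theta p b)) =
        (p : PP) * theta p (w i)) :
    GG p - iota (theta p ((p : BB p) * MvPolynomial.X 0 -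
      ∑ i ∈ Finset.range (n + 1), MvPolynomial.C (MvPolynomial.X i) * w i)) ∈ JJ (n + 1) := by
  set N := n + 1 with hNdef
  have hN : n + 2 ≤ p ^ (N + 1) := by
    have : n + 2 < p ^ (n + 2) := Nat.lt_pow_self hp.one_lt
    exact this.le
  set T := theta p b with hT
  have hF0 : GG p ∈ JJ 0 := GG_mem_JJ_zero p
  have hT0 : iota T ∈ JJ 0 := by
    have := Ideal.sub_mem _ hF0 (JJ_anti (Nat.zero_le n) hb)
    simpa using this
  set Q : PP := ∑ m ∈ Finset.range N, MvPolynomial.C (hazL p (m + 1)) *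
    (T ^ p ^ (m + 1) - (p : PP) * MvPolynomial.X 0 ^ p ^ (m + 1)) with hQ
  -- (S1)
  have S1 : GG p - iota ((p : PP) * MvPolynomial.X 0 - Q) ∈ JJ (n + 1) := by
    have hEF := EG hp N (n + 1) (by omega)
    rw [Finset.sum_range_succ'] at hEF
    have e : GG p - iota ((p : PP) * MvPolynomial.X 0 - Q) =
        (∑ m ∈ Finset.range N, MvPowerSeries.C (hazL p (m + 1)) *
          ((GG p) ^ p ^ (m + 1) - (p : RR) * (MvPowerSeries.X 0 : RR) ^ p ^ (m + 1)) +
          MvPowerSeries.C (hazL p 0) * ((GG p) ^ p ^ 0 - (p : RR) * (MvPowerSeries.X 0 : RR) ^ p ^ 0)) -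
        ∑ m ∈ Finset.range N, MvPowerSeries.C (hazL p (m + 1)) *
          ((GG p) ^ p ^ (m + 1) - (iota T) ^ p ^ (m + 1)) := by
      have h0 : hazL p 0 = 1 := by simp [hazL]
      rw [hQ, map_sub, map_mul, map_natCast, map_sum, iota_X, h0, map_one, pow_zero, pow_one,
        pow_one, one_mul]
      have : ∀ m ∈ Finset.range N, iota (MvPolynomial.C (hazL p (m + 1)) *
          (T ^ p ^ (m + 1) - (p : PP) * MvPolynomial.X 0 ^ p ^ (m + 1))) =
          MvPowerSeries.C (hazL p (m + 1)) * ((GG p) ^ p ^ (m + 1) -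
            (p : RR) * (MvPowerSeries.X 0 : RR) ^ p ^ (m + 1)) -
          MvPowerSeries.C (hazL p (m + 1)) * ((GG p) ^ p ^ (m + 1) - (iota T) ^ p ^ (m + 1)) := by
        intro m _
        rw [map_mul, map_sub, map_mul, map_natCast, map_pow, map_pow, iota_C, iota_X]
        ring
      rw [Finset.sum_congr rfl this, Finset.sum_sub_distrib]
      ring
    rw [e]
    refine Ideal.sub_mem _ hEF (Ideal.sum_mem _ fun m _ => Ideal.mul_mem_left _ _ ?_)
    refine sub_pow_mem_JJ_succ hb hF0 hT0 ?_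
    calc 2 ≤ p := hp.two_le
      _ = p ^ 1 := (pow_one p).symm
      _ ≤ p ^ (m + 1) := Nat.pow_le_pow_right hp.pos (by omega)
  -- (S2)
  have S2 : Q - theta p (∑ i ∈ Finset.range N, MvPolynomial.C (MvPolynomial.X i) * w i) ∈
      II (n + 1) := by
    have hQ' : Q = ∑ i ∈ Finset.range N,
        MvPolynomial.C (MvPolynomial.C (1 / (p : ℚ)) * MvPolynomial.X i) *
        (LL p (fun m => (sig p)^[i + 1] (hazL p m)) (N - 1 - i) (T ^ p ^ (i + 1)) -
          (p : PP) * LL p (fun m => (sig p)^[i + 1] (hazL p m)) (N - 1 - i)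
            (MvPolynomial.X 0 ^ p ^ (i + 1))) := by
      have := ALG p N T
      have h0 := ALG p N (MvPolynomial.X 0)
      have e1 : Q = ∑ m ∈ Finset.range N, MvPolynomial.C (hazL p (m + 1)) * T ^ p ^ (m + 1) -
          (p : PP) * ∑ m ∈ Finset.range N,
            MvPolynomial.C (hazL p (m + 1)) * MvPolynomial.X 0 ^ p ^ (m + 1) := by
        rw [hQ, Finset.mul_sum, ← Finset.sum_sub_distrib]
        exact Finset.sum_congr rfl fun m _ => by ring
      rw [e1, this, h0, Finset.mul_sum, ← Finset.sum_sub_distrib]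
      exact Finset.sum_congr rfl fun m _ => by ring
    have e : Q - theta p (∑ i ∈ Finset.range N, MvPolynomial.C (MvPolynomial.X i) * w i) =
        ∑ i ∈ Finset.range N, MvPolynomial.C (MvPolynomial.C (1 / (p : ℚ)) * MvPolynomial.X i) *
        (LL p (fun m => (sig p)^[i + 1] (hazL p m)) (N - 1 - i) ((Phi p)^[i + 1] T) -
          (p : PP) * LL p (fun m => (sig p)^[i + 1] (hazL p m)) (N - 1 - i)
            (MvPolynomial.X 0 ^ p ^ (i + 1))) := by
      rw [hQ', map_sum, ← Finset.sum_sub_distrib]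
      refine Finset.sum_congr rfl fun i _ => ?_
      have hp0 : (p : ℚ) ≠ 0 := by exact_mod_cast hp.ne_zero
      have hc : MvPolynomial.C (MvPolynomial.C (1 / (p : ℚ)) * MvPolynomial.X i) * (p : PP) =
          theta p (MvPolynomial.C (MvPolynomial.X i)) := by
        rw [theta_C]
        have : toRat p (MvPolynomial.X i) = MvPolynomial.X i := by simp [toRat]
        rw [this]
        have h3 : (p : PP) = MvPolynomial.C (MvPolynomial.C (p : ℚ)) := by simp
        rw [h3, ← MvPolynomial.C_mul, mul_right_comm, ← MvPolynomial.C_mul,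
          one_div_mul_cancel hp0, MvPolynomial.C_1, one_mul]
      have hwi := hw i
      rw [map_mul (theta p), ← hc]
      linear_combination (MvPolynomial.C (MvPolynomial.C (1 / (p : ℚ)) * MvPolynomial.X i)) * hwi
    rw [e]
    exact Ideal.sum_mem _ fun i hi => Ideal.mul_mem_left _ _
      (partBG hp n N i (Finset.mem_range.1 hi) hN b hb)
  have e : GG p - iota (theta p ((p : BB p) * MvPolynomial.X 0 -
      ∑ i ∈ Finset.range N, MvPolynomial.C (MvPolynomial.X i) * w i)) =
      (GG p - iota ((p : PP) * MvPolynomial.X 0 - Q)) -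
        iota (Q - theta p (∑ i ∈ Finset.range N, MvPolynomial.C (MvPolynomial.X i) * w i)) := by
    rw [map_sub (theta p), map_mul (theta p), map_natCast (theta p), theta_X]
    simp only [map_sub]
    ring
  rw [e]
  exact Ideal.sub_mem _ S1 S2

theorem exists_approx_GG {p : ℕ} (hp : p.Prime) (n : ℕ) :
    ∃ b : BB p, GG p - iota (theta p b) ∈ JJ n := by
  induction n with
  | zero => exact ⟨0, by simpa using GG_mem_JJ_zero p⟩
  | succ n ih =>
    obtain ⟨b, hb⟩ := ih
    choose w hw using fun i : ℕ => partA hp (i + 1) (n + 1 - 1 - i) b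
    exact ⟨_, gstep hp n b hb w hw⟩

end Claimed.Open.R308.Haz
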