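import Claimed.Open.R308.Sanity

/-!
# Result 308: further checks ("teeth") of the definitions of `Statement.lean`

* G: `v_{n+1} ∉ (p, v₁, …, v_n)`; the ideals `(p, v₁, …, v_n)` are strictly increasing; a spectrum
  is a Smith–Toda complex `V(n)` for **at most one** `n` (so `IsSmithTodaHomology p n X` really
  depends on `n`);
* H: the defining relations of `BP_⋆ ⊗_{MU_⋆} MU_⋆X` and of `BP_⋆BP ⊗_{BP_⋆} M` hold in the form
  in which they are used, the canonical coaction is `BP_⋆`-linear in `v`, and a comodule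
  isomorphism produces a primitive generator of degree `0`.

(Hazewinkel's formal group law is checked in `SanityFGL.lean`.)
-/

set_option autoImplicit false

open scoped unitInterval Topology Topology.Homotopy TensorProduct
open CategoryTheory InnerProductSpace

noncomputable section

namespace Claimed.Open.R308

/-! ## G. The ideals `(p, v₁, …, v_n)` -/

/-- The ring homomorphism `BP_⋆ → 𝔽_p[t]`, `v_{n+1} ↦ t`, `v_i ↦ 0` for `i ≠ n + 1`. -/
def killAllBut (p n : ℕ) :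
    BPCoeff p →+* Polynomial (ZLoc p ⧸ Ideal.span {(p : ZLoc p)}) :=
  MvPolynomial.eval₂Hom (R := ZLoc p) (S₁ := Polynomial (ZLoc p ⧸ Ideal.span {(p : ZLoc p)}))
    ((Polynomial.C : _ →+* Polynomial (ZLoc p ⧸ Ideal.span {(p : ZLoc p)})).comp
      (Ideal.Quotient.mk (Ideal.span {(p : ZLoc p)})))
    (fun i => if i = n then Polynomial.X else 0)

theorem smithTodaIdeal_le_ker_killAllBut (p n : ℕ) :
    smithTodaIdeal p n ≤ RingHom.ker (killAllBut p n) := by
  refine Ideal.span_le.2 ?_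
  rintro _ ⟨k, rfl⟩
  change killAllBut p n (vGen p k) = 0
  rcases k with ⟨_ | k, hk⟩
  · have h : (Ideal.Quotient.mk (Ideal.span {(p : ZLoc p)})) (p : ZLoc p) = 0 :=
      Ideal.Quotient.eq_zero_iff_mem.2 (Ideal.subset_span rfl)
    have h2 : ((p : ℕ) : Polynomial (ZLoc p ⧸ Ideal.span {(p : ZLoc p)})) = 0 := by
      rw [← map_natCast (Polynomial.C : _ →+* Polynomial (ZLoc p ⧸ Ideal.span {(p : ZLoc p)})),
        ← map_natCast (Ideal.Quotient.mk (Ideal.span {(p : ZLoc p)})), h, map_zero]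
    simp only [vGen, map_natCast, h2]
  · have : k ≠ n := by omega
    simp [vGen, killAllBut, this]

/-- **`v_{n+1}` is not in `(p, v₁, …, v_n)`.** -/
theorem vGen_succ_not_mem_smithTodaIdeal {p : ℕ} (hp : p.Prime) (n : ℕ) :
    vGen p (n + 1) ∉ smithTodaIdeal p n := by
  intro h
  have h1 : killAllBut p n (vGen p (n + 1)) = 0 := smithTodaIdeal_le_ker_killAllBut p n h
  have : Nontrivial (ZLoc p ⧸ Ideal.span {(p : ZLoc p)}) :=
    Ideal.Quotient.nontrivial_iff.2 (fun h => not_isUnit_p_ZLoc hp (Ideal.span_singleton_eq_top.1 h))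
  simp [vGen, killAllBut] at h1

theorem smithTodaIdeal_mono (p : ℕ) {m n : ℕ} (h : m ≤ n) :
    smithTodaIdeal p m ≤ smithTodaIdeal p n := by
  refine Ideal.span_le.2 ?_
  rintro _ ⟨k, rfl⟩
  exact vGen_mem_smithTodaIdeal p n k (by omega)

/-- The ideals `(p, v₁, …, v_n)` are pairwise different. -/
theorem smithTodaIdeal_injective {p : ℕ} (hp : p.Prime) :
    Function.Injective (smithTodaIdeal p) := by
  have key : ∀ m n : ℕ, m < n → smithTodaIdeal p m ≠ smithTodaIdeal p n := by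
    intro m n hmn h
    exact vGen_succ_not_mem_smithTodaIdeal hp m
      (h ▸ vGen_mem_smithTodaIdeal p n (m + 1) (by omega))
  intro m n h
  rcases lt_trichotomy m n with h' | h' | h'
  · exact absurd h (key m n h')
  · exact h'
  · exact absurd h.symm (key n m h')

/-- **A spectrum is a Smith–Toda complex `V(n)` for at most one `n`.** -/
theorem IsSmithTodaHomology.height_unique {p : ℕ} (hp : p.Prime) {m n : ℕ} {X : Spectrum}
    (h : IsSmithTodaHomology p m X) (h' : IsSmithTodaHomology p n X) : m = n := by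
  obtain ⟨φ, -⟩ := h
  obtain ⟨φ', -⟩ := h'
  have e := (φ.symm.trans φ').annihilator_eq
  rw [Ideal.annihilator_quotient, Ideal.annihilator_quotient] at e
  exact smithTodaIdeal_injective hp e

/-- On a Smith–Toda complex `V(n)`, multiplication by `p`, `v₁`, …, `v_n` is zero … -/
theorem IsSmithTodaHomology.vGen_smul_eq_zero {p n : ℕ} {X : Spectrum}
    (h : IsSmithTodaHomology p n X) {k : ℕ} (hk : k ≤ n) (x : BPHomology p X) :
    vGen p k • x = 0 := by
  obtain ⟨φ, -⟩ := h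
  apply φ.injective
  rw [map_smul, map_zero]
  obtain ⟨w, hw⟩ := Ideal.Quotient.mk_surjective (φ x)
  rw [← hw]
  change Ideal.Quotient.mk (smithTodaIdeal p n) (vGen p k * w) = 0
  exact Ideal.Quotient.eq_zero_iff_mem.2
    (Ideal.mul_mem_right _ _ (vGen_mem_smithTodaIdeal p n k hk))

/-- … and multiplication by `v_{n+1}` is not. -/
theorem IsSmithTodaHomology.vGen_succ_smul_ne_zero {p : ℕ} (hp : p.Prime) {n : ℕ} {X : Spectrum}
    (h : IsSmithTodaHomology p n X) : ∃ x : BPHomology p X, vGen p (n + 1) • x ≠ 0 := by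
  obtain ⟨φ, -⟩ := h
  refine ⟨φ.symm 1, fun h0 => vGen_succ_not_mem_smithTodaIdeal hp n ?_⟩
  have := congrArg φ h0
  rw [map_smul, LinearEquiv.apply_symm_apply, map_zero] at this
  change Ideal.Quotient.mk (smithTodaIdeal p n) (vGen p (n + 1) * 1) = 0 at this
  rw [mul_one] at this
  exact Ideal.Quotient.eq_zero_iff_mem.1 this

/-! ## H. The tensor relations, in the form in which they are used -/

theorem BPHomology.smul_mk {p : ℕ} {X : Spectrum} (c v : BPCoeff p) (x : (MUX X).PiStar) :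
    c • BPHomology.mk v x = BPHomology.mk (c * v) x := rfl

/-- In `BP_⋆X = BP_⋆ ⊗_{MU_⋆} MU_⋆X`: `v ⊗ a x = θ(a) v ⊗ x` for a coefficient `a` of the formal
group law of `MU` with image `c = θ(a)` in `BP_⋆`. -/
theorem BPHomology.mk_actX {p : ℕ} {X : Spectrum} {r : MUsys.Rep} {c : BPCoeff p}
    (h : IsImageOfCoeff p r c) (v : BPCoeff p) (g : (MUX X).Rep) :
    BPHomology.mk v ((MUX X).cls (actX r g)) = c • BPHomology.mk v ((MUX X).cls g) := by
  rw [BPHomology.smul_mk]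
  have hm : (c * v) ⊗ₜ[ℤ] (MUX X).cls g - v ⊗ₜ[ℤ] (MUX X).cls (actX r g) ∈ bpRel p X :=
    ⟨r, c, v, g, h, rfl⟩
  exact ((Submodule.Quotient.eq _).2 (Submodule.subset_span hm)).symm

/-- `v ⊗ x` is homogeneous of degree `|v| + |x|`. -/
theorem BPHomology.mk_mem_deg {p : ℕ} {X : Spectrum} {v : BPCoeff p} {d : ℕ}
    (hv : MvPolynomial.IsWeightedHomogeneous (vDeg p) v d) {x : (MUX X).PiStar} {k : ℤ}
    (hx : x ∈ (MUX X).piDeg k) : BPHomology.mk v x ∈ BPHomology.deg p X (d + k) :=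
  AddSubgroup.subset_closure ⟨d, k, v, x, hv, hx, rfl, rfl⟩

section CoExtChecks

variable {p : ℕ} {M : Type} [AddCommGroup M] [Module (BPCoeff p) M]

theorem CoExt.smul_mk (c v : BPCoeff p) (x : MUMU.PiStar) (m : M) :
    c • CoExt.mk v x m = CoExt.mk (c * v) x m := rfl

/-- In `BP_⋆BP ⊗_{BP_⋆} M`: the left unit, `v ⊗ η_L(a) x ⊗ m = θ(a) v ⊗ x ⊗ m`. -/
theorem CoExt.mk_actFst {r : MUsys.Rep} {c : BPCoeff p} (h : IsImageOfCoeff p r c)
    (v : BPCoeff p) (g : MUMU.Rep) (m : M) :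
    CoExt.mk v (MUMU.cls (actFst r g)) m = c • CoExt.mk v (MUMU.cls g) m := by
  rw [CoExt.smul_mk]
  have hm : (c * v) ⊗ₜ[ℤ] (MUMU.cls g ⊗ₜ[ℤ] m) - v ⊗ₜ[ℤ] (MUMU.cls (actFst r g) ⊗ₜ[ℤ] m) ∈
      coExtRel p M := ⟨r, c, v, g, m, h, Or.inl rfl⟩
  exact ((Submodule.Quotient.eq _).2 (Submodule.subset_span hm)).symm

/-- In `BP_⋆BP ⊗_{BP_⋆} M`: the right unit, `v ⊗ x η_R(a) ⊗ m = v ⊗ x ⊗ θ(a) m`. -/
theorem CoExt.mk_actSnd {r : MUsys.Rep} {c : BPCoeff p} (h : IsImageOfCoeff p r c)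
    (v : BPCoeff p) (g : MUMU.Rep) (m : M) :
    CoExt.mk v (MUMU.cls (actSnd r g)) m = CoExt.mk v (MUMU.cls g) (c • m) := by
  have hm : v ⊗ₜ[ℤ] (MUMU.cls (actSnd r g) ⊗ₜ[ℤ] m) - v ⊗ₜ[ℤ] (MUMU.cls g ⊗ₜ[ℤ] (c • m)) ∈
      coExtRel p M := ⟨r, c, v, g, m, h, Or.inr rfl⟩
  exact (Submodule.Quotient.eq _).2 (Submodule.subset_span hm)

theorem CoExt.map_mk {M' : Type} [AddCommGroup M'] [Module (BPCoeff p) M']
    (φ : M →ₗ[BPCoeff p] M') (v : BPCoeff p) (x : MUMU.PiStar) (m : M) :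
    CoExt.map φ (CoExt.mk v x m) = CoExt.mk v x (φ m) := rfl

end CoExtChecks

/-- The canonical coaction of `BP_⋆/(p, v₁, …, v_n)` is `BP_⋆`-linear: `ψ[v] = v · ψ[1]`. -/
theorem quotCoaction_eq_smul (p n : ℕ) (v : BPCoeff p) :
    quotCoaction p n v = v • quotCoaction p n 1 := by
  rw [quotCoaction, quotCoaction, CoExt.smul_mk, mul_one]

/-- The generating pairs of the graph of the coaction. -/
theorem mem_coactionGraph {p : ℕ} {X : Spectrum} (g : (MUX X).Rep)
    (y : FreeAbelianGroup (MUMU.Rep × (MUX X).Rep))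
    (h : kunnethHom X y = (MUMUX X).cls (etaRep g)) :
    (BPHomology.mk 1 ((MUX X).cls g), tensorHom p X y) ∈ coactionGraph p X :=
  Submodule.subset_span ⟨g, y, h, rfl⟩

/-- A comodule isomorphism sends the generator `φ⁻¹(1)` to a primitive element: every value of
the coaction at it is mapped to `1 ⊗ [1]`. -/
theorem IsSmithTodaHomology.exists_primitive {p n : ℕ} {X : Spectrum}
    (h : IsSmithTodaHomology p n X) :
    ∃ (φ : BPHomology p X ≃ₗ[BPCoeff p] (BPCoeff p ⧸ smithTodaIdeal p n)) (x : BPHomology p X)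
      (y : CoExt p (BPHomology p X)), x ∈ BPHomology.deg p X 0 ∧ φ x = 1 ∧
        (x, y) ∈ coactionGraph p X ∧ CoExt.map φ.toLinearMap y = quotCoaction p n 1 := by
  obtain ⟨φ, h1, h2, h3⟩ := h
  obtain ⟨y, hy⟩ := h2 (φ.symm 1)
  refine ⟨φ, φ.symm 1, y, ?_, φ.apply_symm_apply 1, hy, h3 _ y 1 hy ?_⟩
  · rw [h1, φ.apply_symm_apply]
    exact one_mem_quotDeg p n
  · rw [φ.apply_symm_apply, map_one]

end Claimed.Open.R308
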