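/- R308 sanity, the `p`-series of Hazewinkel's law: `[p]_F(x) ≡ v_{n+1} x^{p^{n+1}}` modulo `(p, v₁, …, v_n)` and higher terms. -/
import Claimed.Open.R308.SanityHazPStep
import Claimed.Open.R308.SanityHazPOrd
import Claimed.Open.R308.SanityTeeth

set_option autoImplicit false

namespace Claimed.Open.R308

open Haz

/-- **The `p`-series of Hazewinkel's law modulo `(p, v₁, …, v_n)`** (Ravenel, *Complex cobordism*, A2.2.4 and 4.3.2): the coefficient of `x^k` in
`[p]_F(x) = log⁻¹(p log x)` lies in `BP_⋆`; for `k < p^{n+1}` it lies in `(p, v₁, …, v_n)`, and for `k = p^{n+1}` it is `v_{n+1}` modulo this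
ideal.  So `smithTodaIdeal p n` is the ideal "height `> n`" of the formal group law of `BP`, and `vGen p (n + 1)` is the class that
detects height `n + 1`. -/
theorem hazPSeries_height {p : ℕ} (hp : p.Prime) (n k : ℕ) (hk : k ≤ p ^ (n + 1)) :
    ∃ c : BPCoeff p, toRat p c = PowerSeries.coeff k (hazPSeries p) ∧
      c - (if k = p ^ (n + 1) then vGen p (n + 1) else 0) ∈ smithTodaIdeal p n := by
  classical
  set D := p ^ (n + 1) with hD
  have hnD : n + 1 < D := Nat.lt_pow_self hp.one_lt
  obtain ⟨b, hb⟩ := exists_approx_GG hp D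
  choose w hw using fun i : ℕ => partA hp (i + 1) (D + 1 - 1 - i) b
  have hG := gstep hp D b hb w hw
  set d : Fin 2 →₀ ℕ := Finsupp.single 0 k with hd
  have hdd : d.degree = k := Finsupp.degree_single _ _
  refine ⟨MvPolynomial.coeff d ((p : BB p) * MvPolynomial.X 0 -
      ∑ i ∈ Finset.range (D + 1), MvPolynomial.C (MvPolynomial.X i) * w i), ?_, ?_⟩
  · have h := hG d (by rw [hdd]; omega)
    rw [map_sub, sub_eq_zero, coeff_GG] at h
    rw [h, ← coeff_theta]
    exact (MvPolynomial.coeff_coe _ _).symm
  · have hb0 : theta p b ∈ II 0 := by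
      rw [mem_II]
      have := Ideal.sub_mem _ (GG_mem_JJ_zero p) (JJ_anti (Nat.zero_le D) hb)
      simpa using this
    have hb1 : theta p b - (p : PP) * MvPolynomial.X 0 ∈ II 1 := by
      rw [mem_II]
      have h1 := EG hp 0 1 (by simpa using hp.one_lt)
      have h2 : GG p - (p : RR) * MvPowerSeries.X 0 ∈ JJ 1 := by simpa [hazL] using h1
      have h3 := JJ_anti (show 1 ≤ D by omega) hb
      have e : iota (theta p b - (p : PP) * MvPolynomial.X 0) =
          (GG p - (p : RR) * MvPowerSeries.X 0) - (GG p - iota (theta p b)) := by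
        rw [map_sub, map_mul, map_natCast, iota_X]; ring
      rw [e]
      exact Ideal.sub_mem _ h2 h3
    have hpI : (p : BPCoeff p) ∈ smithTodaIdeal p n :=
      vGen_mem_smithTodaIdeal p n 0 (Nat.zero_le n)
    have hc : MvPolynomial.coeff d ((p : BB p) * MvPolynomial.X 0 -
        ∑ i ∈ Finset.range (D + 1), MvPolynomial.C (MvPolynomial.X i) * w i) =
        (p : BPCoeff p) * MvPolynomial.coeff d (MvPolynomial.X 0 : BB p) -
          ∑ i ∈ Finset.range (D + 1), MvPolynomial.X i * MvPolynomial.coeff d (w i) := by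
      have h3 : (p : BB p) = MvPolynomial.C (p : BPCoeff p) := by simp
      rw [MvPolynomial.coeff_sub, MvPolynomial.coeff_sum, h3, MvPolynomial.coeff_C_mul]
      congr 1
      exact Finset.sum_congr rfl fun i _ => MvPolynomial.coeff_C_mul _ _ _
    rw [hc, ← Finset.add_sum_erase _ _ (Finset.mem_range.2 (show n < D + 1 by omega))]
    have e : (p : BPCoeff p) * MvPolynomial.coeff d (MvPolynomial.X 0 : BB p) -
        (MvPolynomial.X n * MvPolynomial.coeff d (w n) +
          ∑ i ∈ (Finset.range (D + 1)).erase n, MvPolynomial.X i * MvPolynomial.coeff d (w i)) -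
        (if k = D then vGen p (n + 1) else 0) =
        (p : BPCoeff p) * MvPolynomial.coeff d (MvPolynomial.X 0 : BB p) -
        ∑ i ∈ (Finset.range (D + 1)).erase n, MvPolynomial.X i * MvPolynomial.coeff d (w i) -
        (MvPolynomial.X n * MvPolynomial.coeff d (w n) +
          (if k = D then vGen p (n + 1) else 0)) := by ring
    rw [e]
    refine Ideal.sub_mem _ (Ideal.sub_mem _ (Ideal.mul_mem_right _ _ hpI)
      (Ideal.sum_mem _ fun i hi => ?_)) ?_
    · rw [Finset.mem_erase, Finset.mem_range] at hi
      rcases lt_or_gt_of_ne hi.1 with h | h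
      · exact Ideal.mul_mem_right _ _
          (vGen_mem_smithTodaIdeal p n (i + 1) (show i + 1 ≤ n by omega))
      · have hlt : d.degree < p ^ (i + 1) := by
          rw [hdd]
          exact lt_of_le_of_lt hk (Nat.pow_lt_pow_right hp.one_lt (by omega))
        rw [w_order hp (i + 1) _ b (w i) hb0 (hw i) d hlt, mul_zero]
        exact Ideal.zero_mem _
    · split_ifs with hkD
      · have hl := w_lead hp (n + 1) _ b (w n) hb1 (hw n)
        rw [hd, hkD, hD, hl]
        have e2 : (MvPolynomial.X n : BPCoeff p) * ((p : BPCoeff p) ^ (p ^ (n + 1) - 1) - 1) +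
            vGen p (n + 1) =
            (MvPolynomial.X n * (p : BPCoeff p) ^ (p ^ (n + 1) - 2)) * (p : BPCoeff p) := by
          have h5 : p ^ (n + 1) - 1 = (p ^ (n + 1) - 2) + 1 := by omega
          rw [h5, pow_succ]
          show _ + MvPolynomial.X n = _
          ring
        rw [e2]
        exact Ideal.mul_mem_left _ _ hpI
      · have hlt : d.degree < p ^ (n + 1) := by
          rw [hdd]; omega
        rw [w_order hp (n + 1) _ b (w n) hb0 (hw n) d hlt, mul_zero, add_zero]
        exact Ideal.zero_mem _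

/-- The `p`-series of Hazewinkel's law has coefficients in `BP_⋆`. -/
theorem hazPSeries_integral {p : ℕ} (hp : p.Prime) (k : ℕ) :
    ∃ c : BPCoeff p, toRat p c = PowerSeries.coeff k (hazPSeries p) := by
  obtain ⟨c, hc, -⟩ := hazPSeries_height hp k k
    ((Nat.lt_succ_self k).le.trans (Nat.lt_pow_self hp.one_lt).le)
  exact ⟨c, hc⟩

/-- **Exact height**: modulo `(p, v₁, …, v_n)` the coefficients of `x^k`, `k < p^{n+1}`, of the `p`-series vanish and the coefficient of `x^{p^{n+1}}`
does not: over `BP_⋆/(p, v₁, …, v_n)` Hazewinkel's law has height exactly `n + 1` (generically), and the next generator `v_{n+1}` is the obstruction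
to greater height. -/
theorem hazPSeries_height_exact {p : ℕ} (hp : p.Prime) (n : ℕ) :
    (∀ k < p ^ (n + 1), ∀ c : BPCoeff p, toRat p c = PowerSeries.coeff k (hazPSeries p) →
      c ∈ smithTodaIdeal p n) ∧
    ∀ c : BPCoeff p, toRat p c = PowerSeries.coeff (p ^ (n + 1)) (hazPSeries p) →
      c ∉ smithTodaIdeal p n ∧ c ∈ smithTodaIdeal p (n + 1) := by
  constructor
  · intro k hk c hc
    obtain ⟨c', hc', h⟩ := hazPSeries_height hp n k hk.le
    rw [if_neg hk.ne, sub_zero] at h
    rwa [toRat_injective p (hc.trans hc'.symm)]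
  · intro c hc
    obtain ⟨c', hc', h⟩ := hazPSeries_height hp n (p ^ (n + 1)) le_rfl
    rw [if_pos rfl] at h
    rw [toRat_injective p (hc.trans hc'.symm)]
    constructor
    · intro h2
      apply vGen_succ_not_mem_smithTodaIdeal hp n
      have := Ideal.sub_mem _ h2 h
      simpa using this
    · have h3 := Ideal.add_mem _ (smithTodaIdeal_mono p (Nat.le_succ n) h)
        (vGen_mem_smithTodaIdeal p (n + 1) (n + 1) le_rfl)
      simpa using h3

end Claimed.Open.R308
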