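/- R308 sanity: `p` is a prime element of `ℤ_(p)`. -/
import Claimed.Open.R308.Sanity

set_option autoImplicit false

namespace Claimed.Open.R308

/-- If `p` divides the numerator of `x ∈ ℤ_(p)`, then `p ∣ x` in `ℤ_(p)`. -/
theorem p_dvd_ZLoc_of_dvd_num {p : ℕ} (hp : p.Prime) (x : ZLoc p)
    (h : (p : ℤ) ∣ (x : ℚ).num) : (p : ZLoc p) ∣ x := by
  obtain ⟨k, hk⟩ := h
  have hden : ¬ p ∣ (x : ℚ).den := (mem_ZLoc_iff hp _).1 x.2
  have h1 : (((x : ℚ).den : ℤ) : ℚ)⁻¹ ∈ ZLoc p :=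
    Subring.subset_closure ⟨(x : ℚ).den, fun h' => hden (Int.natCast_dvd_natCast.1 h'), rfl⟩
  have h2 : (k : ℚ) ∈ ZLoc p := intCast_mem _ _
  refine ⟨⟨(k : ℚ) * (((x : ℚ).den : ℤ) : ℚ)⁻¹, mul_mem h2 h1⟩, ?_⟩
  apply Subtype.ext
  have hx : (x : ℚ) = ((x : ℚ).num : ℚ) * (((x : ℚ).den : ℤ) : ℚ)⁻¹ := by
    rw [Int.cast_natCast, ← div_eq_mul_inv, Rat.num_div_den]
  have hk' : (((x : ℚ).num : ℤ) : ℚ) = (p : ℚ) * (k : ℚ) := by
    rw [hk]; push_cast; ring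
  change (x : ℚ) = ((p : ZLoc p) : ℚ) * ((k : ℚ) * (((x : ℚ).den : ℤ) : ℚ)⁻¹)
  have hpc : ((p : ZLoc p) : ℚ) = (p : ℚ) := by simp
  rw [hpc, ← mul_assoc, ← hk']
  exact hx

/-- `p` is a prime element of `ℤ_(p)` (`mem_ZLoc_iff`: `x ∈ ℤ_(p) ↔ p ∤ x.den`; if `a b = p c` then `p ∣ a.num * b.num * c.den` in `ℤ`, so `p ∣ a.num` or
`p ∣ b.num`, and `a = p · (a / p)` with `(a / p).den ∣ a.den`; not a unit: `not_isUnit_p_ZLoc`). -/
theorem prime_p_ZLoc {p : ℕ} (hp : p.Prime) : Prime (p : ZLoc p) := by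
  have hpZ : Prime (p : ℤ) := Nat.prime_iff_prime_int.1 hp
  refine ⟨?_, not_isUnit_p_ZLoc hp, ?_⟩
  · intro h
    have := congrArg Subtype.val h
    have h0 : (p : ℚ) = 0 := by simpa using this
    exact hp.ne_zero (by exact_mod_cast h0)
  · rintro a b ⟨c, hc⟩
    have hq : (a : ℚ) * (b : ℚ) = (p : ℚ) * (c : ℚ) := by
      have := congrArg Subtype.val hc
      simpa using this
    have hcden : ¬ p ∣ (c : ℚ).den := (mem_ZLoc_iff hp _).1 c.2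
    have ha0 : (((a : ℚ).den : ℕ) : ℚ) ≠ 0 := by exact_mod_cast (a : ℚ).den_nz
    have hb0 : (((b : ℚ).den : ℕ) : ℚ) ≠ 0 := by exact_mod_cast (b : ℚ).den_nz
    have hc0 : (((c : ℚ).den : ℕ) : ℚ) ≠ 0 := by exact_mod_cast (c : ℚ).den_nz
    have hZ : (a : ℚ).num * (b : ℚ).num * ((c : ℚ).den : ℤ)
        = (p : ℤ) * ((c : ℚ).num * ((a : ℚ).den : ℤ) * ((b : ℚ).den : ℤ)) := by
      have hQ : (((a : ℚ).num : ℚ)) * ((b : ℚ).num : ℚ) * (((c : ℚ).den : ℕ) : ℚ)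
          = (p : ℚ) * (((c : ℚ).num : ℚ) * (((a : ℚ).den : ℕ) : ℚ) * (((b : ℚ).den : ℕ) : ℚ)) := by
        rw [← Rat.num_div_den (a : ℚ), ← Rat.num_div_den (b : ℚ), ← Rat.num_div_den (c : ℚ)] at hq
        field_simp at hq
        linarith
      exact_mod_cast hQ
    have hdvd : (p : ℤ) ∣ (a : ℚ).num * (b : ℚ).num * ((c : ℚ).den : ℤ) := ⟨_, hZ⟩
    rcases hpZ.dvd_or_dvd hdvd with h | h
    · rcases hpZ.dvd_or_dvd h with h | h
      · exact Or.inl (p_dvd_ZLoc_of_dvd_num hp a h)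
      · exact Or.inr (p_dvd_ZLoc_of_dvd_num hp b h)
    · exact absurd (Int.natCast_dvd_natCast.1 h) hcden

instance isDomain_ZLoc_quot {p : ℕ} [hp : Fact p.Prime] :
    IsDomain (ZLoc p ⧸ Ideal.span {(p : ZLoc p)}) := by
  have : (Ideal.span {(p : ZLoc p)}).IsPrime :=
    (Ideal.span_singleton_prime (prime_p_ZLoc hp.out).ne_zero).2 (prime_p_ZLoc hp.out)
  exact Ideal.Quotient.isDomain _

end Claimed.Open.R308
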