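/- R308 sanity: `(p, v₁, …, v_n)` is a prime ideal of `BP_⋆`, and `p, v₁, v₂, …` is a regular sequence. -/
import Claimed.Open.R308.SanityHazPrimeZ
import Claimed.Open.R308.SanityTeeth

set_option autoImplicit false

noncomputable section

namespace Claimed.Open.R308

/-- `BP_⋆ → 𝔽_p[v₁, v₂, …]`, `v_k ↦ 0` for `k ≤ n`, coefficients reduced modulo `p` -/
def killLow (p n : ℕ) : BPCoeff p →+* MvPolynomial ℕ (ZLoc p ⧸ Ideal.span {(p : ZLoc p)}) :=
  MvPolynomial.eval₂Hom (MvPolynomial.C.comp (Ideal.Quotient.mk (Ideal.span {(p : ZLoc p)})))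
    (fun i => if i < n then 0 else MvPolynomial.X i)

theorem smithTodaIdeal_le_ker_killLow (p n : ℕ) :
    smithTodaIdeal p n ≤ RingHom.ker (killLow p n) := by
  refine Ideal.span_le.2 ?_
  rintro _ ⟨k, rfl⟩
  rw [SetLike.mem_coe, RingHom.mem_ker]
  rcases k with ⟨_ | k, hk⟩
  · have h : (Ideal.Quotient.mk (Ideal.span {(p : ZLoc p)})) (p : ZLoc p) = 0 :=
      Ideal.Quotient.eq_zero_iff_mem.2 (Ideal.subset_span rfl)
    show killLow p n (p : BPCoeff p) = 0
    rw [map_natCast, ← map_natCast (MvPolynomial.C : _ →+* MvPolynomial ℕ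
      (ZLoc p ⧸ Ideal.span {(p : ZLoc p)})), ← map_natCast (Ideal.Quotient.mk
      (Ideal.span {(p : ZLoc p)})), h, map_zero]
  · show killLow p n (MvPolynomial.X k) = 0
    rw [killLow, MvPolynomial.eval₂Hom_X', if_pos (by omega)]

/-- the section `𝔽_p[v] → BP_⋆/(p, v₁, …, v_n)` -/
def killLowSection (p n : ℕ) :
    MvPolynomial ℕ (ZLoc p ⧸ Ideal.span {(p : ZLoc p)}) →+* BPCoeff p ⧸ smithTodaIdeal p n :=
  MvPolynomial.eval₂Hom
    (Ideal.Quotient.lift (Ideal.span {(p : ZLoc p)})
      ((Ideal.Quotient.mk (smithTodaIdeal p n)).comp MvPolynomial.C) (by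
        intro a ha
        obtain ⟨b, rfl⟩ := Ideal.mem_span_singleton.1 ha
        rw [RingHom.comp_apply, map_mul, map_mul]
        have : Ideal.Quotient.mk (smithTodaIdeal p n) (MvPolynomial.C (p : ZLoc p)) = 0 := by
          rw [map_natCast]
          exact Ideal.Quotient.eq_zero_iff_mem.2 (vGen_mem_smithTodaIdeal p n 0 (Nat.zero_le n))
        rw [this, zero_mul]))
    (fun i => Ideal.Quotient.mk (smithTodaIdeal p n) (MvPolynomial.X i))

theorem killLowSection_comp_killLow (p n : ℕ) :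
    (killLowSection p n).comp (killLow p n) = Ideal.Quotient.mk (smithTodaIdeal p n) := by
  refine MvPolynomial.ringHom_ext (fun c => ?_) (fun i => ?_)
  · rw [RingHom.comp_apply, killLow, MvPolynomial.eval₂Hom_C, RingHom.comp_apply, killLowSection,
      MvPolynomial.eval₂Hom_C, Ideal.Quotient.lift_mk, RingHom.comp_apply]
  · rw [RingHom.comp_apply, killLow, MvPolynomial.eval₂Hom_X']
    split_ifs with h
    · rw [map_zero]
      exact (Ideal.Quotient.eq_zero_iff_mem.2
        (vGen_mem_smithTodaIdeal p n (i + 1) (by omega))).symm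
    · rw [killLowSection, MvPolynomial.eval₂Hom_X']

/-- `(p, v₁, …, v_n)` is the kernel of `BP_⋆ → 𝔽_p[v_{n+1}, v_{n+2}, …]` -/
theorem ker_killLow (p n : ℕ) : RingHom.ker (killLow p n) = smithTodaIdeal p n := by
  apply le_antisymm _ (smithTodaIdeal_le_ker_killLow p n)
  intro x hx
  rw [RingHom.mem_ker] at hx
  rw [← Ideal.Quotient.eq_zero_iff_mem, ← killLowSection_comp_killLow, RingHom.comp_apply, hx,
    map_zero]

/-- **`(p, v₁, …, v_n)` is a prime ideal of `BP_⋆`** (with `smithTodaIdeal_map_eq_of_isFGHom`: these are Landweber's invariant prime ideals). -/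
theorem smithTodaIdeal_isPrime {p : ℕ} (hp : p.Prime) (n : ℕ) : (smithTodaIdeal p n).IsPrime := by
  have : Fact p.Prime := ⟨hp⟩
  rw [← ker_killLow]
  exact RingHom.ker_isPrime _

/-- **`p, v₁, v₂, …` is a regular sequence**: `v_{n+1}` is not a zero divisor on `BP_⋆/(p, v₁, …, v_n)`. -/
theorem vGen_succ_mul_mem_smithTodaIdeal_iff {p : ℕ} (hp : p.Prime) (n : ℕ) (x : BPCoeff p) :
    vGen p (n + 1) * x ∈ smithTodaIdeal p n ↔ x ∈ smithTodaIdeal p n := by
  constructor
  · intro h
    exact ((smithTodaIdeal_isPrime hp n).mem_or_mem h).resolve_left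
      (vGen_succ_not_mem_smithTodaIdeal hp n)
  · exact fun h => Ideal.mul_mem_left _ _ h

/-- the quotient `BP_⋆/(p, v₁, …, v_n)`, the target of the statement, is an integral domain -/
theorem isDomain_quot_smithTodaIdeal {p : ℕ} (hp : p.Prime) (n : ℕ) :
    IsDomain (BPCoeff p ⧸ smithTodaIdeal p n) := by
  have := smithTodaIdeal_isPrime hp n
  exact Ideal.Quotient.isDomain _

end Claimed.Open.R308
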