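import Claimed.Open.R308.SanityHazStep

/-!
# Result 308: integrality of Hazewinkel's formal group law, in the form in which `Statement.lean` uses it

`SanityHazStep.lean` proves `hazCoeff_integral`.  Two consequences:

* `existsUnique_hazCoeff_integral`: the coefficient of `x^i y^j` is the image of exactly one element of `BP_⋆`;
* `IsFGLFamily.exists_isImageOfCoeff`: for a family `f` of representatives of the coefficients `a_ij` of the formal group law of `MU` (`IsFGLFamily f`), every `f i j`
  has an image in `BP_⋆` in the sense of `IsImageOfCoeff`.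
-/

set_option autoImplicit false

namespace Claimed.Open.R308

/-- The coefficient of `x^i y^j` of Hazewinkel's law is the image of exactly one element of `BP_⋆`. -/
theorem existsUnique_hazCoeff_integral {p : ℕ} (hp : p.Prime) (i j : ℕ) :
    ∃! c : BPCoeff p, toRat p c = hazCoeff p i j := by
  obtain ⟨c, hc⟩ := hazCoeff_integral hp i j
  exact ⟨c, hc, fun c' hc' => toRat_injective p (hc'.trans hc.symm)⟩

/-- Every coefficient `a_ij` of the formal group law of `MU` has an image `θ(a_ij) ∈ BP_⋆` in the sense of `IsImageOfCoeff`:
no tensor relation of `BP_⋆ ⊗_{MU_⋆} –` is missing for want of integrality. -/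
theorem IsFGLFamily.exists_isImageOfCoeff {f : ℕ → ℕ → MUsys.Rep} (hf : IsFGLFamily f)
    {p : ℕ} (hp : p.Prime) (i j : ℕ) : ∃ c : BPCoeff p, IsImageOfCoeff p (f i j) c := by
  obtain ⟨c, hc⟩ := hazCoeff_integral hp i j
  exact ⟨c, f, i, j, hf, rfl, hc⟩

end Claimed.Open.R308
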