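/- R308 sanity: the coefficients of Hazewinkel's law generate `BP_⋆` over `ℤ_(p)`: `θ : MU_⋆ ⊗ ℤ_(p) → BP_⋆` is onto. -/
import Claimed.Open.R308.SanityHazPTop
import Claimed.Open.R308.SanityHazHomog
import Claimed.Open.R308.SanityHazTop
import Claimed.Open.R308.SanityHazPrime

/-!
# Result 308: the coefficients of Hazewinkel's law generate `BP_⋆`

`BP_⋆X` is defined as `BP_⋆ ⊗_{MU_⋆} MU_⋆X`, where `θ : MU_⋆ → BP_⋆` is given on the coefficients `a_ij` of the formal group law of `MU` by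
`θ(a_ij) =` the coefficient of `x^i y^j` of Hazewinkel's law (`IsImageOfCoeff`).  Here: these coefficients generate `BP_⋆ = ℤ_(p)[v₁, v₂, …]` as an algebra over
`ℤ_(p)` (`hazCoeffAlg_eq_top`), that is `θ ⊗ ℤ_(p)` is onto, as it must be for Quillen's idempotent.  So the action of every `v_k` on `BP_⋆X` is determined by
the action of `MU_⋆` on `MU_⋆X` and the tensor relations.

Proof.  `A ⊆ BP_⋆` the subalgebra generated by the coefficients.  The series `[k]_F(x)` are obtained from `F` by iterated substitution,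
`[k+1]_F(x) = F([k]_F(x), x)`, so their coefficients lie in `A` and are homogeneous.  The coefficient of `x^{p^{n+1}}` of `[p]_F(x)` is `v_{n+1}` modulo
`(p, v₁, …, v_n)` (`hazPSeries_height`) and homogeneous of degree `|v_{n+1}|`, so it is `u v_{n+1} + q(v₁, …, v_n)` with `u ≡ 1` modulo `p`, a unit.  Induction on `n`.
-/

set_option autoImplicit false

noncomputable section

namespace Claimed.Open.R308

open MvPolynomial (IsWeightedHomogeneous)

/-- the `ℤ_(p)`-subalgebra of `BP_⋆` generated by the coefficients of Hazewinkel's law: the image of `θ ⊗ ℤ_(p)` -/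
def hazCoeffAlg (p : ℕ) : Subalgebra (ZLoc p) (BPCoeff p) :=
  Algebra.adjoin (ZLoc p) {c | ∃ i j : ℕ, toRat p c = hazCoeff p i j}

namespace Haz

/-- `B_m`: the elements of `A` that are homogeneous of degree `2m`, in `BP_⋆ ⊗ ℚ` -/
def GB (p m : ℕ) : AddSubgroup KK where
  carrier := {x | ∃ c ∈ hazCoeffAlg p, IsWeightedHomogeneous (vDeg p) c (2 * m) ∧ toRat p c = x}
  add_mem' := by
    rintro _ _ ⟨a, ha, ha', rfl⟩ ⟨b, hb, hb', rfl⟩
    exact ⟨a + b, add_mem ha hb, ha'.add hb', map_add _ _ _⟩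
  zero_mem' := ⟨0, zero_mem _, MvPolynomial.isWeightedHomogeneous_zero _ _ _, map_zero _⟩
  neg_mem' := by
    rintro _ ⟨a, ha, ha', rfl⟩
    exact ⟨-a, neg_mem ha, ha'.neg, map_neg _ _⟩

theorem one_mem_GB (p : ℕ) : (1 : KK) ∈ GB p 0 :=
  ⟨1, one_mem _, by simpa using MvPolynomial.isWeightedHomogeneous_one (ZLoc p) (vDeg p), map_one _⟩

theorem mul_mem_GB {p a b : ℕ} {x y : KK} (hx : x ∈ GB p a) (hy : y ∈ GB p b) :
    x * y ∈ GB p (a + b) := by
  obtain ⟨c, hc, hc', rfl⟩ := hx
  obtain ⟨d, hd, hd', rfl⟩ := hy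
  refine ⟨c * d, mul_mem hc hd, ?_, map_mul _ _ _⟩
  rw [mul_add]
  exact hc'.mul hd'

/-- the coefficients of `F` (`hazCoeff_integral`, `isWeightedHomogeneous_of_toRat_eq_hazCoeff`; `d = single 0 (d 0) + single 1 (d 1)`) -/
theorem coeff_hazFGL_mem_GB {p : ℕ} (hp : p.Prime) (d : Fin 2 →₀ ℕ) :
    MvPowerSeries.coeff d (hazFGL p) ∈ GB p (d.degree - 1) := by
  obtain ⟨c, hc⟩ := hazCoeff_integral hp (d 0) (d 1)
  have hd : Finsupp.single 0 (d 0) + Finsupp.single 1 (d 1) = d := by
    ext i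
    fin_cases i <;> simp
  have h2 : d.degree = d 0 + d 1 := by
    rw [Finsupp.degree_eq_sum, Fin.sum_univ_two]
  refine ⟨c, Algebra.subset_adjoin ⟨d 0, d 1, hc⟩, ?_, ?_⟩
  · rw [h2]
    exact isWeightedHomogeneous_of_toRat_eq_hazCoeff hp hc
  · rw [hc, hazCoeff, hd]

/-- `𝓢_k`: the series in the variables `σ` whose coefficient at a monomial of total degree `n` vanishes for `n < k` and lies in `B_{n-k}` (model: `HH`) -/
def GS (σ : Type) (p k : ℕ) : AddSubgroup (MvPowerSeries σ KK) where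
  carrier := {H | ∀ d : σ →₀ ℕ, (d.degree < k → MvPowerSeries.coeff d H = 0) ∧
    MvPowerSeries.coeff d H ∈ GB p (d.degree - k)}
  add_mem' := by
    intro a b ha hb d
    refine ⟨fun h => by rw [map_add, (ha d).1 h, (hb d).1 h, add_zero], ?_⟩
    rw [map_add]
    exact add_mem (ha d).2 (hb d).2
  zero_mem' := by
    intro d
    exact ⟨fun _ => map_zero _, by rw [map_zero]; exact zero_mem _⟩
  neg_mem' := by
    intro a ha d
    refine ⟨fun h => by rw [map_neg, (ha d).1 h, neg_zero], ?_⟩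
    rw [map_neg]
    exact neg_mem (ha d).2

/-- (copy of `mul_mem_HH`) -/
theorem mul_mem_GS {σ : Type} {p a b : ℕ} {H G : MvPowerSeries σ KK} (hH : H ∈ GS σ p a)
    (hG : G ∈ GS σ p b) : H * G ∈ GS σ p (a + b) := by
  classical
  intro d
  rw [MvPowerSeries.coeff_mul]
  have key : ∀ uv ∈ Finset.HasAntidiagonal.antidiagonal d,
      uv.1.degree + uv.2.degree = d.degree := by
    rintro ⟨u, v⟩ huv
    rw [Finset.HasAntidiagonal.mem_antidiagonal] at huv
    have h := congrArg Finsupp.degree huv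
    rw [map_add] at h
    exact h
  constructor
  · intro hd
    refine Finset.sum_eq_zero fun uv huv => ?_
    have h := key uv huv
    rcases lt_or_ge uv.1.degree a with h1 | h1
    · rw [(hH uv.1).1 h1, zero_mul]
    · rw [(hG uv.2).1 (by omega), mul_zero]
  · refine sum_mem fun uv huv => ?_
    have h := key uv huv
    rcases lt_or_ge uv.1.degree a with h1 | h1
    · rw [(hH uv.1).1 h1, zero_mul]
      exact zero_mem _
    · rcases lt_or_ge uv.2.degree b with h2 | h2
      · rw [(hG uv.2).1 h2, mul_zero]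
        exact zero_mem _
      · have h3 := mul_mem_GB (hH uv.1).2 (hG uv.2).2
        have e : uv.1.degree - a + (uv.2.degree - b) = d.degree - (a + b) := by
          omega
        rw [e] at h3
        exact h3

/-- (copy of `one_mem_HH`) -/
theorem one_mem_GS (σ : Type) (p : ℕ) : (1 : MvPowerSeries σ KK) ∈ GS σ p 0 := by
  classical
  intro d
  refine ⟨fun h => absurd h (Nat.not_lt_zero _), ?_⟩
  rw [MvPowerSeries.coeff_one]
  split_ifs with h
  · subst h
    simpa using one_mem_GB p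
  · exact zero_mem _

theorem pow_mem_GS {σ : Type} {p : ℕ} {H : MvPowerSeries σ KK} (hH : H ∈ GS σ p 1) (k : ℕ) :
    H ^ k ∈ GS σ p k := by
  induction k with
  | zero => simpa using one_mem_GS σ p
  | succ k ih =>
    rw [pow_succ]
    exact mul_mem_GS ih hH

/-- (copy of `X_mem_HH`) -/
theorem X_mem_GS {σ : Type} (p : ℕ) (s : σ) : (MvPowerSeries.X s : MvPowerSeries σ KK) ∈ GS σ p 1 := by
  classical
  intro d
  rw [MvPowerSeries.coeff_X]
  constructor
  · intro hd
    rw [if_neg]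
    rintro rfl
    rw [Finsupp.degree_single] at hd
    omega
  · split_ifs with h
    · subst h
      rw [Finsupp.degree_single]
      simpa using one_mem_GB p
    · exact zero_mem _

/-- **substitution in `F`**: `MvPowerSeries.coeff_subst` (a `finsum` over `d : Fin 2 →₀ ℕ` of `coeff d F • coeff e (f ^ d 0 * g ^ d 1)`), `finsum_induction`,
`coeff_hazFGL_mem_GB`, `pow_mem_GS`, `mul_mem_GS`, `mul_mem_GB`; the term `d = 0` vanishes (`constantCoeff_hazFGL`), the terms with `e.degree < d.degree` vanish -/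
theorem subst_hazFGL_mem_GS {σ : Type} {p : ℕ} (hp : p.Prime) {f g : MvPowerSeries σ KK}
    (hf : f ∈ GS σ p 1) (hg : g ∈ GS σ p 1) :
    MvPowerSeries.subst ![f, g] (hazFGL p) ∈ GS σ p 1 := by
  have hf0 : MvPowerSeries.constantCoeff f = 0 := by
    rw [← MvPowerSeries.coeff_zero_eq_constantCoeff_apply]
    exact (hf 0).1 (by simp)
  have hg0 : MvPowerSeries.constantCoeff g = 0 := by
    rw [← MvPowerSeries.coeff_zero_eq_constantCoeff_apply]
    exact (hg 0).1 (by simp)
  have hb : MvPowerSeries.HasSubst ![f, g] :=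
    MvPowerSeries.hasSubst_of_constantCoeff_zero (fun s => by fin_cases s <;> simpa)
  have hprod : ∀ d : Fin 2 →₀ ℕ, (d.prod fun s k => (![f, g] s) ^ k) ∈ GS σ p d.degree := by
    intro d
    have h1 : (d.prod fun s k => (![f, g] s) ^ k) = f ^ d 0 * g ^ d 1 := by
      rw [Finsupp.prod_fintype _ _ (fun i => pow_zero _), Fin.prod_univ_two]
      rfl
    have h2 : d.degree = d 0 + d 1 := by
      rw [Finsupp.degree_eq_sum, Fin.sum_univ_two]
    rw [h1, h2]
    exact mul_mem_GS (pow_mem_GS hf _) (pow_mem_GS hg _)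
  have hterm : ∀ (e : σ →₀ ℕ) (d : Fin 2 →₀ ℕ),
      (e.degree < 1 → MvPowerSeries.coeff d (hazFGL p) •
        MvPowerSeries.coeff e (d.prod fun s k => (![f, g] s) ^ k) = 0) ∧
      MvPowerSeries.coeff d (hazFGL p) •
        MvPowerSeries.coeff e (d.prod fun s k => (![f, g] s) ^ k) ∈ GB p (e.degree - 1) := by
    intro e d
    rcases Nat.eq_zero_or_pos d.degree with h0 | h0
    · have hd : d = 0 := by
        rwa [Finsupp.degree_eq_zero_iff] at h0
      subst hd
      have : MvPowerSeries.coeff (0 : Fin 2 →₀ ℕ) (hazFGL p) = 0 := by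
        rw [MvPowerSeries.coeff_zero_eq_constantCoeff_apply]
        exact constantCoeff_hazFGL p
      rw [this, zero_smul]
      exact ⟨fun _ => rfl, zero_mem _⟩
    · rcases lt_or_ge e.degree d.degree with h1 | h1
      · rw [((hprod d) e).1 h1, smul_zero]
        exact ⟨fun _ => rfl, zero_mem _⟩
      · refine ⟨fun h => by omega, ?_⟩
        have h2 := mul_mem_GB (coeff_hazFGL_mem_GB hp d) ((hprod d) e).2
        have e1 : d.degree - 1 + (e.degree - d.degree) = e.degree - 1 := by omega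
        rw [e1] at h2
        exact h2
  intro e
  rw [MvPowerSeries.coeff_subst hb]
  refine ⟨fun h => finsum_eq_zero_of_forall_eq_zero fun d => (hterm e d).1 h, ?_⟩
  exact finsum_induction (fun x => x ∈ GB p (e.degree - 1)) (zero_mem _)
    (fun x y hx hy => add_mem hx hy) (fun d => (hterm e d).2)

/-- the coefficients of `[k]_F(x)` lie in `A` and are homogeneous (`hazNSeries_succ` of `SanityHazPLog.lean`: `[k+1]_F(x) = F([k]_F(x), x)`) -/
theorem hazNSeries_mem_GS {p : ℕ} (hp : p.Prime) (k : ℕ) : hazNSeries p k ∈ GS Unit p 1 := by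
  induction k with
  | zero =>
    rw [hazNSeries_zero]
    exact zero_mem _
  | succ k ih =>
    rw [hazNSeries_succ]
    exact subst_hazFGL_mem_GS hp ih (X_mem_GS p ())

end Haz

open Haz

/-- the coefficient of `x^{p^{n+1}}` of `[p]_F(x)`: in `A`, homogeneous of degree `|v_{n+1}|`, and `≡ v_{n+1}` modulo `(p, v₁, …, v_n)` -/
theorem exists_mem_hazCoeffAlg_lead {p : ℕ} (hp : p.Prime) (n : ℕ) :
    ∃ c ∈ hazCoeffAlg p, IsWeightedHomogeneous (vDeg p) c (vDeg p n) ∧
      c - vGen p (n + 1) ∈ smithTodaIdeal p n := by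
  obtain ⟨c, hc, hc', h⟩ := (hazNSeries_mem_GS hp p (Finsupp.single () (p ^ (n + 1)))).2
  obtain ⟨c', h', h2⟩ := hazPSeries_height hp n (p ^ (n + 1)) le_rfl
  rw [if_pos rfl] at h2
  have e : c = c' := toRat_injective p (h.trans h'.symm)
  subst e
  rw [Finsupp.degree_single] at hc'
  exact ⟨c, hc, hc', h2⟩

/-- an element of `ℤ_(p)` that is `≡ 1` modulo `p` is a unit (`mem_ZLoc_iff`; or: `u = a / b`, `p ∤ a`, so `b / a ∈ ℤ_(p)`) -/
theorem isUnit_ZLoc_of_dvd_sub_one {p : ℕ} (hp : p.Prime) {u : ZLoc p}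
    (hu : (p : ZLoc p) ∣ u - 1) : IsUnit u := by
  have hnum : ¬ (p : ℤ) ∣ (u : ℚ).num := by
    intro h
    have h1 : (p : ZLoc p) ∣ 1 := by
      have h2 := dvd_sub (p_dvd_ZLoc_of_dvd_num hp u h) hu
      rwa [sub_sub_cancel] at h2
    exact not_isUnit_p_ZLoc hp (isUnit_of_dvd_one h1)
  have hu0 : (u : ℚ) ≠ 0 := by
    intro h
    apply hnum
    rw [h]
    simp
  have hinv : (u : ℚ)⁻¹ ∈ ZLoc p := by
    rw [mem_ZLoc_iff hp, Rat.den_inv_of_ne_zero hu0]
    intro h
    exact hnum (Int.natCast_dvd.2 h)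
  refine IsUnit.of_mul_eq_one ⟨(u : ℚ)⁻¹, hinv⟩ ?_
  apply Subtype.ext
  exact mul_inv_cancel₀ hu0

/-- the monomials of weight `|v_{n+1}|`: `v_{n+1}` itself, or a monomial in `v₁, …, v_n` (`Finsupp.le_weight_of_ne_zero'`, `vDeg` is strictly monotone) -/
theorem eq_single_or_of_weight_eq {p : ℕ} (hp : p.Prime) {n : ℕ} {s : ℕ →₀ ℕ}
    (hs : Finsupp.weight (vDeg p) s = vDeg p n) :
    s = Finsupp.single n 1 ∨ ∀ i, n ≤ i → s i = 0 := by
  by_cases h : ∀ i, n ≤ i → s i = 0
  · exact Or.inr h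
  left
  push Not at h
  obtain ⟨i, hi, hsi⟩ := h
  have hpos : ∀ j, vDeg p j ≠ 0 := by
    intro j
    have h1 : 1 < p ^ (j + 1) := Nat.one_lt_pow (Nat.succ_ne_zero j) hp.one_lt
    unfold vDeg
    omega
  have e : s = (s - Finsupp.single i 1) + Finsupp.single i 1 := by
    ext j
    by_cases hj : j = i
    · subst hj
      simp only [Finsupp.add_apply, Finsupp.tsub_apply, Finsupp.single_eq_same]
      omega
    · simp [Ne.symm hj]
  have hw : Finsupp.weight (vDeg p) (s - Finsupp.single i 1) + vDeg p i = vDeg p n := by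
    rw [← hs]
    conv_rhs => rw [e]
    rw [map_add, Finsupp.weight_single, smul_eq_mul, one_mul]
  have hmono : i ≠ n → vDeg p n < vDeg p i := by
    intro hne
    have h1 : p ^ (n + 1) < p ^ (i + 1) := Nat.pow_lt_pow_right hp.one_lt (by omega)
    have h2 : 1 ≤ p ^ (n + 1) := Nat.one_le_pow _ _ hp.pos
    unfold vDeg
    omega
  have hin : i = n := by
    by_contra hne
    have := hmono hne
    omega
  subst hin
  have h0 : Finsupp.weight (vDeg p) (s - Finsupp.single i 1) = 0 := by omega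
  have ht : s - Finsupp.single i 1 = 0 := by
    ext j
    have := Finsupp.le_weight (vDeg p) (hpos j) (s - Finsupp.single i 1)
    rw [h0] at this
    simpa using this
  rw [e, ht, zero_add]

/-- a monomial in `v₁, …, v_n` lies in a subalgebra that contains `v₁, …, v_n` (`MvPolynomial.monomial_eq`, `Subalgebra.prod_mem` / `Finsupp.prod`) -/
theorem monomial_mem_of_forall_X_mem {p n : ℕ} (A : Subalgebra (ZLoc p) (BPCoeff p))
    (hA : ∀ i < n, (MvPolynomial.X i : BPCoeff p) ∈ A) {s : ℕ →₀ ℕ} (hs : ∀ i, n ≤ i → s i = 0)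
    (c : ZLoc p) : MvPolynomial.monomial s c ∈ A := by
  rw [MvPolynomial.monomial_eq, MvPolynomial.C_mul']
  refine A.smul_mem ?_ c
  refine prod_mem fun i hi => pow_mem (hA i ?_) _
  by_contra hcon
  exact (Finsupp.mem_support_iff.1 hi) (hs i (by omega))

/-- the coefficient of `v_{n+1}` in an element `≡ v_{n+1}` modulo `(p, v₁, …, v_n)` is `≡ 1` modulo `p` (apply `killLow p n`, `ker_killLow`, and take the coefficient
of `single n 1`; or induction on the span) -/
theorem dvd_coeff_single_sub_one {p : ℕ} (n : ℕ) {c : BPCoeff p}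
    (hc : c - vGen p (n + 1) ∈ smithTodaIdeal p n) :
    (p : ZLoc p) ∣ MvPolynomial.coeff (Finsupp.single n 1) c - 1 := by
  classical
  obtain ⟨a, ha⟩ := Ideal.mem_span_range_iff_exists_fun.1 hc
  have h1 : MvPolynomial.coeff (Finsupp.single n 1) (c - vGen p (n + 1)) =
      MvPolynomial.coeff (Finsupp.single n 1) c - 1 := by
    rw [MvPolynomial.coeff_sub]
    congr 1
    show MvPolynomial.coeff (Finsupp.single n 1) (MvPolynomial.X n : BPCoeff p) = 1
    rw [MvPolynomial.coeff_X, if_pos rfl]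
  rw [← h1, ← ha, MvPolynomial.coeff_sum]
  refine Finset.dvd_sum fun k _ => ?_
  rcases k with ⟨_ | k, hk⟩
  · have h2 : vGen p ((⟨0, hk⟩ : Fin (n + 1)) : ℕ) = MvPolynomial.C (p : ZLoc p) := by
      rw [map_natCast]
      rfl
    rw [h2, mul_comm, MvPolynomial.coeff_C_mul]
    exact Dvd.intro _ rfl
  · have h2 : vGen p ((⟨k + 1, hk⟩ : Fin (n + 1)) : ℕ) = MvPolynomial.X k := rfl
    rw [h2, MvPolynomial.coeff_mul_X', if_neg]
    · exact dvd_zero _
    · rw [Finsupp.mem_support_iff, Finsupp.single_apply, if_neg (by omega)]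
      exact fun h => h rfl

/-- the step of the induction -/
theorem X_mem_of_lead {p : ℕ} (hp : p.Prime) (A : Subalgebra (ZLoc p) (BPCoeff p)) (n : ℕ)
    (hA : ∀ i < n, (MvPolynomial.X i : BPCoeff p) ∈ A) {c : BPCoeff p} (hcA : c ∈ A)
    (hc : IsWeightedHomogeneous (vDeg p) c (vDeg p n))
    (hc' : c - vGen p (n + 1) ∈ smithTodaIdeal p n) : (MvPolynomial.X n : BPCoeff p) ∈ A := by
  classical
  obtain ⟨w, hw⟩ := isUnit_ZLoc_of_dvd_sub_one hp (dvd_coeff_single_sub_one n hc')
  have e : MvPolynomial.monomial (Finsupp.single n 1) (w : ZLoc p) +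
      ∑ s ∈ c.support.erase (Finsupp.single n 1),
        MvPolynomial.monomial s (MvPolynomial.coeff s c) = c := by
    rw [hw]
    by_cases h : Finsupp.single n 1 ∈ c.support
    · rw [Finset.add_sum_erase c.support
        (fun s => MvPolynomial.monomial s (MvPolynomial.coeff s c)) h]
      exact MvPolynomial.support_sum_monomial_coeff c
    · rw [Finset.erase_eq_of_notMem h, MvPolynomial.notMem_support_iff.1 h, map_zero, zero_add]
      exact MvPolynomial.support_sum_monomial_coeff c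
  have hq : ∑ s ∈ c.support.erase (Finsupp.single n 1),
      MvPolynomial.monomial s (MvPolynomial.coeff s c) ∈ A := by
    refine sum_mem fun s hs => ?_
    obtain ⟨hs1, hs2⟩ := Finset.mem_erase.1 hs
    rcases eq_single_or_of_weight_eq hp (hc (MvPolynomial.mem_support_iff.1 hs2)) with h | h
    · exact absurd h hs1
    · exact monomial_mem_of_forall_X_mem A hA h _
  have hm : MvPolynomial.monomial (Finsupp.single n 1) (w : ZLoc p) ∈ A := by
    have h3 := sub_mem hcA hq
    rwa [← eq_sub_of_add_eq e] at h3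
  have h2 := A.smul_mem hm ((w⁻¹ : (ZLoc p)ˣ) : ZLoc p)
  rw [MvPolynomial.smul_monomial, smul_eq_mul, Units.inv_mul] at h2
  exact h2

/-- **The coefficients of Hazewinkel's law generate `BP_⋆` as an algebra over `ℤ_(p)`.** -/
theorem hazCoeffAlg_eq_top {p : ℕ} (hp : p.Prime) : hazCoeffAlg p = ⊤ := by
  have hX : ∀ n, (MvPolynomial.X n : BPCoeff p) ∈ hazCoeffAlg p := by
    intro n
    induction n using Nat.strong_induction_on with
    | _ n ih =>
      obtain ⟨c, hcA, hc, hc'⟩ := exists_mem_hazCoeffAlg_lead hp n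
      exact X_mem_of_lead hp _ n ih hcA hc hc'
  rw [eq_top_iff, ← MvPolynomial.adjoin_range_X]
  exact Algebra.adjoin_le (by rintro _ ⟨n, rfl⟩; exact hX n)

/-- The same in the words of `Statement.lean`: the images `θ(a_ij)` of the coefficients of the formal group law of `MU` generate `BP_⋆` over `ℤ_(p)`. -/
theorem IsFGLFamily.adjoin_isImageOfCoeff_eq_top {f : ℕ → ℕ → MUsys.Rep} (hf : IsFGLFamily f)
    {p : ℕ} (hp : p.Prime) :
    Algebra.adjoin (ZLoc p) {c : BPCoeff p | ∃ i j : ℕ, IsImageOfCoeff p (f i j) c} = ⊤ := by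
  rw [← hazCoeffAlg_eq_top hp, hazCoeffAlg]
  congr 1
  ext c
  constructor
  · rintro ⟨i, j, f', i', j', -, -, h⟩
    exact ⟨i', j', h⟩
  · rintro ⟨i, j, h⟩
    exact ⟨i, j, f, i, j, hf, rfl, h⟩

end Claimed.Open.R308
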