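/- R308 sanity: `BP_⋆X` is generated over `ℤ_(p)` by the image of `MU_⋆X`. -/
import Claimed.Open.R308.SanityHazGen

/-!
# Result 308: `BP_⋆X` is a quotient of `ℤ_(p) ⊗ MU_⋆X`

`BP_⋆X` is defined as `BP_⋆ ⊗_{MU_⋆} MU_⋆X`, with the tensor relations `θ(a_ij) v ⊗ x = v ⊗ a_ij x` only.  As the `θ(a_ij)` generate `BP_⋆` over `ℤ_(p)`
(`hazCoeffAlg_eq_top`), these relations suffice to move every `v ∈ BP_⋆` to the right: `BP_⋆X` is generated as a group by the elements `λ ⊗ x`, `λ ∈ ℤ_(p)`,
`x ∈ MU_⋆X` (`BPHomology.muImage_eq_top`).  So `ℤ_(p) ⊗ MU_⋆X → BP_⋆X` is onto, as it is for Quillen's projection `MU_(p) → BP`.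
-/

set_option autoImplicit false

namespace Claimed.Open.R308

open scoped TensorProduct

/-- the subgroup of `BP_⋆X` generated by the `λ ⊗ x`, `λ ∈ ℤ_(p)`, `x ∈ MU_⋆X` the class of a cube -/
noncomputable def BPHomology.muImage (p : ℕ) (X : Spectrum) : AddSubgroup (BPHomology p X) :=
  AddSubgroup.closure {z | ∃ (l : ZLoc p) (g : (MUX X).Rep),
    z = BPHomology.mk (MvPolynomial.C l) ((MUX X).cls g)}

theorem BPHomology.mk_add_left {p : ℕ} {X : Spectrum} (v w : BPCoeff p) (x : (MUX X).PiStar) :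
    BPHomology.mk (v + w) x = BPHomology.mk v x + BPHomology.mk w x := by
  rw [BPHomology.mk, TensorProduct.add_tmul]
  rfl

theorem BPHomology.mk_add_right {p : ℕ} {X : Spectrum} (v : BPCoeff p) (x y : (MUX X).PiStar) :
    BPHomology.mk v (x + y) = BPHomology.mk v x + BPHomology.mk v y := by
  rw [BPHomology.mk, TensorProduct.tmul_add]
  rfl

theorem BPHomology.mk_zero_right {p : ℕ} {X : Spectrum} (v : BPCoeff p) :
    BPHomology.mk v (0 : (MUX X).PiStar) = 0 := by
  rw [BPHomology.mk, TensorProduct.tmul_zero]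
  rfl

theorem BPHomology.mk_neg_right {p : ℕ} {X : Spectrum} (v : BPCoeff p) (x : (MUX X).PiStar) :
    BPHomology.mk v (-x) = -BPHomology.mk v x := by
  rw [BPHomology.mk, TensorProduct.tmul_neg]
  rfl

/-- the subgroup is stable under `ℤ_(p)` -/
theorem BPHomology.C_smul_mem_muImage {p : ℕ} {X : Spectrum} (l : ZLoc p) {z : BPHomology p X}
    (hz : z ∈ BPHomology.muImage p X) :
    (MvPolynomial.C l : BPCoeff p) • z ∈ BPHomology.muImage p X := by
  induction hz using AddSubgroup.closure_induction with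
  | mem z hz =>
    obtain ⟨l', g, rfl⟩ := hz
    rw [BPHomology.smul_mk, ← map_mul]
    exact AddSubgroup.subset_closure ⟨l * l', g, rfl⟩
  | zero => rw [smul_zero]; exact zero_mem _
  | add x y _ _ hx hy => rw [smul_add]; exact add_mem hx hy
  | neg x _ hx => rw [smul_neg]; exact neg_mem hx

/-- every `v ⊗ [g]` lies in the subgroup: move `v`, a polynomial over `ℤ_(p)` in the `θ(a_ij)`, to the right -/
theorem BPHomology.mk_cls_mem_muImage {f : ℕ → ℕ → MUsys.Rep} (hf : IsFGLFamily f) {p : ℕ}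
    (hp : p.Prime) {X : Spectrum} (v : BPCoeff p) (g : (MUX X).Rep) :
    BPHomology.mk v ((MUX X).cls g) ∈ BPHomology.muImage p X := by
  have key : ∀ v ∈ hazCoeffAlg p, ∀ w : BPCoeff p,
      (∀ g : (MUX X).Rep, BPHomology.mk w ((MUX X).cls g) ∈ BPHomology.muImage p X) →
      ∀ g : (MUX X).Rep, BPHomology.mk (v * w) ((MUX X).cls g) ∈ BPHomology.muImage p X := by
    intro v hv
    induction hv using Algebra.adjoin_induction with
    | mem c hc =>
      obtain ⟨i, j, h⟩ := hc
      intro w hw g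
      have h1 : IsImageOfCoeff p (f i j) c := ⟨f, i, j, hf, rfl, h⟩
      rw [← BPHomology.smul_mk, ← BPHomology.mk_actX h1]
      exact hw _
    | algebraMap l =>
      intro w hw g
      rw [← BPHomology.smul_mk]
      exact BPHomology.C_smul_mem_muImage l (hw g)
    | add a b _ _ ha hb =>
      intro w hw g
      rw [add_mul, BPHomology.mk_add_left]
      exact add_mem (ha w hw g) (hb w hw g)
    | mul a b _ _ ha hb =>
      intro w hw g
      rw [mul_assoc]
      exact ha (b * w) (hb w hw) g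
  have h1 := key v (by rw [hazCoeffAlg_eq_top hp]; trivial) 1
    (fun g => AddSubgroup.subset_closure ⟨1, g, by rw [map_one]⟩) g
  rwa [mul_one] at h1

/-- **`BP_⋆X` is generated by the `λ ⊗ x`, `λ ∈ ℤ_(p)`, `x ∈ MU_⋆X`**: the map `ℤ_(p) ⊗ MU_⋆X → BP_⋆X` is onto. -/
theorem BPHomology.muImage_eq_top {f : ℕ → ℕ → MUsys.Rep} (hf : IsFGLFamily f) {p : ℕ}
    (hp : p.Prime) (X : Spectrum) : BPHomology.muImage p X = ⊤ := by
  rw [eq_top_iff]
  intro z hz
  clear hz
  obtain ⟨t, rfl⟩ := Submodule.Quotient.mk_surjective _ z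
  induction t using TensorProduct.induction_on with
  | zero => exact zero_mem _
  | tmul v y =>
    change BPHomology.mk v y ∈ _
    have hy : y ∈ (⊤ : AddSubgroup (MUX X).PiStar) := trivial
    rw [← (MUX X).closure_range_cls] at hy
    induction hy using AddSubgroup.closure_induction with
    | mem y hy =>
      obtain ⟨g, rfl⟩ := hy
      exact BPHomology.mk_cls_mem_muImage hf hp v g
    | zero => rw [BPHomology.mk_zero_right]; exact zero_mem _
    | add a b _ _ ha hb => rw [BPHomology.mk_add_right]; exact add_mem ha hb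
    | neg a _ ha => rw [BPHomology.mk_neg_right]; exact neg_mem ha
  | add a b ha hb => exact add_mem ha hb

end Claimed.Open.R308
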