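/- R308 sanity: `BP_⋆BP ⊗_{BP_⋆} BP_⋆X` is generated over `ℤ_(p)` by the `[c] ⊗ [h]`, `c ∈ MU_⋆MU`, `h ∈ MU_⋆X`. -/
import Claimed.Open.R308.SanityHazGenX

/-!
# Result 308: the target of the coaction is generated by the values of `tensorHom`

The coaction of `BP_⋆X` is given by its graph: `ψ(1 ⊗ [g]) = tensorHom y` for formal sums `y` of pairs `(c, h)` of cubes of `MU ∧ MU` and `MU ∧ X`.  Here: the
target `CoExt p (BPHomology p X) = BP_⋆ ⊗_{MU_⋆} MU_⋆MU ⊗_{MU_⋆} BP_⋆X` is generated as a group by the elements `λ ⊗ [c] ⊗ (1 ⊗ [h])`, `λ ∈ ℤ_(p)`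
(`CoExt.tensorImage_eq_top`), that is by the `ℤ_(p)`-multiples of the values of `tensorHom`: no element of the target is out of reach of the graph for want of relations.
-/

set_option autoImplicit false

namespace Claimed.Open.R308

open scoped TensorProduct

/-- `l = a / b` with `b` a unit of `ℤ_(p)` -/
theorem exists_unit_den_ZLoc {p : ℕ} (hp : p.Prime) (l : ZLoc p) :
    ∃ (b : ℕ) (a : ℤ) (u : ZLoc p), u * (b : ZLoc p) = 1 ∧ (b : ZLoc p) * l = (a : ZLoc p) := by
  have hden : ¬ p ∣ (l : ℚ).den := (mem_ZLoc_iff hp _).1 l.2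
  have h1 : (((l : ℚ).den : ℤ) : ℚ)⁻¹ ∈ ZLoc p :=
    Subring.subset_closure ⟨(l : ℚ).den, fun h' => hden (Int.natCast_dvd_natCast.1 h'), rfl⟩
  have hb : (((l : ℚ).den : ℕ) : ℚ) ≠ 0 := by exact_mod_cast (l : ℚ).den_nz
  refine ⟨(l : ℚ).den, (l : ℚ).num, ⟨_, h1⟩, ?_, ?_⟩
  · apply Subtype.ext
    change (((l : ℚ).den : ℤ) : ℚ)⁻¹ * (((l : ℚ).den : ZLoc p) : ℚ) = 1
    have : (((l : ℚ).den : ZLoc p) : ℚ) = ((l : ℚ).den : ℚ) := by simp
    rw [this, Int.cast_natCast]
    exact inv_mul_cancel₀ hb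
  · apply Subtype.ext
    change (((l : ℚ).den : ZLoc p) : ℚ) * (l : ℚ) = (((l : ℚ).num : ZLoc p) : ℚ)
    have h2 : (((l : ℚ).den : ZLoc p) : ℚ) = ((l : ℚ).den : ℚ) := by simp
    have h3 : (((l : ℚ).num : ZLoc p) : ℚ) = ((l : ℚ).num : ℚ) := by simp
    rw [h2, h3, mul_comm]
    exact Rat.mul_den_eq_num _

section

variable {p : ℕ} {M : Type} [AddCommGroup M] [Module (BPCoeff p) M]

/-- `v ↦ v ⊗ x ⊗ m` -/
noncomputable def CoExt.mkLeft (x : MUMU.PiStar) (m : M) : BPCoeff p →+ CoExt p M :=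
  AddMonoidHom.mk' (fun v => CoExt.mk v x m) (fun a b => by
    rw [CoExt.mk, TensorProduct.add_tmul]
    rfl)

/-- `x ↦ v ⊗ x ⊗ m` -/
noncomputable def CoExt.mkMid (v : BPCoeff p) (m : M) : MUMU.PiStar →+ CoExt p M :=
  AddMonoidHom.mk' (fun x => CoExt.mk v x m) (fun a b => by
    rw [CoExt.mk, TensorProduct.add_tmul, TensorProduct.tmul_add]
    rfl)

/-- `m ↦ v ⊗ x ⊗ m` -/
noncomputable def CoExt.mkRight (v : BPCoeff p) (x : MUMU.PiStar) : M →+ CoExt p M :=
  AddMonoidHom.mk' (fun m => CoExt.mk v x m) (fun a b => by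
    rw [CoExt.mk, TensorProduct.tmul_add, TensorProduct.tmul_add]
    rfl)

/-- the tensor product over `ℤ` is balanced over `ℤ_(p)`, because the denominators act invertibly -/
theorem CoExt.mk_C_smul (hp : p.Prime) (l : ZLoc p) (v : BPCoeff p) (x : MUMU.PiStar) (m : M) :
    CoExt.mk v x ((MvPolynomial.C l : BPCoeff p) • m) = CoExt.mk (MvPolynomial.C l * v) x m := by
  obtain ⟨b, a, u, hu, hab⟩ := exists_unit_den_ZLoc hp l
  have hC : (b : BPCoeff p) * MvPolynomial.C l = (a : BPCoeff p) := by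
    rw [← map_natCast (MvPolynomial.C : ZLoc p →+* BPCoeff p), ← map_mul, hab, map_intCast]
  have h1 : b • CoExt.mk v x ((MvPolynomial.C l : BPCoeff p) • m) = a • CoExt.mk v x m := by
    change b • CoExt.mkRight v x _ = a • CoExt.mkRight v x m
    rw [← map_nsmul, ← map_zsmul, ← Nat.cast_smul_eq_nsmul (BPCoeff p), smul_smul, hC,
      Int.cast_smul_eq_zsmul]
  have h2 : b • CoExt.mk (MvPolynomial.C l * v) x m = a • CoExt.mk v x m := by
    change b • CoExt.mkLeft x m _ = a • CoExt.mkLeft x m v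
    rw [← map_nsmul, ← map_zsmul, nsmul_eq_mul, ← mul_assoc, hC, zsmul_eq_mul]
  have hinv : ∀ w : CoExt p M, (MvPolynomial.C u : BPCoeff p) • (b • w) = w := by
    intro w
    rw [← Nat.cast_smul_eq_nsmul (BPCoeff p), smul_smul,
      ← map_natCast (MvPolynomial.C : ZLoc p →+* BPCoeff p), ← map_mul, hu, map_one, one_smul]
  rw [← hinv (CoExt.mk v x _), h1, ← h2, hinv]

/-- move `v`, a polynomial over `ℤ_(p)` in the `θ(a_ij)`, to the middle factor (`η_L`) -/
theorem CoExt.mk_cls_mem_of_one {f : ℕ → ℕ → MUsys.Rep} (hf : IsFGLFamily f) (hp : p.Prime)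
    (S : AddSubgroup (CoExt p M))
    (hS : ∀ (l : ZLoc p), ∀ z ∈ S, (MvPolynomial.C l : BPCoeff p) • z ∈ S) (m : M)
    (h1 : ∀ g : MUMU.Rep, CoExt.mk 1 (MUMU.cls g) m ∈ S) (v : BPCoeff p) (g : MUMU.Rep) :
    CoExt.mk v (MUMU.cls g) m ∈ S := by
  have key : ∀ v ∈ hazCoeffAlg p, ∀ w : BPCoeff p,
      (∀ g : MUMU.Rep, CoExt.mk w (MUMU.cls g) m ∈ S) →
      ∀ g : MUMU.Rep, CoExt.mk (v * w) (MUMU.cls g) m ∈ S := by
    intro v hv
    induction hv using Algebra.adjoin_induction with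
    | mem c hc =>
      obtain ⟨i, j, h⟩ := hc
      intro w hw g
      have h1 : IsImageOfCoeff p (f i j) c := ⟨f, i, j, hf, rfl, h⟩
      rw [← CoExt.smul_mk, ← CoExt.mk_actFst h1]
      exact hw _
    | algebraMap l =>
      intro w hw g
      rw [← CoExt.smul_mk]
      exact hS l _ (hw g)
    | add a b _ _ ha hb =>
      intro w hw g
      rw [add_mul]
      have h3 : CoExt.mk (a * w + b * w) (MUMU.cls g) m =
          CoExt.mk (a * w) (MUMU.cls g) m + CoExt.mk (b * w) (MUMU.cls g) m :=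
        map_add (CoExt.mkLeft (p := p) (MUMU.cls g) m) _ _
      rw [h3]
      exact add_mem (ha w hw g) (hb w hw g)
    | mul a b _ _ ha hb =>
      intro w hw g
      rw [mul_assoc]
      exact ha (b * w) (hb w hw) g
  have h2 := key v (by rw [hazCoeffAlg_eq_top hp]; trivial) 1 h1 g
  rwa [mul_one] at h2

end

/-- the subgroup of `BP_⋆BP ⊗_{BP_⋆} BP_⋆X` generated by the `λ ⊗ [c] ⊗ (1 ⊗ [h])`, `λ ∈ ℤ_(p)` -/
noncomputable def CoExt.tensorImage (p : ℕ) (X : Spectrum) : AddSubgroup (CoExt p (BPHomology p X)) :=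
  AddSubgroup.closure {z | ∃ (l : ZLoc p) (c : MUMU.Rep) (h : (MUX X).Rep),
    z = CoExt.mk (MvPolynomial.C l) (MUMU.cls c) (BPHomology.mk 1 ((MUX X).cls h))}

theorem CoExt.C_smul_mem_tensorImage {p : ℕ} {X : Spectrum} (l : ZLoc p)
    (z : CoExt p (BPHomology p X)) (hz : z ∈ CoExt.tensorImage p X) :
    (MvPolynomial.C l : BPCoeff p) • z ∈ CoExt.tensorImage p X := by
  induction hz using AddSubgroup.closure_induction with
  | mem z hz =>
    obtain ⟨l', c, h, rfl⟩ := hz
    rw [CoExt.smul_mk, ← map_mul]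
    exact AddSubgroup.subset_closure ⟨l * l', c, h, rfl⟩
  | zero => rw [smul_zero]; exact zero_mem _
  | add x y _ _ hx hy => rw [smul_add]; exact add_mem hx hy
  | neg x _ hx => rw [smul_neg]; exact neg_mem hx

/-- **`BP_⋆BP ⊗_{BP_⋆} BP_⋆X` is generated by the `ℤ_(p)`-multiples of the `[c] ⊗ [h]`**, the values of `tensorHom` on generators. -/
theorem CoExt.tensorImage_eq_top {f : ℕ → ℕ → MUsys.Rep} (hf : IsFGLFamily f) {p : ℕ}
    (hp : p.Prime) (X : Spectrum) : CoExt.tensorImage p X = ⊤ := by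
  have s1 : ∀ (v : BPCoeff p) (g : MUMU.Rep) (h : (MUX X).Rep),
      CoExt.mk v (MUMU.cls g) (BPHomology.mk 1 ((MUX X).cls h)) ∈ CoExt.tensorImage p X := by
    intro v g h
    refine CoExt.mk_cls_mem_of_one hf hp _ CoExt.C_smul_mem_tensorImage _ (fun g => ?_) v g
    exact AddSubgroup.subset_closure ⟨1, g, h, by rw [map_one]⟩
  have s2 : ∀ (v : BPCoeff p) (g : MUMU.Rep) (m : BPHomology p X),
      CoExt.mk v (MUMU.cls g) m ∈ CoExt.tensorImage p X := by
    intro v g m
    have hm : m ∈ BPHomology.muImage p X := by rw [BPHomology.muImage_eq_top hf hp]; trivial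
    change CoExt.mkRight v (MUMU.cls g) m ∈ _
    induction hm using AddSubgroup.closure_induction with
    | mem m hm =>
      obtain ⟨l, h, rfl⟩ := hm
      change CoExt.mk v (MUMU.cls g) (BPHomology.mk (MvPolynomial.C l) ((MUX X).cls h)) ∈ _
      have e : BPHomology.mk (MvPolynomial.C l) ((MUX X).cls h) =
          (MvPolynomial.C l : BPCoeff p) • BPHomology.mk 1 ((MUX X).cls h) := by
        rw [BPHomology.smul_mk, mul_one]
      rw [e, CoExt.mk_C_smul hp]
      exact s1 _ g h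
    | zero => rw [map_zero]; exact zero_mem _
    | add a b _ _ ha hb => rw [map_add]; exact add_mem ha hb
    | neg a _ ha => rw [map_neg]; exact neg_mem ha
  have s3 : ∀ (v : BPCoeff p) (x : MUMU.PiStar) (m : BPHomology p X),
      CoExt.mk v x m ∈ CoExt.tensorImage p X := by
    intro v x m
    have hx : x ∈ (⊤ : AddSubgroup MUMU.PiStar) := trivial
    rw [← MUMU.closure_range_cls] at hx
    change CoExt.mkMid v m x ∈ _
    induction hx using AddSubgroup.closure_induction with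
    | mem x hx =>
      obtain ⟨g, rfl⟩ := hx
      exact s2 v g m
    | zero => rw [map_zero]; exact zero_mem _
    | add a b _ _ ha hb => rw [map_add]; exact add_mem ha hb
    | neg a _ ha => rw [map_neg]; exact neg_mem ha
  rw [eq_top_iff]
  intro z hz
  clear hz
  obtain ⟨t, rfl⟩ := Submodule.Quotient.mk_surjective _ z
  induction t using TensorProduct.induction_on with
  | zero => exact zero_mem _
  | tmul v s =>
    induction s using TensorProduct.induction_on with
    | zero =>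
      rw [TensorProduct.tmul_zero]
      exact zero_mem _
    | tmul x m => exact s3 v x m
    | add a b ha hb =>
      rw [TensorProduct.tmul_add]
      exact add_mem ha hb
  | add a b ha hb => exact add_mem ha hb

/-- The same in the words of `Statement.lean`: the `ℤ_(p)`-multiples of the values of `tensorHom` generate the target of the coaction. -/
theorem CoExt.closure_C_smul_tensorHom_eq_top {f : ℕ → ℕ → MUsys.Rep} (hf : IsFGLFamily f) {p : ℕ}
    (hp : p.Prime) (X : Spectrum) :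
    AddSubgroup.closure {z : CoExt p (BPHomology p X) |
      ∃ (l : ZLoc p) (y : FreeAbelianGroup (MUMU.Rep × (MUX X).Rep)),
        z = (MvPolynomial.C l : BPCoeff p) • tensorHom p X y} = ⊤ := by
  rw [eq_top_iff, ← CoExt.tensorImage_eq_top hf hp X, CoExt.tensorImage]
  refine AddSubgroup.closure_mono ?_
  rintro _ ⟨l, c, h, rfl⟩
  refine ⟨l, FreeAbelianGroup.of (c, h), ?_⟩
  rw [tensorHom, FreeAbelianGroup.lift_apply_of, CoExt.smul_mk, mul_one]

end Claimed.Open.R308
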