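/- R308 sanity: Hazewinkel's law as a Mathlib `FormalGroup` over `BP_⋆` itself. -/
import Claimed.Open.R308.SanityHazStep

set_option autoImplicit false

noncomputable section

namespace Claimed.Open.R308

/-- every coefficient of `hazFGL p` is integral (`hazCoeff_integral`; every `d : Fin 2 →₀ ℕ` is `single 0 (d 0) + single 1 (d 1)`) -/
theorem exists_toRat_eq_coeff_hazFGL {p : ℕ} (hp : p.Prime) (d : Fin 2 →₀ ℕ) :
    ∃ c : BPCoeff p, toRat p c = MvPowerSeries.coeff d (hazFGL p) := by
  have hd : d = Finsupp.single 0 (d 0) + Finsupp.single 1 (d 1) := by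
    ext i
    fin_cases i <;> simp
  rw [hd]
  exact hazCoeff_integral hp (d 0) (d 1)

/-- Hazewinkel's law as a power series over `BP_⋆ = ℤ_(p)[v₁, v₂, …]` -/
def hazFGLInt {p : ℕ} (hp : p.Prime) : MvPowerSeries (Fin 2) (BPCoeff p) :=
  fun d => (exists_toRat_eq_coeff_hazFGL hp d).choose

theorem map_toRat_hazFGLInt {p : ℕ} (hp : p.Prime) :
    MvPowerSeries.map (toRat p) (hazFGLInt hp) = hazFGL p := by
  refine MvPowerSeries.ext fun d => ?_
  rw [MvPowerSeries.coeff_map]
  exact (exists_toRat_eq_coeff_hazFGL hp d).choose_spec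

theorem toRat_coeff_hazFGLInt {p : ℕ} (hp : p.Prime) (i j : ℕ) :
    toRat p (MvPowerSeries.coeff (Finsupp.single 0 i + Finsupp.single 1 j) (hazFGLInt hp)) =
      hazCoeff p i j := by
  rw [← MvPowerSeries.coeff_map, map_toRat_hazFGLInt]
  rfl

theorem h29_map_toRat_injective (p : ℕ) {σ : Type*} :
    Function.Injective (MvPowerSeries.map (σ := σ) (toRat p)) := by
  intro f g h
  refine MvPowerSeries.ext fun d => ?_
  apply toRat_injective p
  rw [← MvPowerSeries.coeff_map, ← MvPowerSeries.coeff_map, h]

theorem h29_constantCoeff_hazFGLInt {p : ℕ} (hp : p.Prime) :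
    MvPowerSeries.constantCoeff (hazFGLInt hp) = 0 := by
  apply toRat_injective p
  rw [← MvPowerSeries.constantCoeff_map, map_toRat_hazFGLInt, map_zero]
  exact (hazFormalGroup p).zero_constantCoeff

theorem h29_map_cons (p : ℕ) {σ : Type*} (g₁ g₂ : MvPowerSeries σ (BPCoeff p)) :
    (fun i => (![g₁, g₂] i).map (toRat p)) = ![g₁.map (toRat p), g₂.map (toRat p)] := by
  ext1 i
  fin_cases i <;> simp

/-- **Hazewinkel's universal `p`-typical formal group law is a formal group law over `BP_⋆`**, in the sense of Mathlib.  (The axioms descend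
from `hazFormalGroup p` along the injective `MvPowerSeries.map (toRat p)`, which commutes with substitution.) -/
def hazFormalGroupInt {p : ℕ} (hp : p.Prime) : FormalGroup (BPCoeff p) where
  toPowerSeries := hazFGLInt hp
  zero_constantCoeff := h29_constantCoeff_hazFGLInt hp
  lin_coeff_X := by
    apply toRat_injective p
    rw [← MvPowerSeries.coeff_map, map_toRat_hazFGLInt, map_one]
    exact (hazFormalGroup p).lin_coeff_X
  lin_coeff_Y := by
    apply toRat_injective p
    rw [← MvPowerSeries.coeff_map, map_toRat_hazFGLInt, map_one]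
    exact (hazFormalGroup p).lin_coeff_Y
  assoc := by
    apply h29_map_toRat_injective p
    rw [MvPowerSeries.map_subst (MvPowerSeries.HasSubst.cons_subst_zero_left (0 : Fin 3) 1 2
        (h29_constantCoeff_hazFGLInt hp)),
      MvPowerSeries.map_subst (MvPowerSeries.HasSubst.cons_subst_zero_right (0 : Fin 3) 1 2
        (h29_constantCoeff_hazFGLInt hp)),
      h29_map_cons, h29_map_cons, MvPowerSeries.map_subst .X_X, MvPowerSeries.map_subst .X_X,
      h29_map_cons, h29_map_cons, map_toRat_hazFGLInt]
    simp only [MvPowerSeries.map_X]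
    exact (hazFormalGroup p).assoc

instance hazFormalGroupInt.instIsComm {p : ℕ} (hp : p.Prime) : (hazFormalGroupInt hp).IsComm where
  comm := by
    apply h29_map_toRat_injective p
    change MvPowerSeries.map (toRat p) (hazFGLInt hp) =
      MvPowerSeries.map (toRat p) (MvPowerSeries.subst ![MvPowerSeries.X 1, MvPowerSeries.X 0]
        (hazFGLInt hp))
    rw [MvPowerSeries.map_subst .X_X, h29_map_cons, map_toRat_hazFGLInt]
    simp only [MvPowerSeries.map_X]
    exact (hazFormalGroup.instIsComm p).comm

end Claimed.Open.R308
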