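/- R308 sanity, invariance of `(p, v₁, …, v_n)`: definitions. -/
import Claimed.Open.R308.SanityHazGroup
import Claimed.Open.R308.SanityHazPTop

/-!
# Result 308: the ideals `(p, v₁, …, v_n)` are invariant (algebraic form of Landweber's theorem)

Goal of the files `SanityHazInv*.lean`: `smithTodaIdeal_map_eq_of_isFGHom`: if `α, β : BP_⋆ → R` are ring homomorphisms and the formal group laws
`α_⋆F`, `β_⋆F` (`F` Hazewinkel's law over `BP_⋆`) are isomorphic over `R`, then `α(I) R = β(I) R` for `I = (p, v₁, …, v_n)`, and
`u α(v_{n+1}) ≡ u^{p^{n+1}} β(v_{n+1})` modulo this ideal (`u` the leading coefficient of the isomorphism).  For `α = η_L`, `β = η_R : BP_⋆ → BP_⋆BP` this is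
the invariance of `(p, v₁, …, v_n)` (Landweber; Ravenel, *Complex cobordism*, 4.3.2), the fact behind deviation 10 of `CLAIM.md`.
-/

set_option autoImplicit false

noncomputable section

namespace Claimed.Open.R308

/-- the point `x` of a formal group law, in Mathlib's monoid of points `F.Point Unit` -/
def fgX {R : Type*} [CommRing R] (F : FormalGroup R) : F.Point Unit :=
  ⟨PowerSeries.X, PowerSeries.HasSubst.X'⟩

/-- `[k]_F(x)`: the `k`-fold sum of `x` in Mathlib's monoid of points -/
def fgNSeries {R : Type*} [CommRing R] (F : FormalGroup R) (k : ℕ) : PowerSeries R :=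
  (k • fgX F).val

/-- `φ` is a homomorphism `F → G` of formal group laws: `φ(0) = 0` and `φ(F(x, y)) = G(φ(x), φ(y))` -/
def IsFGHom {R : Type*} [CommRing R] (F G : FormalGroup R) (φ : PowerSeries R) : Prop :=
  PowerSeries.constantCoeff φ = 0 ∧
    PowerSeries.subst F.toPowerSeries φ =
      MvPowerSeries.subst ![PowerSeries.subst (MvPowerSeries.X 0 : MvPowerSeries (Fin 2) R) φ,
        PowerSeries.subst (MvPowerSeries.X 1 : MvPowerSeries (Fin 2) R) φ] G.toPowerSeries

end Claimed.Open.R308
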