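/- R308 sanity, invariance of `(p, v₁, …, v_n)`, module C: the leading coefficient of a composite of power series (generic). -/
import Claimed.Open.R308.SanityHazInvDefs

set_option autoImplicit false

namespace Claimed.Open.R308

variable {S : Type*} [CommRing S]

/-- `φ(P(x))` for `P = c x^q + …`, `φ = u x + …`: the coefficient of `x^q` is `u c`.  (`φ = u X + X² ψ`, so `φ(P) = u P + P² ψ(P)`, and `X^{2q} ∣ P²`,
`2q > q`; `PowerSeries.X_pow_dvd_iff`, `PowerSeries.subst_add / _mul / _pow / _X / _C`.) -/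
theorem coeff_subst_of_order_left {P φ : PowerSeries S} {q : ℕ} (hq : 1 ≤ q)
    (hP : ∀ k < q, PowerSeries.coeff k P = 0) (hφ : PowerSeries.constantCoeff φ = 0) :
    PowerSeries.coeff q (PowerSeries.subst P φ) =
      PowerSeries.coeff 1 φ * PowerSeries.coeff q P := by
  have hP0 : PowerSeries.constantCoeff P = 0 := by
    have := hP 0 (by omega)
    rwa [PowerSeries.coeff_zero_eq_constantCoeff_apply] at this
  have hs : PowerSeries.HasSubst P := PowerSeries.HasSubst.of_constantCoeff_zero' hP0
  have hd : (PowerSeries.X : PowerSeries S) ^ 2 ∣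
      φ - PowerSeries.C (PowerSeries.coeff 1 φ) * PowerSeries.X := by
    rw [PowerSeries.X_pow_dvd_iff]
    intro m hm
    interval_cases m
    · simp [hφ]
    · simp
  obtain ⟨ψ, hψ⟩ := hd
  have hφ' : φ = PowerSeries.C (PowerSeries.coeff 1 φ) * PowerSeries.X + PowerSeries.X ^ 2 * ψ := by
    rw [← hψ]; ring
  obtain ⟨P', hP'⟩ := PowerSeries.X_pow_dvd_iff.mpr hP
  have e : PowerSeries.subst P φ =
      (PowerSeries.C (PowerSeries.coeff 1 φ) * P +
        PowerSeries.X ^ (2 * q) * (P' ^ 2 * PowerSeries.subst P ψ) : PowerSeries S) := by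
    conv_lhs => rw [hφ']
    rw [PowerSeries.subst_add hs, PowerSeries.subst_mul hs, PowerSeries.subst_mul hs,
      PowerSeries.subst_pow hs, PowerSeries.subst_X hs, PowerSeries.subst_C]
    congr 1
    generalize PowerSeries.subst P ψ = T
    rw [hP']
    ring
  rw [e, map_add, PowerSeries.coeff_C_mul, PowerSeries.coeff_X_pow_mul', if_neg (by omega),
    add_zero]

/-- `P(φ(x))` for `P = c x^q + …`, `φ = u x + …`: the coefficient of `x^q` is `u^q c`.  (`P = c X^q + X^{q+1} ρ`, so
`P(φ) = c φ^q + φ^{q+1} ρ(φ)`, `X^{q+1} ∣ φ^{q+1}`, and `φ^q = u^q X^q + …`.) -/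
theorem coeff_subst_of_order_right {P φ : PowerSeries S} {q : ℕ}
    (hP : ∀ k < q, PowerSeries.coeff k P = 0) (hφ : PowerSeries.constantCoeff φ = 0) :
    PowerSeries.coeff q (PowerSeries.subst φ P) =
      PowerSeries.coeff 1 φ ^ q * PowerSeries.coeff q P := by
  have hs : PowerSeries.HasSubst φ := PowerSeries.HasSubst.of_constantCoeff_zero' hφ
  have hd : (PowerSeries.X : PowerSeries S) ^ (q + 1) ∣
      P - PowerSeries.C (PowerSeries.coeff q P) * PowerSeries.X ^ q := by
    rw [PowerSeries.X_pow_dvd_iff]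
    intro m hm
    rw [map_sub, PowerSeries.coeff_C_mul, PowerSeries.coeff_X_pow]
    rcases Nat.lt_or_ge m q with h | h
    · rw [hP m h, if_neg (by omega)]
      simp
    · have : m = q := by omega
      subst this
      simp
  obtain ⟨ρ, hρ⟩ := hd
  have hP' : P = PowerSeries.C (PowerSeries.coeff q P) * PowerSeries.X ^ q +
      PowerSeries.X ^ (q + 1) * ρ := by
    rw [← hρ]; ring
  obtain ⟨φ', hφ'⟩ := PowerSeries.X_dvd_iff.mpr hφ
  have hu : PowerSeries.coeff 1 φ = PowerSeries.constantCoeff φ' := by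
    rw [hφ', show (1 : ℕ) = 0 + 1 from rfl, PowerSeries.coeff_succ_X_mul,
      PowerSeries.coeff_zero_eq_constantCoeff_apply]
  have e : PowerSeries.subst φ P =
      (PowerSeries.C (PowerSeries.coeff q P) * (PowerSeries.X ^ q * φ' ^ q) +
        PowerSeries.X ^ (q + 1) * (φ' ^ (q + 1) * PowerSeries.subst φ ρ) : PowerSeries S) := by
    conv_lhs => rw [hP']
    rw [PowerSeries.subst_add hs, PowerSeries.subst_mul hs, PowerSeries.subst_mul hs,
      PowerSeries.subst_pow hs, PowerSeries.subst_pow hs, PowerSeries.subst_X hs,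
      PowerSeries.subst_C]
    congr 1
    · conv_lhs => rw [hφ', mul_pow]
      rfl
    · generalize PowerSeries.subst φ ρ = T
      rw [hφ', mul_pow]
      ring
  rw [e, map_add, PowerSeries.coeff_C_mul, PowerSeries.coeff_X_pow_mul', if_pos le_rfl,
    PowerSeries.coeff_X_pow_mul', if_neg (by omega), add_zero, Nat.sub_self,
    PowerSeries.coeff_zero_eq_constantCoeff_apply, map_pow, hu, mul_comm]

end Claimed.Open.R308
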