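/- R308 sanity, invariance of `(p, v₁, …, v_n)`: a non-trivial example of the hypotheses: `x ↦ u x` and the grading automorphism. -/
import Claimed.Open.R308.SanityHazInvDefs
import Claimed.Open.R308.SanityHazHomog

set_option autoImplicit false

noncomputable section

namespace Claimed.Open.R308

/-- the grading automorphism `v_k ↦ u^{-(p^k - 1)} v_k` of `BP_⋆`, `u ∈ ℤ_(p)^×` -/
def scaleHom (p : ℕ) (u : (ZLoc p)ˣ) : BPCoeff p →+* BPCoeff p :=
  (MvPolynomial.bind₁ fun k => MvPolynomial.C ((↑u⁻¹ : ZLoc p) ^ (p ^ (k + 1) - 1)) *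
    MvPolynomial.X k : BPCoeff p →ₐ[ZLoc p] BPCoeff p)

theorem scaleHom_vGen_succ (p : ℕ) (u : (ZLoc p)ˣ) (k : ℕ) : scaleHom p u (vGen p (k + 1)) =
    MvPolynomial.C ((↑u⁻¹ : ZLoc p) ^ (p ^ (k + 1) - 1)) * vGen p (k + 1) := by
  show (MvPolynomial.bind₁ fun k => MvPolynomial.C ((↑u⁻¹ : ZLoc p) ^ (p ^ (k + 1) - 1)) *
    MvPolynomial.X k : BPCoeff p →ₐ[ZLoc p] BPCoeff p) (MvPolynomial.X k) = _
  rw [MvPolynomial.bind₁_X_right]
  rfl

theorem h6_scaleHom_monomial (p : ℕ) (u : (ZLoc p)ˣ) (d : ℕ →₀ ℕ) (c : ZLoc p) :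
    scaleHom p u (MvPolynomial.monomial d c) =
      MvPolynomial.C ((↑u⁻¹ : ZLoc p) ^ (∑ i ∈ d.support, (p ^ (i + 1) - 1) * d i)) * MvPolynomial.monomial d c := by
  show (MvPolynomial.bind₁ fun k => MvPolynomial.C ((↑u⁻¹ : ZLoc p) ^ (p ^ (k + 1) - 1)) *
    MvPolynomial.X k : BPCoeff p →ₐ[ZLoc p] BPCoeff p) (MvPolynomial.monomial d c) = _
  rw [MvPolynomial.bind₁_monomial, MvPolynomial.monomial_eq, Finsupp.prod]
  simp only [mul_pow, Finset.prod_mul_distrib]
  rw [← Finset.prod_pow_eq_pow_sum, map_prod]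
  simp only [pow_mul, map_pow]
  ring

/-- on a homogeneous element of degree `2w` the automorphism is multiplication by `u^{-w}` (monomial by monomial:
`MvPolynomial.IsWeightedHomogeneous.induction_on` or `MvPolynomial.as_sum` / `bind₁_monomial`; weight of `X k` is `vDeg p k = 2 (p^{k+1} - 1)`) -/
theorem scaleHom_of_isWeightedHomogeneous (p : ℕ) (u : (ZLoc p)ˣ) {a : BPCoeff p} {w : ℕ}
    (ha : MvPolynomial.IsWeightedHomogeneous (vDeg p) a (2 * w)) :
    scaleHom p u a = MvPolynomial.C ((↑u⁻¹ : ZLoc p) ^ w) * a := by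
  conv_lhs => rw [a.as_sum]
  conv_rhs => rw [a.as_sum]
  rw [map_sum, Finset.mul_sum]
  refine Finset.sum_congr rfl fun d hd => ?_
  rw [h6_scaleHom_monomial]
  have h1 := ha (MvPolynomial.mem_support_iff.1 hd)
  rw [Finsupp.weight_apply, Finsupp.sum] at h1
  have h2 : ∑ i ∈ d.support, (p ^ (i + 1) - 1) * d i = w := by
    have h3 : ∑ i ∈ d.support, d i • vDeg p i = 2 * ∑ i ∈ d.support, (p ^ (i + 1) - 1) * d i := by
      rw [Finset.mul_sum]
      refine Finset.sum_congr rfl fun i _ => ?_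
      simp only [vDeg, smul_eq_mul]
      ring
    omega
  rw [h2]

/-- **Example for the hypotheses of `smithTodaIdeal_map_eq_of_isFGHom` with `α ≠ β`**: `φ(x) = u x` is an isomorphism from `F` to `β_⋆F`, `β` the grading
automorphism.  (Coefficient of `x^i y^j`: `u a_ij` on the left; on the right `β(a_ij) u^{i+j} = u^{-(i+j-1)} u^{i+j} a_ij`, by
`isWeightedHomogeneous_of_toRat_eq_hazCoeff` + `toRat_coeff_hazFGLInt`; `MvPowerSeries.rescale_eq_subst` / `MvPowerSeries.coeff_rescale` for `G(u x, u y)`;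
`a_00 = 0`.) -/
theorem isFGHom_scale {p : ℕ} (hp : p.Prime) (u : (ZLoc p)ˣ) :
    IsFGHom ((hazFormalGroupInt hp).map (RingHom.id _)) ((hazFormalGroupInt hp).map (scaleHom p u))
      (PowerSeries.C (MvPolynomial.C (u : ZLoc p)) * PowerSeries.X) := by
  refine ⟨by simp, ?_⟩
  set c : BPCoeff p := MvPolynomial.C (u : ZLoc p) with hc
  have hF0 : MvPowerSeries.constantCoeff (hazFGLInt hp) = 0 := h29_constantCoeff_hazFGLInt hp
  have e1 : ((hazFormalGroupInt hp).map (RingHom.id _)).toPowerSeries = hazFGLInt hp := by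
    show MvPowerSeries.map (RingHom.id _) (hazFGLInt hp) = _
    simp
  have e2 : ((hazFormalGroupInt hp).map (scaleHom p u)).toPowerSeries = MvPowerSeries.map (scaleHom p u) (hazFGLInt hp) := rfl
  rw [e1, e2]
  have hs : PowerSeries.HasSubst (hazFGLInt hp) := PowerSeries.HasSubst.of_constantCoeff_zero hF0
  have hX : ∀ i : Fin 2, PowerSeries.HasSubst (MvPowerSeries.X i : MvPowerSeries (Fin 2) (BPCoeff p)) := fun i =>
    PowerSeries.HasSubst.of_constantCoeff_zero (by simp)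
  rw [PowerSeries.subst_mul hs, PowerSeries.subst_C, PowerSeries.subst_X hs,
    PowerSeries.subst_mul (hX 0), PowerSeries.subst_C, PowerSeries.subst_X (hX 0),
    PowerSeries.subst_mul (hX 1), PowerSeries.subst_C, PowerSeries.subst_X (hX 1)]
  have e3 : (![MvPowerSeries.C c * MvPowerSeries.X 0, MvPowerSeries.C c * MvPowerSeries.X 1] : Fin 2 → MvPowerSeries (Fin 2) (BPCoeff p)) =
      (fun _ => c : Fin 2 → BPCoeff p) • (MvPowerSeries.X : Fin 2 → MvPowerSeries (Fin 2) (BPCoeff p)) := by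
    funext i
    fin_cases i <;> simp [MvPowerSeries.smul_eq_C_mul]
  rw [e3, ← MvPowerSeries.rescale_eq_subst]
  refine MvPowerSeries.ext fun d => ?_
  rw [MvPowerSeries.coeff_rescale, MvPowerSeries.coeff_C_mul, MvPowerSeries.coeff_map]
  have hd : d = Finsupp.single 0 (d 0) + Finsupp.single 1 (d 1) := by
    ext i
    fin_cases i <;> simp
  have hh := isWeightedHomogeneous_of_toRat_eq_hazCoeff hp (toRat_coeff_hazFGLInt hp (d 0) (d 1))
  rw [← hd] at hh
  rw [scaleHom_of_isWeightedHomogeneous p u hh]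
  have hprod : (d.prod fun _ m => c ^ m) = c ^ (d 0 + d 1) := by
    rw [Finsupp.prod_fintype _ _ (by simp)]
    simp [Fin.prod_univ_two, pow_add]
  rw [hprod]
  rcases Nat.eq_zero_or_pos (d 0 + d 1) with h0 | h0
  · have hd0 : d = 0 := by
      rw [hd]
      have a0 : d 0 = 0 := by omega
      have a1 : d 1 = 0 := by omega
      rw [a0, a1]; simp
    have : MvPowerSeries.coeff d (hazFGLInt hp) = 0 := by
      rw [hd0]; simpa using hF0
    rw [this]; simp
  · obtain ⟨n, hn⟩ : ∃ n, d 0 + d 1 = n + 1 := ⟨d 0 + d 1 - 1, by omega⟩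
    rw [hn, Nat.add_sub_cancel, ← mul_assoc]
    congr 1
    rw [hc, ← map_pow, ← map_mul, pow_succ, mul_assoc, mul_comm (u : ZLoc p), ← mul_assoc, ← mul_pow]
    simp

theorem isUnit_coeff_one_scale (p : ℕ) (u : (ZLoc p)ˣ) :
    IsUnit (PowerSeries.coeff 1
      (PowerSeries.C (MvPolynomial.C (u : ZLoc p)) * PowerSeries.X : PowerSeries (BPCoeff p))) := by
  rw [PowerSeries.coeff_C_mul, PowerSeries.coeff_one_X, mul_one]
  exact u.isUnit.map MvPolynomial.C

end Claimed.Open.R308
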