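/- R308 sanity: the example `isFGHom_scale` has `α ≠ β`. -/
import Claimed.Open.R308.SanityHazInvEx
import Claimed.Open.R308.SanityHazGen

set_option autoImplicit false

namespace Claimed.Open.R308

/-- The grading automorphism `v_k ↦ u^{-(p^k - 1)} v_k` is not the identity for `u = 1 + p`: the example `isFGHom_scale` of the hypotheses of
`smithTodaIdeal_map_eq_of_isFGHom` has `α ≠ β`. -/
theorem exists_scaleHom_ne_id {p : ℕ} (hp : p.Prime) :
    ∃ u : (ZLoc p)ˣ, (u : ZLoc p) = 1 + (p : ZLoc p) ∧ scaleHom p u ≠ RingHom.id (BPCoeff p) := by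
  obtain ⟨w, hw⟩ := isUnit_ZLoc_of_dvd_sub_one hp (u := 1 + (p : ZLoc p)) (by simp)
  refine ⟨w, hw, fun h => ?_⟩
  have h1 := scaleHom_vGen_succ p w 0
  rw [h, RingHom.id_apply] at h1
  have h2 := congrArg (MvPolynomial.coeff (Finsupp.single 0 1)) h1
  have hX : vGen p (0 + 1) = MvPolynomial.X 0 := rfl
  rw [hX, MvPolynomial.coeff_C_mul, MvPolynomial.coeff_X, if_pos rfl, mul_one] at h2
  -- `w⁻¹ ^ (p - 1) = 1`, so `w ^ (p - 1) = 1`
  have h3 : (w : ZLoc p) ^ (p ^ (0 + 1) - 1) = 1 := by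
    have h4 : ((w : ZLoc p) * (↑w⁻¹ : ZLoc p)) ^ (p ^ (0 + 1) - 1) = 1 := by
      rw [Units.mul_inv, one_pow]
    rw [mul_pow, ← h2, mul_one] at h4
    exact h4
  have h5 : ((1 : ℚ) + p) ^ (p ^ (0 + 1) - 1) = 1 := by
    have := congrArg (fun z : ZLoc p => (z : ℚ)) h3
    simpa [hw] using this
  have h6 : (1 : ℚ) < ((1 : ℚ) + p) ^ (p ^ (0 + 1) - 1) := by
    apply one_lt_pow₀
    · have : (0 : ℚ) < p := by exact_mod_cast hp.pos
      linarith
    · have := hp.two_le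
      simp
      omega
  rw [h5] at h6
  exact lt_irrefl _ h6

end Claimed.Open.R308
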