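/- R308 sanity, invariance of `(p, v₁, …, v_n)`, module N: the `k`-series of a formal group law (generic). -/
import Claimed.Open.R308.SanityHazInvDefs

set_option autoImplicit false

namespace Claimed.Open.R308

variable {R S : Type*} [CommRing R] [CommRing S]

theorem fgNSeries_zero (F : FormalGroup R) : fgNSeries F 0 = 0 := by
  rw [fgNSeries, zero_nsmul]
  rfl

/-- `succ_nsmul`, `FormalGroup.add_apply` -/
theorem fgNSeries_succ (F : FormalGroup R) (k : ℕ) : fgNSeries F (k + 1) =
    MvPowerSeries.subst ![fgNSeries F k, (PowerSeries.X : PowerSeries R)] F.toPowerSeries := by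
  rw [fgNSeries, succ_nsmul, FormalGroup.add_apply]
  rfl

theorem h29_hasSubst_pair {a b : PowerSeries R} (ha : PowerSeries.constantCoeff a = 0)
    (hb : PowerSeries.constantCoeff b = 0) :
    MvPowerSeries.HasSubst (![a, b] : Fin 2 → MvPowerSeries Unit R) := by
  refine MvPowerSeries.hasSubst_of_constantCoeff_zero fun s => ?_
  fin_cases s
  · exact ha
  · exact hb

theorem constantCoeff_fgNSeries (F : FormalGroup R) (k : ℕ) :
    PowerSeries.constantCoeff (fgNSeries F k) = 0 := by
  induction k with
  | zero => rw [fgNSeries_zero, map_zero]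
  | succ k ih =>
    rw [fgNSeries_succ]
    refine MvPowerSeries.constantCoeff_subst_eq_zero
      (h29_hasSubst_pair ih PowerSeries.constantCoeff_X) (fun s => ?_) F.zero_constantCoeff
    fin_cases s
    · exact ih
    · exact PowerSeries.constantCoeff_X

/-- induction on `k`, `MvPowerSeries.map_subst` -/
theorem fgNSeries_map (F : FormalGroup R) (α : R →+* S) (k : ℕ) :
    fgNSeries (F.map α) k = PowerSeries.map α (fgNSeries F k) := by
  induction k with
  | zero => rw [fgNSeries_zero, fgNSeries_zero, map_zero]
  | succ k ih =>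
    rw [fgNSeries_succ, fgNSeries_succ, ih]
    have h := MvPowerSeries.map_subst (h := α)
      (h29_hasSubst_pair (constantCoeff_fgNSeries F k) PowerSeries.constantCoeff_X)
      F.toPowerSeries
    refine Eq.trans ?_ h.symm
    rw [FormalGroup.map_toPowerSeries]
    congr 1
    ext1 s
    fin_cases s
    · rfl
    · exact (PowerSeries.map_X α).symm

theorem h29_hasSubst {σ : Type*} {f : MvPowerSeries σ R} (hf : MvPowerSeries.constantCoeff f = 0) :
    PowerSeries.HasSubst f := PowerSeries.HasSubst.of_constantCoeff_zero hf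

theorem h29_constantCoeff_subst {φ f : PowerSeries R} (hφ : PowerSeries.constantCoeff φ = 0)
    (hf : PowerSeries.constantCoeff f = 0) : PowerSeries.constantCoeff (PowerSeries.subst f φ) = 0 :=
  MvPowerSeries.constantCoeff_subst_eq_zero (h29_hasSubst hf).const (fun _ => hf) hφ

/-- the defining identity of a homomorphism, evaluated at two series without constant term (substitute `(x, y) ↦ (f, g)`;
`MvPowerSeries.subst_comp_subst_apply`, `PowerSeries.subst_comp_subst_apply`) -/
theorem IsFGHom.subst_add {F G : FormalGroup R} {φ : PowerSeries R} (h : IsFGHom F G φ)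
    {f g : PowerSeries R} (hf : PowerSeries.constantCoeff f = 0)
    (hg : PowerSeries.constantCoeff g = 0) :
    PowerSeries.subst (MvPowerSeries.subst ![f, g] F.toPowerSeries) φ =
      MvPowerSeries.subst ![PowerSeries.subst f φ, PowerSeries.subst g φ] G.toPowerSeries := by
  have hfg := h29_hasSubst_pair hf hg
  have hF : PowerSeries.HasSubst F.toPowerSeries := h29_hasSubst F.zero_constantCoeff
  have hX : ∀ i : Fin 2, PowerSeries.HasSubst (MvPowerSeries.X i : MvPowerSeries (Fin 2) R) :=
    fun i => h29_hasSubst (MvPowerSeries.constantCoeff_X i)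
  have key := congrArg (MvPowerSeries.subst (![f, g] : Fin 2 → MvPowerSeries Unit R)) h.2
  have hpair : MvPowerSeries.HasSubst
      (![PowerSeries.subst (MvPowerSeries.X 0 : MvPowerSeries (Fin 2) R) φ,
        PowerSeries.subst (MvPowerSeries.X 1 : MvPowerSeries (Fin 2) R) φ] :
        Fin 2 → MvPowerSeries (Fin 2) R) := by
    refine MvPowerSeries.hasSubst_of_constantCoeff_zero fun s => ?_
    fin_cases s
    · exact MvPowerSeries.constantCoeff_subst_eq_zero (hX 0).const
        (fun _ => MvPowerSeries.constantCoeff_X 0) h.1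
    · exact MvPowerSeries.constantCoeff_subst_eq_zero (hX 1).const
        (fun _ => MvPowerSeries.constantCoeff_X 1) h.1
  rw [PowerSeries.subst, MvPowerSeries.subst_comp_subst_apply hF.const hfg,
    MvPowerSeries.subst_comp_subst_apply hpair hfg] at key
  refine Eq.trans key ?_
  congr 1
  ext1 s
  fin_cases s
  · change MvPowerSeries.subst ![f, g] (PowerSeries.subst (MvPowerSeries.X 0) φ) = PowerSeries.subst f φ
    rw [PowerSeries.subst, MvPowerSeries.subst_comp_subst_apply (hX 0).const hfg]
    simp only [MvPowerSeries.subst_X hfg]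
    rfl
  · change MvPowerSeries.subst ![f, g] (PowerSeries.subst (MvPowerSeries.X 1) φ) = PowerSeries.subst g φ
    rw [PowerSeries.subst, MvPowerSeries.subst_comp_subst_apply (hX 1).const hfg]
    simp only [MvPowerSeries.subst_X hfg]
    rfl

/-- `G(a, b) ∘ φ = G(a ∘ φ, b ∘ φ)` -/
theorem subst_subst_pair (G : FormalGroup R) {a b φ : PowerSeries R}
    (ha : PowerSeries.constantCoeff a = 0) (hb : PowerSeries.constantCoeff b = 0)
    (hφ : PowerSeries.constantCoeff φ = 0) :
    PowerSeries.subst φ (MvPowerSeries.subst ![a, b] G.toPowerSeries) =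
      MvPowerSeries.subst ![PowerSeries.subst φ a, PowerSeries.subst φ b] G.toPowerSeries := by
  rw [PowerSeries.subst, MvPowerSeries.subst_comp_subst_apply (h29_hasSubst_pair ha hb)
    (h29_hasSubst hφ).const]
  congr 1
  ext1 s
  fin_cases s <;> rfl

/-- **`φ ∘ [k]_F = [k]_G ∘ φ`**: induction on `k` with `fgNSeries_succ`, `IsFGHom.subst_add`, `subst_subst_pair` -/
theorem IsFGHom.subst_fgNSeries {F G : FormalGroup R} {φ : PowerSeries R} (h : IsFGHom F G φ)
    (k : ℕ) : PowerSeries.subst (fgNSeries F k) φ = PowerSeries.subst φ (fgNSeries G k) := by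
  induction k with
  | zero =>
    rw [fgNSeries_zero, fgNSeries_zero, PowerSeries.subst_zero_of_constantCoeff_zero h.1,
      ← PowerSeries.coe_substAlgHom (h29_hasSubst h.1), map_zero]
  | succ k ih =>
    rw [fgNSeries_succ, fgNSeries_succ, h.subst_add (constantCoeff_fgNSeries F k)
      PowerSeries.constantCoeff_X, subst_subst_pair G (constantCoeff_fgNSeries G k)
      PowerSeries.constantCoeff_X h.1, ih, PowerSeries.subst_X (h29_hasSubst h.1),
      PowerSeries.X_subst]

end Claimed.Open.R308
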