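/- R308 sanity, invariance of `(p, v₁, …, v_n)`, module H: the `p`-series of Hazewinkel's law over `BP_⋆`. -/
import Claimed.Open.R308.SanityHazInvN

set_option autoImplicit false

namespace Claimed.Open.R308

/-- the `k`-series over `BP_⋆` (Mathlib's `k • x`) maps to `log⁻¹(k log x)` -/
theorem map_toRat_fgNSeries {p : ℕ} (hp : p.Prime) (k : ℕ) :
    PowerSeries.map (toRat p) (fgNSeries (hazFormalGroupInt hp) k) = hazNSeries p k := by
  induction k with
  | zero => rw [fgNSeries_zero, hazNSeries_zero, map_zero]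
  | succ k ih =>
    rw [fgNSeries_succ, hazNSeries_succ, ← ih]
    have h := MvPowerSeries.map_subst (h := toRat p)
      (h29_hasSubst_pair (constantCoeff_fgNSeries (hazFormalGroupInt hp) k)
        (PowerSeries.constantCoeff_X (R := BPCoeff p))) (hazFormalGroupInt hp).toPowerSeries
    rw [h29_map_cons] at h
    have h2 : MvPowerSeries.map (toRat p) (hazFormalGroupInt hp).toPowerSeries = hazFGL p :=
      map_toRat_hazFGLInt hp
    rw [h2] at h
    have h3 : MvPowerSeries.map (toRat p) (PowerSeries.X : PowerSeries (BPCoeff p)) =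
        (PowerSeries.X : PowerSeries (MvPolynomial ℕ ℚ)) := PowerSeries.map_X _
    rw [h3] at h
    exact h

theorem coeff_fgPSeries_mem {p : ℕ} (hp : p.Prime) (n k : ℕ) (hk : k < p ^ (n + 1)) :
    PowerSeries.coeff k (fgNSeries (hazFormalGroupInt hp) p) ∈ smithTodaIdeal p n := by
  refine (hazPSeries_height_exact hp n).1 k hk _ ?_
  rw [← PowerSeries.coeff_map, map_toRat_fgNSeries]
  rfl

theorem coeff_fgPSeries_sub_mem {p : ℕ} (hp : p.Prime) (n : ℕ) :
    PowerSeries.coeff (p ^ (n + 1)) (fgNSeries (hazFormalGroupInt hp) p) - vGen p (n + 1) ∈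
      smithTodaIdeal p n := by
  obtain ⟨c, hc, h⟩ := hazPSeries_height hp n (p ^ (n + 1)) le_rfl
  rw [if_pos rfl] at h
  have e : PowerSeries.coeff (p ^ (n + 1)) (fgNSeries (hazFormalGroupInt hp) p) = c := by
    apply toRat_injective p
    rw [hc, ← PowerSeries.coeff_map, map_toRat_fgNSeries]
    rfl
  rw [e]
  exact h

theorem smithTodaIdeal_succ (p n : ℕ) :
    smithTodaIdeal p (n + 1) = smithTodaIdeal p n ⊔ Ideal.span {vGen p (n + 1)} := by
  apply le_antisymm
  · refine Ideal.span_le.2 ?_
    rintro _ ⟨k, rfl⟩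
    rcases Nat.lt_or_ge (k : ℕ) (n + 1) with h | h
    · exact Ideal.mem_sup_left (vGen_mem_smithTodaIdeal p n k (by omega))
    · have hk : (k : ℕ) = n + 1 := by omega
      refine Ideal.mem_sup_right ?_
      simp only [hk]
      exact Ideal.mem_span_singleton_self _
  · refine sup_le (smithTodaIdeal_mono p (Nat.le_succ n)) ?_
    rw [Ideal.span_singleton_le_iff_mem]
    exact vGen_mem_smithTodaIdeal p (n + 1) (n + 1) le_rfl

end Claimed.Open.R308
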