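/- R308 sanity: the ideals `(p, v₁, …, v_n)` are invariant under isomorphisms of formal group laws (algebraic form of Landweber's theorem). -/
import Claimed.Open.R308.SanityHazInvH
import Claimed.Open.R308.SanityHazInvC

set_option autoImplicit false

namespace Claimed.Open.R308

variable {R : Type*} [CommRing R]

/-- The comparison of the leading coefficients of the two `p`-series modulo an ideal `J` that contains `α(I)` and `β(I)`, `I = (p, v₁, …, v_n)`:
`u α(v_{n+1}) ≡ u^{p^{n+1}} β(v_{n+1})` modulo `J`. -/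
theorem isFGHom_leading_coeff {p : ℕ} (hp : p.Prime) (α β : BPCoeff p →+* R) {φ : PowerSeries R}
    (hφ : IsFGHom ((hazFormalGroupInt hp).map α) ((hazFormalGroupInt hp).map β) φ) (n : ℕ)
    (J : Ideal R) (hα : (smithTodaIdeal p n).map α ≤ J) (hβ : (smithTodaIdeal p n).map β ≤ J) :
    PowerSeries.coeff 1 φ * α (vGen p (n + 1)) -
      PowerSeries.coeff 1 φ ^ p ^ (n + 1) * β (vGen p (n + 1)) ∈ J := by
  set F := hazFormalGroupInt hp with hF
  set q := p ^ (n + 1) with hq
  set π := Ideal.Quotient.mk J with hπ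
  have hq1 : 1 ≤ q := Nat.one_le_pow _ _ hp.pos
  have h := hφ.subst_fgNSeries p
  rw [fgNSeries_map, fgNSeries_map] at h
  -- reduce modulo `J`
  have hsA : PowerSeries.HasSubst (PowerSeries.map α (fgNSeries F p)) :=
    PowerSeries.HasSubst.of_constantCoeff_zero' (by
      rw [← fgNSeries_map]; exact constantCoeff_fgNSeries _ _)
  have hsφ : PowerSeries.HasSubst φ := PowerSeries.HasSubst.of_constantCoeff_zero' hφ.1
  have h2 : PowerSeries.subst (PowerSeries.map π (PowerSeries.map α (fgNSeries F p)))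
      (PowerSeries.map π φ) =
      PowerSeries.subst (PowerSeries.map π φ)
        (PowerSeries.map π (PowerSeries.map β (fgNSeries F p))) := by
    have e1 := PowerSeries.map_subst hsA (h := π) φ
    have e2 := PowerSeries.map_subst hsφ (h := π) (PowerSeries.map β (fgNSeries F p))
    exact e1.symm.trans ((congrArg (MvPowerSeries.map π) h).trans e2)
  have hφ0 : PowerSeries.constantCoeff (PowerSeries.map π φ) = 0 := by
    rw [← PowerSeries.coeff_zero_eq_constantCoeff_apply, PowerSeries.coeff_map,
      PowerSeries.coeff_zero_eq_constantCoeff_apply, hφ.1, map_zero]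
  have hlow : ∀ (γ : BPCoeff p →+* R), (smithTodaIdeal p n).map γ ≤ J → ∀ k < q,
      PowerSeries.coeff k (PowerSeries.map π (PowerSeries.map γ (fgNSeries F p))) = 0 := by
    intro γ hγ k hk
    rw [PowerSeries.coeff_map, PowerSeries.coeff_map]
    exact Ideal.Quotient.eq_zero_iff_mem.2
      (hγ (Ideal.mem_map_of_mem γ (coeff_fgPSeries_mem hp n k hk)))
  have hlead : ∀ (γ : BPCoeff p →+* R), (smithTodaIdeal p n).map γ ≤ J →
      PowerSeries.coeff q (PowerSeries.map π (PowerSeries.map γ (fgNSeries F p))) =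
        π (γ (vGen p (n + 1))) := by
    intro γ hγ
    rw [PowerSeries.coeff_map, PowerSeries.coeff_map, ← sub_eq_zero, ← map_sub, ← map_sub]
    exact Ideal.Quotient.eq_zero_iff_mem.2
      (hγ (Ideal.mem_map_of_mem γ (coeff_fgPSeries_sub_mem hp n)))
  have h3 := congrArg (PowerSeries.coeff q) h2
  rw [coeff_subst_of_order_left hq1 (hlow α hα) hφ0, coeff_subst_of_order_right (hlow β hβ) hφ0,
    hlead α hα, hlead β hβ, PowerSeries.coeff_map] at h3
  rw [← Ideal.Quotient.eq_zero_iff_mem, map_sub, map_mul, map_mul, map_pow, h3, sub_self]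

/-- **The ideals `(p, v₁, …, v_n)` are invariant** (Landweber; Ravenel, *Complex cobordism*, 4.3.2, in algebraic form): if the formal group laws `α_⋆F` and
`β_⋆F` over `R` are isomorphic (`φ = u x + …` a homomorphism with `u` a unit), then `α(I) R = β(I) R` for `I = (p, v₁, …, v_n)`. -/
theorem smithTodaIdeal_map_eq_of_isFGHom {p : ℕ} (hp : p.Prime) (α β : BPCoeff p →+* R)
    {φ : PowerSeries R}
    (hφ : IsFGHom ((hazFormalGroupInt hp).map α) ((hazFormalGroupInt hp).map β) φ)
    (hu : IsUnit (PowerSeries.coeff 1 φ)) (n : ℕ) :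
    (smithTodaIdeal p n).map α = (smithTodaIdeal p n).map β := by
  induction n with
  | zero =>
    rw [smithTodaIdeal_zero, Ideal.map_span, Ideal.map_span, Set.image_singleton,
      Set.image_singleton, map_natCast, map_natCast]
  | succ n ih =>
    have key := isFGHom_leading_coeff hp α β hφ n _ le_rfl ih.ge
    obtain ⟨u, hu'⟩ := hu
    rw [smithTodaIdeal_succ, Ideal.map_sup, Ideal.map_sup, Ideal.map_span, Ideal.map_span,
      Set.image_singleton, Set.image_singleton, ← ih]
    set J := (smithTodaIdeal p n).map α with hJ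
    rw [← hu'] at key
    apply le_antisymm
    · refine sup_le le_sup_left ?_
      rw [Ideal.span_singleton_le_iff_mem]
      have e : α (vGen p (n + 1)) = (↑u⁻¹ : R) * ((u : R) * α (vGen p (n + 1)) -
          (u : R) ^ p ^ (n + 1) * β (vGen p (n + 1))) +
          ((↑u⁻¹ : R) * (u : R) ^ p ^ (n + 1)) * β (vGen p (n + 1)) := by
        have : (↑u⁻¹ : R) * (u : R) = 1 := Units.inv_mul u
        linear_combination (-α (vGen p (n + 1))) * this
      rw [e]
      exact Ideal.add_mem _ (Ideal.mem_sup_left (Ideal.mul_mem_left _ _ key))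
        (Ideal.mem_sup_right (Ideal.mul_mem_left _ _ (Ideal.mem_span_singleton_self _)))
    · refine sup_le le_sup_left ?_
      rw [Ideal.span_singleton_le_iff_mem]
      have e : β (vGen p (n + 1)) = -((↑u⁻¹ : R) ^ p ^ (n + 1)) * ((u : R) * α (vGen p (n + 1)) -
          (u : R) ^ p ^ (n + 1) * β (vGen p (n + 1))) +
          ((↑u⁻¹ : R) ^ p ^ (n + 1) * (u : R)) * α (vGen p (n + 1)) := by
        have : (↑u⁻¹ : R) ^ p ^ (n + 1) * (u : R) ^ p ^ (n + 1) = 1 := by
          rw [← mul_pow, Units.inv_mul, one_pow]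
        linear_combination (-β (vGen p (n + 1))) * this
      rw [e]
      exact Ideal.add_mem _ (Ideal.mem_sup_left (Ideal.mul_mem_left _ _ key))
        (Ideal.mem_sup_right (Ideal.mul_mem_left _ _ (Ideal.mem_span_singleton_self _)))

/-- In particular `β(v) ∈ α(I) R` for `v ∈ I = (p, v₁, …, v_n)`: for `α = η_L`, `β = η_R` this is `η_R(I) ⊆ I · BP_⋆BP`. -/
theorem map_mem_map_smithTodaIdeal_of_isFGHom {p : ℕ} (hp : p.Prime) (α β : BPCoeff p →+* R)
    {φ : PowerSeries R}
    (hφ : IsFGHom ((hazFormalGroupInt hp).map α) ((hazFormalGroupInt hp).map β) φ)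
    (hu : IsUnit (PowerSeries.coeff 1 φ)) (n : ℕ) {v : BPCoeff p} (hv : v ∈ smithTodaIdeal p n) :
    β v ∈ (smithTodaIdeal p n).map α := by
  rw [smithTodaIdeal_map_eq_of_isFGHom hp α β hφ hu n]
  exact Ideal.mem_map_of_mem β hv

end Claimed.Open.R308
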