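/- R308 sanity: `(p, v₁, …, v_n)` is the ideal generated by the coefficients of `[p]_F(x)` below `x^{p^{n+1}}`. -/
import Claimed.Open.R308.SanityHazPTop

set_option autoImplicit false

namespace Claimed.Open.R308

/-- `[k]_F(x) = k x + ⋯` -/
theorem coeff_one_hazNSeries (p k : ℕ) :
    PowerSeries.coeff 1 (hazNSeries p k) = (k : MvPolynomial ℕ ℚ) := by
  have hB : MvPowerSeries.constantCoeff ((k : PowerSeries (MvPolynomial ℕ ℚ)) * hazLog p) = 0 := by
    rw [map_mul]
    have : MvPowerSeries.constantCoeff (hazLog p) = 0 := constantCoeff_hazLog p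
    rw [this, mul_zero]
  have h1 := coeff_single_one_subst (σ := Unit) () hB (hazLog p).substInv
    (PowerSeries.constantCoeff_substInv _)
  have h2 : PowerSeries.coeff 1 (hazLog p).substInv = 1 := by
    rw [PowerSeries.coeff_one_substInv, invOf_eq_right_inv]
    rw [coeff_one_hazLog, one_mul]
  have h3 : MvPowerSeries.coeff (Finsupp.single () 1)
      ((k : PowerSeries (MvPolynomial ℕ ℚ)) * hazLog p) = (k : MvPolynomial ℕ ℚ) := by
    have : PowerSeries.coeff 1 ((k : PowerSeries (MvPolynomial ℕ ℚ)) * hazLog p) =
        (k : MvPolynomial ℕ ℚ) := by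
      rw [← map_natCast (PowerSeries.C : MvPolynomial ℕ ℚ →+* _), PowerSeries.coeff_C_mul,
        coeff_one_hazLog, mul_one]
    exact this
  rw [h2, h3, one_mul] at h1
  exact h1

/-- **`(p, v₁, …, v_n)` is the ideal "height `> n`"**: it is generated by the coefficients of `x^k`, `k < p^{n+1}`, of the `p`-series `[p]_F(x)` of Hazewinkel's law. -/
theorem span_coeff_hazPSeries_eq_smithTodaIdeal {p : ℕ} (hp : p.Prime) (n : ℕ) :
    Ideal.span {c : BPCoeff p | ∃ k < p ^ (n + 1), toRat p c = PowerSeries.coeff k (hazPSeries p)} =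
      smithTodaIdeal p n := by
  apply le_antisymm
  · refine Ideal.span_le.2 ?_
    rintro c ⟨k, hk, hc⟩
    exact (hazPSeries_height_exact hp n).1 k hk c hc
  · set S := Ideal.span {c : BPCoeff p |
      ∃ k < p ^ (n + 1), toRat p c = PowerSeries.coeff k (hazPSeries p)} with hS
    have key : ∀ k, k ≤ n → vGen p k ∈ S := by
      intro k
      induction k using Nat.strong_induction_on with
      | _ k ih =>
        intro hk
        rcases k with _ | m
        · refine Ideal.subset_span ⟨1, Nat.one_lt_pow (Nat.succ_ne_zero n) hp.one_lt, ?_⟩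
          rw [hazPSeries, coeff_one_hazNSeries]
          show toRat p (p : BPCoeff p) = _
          rw [map_natCast]
        · obtain ⟨c, hc, h⟩ := hazPSeries_height hp m (p ^ (m + 1)) le_rfl
          rw [if_pos rfl] at h
          have hcS : c ∈ S := Ideal.subset_span
            ⟨p ^ (m + 1), Nat.pow_lt_pow_right hp.one_lt (by omega), hc⟩
          have hle : smithTodaIdeal p m ≤ S := by
            refine Ideal.span_le.2 ?_
            rintro _ ⟨j, rfl⟩
            exact ih j (by omega) (by omega)
          have := S.sub_mem hcS (hle h)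
          rwa [sub_sub_cancel] at this
    refine Ideal.span_le.2 ?_
    rintro _ ⟨j, rfl⟩
    exact key j (by omega)

end Claimed.Open.R308
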