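/- R308 sanity: `quotDeg` is a grading of the target `BP_⋆/(p, v₁, …, v_n)` of the statement; its low degrees. -/
import Claimed.Open.R308.SanityHazPrime

/-!
# Result 308: the grading `quotDeg` of `BP_⋆/(p, v₁, …, v_n)`

`IsSmithTodaHomology p n X` asks for an isomorphism `BP_⋆X ≅ BP_⋆/(p, v₁, …, v_n)` that preserves and reflects degrees, the degrees of the target being
`quotDeg p n k`.  Here: the ideal is homogeneous, `quotDeg` is a grading (`isInternal_quotDeg`), it vanishes in negative degrees and in the degrees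
`0 < k < |v_{n+1}|`, its part of degree `0` is the cyclic group of order `p` generated by `1`, and `v_{n+1}` is a non-zero element of degree `2 (p^{n+1} - 1)`.
-/

set_option autoImplicit false

namespace Claimed.Open.R308

open MvPolynomial (IsWeightedHomogeneous)

/-- the ideal is homogeneous (`Ideal.homogeneous_span` for `MvPolynomial.weightedGradedAlgebra`, `MvPolynomial.weightedHomogeneousComponent_mem_of_mem`;
the generators `p`, `X i` are homogeneous) -/
theorem weightedHomogeneousComponent_mem_smithTodaIdeal (p n d : ℕ) {v : BPCoeff p}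
    (hv : v ∈ smithTodaIdeal p n) :
    MvPolynomial.weightedHomogeneousComponent (vDeg p) d v ∈ smithTodaIdeal p n := by
  classical
  let _ := MvPolynomial.weightedGradedAlgebra (ZLoc p) (vDeg p)
  have h : (smithTodaIdeal p n).IsHomogeneous
      (MvPolynomial.weightedHomogeneousSubmodule (ZLoc p) (vDeg p)) := by
    refine Ideal.homogeneous_span _ _ ?_
    rintro _ ⟨k, rfl⟩
    rcases k with ⟨_ | k, hk⟩
    · refine ⟨0, ?_⟩
      show (p : BPCoeff p) ∈ _
      rw [MvPolynomial.mem_weightedHomogeneousSubmodule, ← map_natCast (MvPolynomial.C)]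
      exact MvPolynomial.isWeightedHomogeneous_C _ _
    · exact ⟨vDeg p k, MvPolynomial.isWeightedHomogeneous_X _ _ _⟩
  exact MvPolynomial.weightedHomogeneousComponent_mem_of_mem _ _ h hv d

theorem quotDeg_of_neg (p n : ℕ) {k : ℤ} (hk : k < 0) : quotDeg p n k = ⊥ := by
  rw [quotDeg, AddSubgroup.closure_eq_bot_iff]
  rintro z ⟨d, v, -, hd, -⟩
  omega

/-- the generating set of `quotDeg p n d` is already a subgroup -/
theorem mem_quotDeg_natCast_iff (p n d : ℕ) (z : BPCoeff p ⧸ smithTodaIdeal p n) :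
    z ∈ quotDeg p n (d : ℤ) ↔
      ∃ v : BPCoeff p, IsWeightedHomogeneous (vDeg p) v d ∧ z = Ideal.Quotient.mk _ v := by
  constructor
  · intro hz
    induction hz using AddSubgroup.closure_induction with
    | mem x hx =>
      obtain ⟨d', v, hv, hd, rfl⟩ := hx
      have : d' = d := by exact_mod_cast hd
      subst this
      exact ⟨v, hv, rfl⟩
    | zero => exact ⟨0, MvPolynomial.isWeightedHomogeneous_zero _ _ _, (map_zero _).symm⟩
    | add x y _ _ hx hy =>
      obtain ⟨a, ha, rfl⟩ := hx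
      obtain ⟨b, hb, rfl⟩ := hy
      exact ⟨a + b, ha.add hb, (map_add _ _ _).symm⟩
    | neg x _ hx =>
      obtain ⟨a, ha, rfl⟩ := hx
      exact ⟨-a, ha.neg, (map_neg _ _).symm⟩
  · rintro ⟨v, hv, rfl⟩
    exact AddSubgroup.subset_closure ⟨d, v, hv, rfl, rfl⟩

/-- puts the class of a homogeneous polynomial of weight `d` in the `d`-th summand -/
noncomputable def quotSplitSum (p n : ℕ) :
    DirectSum ℕ (fun d => MvPolynomial.weightedHomogeneousSubmodule (ZLoc p) (vDeg p) d) →+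
      DirectSum ℤ (fun _ => BPCoeff p ⧸ smithTodaIdeal p n) :=
  DirectSum.toAddMonoid fun d : ℕ =>
    ((DirectSum.of (fun _ : ℤ => BPCoeff p ⧸ smithTodaIdeal p n) (d : ℤ)).comp
      ((Ideal.Quotient.mk (smithTodaIdeal p n)).toAddMonoidHom)).comp
      ((MvPolynomial.weightedHomogeneousSubmodule (ZLoc p) (vDeg p) d).subtype.toAddMonoidHom)

theorem quotSplitSum_apply_natCast (p n : ℕ)
    (x : DirectSum ℕ (fun d => MvPolynomial.weightedHomogeneousSubmodule (ZLoc p) (vDeg p) d))
    (k : ℕ) : quotSplitSum p n x (k : ℤ) = Ideal.Quotient.mk (smithTodaIdeal p n) (x k : BPCoeff p) := by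
  induction x using DirectSum.induction_on with
  | zero => simp
  | of d a =>
    rw [quotSplitSum, DirectSum.toAddMonoid_of]
    by_cases h : k = d
    · subst h
      rw [DirectSum.of_eq_same]
      exact DirectSum.of_eq_same _ _
    · rw [DirectSum.of_eq_of_ne _ _ _ h]
      have h' : (k : ℤ) ≠ (d : ℤ) := by exact_mod_cast h
      simpa using DirectSum.of_eq_of_ne _ _ _ h'
  | add a b ha hb =>
    rw [map_add, DirectSum.add_apply, ha, hb, DirectSum.add_apply, Submodule.coe_add, map_add]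

theorem quotSplitSum_apply_neg (p n : ℕ)
    (x : DirectSum ℕ (fun d => MvPolynomial.weightedHomogeneousSubmodule (ZLoc p) (vDeg p) d))
    {k : ℤ} (hk : k < 0) : quotSplitSum p n x k = 0 := by
  induction x using DirectSum.induction_on with
  | zero => simp
  | of d a =>
    rw [quotSplitSum, DirectSum.toAddMonoid_of]
    have h' : k ≠ (d : ℤ) := by omega
    exact DirectSum.of_eq_of_ne _ _ _ h'
  | add a b ha hb => rw [map_add, DirectSum.add_apply, ha, hb, add_zero]

/-- the homomorphism `BP_⋆/(p, v₁, …, v_n) → ⨁_k BP_⋆/(p, v₁, …, v_n)` that puts the class of a homogeneous polynomial of weight `d` in the `d`-th summand -/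
noncomputable def quotSplit (p n : ℕ) :
    (BPCoeff p ⧸ smithTodaIdeal p n) →+ DirectSum ℤ (fun _ => BPCoeff p ⧸ smithTodaIdeal p n) :=
  QuotientAddGroup.lift (Submodule.toAddSubgroup (smithTodaIdeal p n))
    ((quotSplitSum p n).comp
      (@DirectSum.decomposeAddEquiv _ _ _ _ _ _ _
        (MvPolynomial.weightedHomogeneousSubmodule (ZLoc p) (vDeg p))
        (MvPolynomial.weightedDecomposition (ZLoc p) (vDeg p))).toAddMonoidHom)
    (by
      intro v hv
      refine DirectSum.ext_iff.2 ?_ |> fun h => h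
      intro k
      rcases lt_or_ge k 0 with hk | hk
      · exact quotSplitSum_apply_neg p n _ hk
      · lift k to ℕ using hk
        refine (quotSplitSum_apply_natCast p n _ k).trans ?_
        refine Ideal.Quotient.eq_zero_iff_mem.2 ?_
        have := weightedHomogeneousComponent_mem_smithTodaIdeal p n k hv
        rwa [← MvPolynomial.weightedDecomposition.decompose'_apply] at this)

theorem quotSplit_of_mem (p n : ℕ) {k : ℤ} {x : BPCoeff p ⧸ smithTodaIdeal p n}
    (hx : x ∈ quotDeg p n k) :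
    quotSplit p n x = DirectSum.of (fun _ : ℤ => BPCoeff p ⧸ smithTodaIdeal p n) k x := by
  rcases lt_or_ge k 0 with hk | hk
  · rw [quotDeg_of_neg p n hk, AddSubgroup.mem_bot] at hx
    subst hx
    simp
  · lift k to ℕ using hk
    obtain ⟨v, hv, rfl⟩ := (mem_quotDeg_natCast_iff p n k x).1 hx
    have hv' : v ∈ MvPolynomial.weightedHomogeneousSubmodule (ZLoc p) (vDeg p) k := hv
    have h1 : quotSplit p n (Ideal.Quotient.mk _ v) = quotSplitSum p n
        (@DirectSum.decompose _ _ _ _ _ _ _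
          (MvPolynomial.weightedHomogeneousSubmodule (ZLoc p) (vDeg p))
          (MvPolynomial.weightedDecomposition (ZLoc p) (vDeg p)) v) := rfl
    rw [h1, @DirectSum.decompose_of_mem _ _ _ _ _ _ _ _
      (MvPolynomial.weightedDecomposition (ZLoc p) (vDeg p)) _ _ hv', quotSplitSum,
      DirectSum.toAddMonoid_of]
    rfl

/-- **`quotDeg` is a grading**: `BP_⋆/(p, v₁, …, v_n)` is the internal direct sum of the subgroups `quotDeg p n k`, `k ∈ ℤ`.  (Surjectivity:
`MvPolynomial.sum_weightedHomogeneousComponent`.  Injectivity: if `∑_d [v_d] = 0`, `v_d` homogeneous of degree `d`, then `∑_d v_d` lies in the ideal, and its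
component of degree `d`, which is `v_d`, lies in the ideal by `weightedHomogeneousComponent_mem_smithTodaIdeal`.  Model: `StableSystem.isInternal_piDeg` of
`Sanity.lean`.) -/
theorem isInternal_quotDeg (p n : ℕ) : DirectSum.IsInternal (quotDeg p n) := by
  constructor
  · rw [injective_iff_map_eq_zero]
    intro z hz
    have key : ∀ z : DirectSum ℤ (fun k => quotDeg p n k),
        quotSplit p n (DirectSum.coeAddMonoidHom (quotDeg p n) z) =
          DirectSum.map (fun k => (quotDeg p n k).subtype) z := by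
      intro z
      induction z using DirectSum.induction_on with
      | zero => simp
      | of k x =>
        rw [DirectSum.coeAddMonoidHom_of, quotSplit_of_mem p n x.2, DirectSum.map_of]
        rfl
      | add a b ha hb => rw [map_add, map_add, ha, hb, map_add]
    have h0 : DirectSum.map (fun k => (quotDeg p n k).subtype) z = 0 := by
      rw [← key, hz, map_zero]
    refine DirectSum.ext_iff.2 ?_ |> fun h => h
    intro k
    have := congrArg (fun w => w k) h0
    simp only [DirectSum.map_apply, DirectSum.zero_apply] at this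
    exact Subtype.ext this
  · intro x
    obtain ⟨v, rfl⟩ := Ideal.Quotient.mk_surjective x
    induction v using MvPolynomial.induction_on' with
    | monomial s c =>
      exact ⟨DirectSum.of (fun k => quotDeg p n k) ((Finsupp.weight (vDeg p) s : ℕ) : ℤ)
        ⟨_, (mem_quotDeg_natCast_iff p n _ _).2
          ⟨_, MvPolynomial.isWeightedHomogeneous_monomial _ _ _ rfl, rfl⟩⟩,
        DirectSum.coeAddMonoidHom_of _ _ _⟩
    | add a b ha hb =>
      obtain ⟨a', ha'⟩ := ha
      obtain ⟨b', hb'⟩ := hb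
      exact ⟨a' + b', by rw [map_add, ha', hb', map_add]⟩

theorem h157_vDeg_pos {p : ℕ} (hp : p.Prime) (i : ℕ) : 0 < vDeg p i := by
  unfold vDeg
  have h1 : 1 < p ^ (i + 1) := Nat.one_lt_pow (Nat.succ_ne_zero i) hp.one_lt
  omega

/-- a homogeneous element of degree `0` is a constant (all weights `vDeg p i = 2 (p^{i+1} - 1)` are positive) -/
theorem exists_eq_C_of_isWeightedHomogeneous_zero {p : ℕ} (hp : p.Prime) {v : BPCoeff p}
    (hv : IsWeightedHomogeneous (vDeg p) v 0) : ∃ c : ZLoc p, v = MvPolynomial.C c := by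
  refine ⟨MvPolynomial.coeff 0 v, ?_⟩
  refine MvPolynomial.ext _ _ fun m => ?_
  rw [MvPolynomial.coeff_C]
  split_ifs with h
  · rw [← h]
  · by_contra hne
    have hw : Finsupp.weight (vDeg p) m = 0 := hv hne
    apply h
    refine Finsupp.ext fun i => ?_
    have hle : m i ≤ Finsupp.weight (vDeg p) m :=
      Finsupp.le_weight (vDeg p) (h157_vDeg_pos hp i).ne' m
    rw [hw] at hle
    rw [Finsupp.zero_apply]
    omega

/-- every element of `ℤ_(p)` is congruent modulo `p` to an integer `0 ≤ m < p` (`mem_ZLoc_iff`, `p_dvd_ZLoc_of_dvd_num`; `c = a / b`, `p ∤ b`, choose `m` with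
`b m ≡ a` modulo `p`) -/
theorem exists_nat_lt_p_dvd_sub {p : ℕ} (hp : p.Prime) (c : ZLoc p) :
    ∃ m : ℕ, m < p ∧ (p : ZLoc p) ∣ c - (m : ZLoc p) := by
  have : Fact p.Prime := ⟨hp⟩
  have hden : ¬ p ∣ (c : ℚ).den := (mem_ZLoc_iff hp _).1 c.2
  have hb0 : (((c : ℚ).den : ℕ) : ZMod p) ≠ 0 := by
    rw [Ne, ZMod.natCast_eq_zero_iff]
    exact hden
  have hm : (((c : ℚ).num : ZMod p) * (((c : ℚ).den : ℕ) : ZMod p)⁻¹).val < p := ZMod.val_lt _
  have hcong : ((((c : ℚ).num - ((c : ℚ).den : ℤ) *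
      ((((c : ℚ).num : ZMod p) * (((c : ℚ).den : ℕ) : ZMod p)⁻¹).val : ℤ) : ℤ)) : ZMod p) = 0 := by
    push_cast
    rw [ZMod.natCast_zmod_val]
    field_simp
    ring
  obtain ⟨k, hk⟩ := (ZMod.intCast_zmod_eq_zero_iff_dvd _ p).1 hcong
  have h1 : ((((c : ℚ).den : ℕ) : ℤ) : ℚ)⁻¹ ∈ ZLoc p :=
    Subring.subset_closure ⟨(c : ℚ).den, fun h' => hden (Int.natCast_dvd_natCast.1 h'), rfl⟩
  have h2 : (k : ℚ) ∈ ZLoc p := intCast_mem _ _
  refine ⟨_, hm, ⟨(k : ℚ) * ((((c : ℚ).den : ℕ) : ℤ) : ℚ)⁻¹, mul_mem h2 h1⟩, ?_⟩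
  apply Subtype.ext
  have hbQ : (((c : ℚ).den : ℕ) : ℚ) ≠ 0 := by exact_mod_cast (c : ℚ).den_nz
  have hc : (c : ℚ) = ((c : ℚ).num : ℚ) / (((c : ℚ).den : ℕ) : ℚ) := (Rat.num_div_den _).symm
  have hkQ : (((c : ℚ).num : ℚ)) - (((c : ℚ).den : ℕ) : ℚ) *
      (((((c : ℚ).num : ZMod p) * (((c : ℚ).den : ℕ) : ZMod p)⁻¹).val : ℕ) : ℚ)
      = (p : ℚ) * (k : ℚ) := by exact_mod_cast hk
  have hnum : ((c : ℚ).num : ℚ) = (c : ℚ) * (((c : ℚ).den : ℕ) : ℚ) := by
    rw [eq_comm]; exact Rat.mul_den_eq_num _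
  generalize ((((c : ℚ).num : ZMod p) * (((c : ℚ).den : ℕ) : ZMod p)⁻¹).val : ℕ) = m at hkQ ⊢
  change (c : ℚ) - ((m : ZLoc p) : ℚ) =
    ((p : ZLoc p) : ℚ) * ((k : ℚ) * ((((c : ℚ).den : ℕ) : ℤ) : ℚ)⁻¹)
  have hpc : ((p : ZLoc p) : ℚ) = (p : ℚ) := by simp
  have hmc : ((m : ZLoc p) : ℚ) = (m : ℚ) := by simp
  rw [hpc, hmc, ← mul_assoc, ← hkQ, hnum, Int.cast_natCast]
  field_simp

/-- the characteristic of the target is `p` (`ker_killLow`, or `smithTodaIdeal_isPrime` and `1 ∉ I`) -/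
theorem natCast_quot_eq_zero_iff {p : ℕ} (hp : p.Prime) (n m : ℕ) :
    ((m : ℕ) : BPCoeff p ⧸ smithTodaIdeal p n) = 0 ↔ p ∣ m := by
  have hp0 : ((p : ℕ) : BPCoeff p ⧸ smithTodaIdeal p n) = 0 := by
    have h := Ideal.Quotient.eq_zero_iff_mem.2 (vGen_mem_smithTodaIdeal p n 0 (Nat.zero_le n))
    have hv : vGen p 0 = ((p : ℕ) : BPCoeff p) := rfl
    rw [hv, map_natCast] at h
    exact h
  constructor
  · intro hm
    by_contra hnd
    have hco : IsCoprime (m : ℤ) (p : ℤ) :=
      Nat.isCoprime_iff_coprime.2 ((Nat.Prime.coprime_iff_not_dvd hp).2 hnd).symm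
    obtain ⟨a, b, hab⟩ := hco
    have h1 : ((a * (m : ℤ) + b * (p : ℤ) : ℤ) : BPCoeff p ⧸ smithTodaIdeal p n) = 1 := by
      rw [hab]; simp
    push_cast at h1
    rw [hm, hp0, mul_zero, mul_zero, add_zero] at h1
    have := nontrivial_quot hp n
    exact zero_ne_one h1
  · rintro ⟨k, rfl⟩
    rw [Nat.cast_mul, hp0, zero_mul]

theorem h157_natCast_p_mem (p n : ℕ) : (p : BPCoeff p) ∈ smithTodaIdeal p n :=
  Ideal.subset_span ⟨0, by simp [vGen]⟩

/-- **the part of degree `0` is the cyclic group of order `p` generated by `1`** -/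
theorem mem_quotDeg_zero_iff {p : ℕ} (hp : p.Prime) (n : ℕ)
    (z : BPCoeff p ⧸ smithTodaIdeal p n) :
    z ∈ quotDeg p n 0 ↔ ∃ m : ℕ, m < p ∧ z = (m : BPCoeff p ⧸ smithTodaIdeal p n) := by
  have key := mem_quotDeg_natCast_iff p n 0 z
  rw [Nat.cast_zero] at key
  rw [key]
  constructor
  · rintro ⟨v, hv, rfl⟩
    obtain ⟨c, rfl⟩ := exists_eq_C_of_isWeightedHomogeneous_zero hp hv
    obtain ⟨m, hm, e, he⟩ := exists_nat_lt_p_dvd_sub hp c
    refine ⟨m, hm, ?_⟩
    rw [← map_natCast (Ideal.Quotient.mk (smithTodaIdeal p n)) m, Ideal.Quotient.eq]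
    have : (MvPolynomial.C c : BPCoeff p) - (m : BPCoeff p) = (p : BPCoeff p) * MvPolynomial.C e := by
      rw [← map_natCast (MvPolynomial.C : ZLoc p →+* BPCoeff p) m,
        ← map_natCast (MvPolynomial.C : ZLoc p →+* BPCoeff p) p, ← map_sub, ← map_mul, he]
    rw [this]
    exact Ideal.mul_mem_right _ _ (h157_natCast_p_mem p n)
  · rintro ⟨m, -, rfl⟩
    refine ⟨MvPolynomial.C (m : ZLoc p), MvPolynomial.isWeightedHomogeneous_C _ _, ?_⟩
    rw [map_natCast, map_natCast]

/-- nothing in the degrees `0 < k < |v_{n+1}|`: every monomial of such a weight contains one of `v₁, …, v_n` -/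
theorem quotDeg_eq_bot_of_lt {p : ℕ} (hp : p.Prime) (n : ℕ) {k : ℤ} (h0 : 0 < k)
    (hk : k < 2 * ((p : ℤ) ^ (n + 1) - 1)) : quotDeg p n k = ⊥ := by
  lift k to ℕ using h0.le
  rw [eq_bot_iff]
  intro z hz
  obtain ⟨v, hv, rfl⟩ := (mem_quotDeg_natCast_iff p n k z).1 hz
  rw [AddSubgroup.mem_bot, Ideal.Quotient.eq_zero_iff_mem, ← MvPolynomial.support_sum_monomial_coeff v]
  refine Ideal.sum_mem _ fun s hs => ?_
  have hw : Finsupp.weight (vDeg p) s = k := hv (MvPolynomial.mem_support_iff.1 hs)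
  have hs0 : s ≠ 0 := by
    rintro rfl
    rw [map_zero] at hw
    subst hw
    exact lt_irrefl _ h0
  obtain ⟨i, hi⟩ := Finsupp.ne_iff.1 hs0
  rw [Finsupp.zero_apply] at hi
  have h1 : vDeg p i ≤ k := hw ▸ Finsupp.le_weight_of_ne_zero' (vDeg p) hi
  have h2 : k < vDeg p n := by
    have h3 : 1 ≤ p ^ (n + 1) := Nat.one_le_pow _ _ hp.pos
    have h4 : ((vDeg p n : ℕ) : ℤ) = 2 * ((p : ℤ) ^ (n + 1) - 1) := by
      rw [vDeg]
      push_cast [Nat.cast_sub h3]
      ring
    exact_mod_cast h4 ▸ hk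
  have hin : i < n := by
    by_contra hcon
    have h5 : p ^ (n + 1) ≤ p ^ (i + 1) := Nat.pow_le_pow_right hp.pos (by omega)
    have h6 : vDeg p n ≤ vDeg p i := by
      unfold vDeg
      omega
    omega
  obtain ⟨q, hq⟩ := (MvPolynomial.X_dvd_monomial (i := i) (j := s)
    (r := MvPolynomial.coeff s v)).2 (Or.inr hi)
  rw [hq]
  exact Ideal.mul_mem_right _ _ (vGen_mem_smithTodaIdeal p n (i + 1) hin)

/-- `v_{n+1}` is a non-zero element of degree `2 (p^{n+1} - 1)` of the target -/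
theorem mk_vGen_succ_mem_quotDeg {p : ℕ} (hp : p.Prime) (n : ℕ) :
    Ideal.Quotient.mk (smithTodaIdeal p n) (vGen p (n + 1)) ∈
        quotDeg p n (2 * ((p : ℤ) ^ (n + 1) - 1)) ∧
      Ideal.Quotient.mk (smithTodaIdeal p n) (vGen p (n + 1)) ≠ 0 := by
  constructor
  · refine AddSubgroup.subset_closure ⟨2 * (p ^ (n + 1) - 1), vGen p (n + 1),
      isWeightedHomogeneous_vGen p n, ?_, rfl⟩
    have h1 : 1 ≤ p ^ (n + 1) := Nat.one_le_pow _ _ hp.pos
    push_cast [Nat.cast_sub h1]
    ring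
  · intro h
    exact vGen_succ_not_mem_smithTodaIdeal hp n (Ideal.Quotient.eq_zero_iff_mem.1 h)

end Claimed.Open.R308
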