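/- R308 sanity: `BP_⋆/(p, v₁, …, v_n)` is the polynomial ring over `ℤ_(p)/p` on `v_{n+1}, v_{n+2}, …`. -/
import Claimed.Open.R308.SanityHazQuotDeg

set_option autoImplicit false

noncomputable section

namespace Claimed.Open.R308

/-- `BP_⋆ → (ℤ_(p)/p)[w₀, w₁, …]`, `v_k ↦ 0` for `k ≤ n`, `v_{n+1+i} ↦ w_i` -/
def killShift (p n : ℕ) : BPCoeff p →+* MvPolynomial ℕ (ZLoc p ⧸ Ideal.span {(p : ZLoc p)}) :=
  (MvPolynomial.rename (fun i => i - n)).toRingHom.comp (killLow p n)

/-- `(ℤ_(p)/p)[w₀, w₁, …] → BP_⋆/(p, v₁, …, v_n)`, `w_i ↦ v_{n+1+i}` -/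
def killShiftSection (p n : ℕ) :
    MvPolynomial ℕ (ZLoc p ⧸ Ideal.span {(p : ZLoc p)}) →+* BPCoeff p ⧸ smithTodaIdeal p n :=
  (killLowSection p n).comp (MvPolynomial.rename (fun i => n + i)).toRingHom

theorem killShift_C (p n : ℕ) (c : ZLoc p) :
    killShift p n (MvPolynomial.C c) = MvPolynomial.C (Ideal.Quotient.mk _ c) := by
  simp [killShift, killLow]

theorem killShift_X (p n i : ℕ) :
    killShift p n (MvPolynomial.X i) = if i < n then 0 else MvPolynomial.X (i - n) := by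
  simp only [killShift, killLow, RingHom.comp_apply, MvPolynomial.eval₂Hom_X']
  split_ifs with h
  · simp
  · simp

theorem killShiftSection_C (p n : ℕ) (c : ZLoc p) :
    killShiftSection p n (MvPolynomial.C (Ideal.Quotient.mk _ c)) =
      Ideal.Quotient.mk _ (MvPolynomial.C c) := by
  simp [killShiftSection, killLowSection]

theorem killShiftSection_X (p n i : ℕ) :
    killShiftSection p n (MvPolynomial.X i) = Ideal.Quotient.mk _ (MvPolynomial.X (n + i)) := by
  simp [killShiftSection, killLowSection]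

theorem killShift_eq_zero_of_mem (p n : ℕ) (a : BPCoeff p) (ha : a ∈ smithTodaIdeal p n) :
    killShift p n a = 0 := by
  have h : killLow p n a = 0 := smithTodaIdeal_le_ker_killLow p n ha
  rw [killShift, RingHom.comp_apply, h, map_zero]

/-- **`BP_⋆/(p, v₁, …, v_n) ≅ (ℤ_(p)/p)[v_{n+1}, v_{n+2}, …]`** as rings -/
def quotRingEquiv (p n : ℕ) :
    (BPCoeff p ⧸ smithTodaIdeal p n) ≃+* MvPolynomial ℕ (ZLoc p ⧸ Ideal.span {(p : ZLoc p)}) :=
  RingEquiv.ofRingHom (Ideal.Quotient.lift (smithTodaIdeal p n) (killShift p n)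
      (killShift_eq_zero_of_mem p n)) (killShiftSection p n)
    (by
      refine MvPolynomial.ringHom_ext (fun c => ?_) (fun i => ?_)
      · obtain ⟨c, rfl⟩ := Ideal.Quotient.mk_surjective c
        simp only [RingHom.comp_apply, killShiftSection_C, Ideal.Quotient.lift_mk, killShift_C,
          RingHom.id_apply]
      · simp only [RingHom.comp_apply, killShiftSection_X, Ideal.Quotient.lift_mk, killShift_X,
          RingHom.id_apply]
        rw [if_neg (by omega), Nat.add_sub_cancel_left])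
    (by
      refine Ideal.Quotient.ringHom_ext ?_
      refine MvPolynomial.ringHom_ext (fun c => ?_) (fun i => ?_)
      · simp only [RingHom.comp_apply, Ideal.Quotient.lift_mk, killShift_C, killShiftSection_C,
          RingHom.id_apply]
      · simp only [RingHom.comp_apply, Ideal.Quotient.lift_mk, killShift_X, RingHom.id_apply]
        split_ifs with h
        · rw [map_zero]
          exact (Ideal.Quotient.eq_zero_iff_mem.2
            (vGen_mem_smithTodaIdeal p n (i + 1) (by omega))).symm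
        · rw [killShiftSection_X, Nat.add_sub_cancel' (by omega)])

theorem quotRingEquiv_mk_vGen (p n i : ℕ) :
    quotRingEquiv p n (Ideal.Quotient.mk _ (vGen p (n + 1 + i))) = MvPolynomial.X i := by
  have e : vGen p (n + 1 + i) = MvPolynomial.X (n + i) := by
    rw [show n + 1 + i = (n + i) + 1 by omega]
    rfl
  rw [e]
  change Ideal.Quotient.lift (smithTodaIdeal p n) (killShift p n) (killShift_eq_zero_of_mem p n)
    (Ideal.Quotient.mk _ _) = _
  rw [Ideal.Quotient.lift_mk, killShift_X, if_neg (by omega), Nat.add_sub_cancel_left]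

/-- `ℤ_(p)/p` has characteristic `p` -/
theorem charP_ZLoc_quot {p : ℕ} (hp : p.Prime) : CharP (ZLoc p ⧸ Ideal.span {(p : ZLoc p)}) p := by
  refine ⟨fun m => ?_⟩
  rw [← map_natCast (Ideal.Quotient.mk (Ideal.span {(p : ZLoc p)})), Ideal.Quotient.eq_zero_iff_mem,
    Ideal.mem_span_singleton]
  constructor
  · intro h
    by_contra hnd
    have hco : IsCoprime (m : ℤ) (p : ℤ) :=
      Nat.isCoprime_iff_coprime.2 ((Nat.Prime.coprime_iff_not_dvd hp).2 hnd).symm
    obtain ⟨a, b, hab⟩ := hco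
    have h1 : ((a * (m : ℤ) + b * (p : ℤ) : ℤ) : ZLoc p) = 1 := by
      rw [hab]; simp
    push_cast at h1
    have h2 : (p : ZLoc p) ∣ 1 := by
      rw [← h1]
      exact dvd_add (Dvd.dvd.mul_left h _) (Dvd.intro_left _ rfl)
    exact not_isUnit_p_ZLoc hp (isUnit_of_dvd_one h2)
  · rintro ⟨k, rfl⟩
    rw [Nat.cast_mul]
    exact Dvd.intro _ rfl

/-- **`ℤ_(p)/p = 𝔽_p`** -/
def zlocQuotEquiv {p : ℕ} (hp : p.Prime) : ZMod p ≃+* ZLoc p ⧸ Ideal.span {(p : ZLoc p)} :=
  have : Fact p.Prime := ⟨hp⟩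
  have := charP_ZLoc_quot hp
  have : Nontrivial (ZLoc p ⧸ Ideal.span {(p : ZLoc p)}) :=
    CharP.nontrivial_of_char_ne_one (v := p) hp.one_lt.ne'
  RingEquiv.ofBijective (ZMod.castHom (dvd_refl p) (ZLoc p ⧸ Ideal.span {(p : ZLoc p)}))
    ⟨RingHom.injective _, fun z => by
      obtain ⟨c, rfl⟩ := Ideal.Quotient.mk_surjective z
      obtain ⟨m, -, hm⟩ := exists_nat_lt_p_dvd_sub hp c
      refine ⟨(m : ZMod p), ?_⟩
      rw [map_natCast, ← map_natCast (Ideal.Quotient.mk (Ideal.span {(p : ZLoc p)})), eq_comm,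
        Ideal.Quotient.eq, Ideal.mem_span_singleton]
      exact hm⟩

/-- **`BP_⋆/(p, v₁, …, v_n) ≅ 𝔽_p[v_{n+1}, v_{n+2}, …]`** as rings -/
def quotRingEquivZMod {p : ℕ} (hp : p.Prime) (n : ℕ) :
    (BPCoeff p ⧸ smithTodaIdeal p n) ≃+* MvPolynomial ℕ (ZMod p) :=
  (quotRingEquiv p n).trans (MvPolynomial.mapEquiv ℕ (zlocQuotEquiv hp).symm)

theorem quotRingEquivZMod_mk_vGen {p : ℕ} (hp : p.Prime) (n i : ℕ) :
    quotRingEquivZMod hp n (Ideal.Quotient.mk _ (vGen p (n + 1 + i))) = MvPolynomial.X i := by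
  rw [quotRingEquivZMod, RingEquiv.trans_apply, quotRingEquiv_mk_vGen]
  simp

end Claimed.Open.R308
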