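/- Copy, up to the name of the namespace, of the file `SanityHopfBall.lean` of the folder of result 313; written there by the seats 165, 36, 105 (board hopf_post of helper223). -/
import Claimed.Open.R308.SanityHopfDefs

/-! # Hopf, post T8: sup-norm balls (= open cubes) as admissible sets; linear maps on them.
`frontier_ball`, `pi_norm_lt_iff`, `norm_le_pi_norm`, `pi_norm_le_iff_of_nonneg`. -/

set_option autoImplicit false

open Topology unitInterval Set
open scoped Topology.Homotopy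

namespace Claimed.Open.R308.Hopf

open Claimed.Open.R308.Deg (V)

variable {n : ℕ} {X : Type} [TopologicalSpace X] {x₀ : X}

theorem mem_cube_of_mem_ball {z : V n} {δ : ℝ} (hin : InCube z δ) {x : V n}
    (hx : x ∈ Metric.ball z δ) (i : Fin n) : 0 < x i ∧ x i < 1 := by
  have h1 : dist (x i) (z i) < δ := lt_of_le_of_lt (dist_le_pi_dist x z i) hx
  rw [Real.dist_eq, abs_lt] at h1
  obtain ⟨h2, h3⟩ := hin i
  constructor <;> linarith [h1.1, h1.2]

theorem inCube_ctr : InCube (ctr n) (1 / 2) := by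
  intro i
  simp only [ctr]
  constructor <;> norm_num

/-- convexity -/
theorem InCube.segment {z z' : V n} {δ δ' : ℝ} (h : InCube z δ) (h' : InCube z' δ') {s : ℝ}
    (hs : s ∈ Icc (0 : ℝ) 1) : InCube ((1 - s) • z + s • z') ((1 - s) * δ + s * δ') := by
  intro i
  obtain ⟨h1, h2⟩ := h i
  obtain ⟨h1', h2'⟩ := h' i
  obtain ⟨hs0, hs1⟩ := hs
  have hs1' : 0 ≤ 1 - s := by linarith
  simp only [Pi.add_apply, Pi.smul_apply, smul_eq_mul]
  constructor
  · nlinarith [mul_nonneg hs1' h1, mul_nonneg hs0 h1']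
  · nlinarith [mul_nonneg hs1' (sub_nonneg.mpr h2), mul_nonneg hs0 (sub_nonneg.mpr h2')]

/-- a ball inside the cube: the points of the frontier of the unit cube are outside it -/
theorem le_dist_of_frontier_cube {z : V n} {δ : ℝ} (hin : InCube z δ) {x : V n}
    (hx : x ∈ frontier (Metric.ball (ctr n) (1 / 2))) : δ ≤ ‖x - z‖ := by
  rw [frontier_ball _ (by norm_num : (1 / 2 : ℝ) ≠ 0), mem_sphere_iff_norm] at hx
  have hex : ∃ i, 1 / 2 ≤ ‖(x - ctr n) i‖ := by
    by_contra hcon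
    simp only [not_exists, not_le] at hcon
    have := (pi_norm_lt_iff (by norm_num : (0 : ℝ) < 1 / 2)).mpr hcon
    linarith
  obtain ⟨i, hi⟩ := hex
  have hle : ‖(x - ctr n) i‖ ≤ 1 / 2 := hx ▸ norm_le_pi_norm (x - ctr n) i
  have heq : |x i - 1 / 2| = 1 / 2 := by
    have : ‖(x - ctr n) i‖ = |x i - 1 / 2| := by simp [ctr, Real.norm_eq_abs]
    rw [← this]; linarith
  obtain ⟨h1, h2⟩ := hin i
  have hb : δ ≤ ‖(x - z) i‖ := by
    rw [Pi.sub_apply, Real.norm_eq_abs]
    rcases abs_eq (by norm_num : (0 : ℝ) ≤ 1 / 2) |>.mp heq with h | h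
    · have hx1 : x i = 1 := by linarith
      rw [hx1]
      exact le_trans (by linarith) (le_abs_self _)
    · have hx0 : x i = 0 := by linarith
      rw [hx0]
      exact le_trans (by linarith) (neg_le_abs _)
  exact hb.trans (norm_le_pi_norm (x - z) i)

theorem ball_subset_cube {z : V n} {δ : ℝ} (hin : InCube z δ) :
    Metric.ball z δ ⊆ Metric.ball (ctr n) (1 / 2) := by
  intro x hx
  rw [mem_ball_iff_norm, pi_norm_lt_iff (by norm_num : (0 : ℝ) < 1 / 2)]
  intro i
  obtain ⟨h1, h2⟩ := mem_cube_of_mem_ball hin hx i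
  rw [Pi.sub_apply, Real.norm_eq_abs, abs_lt]
  simp only [ctr]
  constructor <;> linarith

theorem adm_lin {z : V n} {δ : ℝ} (hδ : 0 < δ) (hin : InCube z δ) (A : V n →L[ℝ] V n) {a l : ℝ}
    (hA : ∀ v, a * ‖v‖ ≤ ‖A v‖) (hl0 : 0 ≤ l) (hl : 1 / 2 ≤ l * (a * δ)) :
    Adm (Metric.ball z δ) (fun x => l • A (x - z)) := by
  refine ⟨Metric.isOpen_ball, fun x hx i => mem_cube_of_mem_ball hin hx i,
    (A.continuous.comp (continuous_id.sub continuous_const)).const_smul l, fun x hx => ?_⟩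
  rw [frontier_ball z hδ.ne', mem_sphere_iff_norm] at hx
  have h1 : a * δ ≤ ‖A (x - z)‖ := hx ▸ hA (x - z)
  calc (1 / 2 : ℝ) ≤ l * (a * δ) := hl
    _ ≤ l * ‖A (x - z)‖ := mul_le_mul_of_nonneg_left h1 hl0
    _ = ‖l • A (x - z)‖ := by rw [norm_smul, Real.norm_of_nonneg hl0]

theorem norm_signMap {ε : Fin n → ℝ} (hε : ∀ i, ε i = 1 ∨ ε i = -1) (v : V n) :
    ‖signMap ε v‖ = ‖v‖ := by
  have h : ∀ i, ‖signMap ε v i‖ = ‖v i‖ := by
    intro i
    rw [signMap_apply, norm_mul]
    rcases hε i with h | h <;> rw [h] <;> simp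
  refine le_antisymm ?_ ?_
  · exact (pi_norm_le_iff_of_nonneg (norm_nonneg _)).2 fun i => (h i).le.trans (norm_le_pi_norm v i)
  · exact (pi_norm_le_iff_of_nonneg (norm_nonneg _)).2 fun i =>
      (h i).ge.trans (norm_le_pi_norm (signMap ε v) i)

theorem adm_sign {ε : Fin n → ℝ} (hε : ∀ i, ε i = 1 ∨ ε i = -1) :
    Adm (Metric.ball (ctr n) (1 / 2)) (fun x => signMap ε (x - ctr n)) := by
  have h := adm_lin (n := n) (z := ctr n) (δ := 1 / 2) (by norm_num) inCube_ctr (signMap ε) (a := 1) (l := 1)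
    (fun v => by rw [one_mul, norm_signMap hε]) zero_le_one (by norm_num)
  simpa only [one_smul] using h

end Claimed.Open.R308.Hopf
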