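/- Copy, up to the name of the namespace, of the file `SanityHopfHtpy.lean` of the folder of result 313; written there by the seats 258, 223, 62, 293 (board hopf_post of helper223). -/
import Claimed.Open.R308.SanityHopfDefs

/-! # Hopf, post T2: homotopy, scaling, restriction.
`Lp_homotopic`: the map `(s, t) ↦ if toV t ∈ O then q c (Θ s (toV t)) else x₀` is continuous on `I × Iⁿ` (`continuous_if` for the set `{p | toV p.2 ∈ O}`, whose frontier lies in the preimage of
`frontier O`: `Continuous.frontier_preimage_subset`; `ContinuousOn.comp_continuous` for `hΘ`); build the `ContinuousMap.HomotopyRel` (`GenLoop.Homotopic` unfolds to `ContinuousMap.HomotopicRel _ _ (Cube.boundary _)`).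
`hcls_Lp_eq_one`: `‖θ‖ ≥ m > 0` on the compact `closure O`; scale by `l = max 1 (1/(2m))`; then `Lp` is the constant loop (`q_eq_base`), `hcls_const`. -/

set_option autoImplicit false

open Topology unitInterval Set
open scoped Topology.Homotopy

namespace Claimed.Open.R308.Hopf

open Claimed.Open.R308.Deg (V)

variable {n : ℕ} {X : Type} [TopologicalSpace X] {x₀ : X}

theorem Lp_homotopic (c : Ω^ (Fin n) X x₀) {O : Set (V n)} {Θ : ℝ → V n → V n}
    (hΘ : ContinuousOn (fun p : ℝ × V n => Θ p.1 p.2) (Icc (0 : ℝ) 1 ×ˢ univ)) (h0 : Adm O (Θ 0))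
    (h1 : Adm O (Θ 1))
    (hbig : ∀ s ∈ Icc (0 : ℝ) 1, ∀ x ∈ frontier O, 1 / 2 ≤ ‖Θ s x‖) :
    GenLoop.Homotopic (Lp c h0) (Lp c h1) := by
  classical
  have hcΘ : Continuous (fun p : I × (Fin n → I) => Θ (p.1 : ℝ) (toV p.2)) := by
    have h2 : Continuous (fun p : I × (Fin n → I) => ((p.1 : ℝ), toV p.2)) :=
      (continuous_subtype_val.comp continuous_fst).prodMk (continuous_toV.comp continuous_snd)
    exact hΘ.comp_continuous h2 (fun p => ⟨p.1.2, mem_univ _⟩)
  have hF : Continuous (fun p : I × (Fin n → I) =>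
      if toV p.2 ∈ O then q c (Θ (p.1 : ℝ) (toV p.2)) else x₀) := by
    refine continuous_if ?_ ((continuous_q c).comp hcΘ).continuousOn continuous_const.continuousOn
    intro p hp
    have hp' : toV p.2 ∈ frontier O :=
      (continuous_toV.comp continuous_snd).frontier_preimage_subset O hp
    exact q_eq_base c (hbig _ p.1.2 _ hp')
  refine ⟨⟨⟨⟨_, hF⟩, ?_, ?_⟩, ?_⟩⟩
  · intro t
    show (if toV t ∈ O then q c (Θ ((0 : I) : ℝ) (toV t)) else x₀) = Lp c h0 t
    rw [Lp_apply]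
    rfl
  · intro t
    show (if toV t ∈ O then q c (Θ ((1 : I) : ℝ) (toV t)) else x₀) = Lp c h1 t
    rw [Lp_apply]
    rfl
  · intro s t ht
    show (if toV t ∈ O then q c (Θ (s : ℝ) (toV t)) else x₀) = Lp c h0 t
    rw [Lp_apply, lpFun_of_notMem c _ (toV_notMem_of_boundary h0 ht),
      if_neg (toV_notMem_of_boundary h0 ht)]

theorem Lp_congr (c : Ω^ (Fin n) X x₀) {O O' : Set (V n)} {θ θ' : V n → V n} (h : Adm O θ)
    (h' : Adm O' θ') (he : ∀ x ∈ Icc (0 : V n) 1, lpFun c O θ x = lpFun c O' θ' x) :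
    Lp c h = Lp c h' := by
  ext t
  rw [Lp_apply, Lp_apply]
  exact he _ ⟨fun i => (t i).2.1, fun i => (t i).2.2⟩

theorem Adm.smul {O : Set (V n)} {θ : V n → V n} (h : Adm O θ) {l : ℝ} (hl : 1 ≤ l) :
    Adm O (fun x => l • θ x) := by
  refine ⟨h.isOpen, h.sub, h.cont.const_smul l, fun x hx => ?_⟩
  rw [norm_smul, Real.norm_of_nonneg (le_trans zero_le_one hl)]
  have h1 := h.big x hx
  nlinarith [norm_nonneg (θ x)]

theorem Lp_smul_homotopic (c : Ω^ (Fin n) X x₀) {O : Set (V n)} {θ : V n → V n} (h : Adm O θ)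
    {l : ℝ} (hl : 1 ≤ l) : GenLoop.Homotopic (Lp c h) (Lp c (h.smul hl)) := by
  have hs : ∀ s ∈ Icc (0 : ℝ) 1, (1 : ℝ) ≤ 1 + s * (l - 1) := fun s hs => by
    nlinarith [hs.1, hs.2]
  have e0 : (fun x => (1 + (0 : ℝ) * (l - 1)) • θ x) = θ := by
    funext x
    rw [zero_mul, add_zero, one_smul]
  have e1 : (fun x => (1 + (1 : ℝ) * (l - 1)) • θ x) = fun x => l • θ x := by
    funext x
    congr 1
    ring
  have h0 : Adm O (fun x => (1 + (0 : ℝ) * (l - 1)) • θ x) := by rw [e0]; exact h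
  have h1 : Adm O (fun x => (1 + (1 : ℝ) * (l - 1)) • θ x) := by rw [e1]; exact h.smul hl
  have key := Lp_homotopic c (O := O) (Θ := fun s x => (1 + s * (l - 1)) • θ x)
    (Continuous.continuousOn (by
      have := h.cont
      fun_prop)) h0 h1
    (fun s hs' x hx => (h.smul (hs s hs')).big x hx)
  have a0 : Lp c h0 = Lp c h := Lp_congr c h0 h (fun x _ => by rw [e0])
  have a1 : Lp c h1 = Lp c (h.smul hl) := Lp_congr c h1 (h.smul hl) (fun x _ => by rw [e1])
  rw [← a0, ← a1]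
  exact key

/-- the loop does not change if `O` is made smaller by a set on which `‖θ‖ ≥ 1/2` -/
theorem Lp_restrict (c : Ω^ (Fin n) X x₀) {O O' : Set (V n)} {θ : V n → V n} (h : Adm O θ)
    (h' : Adm O' θ) (hsub : O' ⊆ O) (hbig : ∀ x ∈ O \ O', 1 / 2 ≤ ‖θ x‖) : Lp c h = Lp c h' := by
  refine Lp_congr c h h' (fun x _ => ?_)
  by_cases hx' : x ∈ O'
  · rw [lpFun_of_mem c _ hx', lpFun_of_mem c _ (hsub hx')]
  · rw [lpFun_of_notMem c _ hx']
    by_cases hx : x ∈ O
    · rw [lpFun_of_mem c _ hx]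
      exact q_eq_base c (hbig x ⟨hx, hx'⟩)
    · exact lpFun_of_notMem c _ hx

/-- no zero: the loop is null homotopic -/
theorem hcls_Lp_eq_one [Nonempty (Fin n)] (c : Ω^ (Fin n) X x₀) {O : Set (V n)} {θ : V n → V n}
    (h : Adm O θ) (hne : ∀ x ∈ closure O, θ x ≠ 0) : hcls (Lp c h) = 1 := by
  -- a positive lower bound of `‖θ‖` on the compact set `closure O`
  obtain ⟨m, hm0, hm⟩ : ∃ m : ℝ, 0 < m ∧ ∀ x ∈ closure O, m ≤ ‖θ x‖ := by
    rcases (closure O).eq_empty_or_nonempty with he | hnon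
    · exact ⟨1, one_pos, fun x hx => by rw [he] at hx; exact hx.elim⟩
    · obtain ⟨x1, hx1, hmin⟩ := h.isCompact_closure.exists_isMinOn hnon h.cont.norm.continuousOn
      exact ⟨‖θ x1‖, norm_pos_iff.2 (hne x1 hx1), fun x hx => hmin hx⟩
  have hl : (1 : ℝ) ≤ max 1 (1 / (2 * m)) := le_max_left _ _
  rw [hcls_eq_of_homotopic (Lp_smul_homotopic c h hl), ← hcls_const]
  congr 1
  ext t
  rw [Lp_apply]
  show _ = x₀
  by_cases ht : toV t ∈ O
  · rw [lpFun_of_mem c _ ht]
    apply q_eq_base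
    rw [norm_smul, Real.norm_of_nonneg (le_trans zero_le_one hl)]
    have h1 : m ≤ ‖θ (toV t)‖ := hm _ (subset_closure ht)
    have h2 : 1 / (2 * m) ≤ max 1 (1 / (2 * m)) := le_max_right _ _
    calc (1 : ℝ) / 2 = 1 / (2 * m) * m := by field_simp
      _ ≤ max 1 (1 / (2 * m)) * ‖θ (toV t)‖ :=
        mul_le_mul h2 h1 hm0.le (le_trans zero_le_one hl)
  · exact lpFun_of_notMem c _ ht

end Claimed.Open.R308.Hopf
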