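/- Copy, up to the name of the namespace, of the file `SanityHopfAff.lean` of the folder of result 313; written there by the seats 3, 252 (board hopf_post of helper223). -/
import Claimed.Open.R308.SanityHopfHtpy
import Claimed.Open.R308.SanityHopfBall

/-! # Hopf, post T12: the loop of a diagonal map of signs on a small cube is homotopic to the one on the whole cube.
`‖signMap ε v‖ = ‖v‖`.  From `h.big` on the sphere (non-empty: `z + δ e_i`): `l δ ≥ 1/2`.  (1) `Lp_homotopic` on `ball z δ` with `Θ s x = ((1 - s) l + s / (2 δ)) • signMap ε (x - z)`.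
(2) `Lp_restrict`: the pair `(ball (ctr n) (1/2), (1/(2δ)) • signMap ε (· - z))` is admissible (`le_dist_of_frontier_cube`) and gives the same loop (`ball_subset_cube`).
(3) `Lp_homotopic` on `ball (ctr n) (1/2)` with `Θ s x = (1 / (2 δ_s)) • signMap ε (x - z_s)`, `z_s = (1 - s) z + s ctr`, `δ_s = (1 - s) δ + s / 2` (`InCube.segment`, `inCube_ctr`, `le_dist_of_frontier_cube`); at `s = 1` this is
`signMap ε (x - ctr n)` (`Lp_congr`). -/

set_option autoImplicit false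

open Topology unitInterval Set
open scoped Topology.Homotopy

namespace Claimed.Open.R308.Hopf

open Claimed.Open.R308.Deg (V)

variable {n : ℕ} {X : Type} [TopologicalSpace X] {x₀ : X}

/-- equal maps give equal loops -/
theorem Lp_eq_of_fun_eq (c : Ω^ (Fin n) X x₀) {O : Set (V n)} {θ θ' : V n → V n} (h : Adm O θ)
    (h' : Adm O θ') (e : θ = θ') : Lp c h = Lp c h' := by
  subst e; rfl

theorem norm_smul_signMap {ε : Fin n → ℝ} (hε : ∀ i, ε i = 1 ∨ ε i = -1) {a : ℝ} (ha : 0 ≤ a)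
    (v : V n) : ‖a • signMap ε v‖ = a * ‖v‖ := by
  rw [norm_smul, Real.norm_of_nonneg ha, norm_signMap hε]

/-- the affine maps `a • signMap ε (· - w)` which are large on the frontier are admissible -/
theorem adm_sign_aff {O : Set (V n)} (hO : IsOpen O) (hsub : ∀ x ∈ O, ∀ i, 0 < x i ∧ x i < 1)
    {ε : Fin n → ℝ} (hε : ∀ i, ε i = 1 ∨ ε i = -1) {a : ℝ} {w : V n} (ha : 0 ≤ a)
    (hbig : ∀ x ∈ frontier O, 1 / 2 ≤ a * ‖x - w‖) : Adm O (fun x => a • signMap ε (x - w)) where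
  isOpen := hO
  sub := hsub
  cont := ((signMap ε).continuous.comp (continuous_id.sub continuous_const)).const_smul a
  big := fun x hx => by
    rw [norm_smul_signMap hε ha]
    exact hbig x hx

/-- a path of affine maps `a s • signMap ε (· - w s)`, all large on the frontier -/
theorem Lp_sign_aff_homotopic (c : Ω^ (Fin n) X x₀) {O : Set (V n)} {ε : Fin n → ℝ}
    (hε : ∀ i, ε i = 1 ∨ ε i = -1) {a : ℝ → ℝ} {w : ℝ → V n} (ha : ContinuousOn a (Icc (0 : ℝ) 1))
    (hw : ContinuousOn w (Icc (0 : ℝ) 1)) (ha0 : ∀ s ∈ Icc (0 : ℝ) 1, 0 ≤ a s)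
    (hbig : ∀ s ∈ Icc (0 : ℝ) 1, ∀ x ∈ frontier O, 1 / 2 ≤ a s * ‖x - w s‖)
    (h0 : Adm O (fun x => a 0 • signMap ε (x - w 0)))
    (h1 : Adm O (fun x => a 1 • signMap ε (x - w 1))) :
    GenLoop.Homotopic (Lp c h0) (Lp c h1) := by
  refine Lp_homotopic c (Θ := fun s x => a s • signMap ε (x - w s)) ?_ h0 h1 ?_
  · have h1 : ContinuousOn (fun p : ℝ × V n => a p.1) (Icc (0 : ℝ) 1 ×ˢ univ) :=
      ha.comp continuousOn_fst fun p hp => hp.1
    have h2 : ContinuousOn (fun p : ℝ × V n => w p.1) (Icc (0 : ℝ) 1 ×ˢ univ) :=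
      hw.comp continuousOn_fst fun p hp => hp.1
    exact h1.smul ((signMap ε).continuous.comp_continuousOn (continuousOn_snd.sub h2))
  · intro s hs x hx
    rw [norm_smul_signMap hε (ha0 s hs)]
    exact hbig s hs x hx

/-- an admissible multiple of a map of signs on `ball z δ` has factor `≥ 1 / (2 δ)` -/
theorem half_le_mul_of_adm_sign [Nonempty (Fin n)] {z : V n} {δ : ℝ} (hδ : 0 < δ)
    {ε : Fin n → ℝ} (hε : ∀ i, ε i = 1 ∨ ε i = -1) {l : ℝ} (hl : 0 < l)
    (h : Adm (Metric.ball z δ) (fun x => l • signMap ε (x - z))) : 1 / 2 ≤ l * δ := by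
  classical
  obtain ⟨i⟩ := ‹Nonempty (Fin n)›
  have hn : ‖(z + Pi.single i δ) - z‖ = δ := by
    rw [add_sub_cancel_left, Pi.norm_single, Real.norm_of_nonneg hδ.le]
  have hx : z + Pi.single i δ ∈ frontier (Metric.ball z δ) := by
    rw [frontier_ball z hδ.ne', mem_sphere_iff_norm]
    exact hn
  have h1 := h.big _ hx
  rw [norm_smul_signMap hε hl.le, hn] at h1
  exact h1

theorem hcls_Lp_sign [Nonempty (Fin n)] (c : Ω^ (Fin n) X x₀) {z : V n} {δ : ℝ} (hδ : 0 < δ)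
    (hin : InCube z δ) {ε : Fin n → ℝ} (hε : ∀ i, ε i = 1 ∨ ε i = -1) {l : ℝ} (hl : 0 < l)
    (h : Adm (Metric.ball z δ) (fun x => l • signMap ε (x - z))) :
    hcls (Lp c h) = hcls (Lp c (adm_sign hε)) := by
  have hlδ : 1 / 2 ≤ l * δ := half_le_mul_of_adm_sign hδ hε hl h
  have hfr : ∀ x ∈ frontier (Metric.ball z δ), ‖x - z‖ = δ := by
    intro x hx
    rw [frontier_ball z hδ.ne', mem_sphere_iff_norm] at hx
    exact hx
  have hsubz : ∀ x ∈ Metric.ball z δ, ∀ i, 0 < x i ∧ x i < 1 :=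
    fun x hx i => mem_cube_of_mem_ball hin hx i
  have hsubc : ∀ x ∈ Metric.ball (ctr n) (1 / 2), ∀ i, 0 < x i ∧ x i < 1 :=
    fun x hx i => mem_cube_of_mem_ball inCube_ctr hx i
  have hδ2 : (0 : ℝ) ≤ 1 / (2 * δ) := by positivity
  -- (1) the factor goes from `l` to `1 / (2 δ)` on the small cube
  have ha0 : ∀ s ∈ Icc (0 : ℝ) 1, 0 ≤ (1 - s) * l + s * (1 / (2 * δ)) := by
    intro s hs
    have h1 : 0 ≤ (1 - s) * l := mul_nonneg (sub_nonneg.2 hs.2) hl.le
    have h2 : 0 ≤ s * (1 / (2 * δ)) := mul_nonneg hs.1 hδ2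
    linarith
  have hbig1 : ∀ s ∈ Icc (0 : ℝ) 1, ∀ x ∈ frontier (Metric.ball z δ),
      1 / 2 ≤ ((1 - s) * l + s * (1 / (2 * δ))) * ‖x - z‖ := by
    intro s hs x hx
    rw [hfr x hx]
    have e : ((1 - s) * l + s * (1 / (2 * δ))) * δ = (1 - s) * (l * δ) + s / 2 := by
      field_simp
    rw [e]
    have := mul_le_mul_of_nonneg_left hlδ (sub_nonneg.2 hs.2)
    linarith
  have A0 := adm_sign_aff Metric.isOpen_ball hsubz hε (ha0 0 ⟨le_rfl, zero_le_one⟩)
    (hbig1 0 ⟨le_rfl, zero_le_one⟩)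
  have A1 := adm_sign_aff Metric.isOpen_ball hsubz hε (ha0 1 ⟨zero_le_one, le_rfl⟩)
    (hbig1 1 ⟨zero_le_one, le_rfl⟩)
  have H1 : GenLoop.Homotopic (Lp c A0) (Lp c A1) :=
    Lp_sign_aff_homotopic c hε (a := fun s => (1 - s) * l + s * (1 / (2 * δ))) (w := fun _ => z)
      (by fun_prop) continuousOn_const ha0 hbig1 A0 A1
  -- (2) the same map on the whole cube
  have B1 : Adm (Metric.ball z δ) (fun x => (1 / (2 * δ)) • signMap ε (x - z)) :=
    adm_sign_aff Metric.isOpen_ball hsubz hε hδ2 (by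
      intro x hx
      rw [hfr x hx]
      have : 1 / (2 * δ) * δ = 1 / 2 := by field_simp
      rw [this])
  have hge : ∀ x : V n, δ ≤ ‖x - z‖ → 1 / 2 ≤ 1 / (2 * δ) * ‖x - z‖ := by
    intro x hx
    rw [div_mul_eq_mul_div, one_mul, le_div_iff₀ (by positivity)]
    linarith
  have B2 : Adm (Metric.ball (ctr n) (1 / 2)) (fun x => (1 / (2 * δ)) • signMap ε (x - z)) :=
    adm_sign_aff Metric.isOpen_ball hsubc hε hδ2
      (fun x hx => hge x (le_dist_of_frontier_cube hin hx))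
  have H2 : Lp c B2 = Lp c B1 := by
    refine Lp_restrict c B2 B1 (ball_subset_cube hin) ?_
    intro x hx
    rw [norm_smul_signMap hε hδ2]
    refine hge x ?_
    have h2 := hx.2
    rw [Metric.mem_ball, not_lt, dist_eq_norm] at h2
    exact h2
  -- (3) the small cube grows to the whole cube
  have hδs : ∀ s ∈ Icc (0 : ℝ) 1, 0 < (1 - s) * δ + s * (1 / 2) := by
    intro s hs
    rcases le_or_gt s (1 / 2) with h1 | h1
    · have := mul_le_mul_of_nonneg_right (by linarith : (1 / 2 : ℝ) ≤ 1 - s) hδ.le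
      have := hs.1
      nlinarith
    · have := mul_nonneg (sub_nonneg.2 hs.2) hδ.le
      linarith
  have hb0 : ∀ s ∈ Icc (0 : ℝ) 1, 0 ≤ 1 / (2 * ((1 - s) * δ + s * (1 / 2))) := by
    intro s hs
    have := hδs s hs
    positivity
  have hbig3 : ∀ s ∈ Icc (0 : ℝ) 1, ∀ x ∈ frontier (Metric.ball (ctr n) (1 / 2)),
      1 / 2 ≤ 1 / (2 * ((1 - s) * δ + s * (1 / 2))) * ‖x - ((1 - s) • z + s • ctr n)‖ := by
    intro s hs x hx
    have h1 := le_dist_of_frontier_cube (InCube.segment hin inCube_ctr hs) hx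
    have h2 := hδs s hs
    rw [div_mul_eq_mul_div, one_mul, le_div_iff₀ (by positivity)]
    linarith
  have C0 := adm_sign_aff Metric.isOpen_ball hsubc hε (hb0 0 ⟨le_rfl, zero_le_one⟩)
    (hbig3 0 ⟨le_rfl, zero_le_one⟩)
  have C1 := adm_sign_aff Metric.isOpen_ball hsubc hε (hb0 1 ⟨zero_le_one, le_rfl⟩)
    (hbig3 1 ⟨zero_le_one, le_rfl⟩)
  have H3 : GenLoop.Homotopic (Lp c C0) (Lp c C1) := by
    refine Lp_sign_aff_homotopic c hε (a := fun s => 1 / (2 * ((1 - s) * δ + s * (1 / 2))))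
      (w := fun s => (1 - s) • z + s • ctr n) ?_ (by fun_prop) hb0 hbig3 C0 C1
    refine ContinuousOn.div continuousOn_const (by fun_prop) ?_
    intro s hs
    have := hδs s hs
    positivity
  -- the ends
  have E0 : Lp c h = Lp c A0 := Lp_eq_of_fun_eq c h A0 (by funext x; simp)
  have E1 : Lp c A1 = Lp c B1 := Lp_eq_of_fun_eq c A1 B1 (by funext x; simp)
  have E2 : Lp c B2 = Lp c C0 := Lp_eq_of_fun_eq c B2 C0 (by funext x; simp)
  have E3 : Lp c C1 = Lp c (adm_sign hε) := Lp_eq_of_fun_eq c C1 (adm_sign hε) (by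
    funext x
    simp)
  rw [E0, hcls_eq_of_homotopic H1, E1, ← H2, E2, hcls_eq_of_homotopic H3, E3]

end Claimed.Open.R308.Hopf
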