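/- Copy, up to the name of the namespace, of the file `SanityHopfRep.lean` of the folder of result 313; written there by the seats 231, 131 (board hopf_post of helper223). -/
import Claimed.Open.R308.SanityHopfDefs

/-! # Hopf, post T5a (pure `GenLoop`): reparametrisation of one coordinate does not change the class.
Homotopy `(s, t) ↦ g (update t i ((1 - s) t_i + s φ (t_i)))` (a convex combination of two points of `I`; it is `0` at `t_i = 0` and `1` at `t_i = 1`, so boundary points go to boundary points). -/

set_option autoImplicit false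

open Topology unitInterval Set
open scoped Topology.Homotopy

namespace Claimed.Open.R308.Hopf

open Claimed.Open.R308.Deg (V)

variable {n : ℕ} {X : Type} [TopologicalSpace X] {x₀ : X}

theorem update_mem_boundary (i : Fin n) {φ : I → I} (h0 : φ 0 = 0) (h1 : φ 1 = 1) {t : Fin n → I}
    (ht : t ∈ Cube.boundary (Fin n)) : Function.update t i (φ (t i)) ∈ Cube.boundary (Fin n) := by
  obtain ⟨j, hj⟩ := ht
  refine ⟨j, ?_⟩
  by_cases hji : j = i
  · subst hji
    rw [Function.update_self]
    rcases hj with hj | hj
    · left
      rw [hj, h0]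
    · right
      rw [hj, h1]
  · rw [Function.update_of_ne hji]
    exact hj

/-- `g` with the `i`-th coordinate reparametrised by `φ` -/
def reparam (i : Fin n) (φ : C(I, I)) (h0 : φ 0 = 0) (h1 : φ 1 = 1) (g : Ω^ (Fin n) X x₀) :
    Ω^ (Fin n) X x₀ :=
  ⟨⟨fun t => g (Function.update t i (φ (t i))),
    g.1.continuous.comp (continuous_id.update i (φ.continuous.comp (continuous_apply i)))⟩,
    fun _ ht => g.2 _ (update_mem_boundary i h0 h1 ht)⟩

theorem reparam_apply (i : Fin n) (φ : C(I, I)) (h0 : φ 0 = 0) (h1 : φ 1 = 1)
    (g : Ω^ (Fin n) X x₀) (t : Fin n → I) :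
    reparam i φ h0 h1 g t = g (Function.update t i (φ (t i))) := rfl

theorem hcls_reparam (i : Fin n) (φ : C(I, I)) (h0 : φ 0 = 0) (h1 : φ 1 = 1)
    (g : Ω^ (Fin n) X x₀) : hcls (reparam i φ h0 h1 g) = hcls g := by
  refine Quotient.sound ?_
  let ψ : I → I → I := fun s u =>
    Set.projIcc 0 1 zero_le_one ((1 - (s : ℝ)) * (φ u : ℝ) + (s : ℝ) * (u : ℝ))
  have hψ : Continuous fun p : I × (Fin n → I) => ψ p.1 (p.2 i) := by
    refine continuous_projIcc.comp ?_
    have c1 : Continuous fun p : I × (Fin n → I) => (p.1 : ℝ) := continuous_subtype_val.comp continuous_fst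
    have c2 : Continuous fun p : I × (Fin n → I) => (p.2 i : ℝ) :=
      continuous_subtype_val.comp ((continuous_apply i).comp continuous_snd)
    have c3 : Continuous fun p : I × (Fin n → I) => (φ (p.2 i) : ℝ) :=
      continuous_subtype_val.comp (φ.continuous.comp ((continuous_apply i).comp continuous_snd))
    exact ((continuous_const.sub c1).mul c3).add (c1.mul c2)
  have hψ0 : ∀ s, ψ s 0 = 0 := by
    intro s
    simp only [ψ, h0]
    simp
  have hψ1 : ∀ s, ψ s 1 = 1 := by
    intro s
    simp only [ψ, h1]
    simp
  refine ⟨{ toFun := fun p => g (Function.update p.2 i (ψ p.1 (p.2 i)))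
            continuous_toFun := g.1.continuous.comp (continuous_snd.update i hψ)
            map_zero_left := ?_
            map_one_left := ?_
            prop' := ?_ }⟩
  · intro t
    show g (Function.update t i (ψ 0 (t i))) = g (Function.update t i (φ (t i)))
    congr 2
    simp [ψ]
  · intro t
    show g (Function.update t i (ψ 1 (t i))) = g t
    have e : ψ 1 (t i) = t i := by simp [ψ]
    rw [e, Function.update_eq_self]
  · intro s t ht
    show g (Function.update t i (ψ s (t i))) = g (Function.update t i (φ (t i)))
    rw [GenLoop.boundary g _ (update_mem_boundary i (φ := ψ s) (hψ0 s) (hψ1 s) ht),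
      GenLoop.boundary g _ (update_mem_boundary i h0 h1 ht)]

end Claimed.Open.R308.Hopf
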