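/- Copy, up to the name of the namespace, of the file `SanityHopfSplit.lean` of the folder of result 313; written there by the seats 231, 193 (board hopf_post of helper223). -/
import Claimed.Open.R308.SanityHopfRep

/-! # Hopf, post T5b (pure `GenLoop`): splitting a loop at the hyperplane `t_i = a`.
Let `φ : C(I, I)` be piecewise linear with `φ 0 = 0`, `φ (1/2) = a`, `φ 1 = 1` (`φ u = 2 a u` for `u ≤ 1/2`, `a + (2 u - 1) (1 - a)` for `u ≥ 1/2`; e.g. `projIcc` of `min (2 a u) a + max 0 ((2 u - 1) (1 - a))`).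
`hcls (reparam i φ _ _ g) = hcls g` for every loop `g` (`hcls_reparam`).  With `L t = fm (update t i (φ (t_i / 2)))`, `R t = fp (update t i (φ ((t_i + 1) / 2)))` (based loops by `h1`, `h2`: at `t_i = 1` resp. `0` the new coordinate is `a`):
`reparam f = transAt i L R`, `reparam fm = transAt i L const`, `reparam fp = transAt i const R` pointwise (`transAt_apply` of `SanityDegCore.lean`, `Function.update_idem`).
`hcls_mul i p q : hcls p * hcls q = hcls (transAt i q p)`, `hcls_const`. -/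

set_option autoImplicit false

open Topology unitInterval Set
open scoped Topology.Homotopy

namespace Claimed.Open.R308.Hopf

open Claimed.Open.R308.Deg (V)

variable {n : ℕ} {X : Type} [TopologicalSpace X] {x₀ : X}

theorem t5b_coe_proj {x : ℝ} (h0 : 0 ≤ x) (h1 : x ≤ 1) :
    ((Set.projIcc (0 : ℝ) 1 zero_le_one x : I) : ℝ) = x := by
  rw [Set.projIcc_of_mem zero_le_one ⟨h0, h1⟩]

/-- piecewise linear, `0 ↦ 0`, `1/2 ↦ a`, `1 ↦ 1` -/
noncomputable def t5bPhi (a : ℝ) : C(I, I) :=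
  ⟨fun u => Set.projIcc 0 1 zero_le_one (min (2 * a * (u : ℝ)) a + max 0 ((2 * (u : ℝ) - 1) * (1 - a))),
    continuous_projIcc.comp
      (((continuous_const.mul continuous_subtype_val).min continuous_const).add
        (continuous_const.max (((continuous_const.mul continuous_subtype_val).sub continuous_const).mul
          continuous_const)))⟩

theorem t5b_phi_le {a : ℝ} (ha : 0 < a ∧ a < 1) (u : I) (hu : (u : ℝ) ≤ 1 / 2) :
    (t5bPhi a u : ℝ) = 2 * a * u := by
  obtain ⟨ha0, ha1⟩ := ha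
  have hu0 : (0 : ℝ) ≤ u := u.2.1
  have e : min (2 * a * (u : ℝ)) a + max 0 ((2 * (u : ℝ) - 1) * (1 - a)) = 2 * a * u := by
    rw [min_eq_left (by nlinarith), max_eq_left (by nlinarith), add_zero]
  show ((Set.projIcc (0 : ℝ) 1 zero_le_one _ : I) : ℝ) = _
  rw [e]
  exact t5b_coe_proj (by positivity) (by nlinarith)

theorem t5b_phi_ge {a : ℝ} (ha : 0 < a ∧ a < 1) (u : I) (hu : 1 / 2 ≤ (u : ℝ)) :
    (t5bPhi a u : ℝ) = a + (2 * u - 1) * (1 - a) := by
  obtain ⟨ha0, ha1⟩ := ha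
  have hu1 : (u : ℝ) ≤ 1 := u.2.2
  have e : min (2 * a * (u : ℝ)) a + max 0 ((2 * (u : ℝ) - 1) * (1 - a)) = a + (2 * u - 1) * (1 - a) := by
    rw [min_eq_right (by nlinarith), max_eq_right (by nlinarith)]
  show ((Set.projIcc (0 : ℝ) 1 zero_le_one _ : I) : ℝ) = _
  rw [e]
  exact t5b_coe_proj (by nlinarith) (by nlinarith)

theorem t5b_phi_zero {a : ℝ} (ha : 0 < a ∧ a < 1) : t5bPhi a 0 = 0 := by
  apply Subtype.ext
  rw [t5b_phi_le ha 0 (by norm_num)]
  simp

theorem t5b_phi_one {a : ℝ} (ha : 0 < a ∧ a < 1) : t5bPhi a 1 = 1 := by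
  apply Subtype.ext
  rw [t5b_phi_ge ha 1 (by norm_num)]
  simp
  ring

/-- a loop whose `i`-th coordinate is reparametrised by `u ↦ λ(u)`, `λ` any continuous map for which boundary points go to `x₀` -/
def t5bLoop (i : Fin n) (lam : C(I, I)) (g : Ω^ (Fin n) X x₀)
    (h0 : ∀ t : Fin n → I, g (Function.update t i (lam 0)) = x₀)
    (h1 : ∀ t : Fin n → I, g (Function.update t i (lam 1)) = x₀) : Ω^ (Fin n) X x₀ :=
  ⟨⟨fun t => g (Function.update t i (lam (t i))),
    g.1.continuous.comp (continuous_id.update i (lam.continuous.comp (continuous_apply i)))⟩, by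
    rintro t ⟨j, hj⟩
    show g (Function.update t i (lam (t i))) = x₀
    by_cases hji : j = i
    · subst hji
      rcases hj with hj | hj
      · rw [hj]
        exact h0 t
      · rw [hj]
        exact h1 t
    · refine GenLoop.boundary g _ ⟨j, ?_⟩
      rw [Function.update_of_ne hji]
      exact hj⟩

theorem t5b_loop_apply (i : Fin n) (lam : C(I, I)) (g : Ω^ (Fin n) X x₀)
    (h0 : ∀ t : Fin n → I, g (Function.update t i (lam 0)) = x₀)
    (h1 : ∀ t : Fin n → I, g (Function.update t i (lam 1)) = x₀) (t : Fin n → I) :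
    t5bLoop i lam g h0 h1 t = g (Function.update t i (lam (t i))) := rfl

/-- `u ↦ a u` -/
noncomputable def t5bLamL (a : ℝ) : C(I, I) :=
  ⟨fun u => Set.projIcc 0 1 zero_le_one (a * (u : ℝ)),
    continuous_projIcc.comp (continuous_const.mul continuous_subtype_val)⟩

/-- `u ↦ a + u (1 - a)` -/
noncomputable def t5bLamR (a : ℝ) : C(I, I) :=
  ⟨fun u => Set.projIcc 0 1 zero_le_one (a + (u : ℝ) * (1 - a)),
    continuous_projIcc.comp (continuous_const.add (continuous_subtype_val.mul continuous_const))⟩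

theorem t5b_lamL_coe {a : ℝ} (ha : 0 < a ∧ a < 1) (u : I) : (t5bLamL a u : ℝ) = a * u := by
  obtain ⟨ha0, ha1⟩ := ha
  have hu0 : (0 : ℝ) ≤ u := u.2.1
  have hu1 : (u : ℝ) ≤ 1 := u.2.2
  exact t5b_coe_proj (by positivity) (by nlinarith)

theorem t5b_lamR_coe {a : ℝ} (ha : 0 < a ∧ a < 1) (u : I) : (t5bLamR a u : ℝ) = a + u * (1 - a) := by
  obtain ⟨ha0, ha1⟩ := ha
  have hu0 : (0 : ℝ) ≤ u := u.2.1
  have hu1 : (u : ℝ) ≤ 1 := u.2.2
  exact t5b_coe_proj (by nlinarith) (by nlinarith)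

theorem t5b_lamL_proj {a : ℝ} (ha : 0 < a ∧ a < 1) (u : I) (hu : (u : ℝ) ≤ 1 / 2) :
    t5bLamL a (Set.projIcc 0 1 zero_le_one (2 * (u : ℝ))) = t5bPhi a u := by
  apply Subtype.ext
  rw [t5b_lamL_coe ha, t5b_phi_le ha u hu, t5b_coe_proj (by have := u.2.1; positivity) (by linarith)]
  ring

theorem t5b_lamR_proj {a : ℝ} (ha : 0 < a ∧ a < 1) (u : I) (hu : 1 / 2 ≤ (u : ℝ)) :
    t5bLamR a (Set.projIcc 0 1 zero_le_one (2 * (u : ℝ) - 1)) = t5bPhi a u := by
  apply Subtype.ext
  rw [t5b_lamR_coe ha, t5b_phi_ge ha u hu, t5b_coe_proj (by linarith) (by have := u.2.2; linarith)]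

theorem hcls_split [Nonempty (Fin n)] (i : Fin n) {a : ℝ} (ha : 0 < a ∧ a < 1)
    (f fm fp : Ω^ (Fin n) X x₀)
    (h1 : ∀ t : Fin n → I, (t i : ℝ) ≤ a → f t = fm t ∧ fp t = x₀)
    (h2 : ∀ t : Fin n → I, a ≤ (t i : ℝ) → f t = fp t ∧ fm t = x₀) :
    hcls f = hcls fp * hcls fm := by
  have hφ0 := t5b_phi_zero ha
  have hφ1 := t5b_phi_one ha
  -- the two halves
  have hL0 : ∀ t : Fin n → I, fm (Function.update t i (t5bLamL a 0)) = x₀ := by
    intro t
    refine GenLoop.boundary fm _ ⟨i, Or.inl ?_⟩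
    rw [Function.update_self]
    apply Subtype.ext
    rw [t5b_lamL_coe ha]
    simp
  have hL1 : ∀ t : Fin n → I, fm (Function.update t i (t5bLamL a 1)) = x₀ := by
    intro t
    refine (h2 _ ?_).2
    rw [Function.update_self, t5b_lamL_coe ha]
    simp
  have hR0 : ∀ t : Fin n → I, fp (Function.update t i (t5bLamR a 0)) = x₀ := by
    intro t
    refine (h1 _ ?_).2
    rw [Function.update_self, t5b_lamR_coe ha]
    simp
  have hR1 : ∀ t : Fin n → I, fp (Function.update t i (t5bLamR a 1)) = x₀ := by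
    intro t
    refine GenLoop.boundary fp _ ⟨i, Or.inr ?_⟩
    rw [Function.update_self]
    apply Subtype.ext
    rw [t5b_lamR_coe ha]
    simp
  set L := t5bLoop i (t5bLamL a) fm hL0 hL1 with hL
  set R := t5bLoop i (t5bLamR a) fp hR0 hR1 with hR
  have hLt : ∀ t : Fin n → I, (t i : ℝ) ≤ 1 / 2 →
      L (Function.update t i (Set.projIcc 0 1 zero_le_one (2 * (t i : ℝ)))) = fm (Function.update t i (t5bPhi a (t i))) := by
    intro t ht
    rw [hL, t5b_loop_apply, Function.update_self, Function.update_idem, t5b_lamL_proj ha _ ht]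
  have hRt : ∀ t : Fin n → I, 1 / 2 ≤ (t i : ℝ) →
      R (Function.update t i (Set.projIcc 0 1 zero_le_one (2 * (t i : ℝ) - 1))) = fp (Function.update t i (t5bPhi a (t i))) := by
    intro t ht
    rw [hR, t5b_loop_apply, Function.update_self, Function.update_idem, t5b_lamR_proj ha _ ht]
  have hle : ∀ t : Fin n → I, (t i : ℝ) ≤ 1 / 2 → ((Function.update t i (t5bPhi a (t i))) i : ℝ) ≤ a := by
    intro t ht
    rw [Function.update_self, t5b_phi_le ha _ ht]
    nlinarith [ha.1]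
  have hge : ∀ t : Fin n → I, 1 / 2 ≤ (t i : ℝ) → a ≤ ((Function.update t i (t5bPhi a (t i))) i : ℝ) := by
    intro t ht
    rw [Function.update_self, t5b_phi_ge ha _ ht]
    nlinarith [ha.2]
  have e1 : reparam i (t5bPhi a) hφ0 hφ1 f = GenLoop.transAt i L R := by
    refine Subtype.ext (ContinuousMap.ext fun t => ?_)
    show reparam i (t5bPhi a) hφ0 hφ1 f t = GenLoop.transAt i L R t
    rw [reparam_apply, transAt_apply]
    by_cases ht : (t i : ℝ) ≤ 1 / 2
    · rw [if_pos ht, hLt t ht]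
      exact (h1 _ (hle t ht)).1
    · rw [if_neg ht, hRt t (not_le.1 ht).le]
      exact (h2 _ (hge t (not_le.1 ht).le)).1
  have e2 : reparam i (t5bPhi a) hφ0 hφ1 fm = GenLoop.transAt i L GenLoop.const := by
    refine Subtype.ext (ContinuousMap.ext fun t => ?_)
    show reparam i (t5bPhi a) hφ0 hφ1 fm t = GenLoop.transAt i L GenLoop.const t
    rw [reparam_apply, transAt_apply]
    by_cases ht : (t i : ℝ) ≤ 1 / 2
    · rw [if_pos ht, hLt t ht]
    · rw [if_neg ht]
      exact (h2 _ (hge t (not_le.1 ht).le)).2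
  have e3 : reparam i (t5bPhi a) hφ0 hφ1 fp = GenLoop.transAt i GenLoop.const R := by
    refine Subtype.ext (ContinuousMap.ext fun t => ?_)
    show reparam i (t5bPhi a) hφ0 hφ1 fp t = GenLoop.transAt i GenLoop.const R t
    rw [reparam_apply, transAt_apply]
    by_cases ht : (t i : ℝ) ≤ 1 / 2
    · rw [if_pos ht]
      exact (h1 _ (hle t ht)).2
    · rw [if_neg ht, hRt t (not_le.1 ht).le]
  have c1 : hcls f = hcls R * hcls L := by
    rw [← hcls_reparam i (t5bPhi a) hφ0 hφ1 f, e1, hcls_mul i]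
  have c2 : hcls fm = hcls L := by
    rw [← hcls_reparam i (t5bPhi a) hφ0 hφ1 fm, e2, ← hcls_mul i, hcls_const, one_mul]
  have c3 : hcls fp = hcls R := by
    rw [← hcls_reparam i (t5bPhi a) hφ0 hφ1 fp, e3, ← hcls_mul i, hcls_const, mul_one]
  rw [c1, c2, c3]

end Claimed.Open.R308.Hopf
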