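/- Copy, up to the name of the namespace, of the file `SanityHopfCut.lean` of the folder of result 313; written there by the seats 131 (board hopf_post of helper223). -/
import Claimed.Open.R308.SanityHopfSplit

/-! # Hopf, post T6: cutting an admissible pair by a hyperplane on which `‖θ‖ ≥ 1/2`.
`frontier (O ∩ {x i < a}) ⊆ frontier O ∪ (closure O ∩ {x i = a})` (`frontier_inter_subset`, `frontier_lt_subset_eq`).  Then `hcls_split` with `f = Lp c h`, `fm`, `fp` the two cut loops
(on `O ∩ {x i = a}` the loop `f` is `x₀` by `q_eq_base`). -/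

set_option autoImplicit false

open Topology unitInterval Set
open scoped Topology.Homotopy

namespace Claimed.Open.R308.Hopf

open Claimed.Open.R308.Deg (V)

variable {n : ℕ} {X : Type} [TopologicalSpace X] {x₀ : X}

theorem Adm.cut_lt {O : Set (V n)} {θ : V n → V n} (h : Adm O θ) (i : Fin n) {a : ℝ}
    (hbig : ∀ x ∈ closure O, x i = a → 1 / 2 ≤ ‖θ x‖) : Adm (O ∩ {x | x i < a}) θ := by
  refine ⟨h.isOpen.inter (isOpen_lt (continuous_apply i) continuous_const), fun x hx => h.sub x hx.1,
    h.cont, fun x hx => ?_⟩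
  rcases frontier_inter_subset _ _ hx with hx | hx
  · exact h.big x hx.1
  · exact hbig x hx.1 (frontier_lt_subset_eq (continuous_apply i) continuous_const hx.2)

theorem Adm.cut_gt {O : Set (V n)} {θ : V n → V n} (h : Adm O θ) (i : Fin n) {a : ℝ}
    (hbig : ∀ x ∈ closure O, x i = a → 1 / 2 ≤ ‖θ x‖) : Adm (O ∩ {x | a < x i}) θ := by
  refine ⟨h.isOpen.inter (isOpen_lt continuous_const (continuous_apply i)), fun x hx => h.sub x hx.1,
    h.cont, fun x hx => ?_⟩
  rcases frontier_inter_subset _ _ hx with hx | hx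
  · exact h.big x hx.1
  · exact hbig x hx.1 (frontier_lt_subset_eq continuous_const (continuous_apply i) hx.2).symm

theorem hcls_Lp_cut [Nonempty (Fin n)] (c : Ω^ (Fin n) X x₀) {O : Set (V n)} {θ : V n → V n}
    (h : Adm O θ) (i : Fin n) {a : ℝ} (ha : 0 < a ∧ a < 1)
    (hbig : ∀ x ∈ closure O, x i = a → 1 / 2 ≤ ‖θ x‖) :
    hcls (Lp c h) = hcls (Lp c (h.cut_gt i hbig)) * hcls (Lp c (h.cut_lt i hbig)) := by
  refine hcls_split i ha (Lp c h) (Lp c (h.cut_lt i hbig)) (Lp c (h.cut_gt i hbig)) ?_ ?_
  · intro t ht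
    have hti : toV t i = (t i : ℝ) := rfl
    simp only [Lp_apply]
    refine ⟨?_, lpFun_of_notMem c θ fun hx => ?_⟩
    · by_cases hO : toV t ∈ O
      · rcases lt_or_eq_of_le ht with hlt | heq
        · rw [lpFun_of_mem c θ hO, lpFun_of_mem c θ (⟨hO, hlt⟩ : toV t ∈ O ∩ {x | x i < a})]
        · rw [lpFun_of_mem c θ hO, q_eq_base c (hbig _ (subset_closure hO) heq),
            lpFun_of_notMem c θ fun hx => ?_]
          have h3 : toV t i < a := hx.2
          rw [hti, heq] at h3
          exact lt_irrefl _ h3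
      · rw [lpFun_of_notMem c θ hO, lpFun_of_notMem c θ fun hx => hO hx.1]
    · have h3 : a < toV t i := hx.2
      rw [hti] at h3
      exact absurd h3 (not_lt.2 ht)
  · intro t ht
    have hti : toV t i = (t i : ℝ) := rfl
    simp only [Lp_apply]
    refine ⟨?_, lpFun_of_notMem c θ fun hx => ?_⟩
    · by_cases hO : toV t ∈ O
      · rcases lt_or_eq_of_le ht with hlt | heq
        · rw [lpFun_of_mem c θ hO, lpFun_of_mem c θ (⟨hO, hlt⟩ : toV t ∈ O ∩ {x | a < x i})]
        · rw [lpFun_of_mem c θ hO, q_eq_base c (hbig _ (subset_closure hO) heq.symm),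
            lpFun_of_notMem c θ fun hx => ?_]
          have h3 : a < toV t i := hx.2
          rw [hti, ← heq] at h3
          exact lt_irrefl _ h3
      · rw [lpFun_of_notMem c θ hO, lpFun_of_notMem c θ fun hx => hO hx.1]
    · have h3 : toV t i < a := hx.2
      rw [hti] at h3
      exact absurd h3 (not_lt.2 ht)

end Claimed.Open.R308.Hopf
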