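/- Copy, up to the name of the namespace, of the file `SanityHopfFin.lean` of the folder of result 313; written there by the seats 165, 293 (board hopf_post of helper223). -/
import Claimed.Open.R308.SanityHopfDefs

/-! # Hopf, post T4: regular zeros are finite in number.
`closure O ∩ P ⁻¹' {0}` is compact; each of its points is isolated (`HasFDerivAt.eventually_ne`; the derivative is bounded below because its determinant is not zero:
`ContinuousLinearMap.toContinuousLinearEquivOfDetNeZero`, `ContinuousLinearEquiv.antilipschitz`). -/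

set_option autoImplicit false

open Topology unitInterval Set
open scoped Topology.Homotopy

namespace Claimed.Open.R308.Hopf

open Claimed.Open.R308.Deg (V)

variable {n : ℕ} {X : Type} [TopologicalSpace X] {x₀ : X}

/-- a linear map with non-zero determinant is bounded below -/
theorem exists_lower_bound (A : V n →L[ℝ] V n) (hA : A.det ≠ 0) :
    ∃ a : ℝ, 0 < a ∧ ∀ v, a * ‖v‖ ≤ ‖A v‖ := by
  set e := A.toContinuousLinearEquivOfDetNeZero hA with he
  set K : ℝ := ‖(e.symm : V n →L[ℝ] V n)‖ + 1 with hK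
  have hK0 : 0 < K := by positivity
  refine ⟨1 / K, by positivity, fun v => ?_⟩
  have h1 : ‖v‖ ≤ K * ‖A v‖ := by
    have h2 : v = (e.symm : V n →L[ℝ] V n) (A v) := by
      have : A v = e v := (ContinuousLinearMap.toContinuousLinearEquivOfDetNeZero_apply A hA v).symm
      rw [this]; simp
    calc ‖v‖ = ‖(e.symm : V n →L[ℝ] V n) (A v)‖ := by rw [← h2]
      _ ≤ ‖(e.symm : V n →L[ℝ] V n)‖ * ‖A v‖ := ContinuousLinearMap.le_opNorm _ _
      _ ≤ K * ‖A v‖ := by
        apply mul_le_mul_of_nonneg_right _ (norm_nonneg _)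
        rw [hK]; linarith
  rw [div_mul_eq_mul_div, one_mul, div_le_iff₀ hK0]
  linarith

theorem finite_zeros {O : Set (V n)} {P : V n → V n} (h : Adm O P) (hd : Differentiable ℝ P)
    (hreg : ∀ x, P x = 0 → (fderiv ℝ P x).det ≠ 0) : {x | x ∈ O ∧ P x = 0}.Finite := by
  by_contra hfin
  have hinf : {x | x ∈ O ∧ P x = 0}.Infinite := hfin
  obtain ⟨x, -, hacc⟩ := hinf.exists_accPt_of_subset_isCompact h.isCompact_closure
    (fun y hy => subset_closure hy.1)
  have hfreq : ∃ᶠ y in 𝓝[≠] x, y ∈ {x | x ∈ O ∧ P x = 0} := accPt_iff_frequently_nhdsNE.mp hacc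
  have hPx : P x = 0 := by
    have hcl : IsClosed (P ⁻¹' {0}) := isClosed_singleton.preimage hd.continuous
    have hfr : ∃ᶠ y in 𝓝 x, y ∈ P ⁻¹' {0} :=
      (hfreq.filter_mono nhdsWithin_le_nhds).mono fun y hy => hy.2
    have : x ∈ closure (P ⁻¹' {0}) := mem_closure_iff_frequently.mpr hfr
    rw [hcl.closure_eq] at this
    exact this
  have hdet := hreg x hPx
  have hanti : ∃ C, AntilipschitzWith C (fderiv ℝ P x) :=
    ⟨_, by
      have := ((fderiv ℝ P x).toContinuousLinearEquivOfDetNeZero hdet).antilipschitz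
      have e : (⇑((fderiv ℝ P x).toContinuousLinearEquivOfDetNeZero hdet) : V n → V n) = ⇑(fderiv ℝ P x) := by
        funext v; exact ContinuousLinearMap.toContinuousLinearEquivOfDetNeZero_apply _ hdet v
      rw [e] at this
      exact this⟩
  have hne : ∀ᶠ z in 𝓝[≠] x, P z ≠ 0 := (hd x).hasFDerivAt.eventually_ne hanti
  obtain ⟨y, hy, hy'⟩ := (hfreq.and_eventually hne).exists
  exact hy' hy.2

end Claimed.Open.R308.Hopf
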