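/- Copy, up to the name of the namespace, of the file `SanityHopfGL.lean` of the folder of result 313; written there by the seats 295 (board hopf_post of helper223). -/
import Claimed.Open.R308.SanityHopfDefs

/-! # Hopf, post T10 (linear algebra): every invertible real matrix is joined to a diagonal matrix of signs by a path of invertible matrices.
`Matrix.diagonal_transvection_induction_of_det_ne_zero` for the property "`M` is joined to some `diagonal ε`, `ε i = ± 1`, by a continuous path `ℝ → Matrix` with non-zero determinant on `[0,1]`":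
diagonal `D`: `(1 - s) D i + s sign (D i)`; transvection `1 + c E_ij`: `1 + (1 - s) c E_ij` (determinant `1`), `ε = 1`; product: product of the paths, `ε ε'`.
Transfer to `V n →L[ℝ] V n` by `Matrix.toLin'` / `LinearMap.toContinuousLinearMap` (`LinearMap.det_toLin'`, `ContinuousLinearMap.det`); every linear map of finite-dimensional spaces depends continuously on its matrix. -/

set_option autoImplicit false

open Topology unitInterval Set
open scoped Topology.Homotopy

namespace Claimed.Open.R308.Hopf

open Claimed.Open.R308.Deg (V)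

variable {n : ℕ} {X : Type} [TopologicalSpace X] {x₀ : X}

open Matrix

/-- two matrices are joined by a path of invertible matrices -/
def GLPath (A B : Matrix (Fin n) (Fin n) ℝ) : Prop :=
  ∃ γ : ℝ → Matrix (Fin n) (Fin n) ℝ, Continuous γ ∧ γ 0 = A ∧ γ 1 = B ∧ ∀ t ∈ Icc (0 : ℝ) 1, (γ t).det ≠ 0

theorem GLPath.refl {A : Matrix (Fin n) (Fin n) ℝ} (hA : A.det ≠ 0) : GLPath A A :=
  ⟨fun _ => A, continuous_const, rfl, rfl, fun _ _ => hA⟩

theorem GLPath.mul {A B A' B' : Matrix (Fin n) (Fin n) ℝ} (h : GLPath A B) (h' : GLPath A' B') :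
    GLPath (A * A') (B * B') := by
  obtain ⟨γ, hc, h0, h1, hd⟩ := h
  obtain ⟨γ', hc', h0', h1', hd'⟩ := h'
  refine ⟨fun t => γ t * γ' t, hc.matrix_mul hc', by simp [h0, h0'], by simp [h1, h1'], fun t ht => ?_⟩
  rw [det_mul]
  exact mul_ne_zero (hd t ht) (hd' t ht)

theorem glPath_transvection (i j : Fin n) (hij : i ≠ j) (c : ℝ) : GLPath (transvection i j c) 1 := by
  refine ⟨fun t => transvection i j ((1 - t) * c), ?_, by simp, by simp, fun t _ => ?_⟩
  · unfold transvection
    refine continuous_const.add ?_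
    refine continuous_matrix fun a b => ?_
    simp only [Matrix.single_apply]
    split_ifs
    · fun_prop
    · exact continuous_const
  · rw [det_transvection_of_ne i j hij]
    exact one_ne_zero

theorem glPath_list_transvec (L : List (TransvectionStruct (Fin n) ℝ)) :
    GLPath (L.map TransvectionStruct.toMatrix).prod 1 := by
  induction L with
  | nil => simpa using GLPath.refl (A := (1 : Matrix (Fin n) (Fin n) ℝ)) (by simp)
  | cons t L ih =>
    have h := (glPath_transvection t.i t.j t.hij t.c).mul ih
    simpa [TransvectionStruct.toMatrix] using h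

theorem glPath_diagonal (D : Fin n → ℝ) (hD : ∀ i, D i ≠ 0) :
    GLPath (diagonal D) (diagonal fun i => (SignType.sign (D i) : ℝ)) := by
  refine ⟨fun t => diagonal fun i => (1 - t) * D i + t * (SignType.sign (D i) : ℝ), ?_, by simp,
    by simp, fun t ht => ?_⟩
  · refine Continuous.matrix_diagonal ?_
    fun_prop
  · rw [det_diagonal, Finset.prod_ne_zero_iff]
    intro i _
    rcases lt_or_gt_of_ne (hD i) with h | h
    · rw [sign_neg h]
      have : (1 - t) * D i + t * ((-1 : SignType) : ℝ) < 0 := by
        simp only [SignType.coe_neg, SignType.coe_one]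
        rcases eq_or_lt_of_le ht.2 with h1 | h1
        · rw [h1]; norm_num
        · nlinarith [ht.1, mul_neg_of_pos_of_neg (sub_pos.2 h1) h]
      exact this.ne
    · rw [sign_pos h]
      have : 0 < (1 - t) * D i + t * ((1 : SignType) : ℝ) := by
        simp only [SignType.coe_one]
        rcases eq_or_lt_of_le ht.2 with h1 | h1
        · rw [h1]; norm_num
        · nlinarith [ht.1, mul_pos (sub_pos.2 h1) h]
      exact this.ne'

/-- every invertible real matrix is joined to a diagonal matrix of signs by a path of invertible matrices -/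
theorem exists_glPath_sign (A : Matrix (Fin n) (Fin n) ℝ) (hA : A.det ≠ 0) :
    ∃ sg : Fin n → ℝ, (∀ i, sg i = 1 ∨ sg i = -1) ∧ GLPath A (diagonal sg) := by
  obtain ⟨L, L', D, hAD⟩ := Pivot.exists_list_transvec_mul_diagonal_mul_list_transvec A
  have hD : ∀ i, D i ≠ 0 := by
    intro i hi
    apply hA
    rw [hAD, det_mul, det_mul, det_diagonal, Finset.prod_eq_zero (Finset.mem_univ i) hi]
    simp
  refine ⟨fun i => (SignType.sign (D i) : ℝ), fun i => ?_, ?_⟩
  · rcases lt_or_gt_of_ne (hD i) with h | h
    · right; simp [sign_neg h]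
    · left; simp [sign_pos h]
  · have h := ((glPath_list_transvec L).mul (glPath_diagonal D hD)).mul (glPath_list_transvec L')
    rw [← hAD] at h
    simpa using h

theorem exists_path_to_sign (A : V n →L[ℝ] V n) (hA : A.det ≠ 0) :
    ∃ (γ : ℝ → V n →L[ℝ] V n) (ε : Fin n → ℝ), Continuous γ ∧ γ 0 = A ∧ γ 1 = signMap ε ∧
      (∀ i, ε i = 1 ∨ ε i = -1) ∧ ∀ s ∈ Icc (0 : ℝ) 1, (γ s).det ≠ 0 := by
  classical
  obtain ⟨sg, hsg, γM, hc, h0, h1, hd⟩ := exists_glPath_sign (LinearMap.toMatrix' (A : V n →ₗ[ℝ] V n))
    (by rw [LinearMap.det_toMatrix']; exact hA)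
  set Φ : Matrix (Fin n) (Fin n) ℝ →ₗ[ℝ] (V n →L[ℝ] V n) :=
    (LinearMap.toContinuousLinearMap (𝕜 := ℝ) (E := V n) (F' := V n)).toLinearMap ∘ₗ
      (Matrix.toLin' (R := ℝ) (m := Fin n) (n := Fin n)).toLinearMap with hΦ
  have hΦc : Continuous Φ := LinearMap.continuous_of_finiteDimensional Φ
  have hΦapp : ∀ (M : Matrix (Fin n) (Fin n) ℝ) (v : V n), Φ M v = M.mulVec v := fun M v => rfl
  refine ⟨fun s => Φ (γM s), sg, hΦc.comp hc, ?_, ?_, hsg, fun s hs => ?_⟩
  · ext v i
    simp only [h0, hΦapp]
    rw [← Matrix.toLin'_apply, Matrix.toLin'_toMatrix']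
    rfl
  · ext v i
    simp only [h1, hΦapp]
    rw [Matrix.mulVec_diagonal, signMap_apply]
  · have : (Φ (γM s)).det = (γM s).det := by
      show LinearMap.det (Matrix.toLin' (γM s)) = _
      exact LinearMap.det_toLin' _
    rw [this]
    exact hd s hs

end Claimed.Open.R308.Hopf
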