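/- Copy, up to the name of the namespace, of the file `SanityHopfSel.lean` of the folder of result 313; written there by the seats 196 (board hopf_post of helper223). -/
import Claimed.Open.R308.SanityHopfDefs

/-! # Hopf, post T7 (finite sets of points): a coordinate hyperplane which misses a finite set and separates two of its points.
`z i ≠ z' i` for some `i`; the open interval between them is infinite, the set of the values `w i`, `w ∈ Z`, is finite. -/

set_option autoImplicit false

open Topology unitInterval Set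
open scoped Topology.Homotopy

namespace Claimed.Open.R308.Hopf

open Claimed.Open.R308.Deg (V)

variable {n : ℕ} {X : Type} [TopologicalSpace X] {x₀ : X}

theorem exists_hyperplane {Z : Set (V n)} (hZ : Z.Finite) {z z' : V n} (hz : z ∈ Z) (hz' : z' ∈ Z)
    (hne : z ≠ z') :
    ∃ (i : Fin n) (a : ℝ), (∀ w ∈ Z, w i ≠ a) ∧ (∃ w ∈ Z, w i < a) ∧ (∃ w ∈ Z, a < w i) := by
  obtain ⟨i, hi⟩ := Function.ne_iff.mp hne
  have key : ∀ u u' : V n, u ∈ Z → u' ∈ Z → u i < u' i →
      ∃ a : ℝ, (∀ w ∈ Z, w i ≠ a) ∧ (∃ w ∈ Z, w i < a) ∧ (∃ w ∈ Z, a < w i) := by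
    intro u u' hu hu' hlt
    obtain ⟨a, ha, haS⟩ :=
      (Set.Ioo_infinite hlt).exists_notMem_finite (hZ.image (fun w : V n => w i))
    exact ⟨a, fun w hw h => haS ⟨w, hw, h⟩, ⟨u, hu, ha.1⟩, ⟨u', hu', ha.2⟩⟩
  rcases lt_or_gt_of_ne hi with h | h
  · exact ⟨i, key z z' hz hz' h⟩
  · exact ⟨i, key z' z hz' hz h⟩

end Claimed.Open.R308.Hopf
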