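/- Copy, up to the name of the namespace, of the file `SanityHopfLin.lean` of the folder of result 313; written there by the seats 170, 137 (board hopf_post of helper223). -/
import Claimed.Open.R308.SanityHopfHtpy
import Claimed.Open.R308.SanityHopfFin
import Claimed.Open.R308.SanityHopfBall

/-! # Hopf, post T9: one non-degenerate zero: the loop is homotopic to the loop of the derivative on a small cube.
`A = fderiv ℝ P z`, `a` from `exists_lower_bound`.  Choose `δ > 0` with `closedBall z δ ⊆ O` (so `InCube z δ`: the points `z ± δ e_i` lie in `O`, `Adm.sub`) and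
`‖P x - A (x - z)‖ ≤ (a/2) ‖x - z‖` on it (`HasFDerivAt.isLittleO`).  `m > 0` a lower bound of `‖P‖` on the compact `closure O \\ ball z δ` (`huniq`).  `l = max 1 (max (1/(2m)) (1/(a δ)))`.
`Lp c h ≃ Lp c (h.smul _)` (`Lp_smul_homotopic`) `= Lp` of `(ball z δ, l • P)` (`Lp_restrict`) `≃ Lp` of `(ball z δ, l • A (· - z))` (`Lp_homotopic` along the segment: on the sphere
`‖(1 - s) P x + s A (x - z)‖ ≥ ‖A (x - z)‖ - ‖P x - A (x - z)‖ ≥ (a/2) δ`). -/

set_option autoImplicit false

open Topology unitInterval Set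
open scoped Topology.Homotopy

namespace Claimed.Open.R308.Hopf

open Claimed.Open.R308.Deg (V)

variable {n : ℕ} {X : Type} [TopologicalSpace X] {x₀ : X}

theorem hcls_Lp_single_eq_lin [Nonempty (Fin n)] (c : Ω^ (Fin n) X x₀) {O : Set (V n)}
    {P : V n → V n} (h : Adm O P) (hd : Differentiable ℝ P) {z : V n} (hz : z ∈ O) (hz0 : P z = 0)
    (huniq : ∀ x ∈ closure O, P x = 0 → x = z) (hdet : (fderiv ℝ P z).det ≠ 0) :
    ∃ (δ l : ℝ) (hadm : Adm (Metric.ball z δ) (fun x => l • (fderiv ℝ P z) (x - z))),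
      0 < δ ∧ InCube z δ ∧ 0 < l ∧ hcls (Lp c h) = hcls (Lp c hadm) := by
  classical
  set A : V n →L[ℝ] V n := fderiv ℝ P z with hAdef
  obtain ⟨a, ha, hA⟩ := exists_lower_bound A hdet
  have hfd : HasFDerivAt P A z := (hd z).hasFDerivAt
  have hlo := hfd.isLittleO.def (half_pos ha)
  have hO : ∀ᶠ x in 𝓝 z, x ∈ O := h.isOpen.mem_nhds hz
  obtain ⟨δ, hδ, hball⟩ := Metric.nhds_basis_closedBall.eventually_iff.1 (hO.and hlo)
  have hballO : Metric.closedBall z δ ⊆ O := fun x hx => (hball hx).1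
  have hlin : ∀ x ∈ Metric.closedBall z δ, ‖P x - A (x - z)‖ ≤ a / 2 * ‖x - z‖ := by
    intro x hx
    have := (hball hx).2
    rwa [hz0, sub_zero] at this
  -- the cube
  have hsingle : ∀ (i : Fin n) (r : ℝ), |r| ≤ δ → z + Pi.single i r ∈ Metric.closedBall z δ := by
    intro i r hr
    rw [mem_closedBall_iff_norm, add_sub_cancel_left, pi_norm_le_iff_of_nonneg hδ.le]
    intro j
    by_cases hj : j = i
    · subst hj; simpa using hr
    · simp [Pi.single_eq_of_ne hj, hδ.le]
  have hin : InCube z δ := by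
    intro i
    have h1 := (h.sub _ (hballO (hsingle i (-δ) (by rw [abs_neg, abs_of_pos hδ]))) i).1
    have h2 := (h.sub _ (hballO (hsingle i δ (by rw [abs_of_pos hδ]))) i).2
    simp only [Pi.add_apply, Pi.single_eq_same] at h1 h2
    constructor <;> linarith
  -- the lower bound off the ball
  have hK : IsCompact (closure O \ Metric.ball z δ) := h.isCompact_closure.diff Metric.isOpen_ball
  obtain ⟨m, hm, hmK⟩ := hK.exists_forall_le' (f := fun x => ‖P x‖) h.cont.norm.continuousOn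
    (a := 0) (by
      intro x hx
      refine norm_pos_iff.2 fun h0 => hx.2 ?_
      rw [huniq x hx.1 h0]
      exact Metric.mem_ball_self hδ)
  set l : ℝ := max 1 (max (1 / (2 * m)) (1 / (a * δ))) with hldef
  have hl1 : 1 ≤ l := le_max_left _ _
  have hl0 : 0 < l := lt_of_lt_of_le one_pos hl1
  have hlm : 1 / 2 ≤ l * m := by
    have h1 : 1 / (2 * m) ≤ l := (le_max_left _ _).trans (le_max_right _ _)
    calc (1 : ℝ) / 2 = 1 / (2 * m) * m := by field_simp
      _ ≤ l * m := mul_le_mul_of_nonneg_right h1 hm.le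
  have hla : 1 ≤ l * (a * δ) := by
    have h1 : 1 / (a * δ) ≤ l := (le_max_right _ _).trans (le_max_right _ _)
    have h2 : 0 < a * δ := mul_pos ha hδ
    calc (1 : ℝ) = 1 / (a * δ) * (a * δ) := by field_simp
      _ ≤ l * (a * δ) := mul_le_mul_of_nonneg_right h1 h2.le
  have hfr : frontier (Metric.ball z δ) = Metric.sphere z δ := frontier_ball z hδ.ne'
  have hbigP : ∀ x ∈ O \ Metric.ball z δ, 1 / 2 ≤ ‖l • P x‖ := by
    intro x hx
    rw [norm_smul, Real.norm_of_nonneg hl0.le]
    exact hlm.trans (mul_le_mul_of_nonneg_left (hmK x ⟨subset_closure hx.1, hx.2⟩) hl0.le)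
  have hsphere : ∀ x ∈ Metric.sphere z δ, x ∈ O \ Metric.ball z δ := by
    intro x hx
    refine ⟨hballO (Metric.sphere_subset_closedBall hx), fun hx' => ?_⟩
    rw [Metric.mem_sphere] at hx
    rw [Metric.mem_ball, hx] at hx'
    exact lt_irrefl _ hx'
  have hadmP : Adm (Metric.ball z δ) (fun x => l • P x) :=
    ⟨Metric.isOpen_ball, fun x hx i => mem_cube_of_mem_ball hin hx i, h.cont.const_smul l,
      fun x hx => hbigP x (hsphere x (hfr ▸ hx))⟩
  have hadm : Adm (Metric.ball z δ) (fun x => l • A (x - z)) :=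
    adm_lin hδ hin A hA hl0.le (by linarith)
  refine ⟨δ, l, hadm, hδ, hin, hl0, ?_⟩
  -- the three steps
  have e1 : hcls (Lp c h) = hcls (Lp c (h.smul hl1)) :=
    hcls_eq_of_homotopic (Lp_smul_homotopic c h hl1)
  have e2 : Lp c (h.smul hl1) = Lp c hadmP :=
    Lp_restrict c (h.smul hl1) hadmP (Metric.ball_subset_closedBall.trans hballO) hbigP
  set Θ : ℝ → V n → V n := fun s x => (1 - s) • (l • P x) + s • (l • A (x - z)) with hΘdef
  have hΘ0 : Θ 0 = fun x => l • P x := by
    funext x; simp [hΘdef]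
  have hΘ1 : Θ 1 = fun x => l • A (x - z) := by
    funext x; simp [hΘdef]
  have h0 : Adm (Metric.ball z δ) (Θ 0) := hΘ0 ▸ hadmP
  have h1 : Adm (Metric.ball z δ) (Θ 1) := hΘ1 ▸ hadm
  have hΘc : Continuous (fun p : ℝ × V n => Θ p.1 p.2) := by
    have hP : Continuous P := h.cont
    simp only [hΘdef]
    fun_prop
  have hbig : ∀ s ∈ Icc (0 : ℝ) 1, ∀ x ∈ frontier (Metric.ball z δ), 1 / 2 ≤ ‖Θ s x‖ := by
    intro s hs x hx
    rw [hfr] at hx
    have hxn : ‖x - z‖ = δ := by rw [← dist_eq_norm]; exact hx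
    have hx1 := hlin x (Metric.sphere_subset_closedBall hx)
    have hx2 := hA (x - z)
    rw [hxn] at hx1 hx2
    have hrew : Θ s x = l • (A (x - z) + (1 - s) • (P x - A (x - z))) := by
      simp only [hΘdef]
      module
    rw [hrew, norm_smul, Real.norm_of_nonneg hl0.le]
    have h3 : ‖(1 - s) • (P x - A (x - z))‖ ≤ a / 2 * δ := by
      rw [norm_smul, Real.norm_of_nonneg (by linarith [hs.2])]
      calc (1 - s) * ‖P x - A (x - z)‖ ≤ 1 * ‖P x - A (x - z)‖ :=
            mul_le_mul_of_nonneg_right (by linarith [hs.1]) (norm_nonneg _)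
        _ ≤ a / 2 * δ := by rw [one_mul]; exact hx1
    have h4 : a * δ - a / 2 * δ ≤ ‖A (x - z) + (1 - s) • (P x - A (x - z))‖ := by
      have := norm_sub_le_norm_add (A (x - z)) ((1 - s) • (P x - A (x - z)))
      linarith
    have h5 : l * (a * δ - a / 2 * δ) ≤ l * ‖A (x - z) + (1 - s) • (P x - A (x - z))‖ :=
      mul_le_mul_of_nonneg_left h4 hl0.le
    nlinarith
  have e3 : hcls (Lp c h0) = hcls (Lp c h1) :=
    hcls_eq_of_homotopic (Lp_homotopic c hΘc.continuousOn h0 h1 hbig)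
  have e4 : Lp c hadmP = Lp c h0 := Lp_congr c hadmP h0 (fun x _ => by rw [hΘ0])
  have e5 : Lp c h1 = Lp c hadm := Lp_congr c h1 hadm (fun x _ => by rw [hΘ1])
  rw [e1, e2, e4, e3, e5]

end Claimed.Open.R308.Hopf
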