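/- Copy, up to the name of the namespace, of the file `SanityHopfPath.lean` of the folder of result 313; written there by the seats 220, 97 (board hopf_post of helper223). -/
import Claimed.Open.R308.SanityHopfHtpy
import Claimed.Open.R308.SanityHopfFin
import Claimed.Open.R308.SanityHopfBall

/-! # Hopf, post T11: a path of invertible linear maps gives a homotopy of loops.
UNIFORM lower bound: `(s, v) ↦ ‖γ s v‖` is continuous and positive on the compact `Icc 0 1 ×ˢ sphere 0 1` (`exists_lower_bound` gives injectivity), so `a' ‖v‖ ≤ ‖γ s v‖` for all `s ∈ [0,1]`, `a' > 0`.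
`l' = max l (1/(2 a' δ))`.  First `l → l'` (`Lp_smul_homotopic` with `l'/l ≥ 1`, `Lp_congr`), then `Lp_homotopic` with `Θ s x = l' • γ s (x - z)` (`adm_lin`, `frontier_ball`). -/

set_option autoImplicit false

open Topology unitInterval Set
open scoped Topology.Homotopy

namespace Claimed.Open.R308.Hopf

open Claimed.Open.R308.Deg (V)

variable {n : ℕ} {X : Type} [TopologicalSpace X] {x₀ : X}

/-- a path of invertible linear maps is uniformly bounded below -/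
theorem t11_uniform_lower_bound [Nonempty (Fin n)] (γ : ℝ → V n →L[ℝ] V n) (hγ : Continuous γ)
    (hdet : ∀ s ∈ Icc (0 : ℝ) 1, (γ s).det ≠ 0) :
    ∃ a : ℝ, 0 < a ∧ ∀ s ∈ Icc (0 : ℝ) 1, ∀ v, a * ‖v‖ ≤ ‖γ s v‖ := by
  have hK : IsCompact (Icc (0 : ℝ) 1 ×ˢ Metric.sphere (0 : V n) 1) :=
    isCompact_Icc.prod (isCompact_sphere _ _)
  obtain ⟨u, hu⟩ : (Metric.sphere (0 : V n) 1).Nonempty :=
    (NormedSpace.sphere_nonempty (E := V n)).2 zero_le_one
  have hne : (Icc (0 : ℝ) 1 ×ˢ Metric.sphere (0 : V n) 1).Nonempty :=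
    ⟨(0, u), ⟨left_mem_Icc.2 zero_le_one, hu⟩⟩
  have hc : Continuous (fun p : ℝ × V n => ‖γ p.1 p.2‖) :=
    ((hγ.comp continuous_fst).clm_apply continuous_snd).norm
  obtain ⟨p, hp, hmin⟩ := hK.exists_isMinOn hne hc.continuousOn
  obtain ⟨a, ha, hA⟩ := exists_lower_bound (γ p.1) (hdet p.1 hp.1)
  have hp2 : ‖p.2‖ = 1 := by simpa using hp.2
  have hpos : 0 < ‖γ p.1 p.2‖ := by
    have := hA p.2
    rw [hp2, mul_one] at this
    exact lt_of_lt_of_le ha this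
  refine ⟨‖γ p.1 p.2‖, hpos, fun s hs v => ?_⟩
  rcases eq_or_ne v 0 with rfl | hv
  · simp
  · have hv0 : 0 < ‖v‖ := norm_pos_iff.2 hv
    have hw : ‖(‖v‖⁻¹ • v)‖ = 1 := by
      rw [norm_smul, norm_inv, norm_norm, inv_mul_cancel₀ hv0.ne']
    have h1 : ‖γ p.1 p.2‖ ≤ ‖γ s (‖v‖⁻¹ • v)‖ :=
      hmin (show (s, ‖v‖⁻¹ • v) ∈ Icc (0 : ℝ) 1 ×ˢ Metric.sphere (0 : V n) 1 from
        ⟨hs, by simpa using hw⟩)
    rw [map_smul, norm_smul, norm_inv, norm_norm] at h1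
    calc ‖γ p.1 p.2‖ * ‖v‖ ≤ (‖v‖⁻¹ * ‖γ s v‖) * ‖v‖ := mul_le_mul_of_nonneg_right h1 hv0.le
      _ = ‖γ s v‖ := by field_simp

theorem hcls_Lp_lin_path [Nonempty (Fin n)] (c : Ω^ (Fin n) X x₀) {z : V n} {δ : ℝ} (hδ : 0 < δ)
    (hin : InCube z δ) (γ : ℝ → V n →L[ℝ] V n) (hγ : Continuous γ)
    (hdet : ∀ s ∈ Icc (0 : ℝ) 1, (γ s).det ≠ 0) {l : ℝ} (hl : 0 < l)
    (h0 : Adm (Metric.ball z δ) (fun x => l • γ 0 (x - z))) :
    ∃ (l' : ℝ) (h1 : Adm (Metric.ball z δ) (fun x => l' • γ 1 (x - z))),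
      0 < l' ∧ hcls (Lp c h0) = hcls (Lp c h1) := by
  obtain ⟨a, ha, hA⟩ := t11_uniform_lower_bound γ hγ hdet
  obtain ⟨l', hl'⟩ : ∃ l', l' = max l (1 / (2 * (a * δ))) := ⟨_, rfl⟩
  have hll : l ≤ l' := hl' ▸ le_max_left _ _
  have hl0 : 0 < l' := lt_of_lt_of_le hl hll
  have haδ : 0 < a * δ := mul_pos ha hδ
  have hbig : 1 / 2 ≤ l' * (a * δ) := by
    have h1 : 1 / (2 * (a * δ)) ≤ l' := hl' ▸ le_max_right _ _
    have h2 := mul_le_mul_of_nonneg_right h1 haδ.le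
    have h3 : 1 / (2 * (a * δ)) * (a * δ) = 1 / 2 := by field_simp
    rwa [h3] at h2
  have adm : ∀ s ∈ Icc (0 : ℝ) 1, Adm (Metric.ball z δ) (fun x => l' • γ s (x - z)) := fun s hs =>
    adm_lin hδ hin (γ s) (hA s hs) hl0.le hbig
  have m0 : (0 : ℝ) ∈ Icc (0 : ℝ) 1 := left_mem_Icc.2 zero_le_one
  have m1 : (1 : ℝ) ∈ Icc (0 : ℝ) 1 := right_mem_Icc.2 zero_le_one
  refine ⟨l', adm 1 m1, hl0, ?_⟩
  -- from `l` to `l'`
  have hq : 1 ≤ l' / l := (one_le_div hl).2 hll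
  have e1 : hcls (Lp c h0) = hcls (Lp c (h0.smul hq)) :=
    hcls_eq_of_homotopic (Lp_smul_homotopic c h0 hq)
  have e2 : Lp c (h0.smul hq) = Lp c (adm 0 m0) := by
    refine Lp_congr c _ _ fun x _ => ?_
    have hx : (l' / l) • l • γ 0 (x - z) = l' • γ 0 (x - z) := by
      rw [smul_smul, div_mul_cancel₀ _ hl.ne']
    by_cases hxO : x ∈ Metric.ball z δ
    · rw [lpFun_of_mem c _ hxO, lpFun_of_mem c _ hxO, hx]
    · rw [lpFun_of_notMem c _ hxO, lpFun_of_notMem c _ hxO]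
  -- along the path
  have hΘ : ContinuousOn (fun p : ℝ × V n => (fun (s : ℝ) (x : V n) => l' • γ s (x - z)) p.1 p.2)
      (Icc (0 : ℝ) 1 ×ˢ univ) :=
    (((hγ.comp continuous_fst).clm_apply (continuous_snd.sub continuous_const)).const_smul
      l').continuousOn
  have e3 : hcls (Lp c (adm 0 m0)) = hcls (Lp c (adm 1 m1)) :=
    hcls_eq_of_homotopic (Lp_homotopic c (Θ := fun (s : ℝ) (x : V n) => l' • γ s (x - z)) hΘ
      (adm 0 m0) (adm 1 m1) (fun s hs x hx => (adm s hs).big x hx))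
  rw [e1, e2, e3]

end Claimed.Open.R308.Hopf
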