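/- Copy, up to the name of the namespace, of the file `SanityHopfSign.lean` of the folder of result 313; written there by the seats 252, 241 (board hopf_post of helper223). -/
import Claimed.Open.R308.SanityHopfBall

/-! # Hopf, post T13: reflections.  `Lp c (adm_sign hε) t = c (t with t_i replaced by 1 - t_i where ε i = -1)` (also on the boundary: both sides are `x₀`).
Induction on the finite set `{i | ε i = -1}`: reflecting one more coordinate `i` is `GenLoop.symmAt i`, and `HomotopyGroup.inv_spec : (⟦p⟧)⁻¹ = ⟦symmAt i p⟧`.
Suggestion: prove for every loop `p` and every finset `s` that `hcls (p ∘ reflection in the coordinates of s) = hcls p ^ ((-1 : ℤ) ^ s.card)` or just membership in `zpowers`. -/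

set_option autoImplicit false

open Topology unitInterval Set
open scoped Topology.Homotopy

namespace Claimed.Open.R308.Hopf

open Claimed.Open.R308.Deg (V)

variable {n : ℕ} {X : Type} [TopologicalSpace X] {x₀ : X}

/-- the clamped chart coordinates of the sign map: the reflection in the coordinates with `ε i = -1` -/
theorem t13_clamp {ε : Fin n → ℝ} (hε : ∀ i, ε i = 1 ∨ ε i = -1) (t : Fin n → I) :
    clampC (signMap ε (toV t - ctr n)) =
      fun j => if j ∈ (Finset.univ.filter fun i => ε i = -1) then σ (t j) else t j := by
  funext j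
  unfold clampC
  rw [signMap_apply]
  simp only [Finset.mem_filter, Finset.mem_univ, true_and, Pi.sub_apply, toV, ctr]
  rcases hε j with h | h
  · have hne : ¬ ε j = -1 := by rw [h]; norm_num
    rw [if_neg hne, h]
    have e : (1 : ℝ) * ((t j : ℝ) - 1 / 2) + 1 / 2 = t j := by ring
    rw [e]
    exact Set.projIcc_val zero_le_one (t j)
  · rw [if_pos h, h]
    have e : (-1 : ℝ) * ((t j : ℝ) - 1 / 2) + 1 / 2 = (σ (t j) : I) := by
      rw [unitInterval.coe_symm_eq]; ring
    rw [e]
    exact Set.projIcc_val zero_le_one (σ (t j))

/-- a loop composed with the reflection in the coordinates of a finite set is a power of the loop -/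
theorem t13_refl [Nonempty (Fin n)] (p : Ω^ (Fin n) X x₀) (s : Finset (Fin n)) :
    ∀ f : Ω^ (Fin n) X x₀, (∀ t, f t = p (fun j => if j ∈ s then σ (t j) else t j)) →
      hcls f ∈ Subgroup.zpowers (hcls p) := by
  induction s using Finset.induction_on with
  | empty =>
    intro f hf
    have e : f = p := by
      ext t
      simpa using hf t
    rw [e]
    exact Subgroup.mem_zpowers _
  | insert i s hi ih =>
    intro f hf
    have hg := ih (GenLoop.symmAt i f) (fun t => by
      show f (fun j => if j = i then σ (t i) else t j) = _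
      rw [hf]
      congr 1
      funext j
      by_cases hj : j = i
      · subst hj
        simp [hi]
      · simp [hj])
    have e : (hcls f)⁻¹ = hcls (GenLoop.symmAt i f) := HomotopyGroup.inv_spec
    rw [← e] at hg
    exact (Subgroup.inv_mem_iff _).mp hg

theorem hcls_Lp_sign_mem [Nonempty (Fin n)] (c : Ω^ (Fin n) X x₀) {ε : Fin n → ℝ}
    (hε : ∀ i, ε i = 1 ∨ ε i = -1) :
    hcls (Lp c (adm_sign hε)) ∈ Subgroup.zpowers (hcls c) := by
  refine t13_refl c (Finset.univ.filter fun i => ε i = -1) _ fun t => ?_
  rw [Lp_apply, ← t13_clamp hε t]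
  by_cases ht : toV t ∈ Metric.ball (ctr n) (1 / 2)
  · rw [lpFun_of_mem c _ ht]
    rfl
  · rw [lpFun_of_notMem c _ ht]
    have h1 : 1 / 2 ≤ ‖signMap ε (toV t - ctr n)‖ := by
      rw [norm_signMap hε, ← dist_eq_norm]
      exact not_lt.mp ht
    exact (q_eq_base c h1).symm

end Claimed.Open.R308.Hopf
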