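/- Copy, up to the name of the namespace, of the file `SanityHopfSingle.lean` of the folder of result 313; written there by the seats 223 (board hopf_post of helper223). -/
import Claimed.Open.R308.SanityHopfLin
import Claimed.Open.R308.SanityHopfGL
import Claimed.Open.R308.SanityHopfPath
import Claimed.Open.R308.SanityHopfAff
import Claimed.Open.R308.SanityHopfSign

/-! # Hopf, assembly: one non-degenerate zero gives `± [c]`. -/

set_option autoImplicit false

open Topology unitInterval Set
open scoped Topology.Homotopy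

namespace Claimed.Open.R308.Hopf

open Claimed.Open.R308.Deg (V)

variable {n : ℕ} {X : Type} [TopologicalSpace X] {x₀ : X}

theorem hcls_Lp_single [Nonempty (Fin n)] (c : Ω^ (Fin n) X x₀) {O : Set (V n)}
    {P : V n → V n} (h : Adm O P) (hd : Differentiable ℝ P) {z : V n} (hz : z ∈ O) (hz0 : P z = 0)
    (huniq : ∀ x ∈ closure O, P x = 0 → x = z) (hdet : (fderiv ℝ P z).det ≠ 0) :
    hcls (Lp c h) ∈ Subgroup.zpowers (hcls c) := by
  obtain ⟨δ, l, hadm, hδ, hin, hl, e1⟩ := hcls_Lp_single_eq_lin c h hd hz hz0 huniq hdet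
  obtain ⟨γ, ε, hγ, g0, g1, hε, hγdet⟩ := exists_path_to_sign (fderiv ℝ P z) hdet
  have key : ∀ (B B' : V n →L[ℝ] V n) (_ : B = B') (r : ℝ)
      (hb : Adm (Metric.ball z δ) (fun x => r • B (x - z)))
      (hb' : Adm (Metric.ball z δ) (fun x => r • B' (x - z))),
      hcls (Lp c hb) = hcls (Lp c hb') := by
    intro B B' hB r hb hb'
    subst hB
    rfl
  have hadm' : Adm (Metric.ball z δ) (fun x => l • γ 0 (x - z)) := by rw [g0]; exact hadm
  have e1' : hcls (Lp c hadm) = hcls (Lp c hadm') := key _ _ g0.symm l hadm hadm'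
  obtain ⟨l', h1, hl', e2⟩ := hcls_Lp_lin_path c hδ hin γ hγ hγdet hl hadm'
  have h1' : Adm (Metric.ball z δ) (fun x => l' • signMap ε (x - z)) := by rw [← g1]; exact h1
  have e2' : hcls (Lp c h1) = hcls (Lp c h1') := key _ _ g1 l' h1 h1'
  rw [e1, e1', e2, e2', hcls_Lp_sign c hδ hin hε hl' h1']
  exact hcls_Lp_sign_mem c hε

end Claimed.Open.R308.Hopf
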