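/- Copy, up to the name of the namespace, of the file `SanityHopfStep.lean` of the folder of result 313; written there by the seats 9 (board hopf_post of helper223). -/
import Claimed.Open.R308.SanityHopfDefs

/-! # Hopf, post T17: small facts for the induction on the number of zeros.
`mem_of_closure_of_zero`: `closure O \ O = frontier O` for an open set (`IsOpen.frontier_eq`), where `‖P‖ ≥ 1/2`.
`exists_scale_cut`: `‖P‖` has a positive minimum `m` on the compact `closure O ∩ {x i = a}` (`Adm.isCompact_closure`; empty set: `l = 1`); `l = max 1 (1/(2m))`.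
`regular_smul`: `fderiv_const_smul`, `ContinuousLinearMap.det`, `LinearMap.det_smul`. -/

set_option autoImplicit false

open Topology unitInterval Set
open scoped Topology.Homotopy

namespace Claimed.Open.R308.Hopf

open Claimed.Open.R308.Deg (V)

variable {n : ℕ} {X : Type} [TopologicalSpace X] {x₀ : X}

theorem mem_of_closure_of_zero {O : Set (V n)} {P : V n → V n} (h : Adm O P) {x : V n}
    (hx : x ∈ closure O) (h0 : P x = 0) : x ∈ O := by
  by_contra hxO
  have hf : x ∈ frontier O := by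
    rw [h.isOpen.frontier_eq]
    exact ⟨hx, hxO⟩
  have h1 := h.big x hf
  rw [h0, norm_zero] at h1
  norm_num at h1

theorem exists_scale_cut {O : Set (V n)} {P : V n → V n} (h : Adm O P) (i : Fin n) (a : ℝ)
    (hne : ∀ x ∈ closure O, x i = a → P x ≠ 0) :
    ∃ l : ℝ, 1 ≤ l ∧ ∀ x ∈ closure O, x i = a → 1 / 2 ≤ ‖l • P x‖ := by
  have hKc : IsCompact (closure O ∩ {x : V n | x i = a}) :=
    h.isCompact_closure.inter_right (isClosed_eq (continuous_apply i) continuous_const)
  rcases (closure O ∩ {x : V n | x i = a}).eq_empty_or_nonempty with hE | hN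
  · refine ⟨1, le_rfl, fun x hx hxa => ?_⟩
    have hxK : x ∈ closure O ∩ {x : V n | x i = a} := ⟨hx, hxa⟩
    rw [hE] at hxK
    exact absurd hxK (Set.notMem_empty x)
  · obtain ⟨x₁, hx₁, hmin⟩ := hKc.exists_isMinOn hN h.cont.norm.continuousOn
    have hm : 0 < ‖P x₁‖ := norm_pos_iff.2 (hne x₁ hx₁.1 hx₁.2)
    refine ⟨max 1 (1 / (2 * ‖P x₁‖)), le_max_left _ _, fun x hx hxa => ?_⟩
    have h1 : ‖P x₁‖ ≤ ‖P x‖ := isMinOn_iff.1 hmin x ⟨hx, hxa⟩
    have hpos : 0 < max 1 (1 / (2 * ‖P x₁‖)) := lt_of_lt_of_le one_pos (le_max_left _ _)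
    rw [norm_smul, Real.norm_eq_abs, abs_of_pos hpos]
    calc (1 : ℝ) / 2 = 1 / (2 * ‖P x₁‖) * ‖P x₁‖ := by field_simp
      _ ≤ max 1 (1 / (2 * ‖P x₁‖)) * ‖P x‖ :=
          mul_le_mul (le_max_right _ _) h1 hm.le hpos.le

theorem regular_smul {P : V n → V n} (hd : Differentiable ℝ P)
    (hreg : ∀ x, P x = 0 → (fderiv ℝ P x).det ≠ 0) {l : ℝ} (hl : 1 ≤ l) :
    ∀ x, l • P x = 0 → (fderiv ℝ (fun y => l • P y) x).det ≠ 0 := by
  intro x hx
  have hl0 : l ≠ 0 := by positivity
  have hP : P x = 0 := (smul_eq_zero.1 hx).resolve_left hl0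
  have e : fderiv ℝ (fun y => l • P y) x = l • fderiv ℝ P x := fderiv_fun_const_smul (hd x) l
  have e2 : (l • fderiv ℝ P x).det = l ^ (Module.finrank ℝ (V n)) * (fderiv ℝ P x).det := by
    simp [ContinuousLinearMap.det, LinearMap.det_smul]
  rw [e, e2]
  exact mul_ne_zero (pow_ne_zero _ hl0) (hreg x hP)

end Claimed.Open.R308.Hopf
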