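/- Copy, up to the name of the namespace, of the file `SanityHopfInd.lean` of the folder of result 313; written there by the seats 196, 289 (board hopf_post of helper223). -/
import Claimed.Open.R308.SanityHopfSingle
import Claimed.Open.R308.SanityHopfCut
import Claimed.Open.R308.SanityHopfSel
import Claimed.Open.R308.SanityHopfStep

/-! # Hopf, post T18: induction on the number of zeros.
Strong induction on `N` in `hcls_Lp_mem_of_card`.  `Z = {x | x ∈ O ∧ P x = 0}` is finite (`finite_zeros`).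
* `Z = ∅`: `hcls_Lp_eq_one` (`mem_of_closure_of_zero`), `one_mem`.
* `Z = {z}`: `hcls_Lp_single`.
* two distinct points in `Z`: `exists_hyperplane` gives `i`, `a` (`0 < a < 1` by `Adm.sub` at the two points on both sides); `exists_scale_cut` gives `l`; `Lp_smul_homotopic`, `hcls_Lp_cut` for `h.smul hl`;
  the zero sets of the two pieces are proper subsets of `Z` (`Set.ncard_lt_ncard`); `regular_smul`, `Differentiable.const_smul`; `Subgroup.mul_mem`. -/

set_option autoImplicit false

open Topology unitInterval Set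
open scoped Topology.Homotopy

namespace Claimed.Open.R308.Hopf

open Claimed.Open.R308.Deg (V)

variable {n : ℕ} {X : Type} [TopologicalSpace X] {x₀ : X}

/-- the zero set of a piece `O ∩ S` of the scaled map is a proper subset of the zero set, if some zero is not in `S` -/
theorem t18_ncard_lt {O S : Set (V n)} {P : V n → V n} {l : ℝ} (hl : 1 ≤ l)
    (hfin : {x | x ∈ O ∧ P x = 0}.Finite) {w : V n} (hw : w ∈ {x | x ∈ O ∧ P x = 0})
    (hwS : w ∉ S) :
    {x | x ∈ O ∩ S ∧ (fun y => l • P y) x = 0}.ncard < {x | x ∈ O ∧ P x = 0}.ncard := by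
  have hl0 : l ≠ 0 := by
    intro h0
    rw [h0] at hl
    linarith
  apply Set.ncard_lt_ncard _ hfin
  refine ⟨?_, ?_⟩
  · rintro x ⟨⟨hxO, _⟩, hx0⟩
    exact ⟨hxO, (smul_eq_zero.mp hx0).resolve_left hl0⟩
  · intro hsub
    exact hwS (hsub hw).1.2

theorem hcls_Lp_mem_of_card [Nonempty (Fin n)] (c : Ω^ (Fin n) X x₀) (N : ℕ) :
    ∀ (O : Set (V n)) (P : V n → V n) (h : Adm O P), Differentiable ℝ P →
      (∀ x, P x = 0 → (fderiv ℝ P x).det ≠ 0) → {x | x ∈ O ∧ P x = 0}.ncard = N →
      hcls (Lp c h) ∈ Subgroup.zpowers (hcls c) := by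
  induction N using Nat.strong_induction_on with
  | _ N ih =>
    intro O P h hd hreg hN
    have hfin : {x | x ∈ O ∧ P x = 0}.Finite := finite_zeros h hd hreg
    by_cases hempty : ∀ x, ¬ (x ∈ O ∧ P x = 0)
    · rw [hcls_Lp_eq_one c h
        (fun x hx h0 => hempty x ⟨mem_of_closure_of_zero h hx h0, h0⟩)]
      exact Subgroup.one_mem _
    · push Not at hempty
      obtain ⟨z, hzO, hz0⟩ := hempty
      by_cases huniq : ∀ x, x ∈ O ∧ P x = 0 → x = z
      · exact hcls_Lp_single c h hd hzO hz0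
          (fun x hx h0 => huniq x ⟨mem_of_closure_of_zero h hx h0, h0⟩) (hreg z hz0)
      · push Not at huniq
        obtain ⟨z', ⟨hz'O, hz'0⟩, hne⟩ := huniq
        obtain ⟨i, a, hmiss, ⟨w1, hw1, hlt⟩, ⟨w2, hw2, hgt⟩⟩ :=
          exists_hyperplane hfin (z := z') (z' := z) ⟨hz'O, hz'0⟩ ⟨hzO, hz0⟩ hne
        have ha : 0 < a ∧ a < 1 :=
          ⟨lt_trans (h.sub w1 hw1.1 i).1 hlt, lt_trans hgt (h.sub w2 hw2.1 i).2⟩
        have hne0 : ∀ x ∈ closure O, x i = a → P x ≠ 0 := fun x hx hxa h0 =>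
          hmiss x ⟨mem_of_closure_of_zero h hx h0, h0⟩ hxa
        obtain ⟨l, hl, hbig⟩ := exists_scale_cut h i a hne0
        have e1 : hcls (Lp c h) = hcls (Lp c (h.smul hl)) :=
          hcls_eq_of_homotopic (Lp_smul_homotopic c h hl)
        have e2 := hcls_Lp_cut c (h.smul hl) i ha hbig
        have hd' : Differentiable ℝ (fun y => l • P y) := hd.const_smul l
        have hreg' := regular_smul hd hreg hl
        have c1 : {x | x ∈ O ∩ {x | a < x i} ∧ (fun y => l • P y) x = 0}.ncard < N := by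
          rw [← hN]
          exact t18_ncard_lt hl hfin hw1 (fun hmem => absurd hlt (not_lt.mpr (le_of_lt hmem)))
        have c2 : {x | x ∈ O ∩ {x | x i < a} ∧ (fun y => l • P y) x = 0}.ncard < N := by
          rw [← hN]
          exact t18_ncard_lt hl hfin hw2 (fun hmem => absurd hgt (not_lt.mpr (le_of_lt hmem)))
        rw [e1, e2]
        exact Subgroup.mul_mem _
          (ih _ c1 _ _ ((h.smul hl).cut_gt i hbig) hd' hreg' rfl)
          (ih _ c2 _ _ ((h.smul hl).cut_lt i hbig) hd' hreg' rfl)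

theorem hcls_Lp_mem_zpowers [Nonempty (Fin n)] (c : Ω^ (Fin n) X x₀) {O : Set (V n)}
    {P : V n → V n} (h : Adm O P) (hd : Differentiable ℝ P)
    (hreg : ∀ x, P x = 0 → (fderiv ℝ P x).det ≠ 0) :
    hcls (Lp c h) ∈ Subgroup.zpowers (hcls c) :=
  hcls_Lp_mem_of_card c _ O P h hd hreg rfl

end Claimed.Open.R308.Hopf
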