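/- Copy, up to the name of the namespace, of the file `SanityHopfReg.lean` of the folder of result 313; written there by the seats 38 (board hopf_post of helper223). -/
import Claimed.Open.R308.SanityHopfHtpy
import Claimed.Open.R308.SanityDegApprox
import Claimed.Open.R308.SanityDegIntA

/-! # Hopf, post T3: smoothing, regular value.
Scale `θ` by `4` (`Lp_smul_homotopic`): `‖4 θ‖ ≥ 2` on the frontier.  `Deg.exists_approx` on `Icc 0 1`: `P₀` of class `C²` with `‖P₀ - 4 θ‖ < 1/2`;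
`Deg.exists_regular_value` (`S = univ`): `y₀`, `‖y₀‖ < 1/2`; `P = P₀ - y₀`.  The segment `(1 - s) • 4 θ + s • P` has norm `≥ 1` on the frontier (`Adm.closure_sub`): `Lp_homotopic`. -/

set_option autoImplicit false

open Topology unitInterval Set
open scoped Topology.Homotopy

namespace Claimed.Open.R308.Hopf

open Claimed.Open.R308.Deg (V)

variable {n : ℕ} {X : Type} [TopologicalSpace X] {x₀ : X}

/-- equal maps give equal loops -/
theorem t3_Lp_eq (c : Ω^ (Fin n) X x₀) {O : Set (V n)} {θ θ' : V n → V n} (e : θ = θ')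
    (h : Adm O θ) (h' : Adm O θ') : Lp c h = Lp c h' := by
  subst e
  rfl

theorem exists_regular (c : Ω^ (Fin n) X x₀) {O : Set (V n)} {θ : V n → V n} (h : Adm O θ) :
    ∃ (P : V n → V n) (hP : Adm O P), ContDiff ℝ 2 P ∧
      (∀ x, P x = 0 → (fderiv ℝ P x).det ≠ 0) ∧ GenLoop.Homotopic (Lp c h) (Lp c hP) := by
  have h4 : Adm O (fun x => (4 : ℝ) • θ x) := h.smul (by norm_num)
  have hc4 : Continuous fun x => (4 : ℝ) • θ x := h4.cont
  obtain ⟨P₀, hP₀, happ⟩ := Deg.exists_approx (a := (0 : V n)) (b := 1)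
    (F := fun x => (4 : ℝ) • θ x) hc4.continuousOn (δ := 1 / 2) (by norm_num)
  obtain ⟨y₀, hy₀, hreg⟩ := Deg.exists_regular_value hP₀ (univ : Set (V n)) (η := 1 / 2)
    (by norm_num)
  set P : V n → V n := fun x => P₀ x - y₀ with hPdef
  have hP : ContDiff ℝ 2 P := hP₀.sub contDiff_const
  have hPc : Continuous P := hP.continuous
  have hfd : ∀ x, fderiv ℝ P x = fderiv ℝ P₀ x := fun x => by
    simp only [hPdef]
    exact fderiv_sub_const y₀
  -- the segment
  set Θ : ℝ → V n → V n := fun s x => (1 - s) • ((4 : ℝ) • θ x) + s • P x with hΘ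
  have hbig : ∀ s ∈ Icc (0 : ℝ) 1, ∀ x ∈ frontier O, 1 / 2 ≤ ‖Θ s x‖ := by
    intro s hs x hx
    have hxI : x ∈ Icc (0 : V n) 1 := h.closure_sub (frontier_subset_closure hx)
    have h1 : 2 ≤ ‖(4 : ℝ) • θ x‖ := by
      rw [norm_smul, Real.norm_of_nonneg (by norm_num)]
      have := h.big x hx
      linarith
    have h2 : ‖P x - (4 : ℝ) • θ x‖ < 1 := by
      have e : P x - (4 : ℝ) • θ x = (P₀ x - (4 : ℝ) • θ x) - y₀ := by
        simp only [hPdef]; abel
      rw [e]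
      calc ‖(P₀ x - (4 : ℝ) • θ x) - y₀‖ ≤ ‖P₀ x - (4 : ℝ) • θ x‖ + ‖y₀‖ := norm_sub_le _ _
        _ < 1 / 2 + 1 / 2 := add_lt_add (happ x hxI) hy₀
        _ = 1 := by norm_num
    have e : Θ s x = (4 : ℝ) • θ x + s • (P x - (4 : ℝ) • θ x) := by
      simp only [hΘ, sub_smul, smul_sub, one_smul]; abel
    have h3 : ‖s • (P x - (4 : ℝ) • θ x)‖ ≤ 1 := by
      rw [norm_smul, Real.norm_of_nonneg hs.1]
      calc s * ‖P x - (4 : ℝ) • θ x‖ ≤ 1 * 1 :=
            mul_le_mul hs.2 h2.le (norm_nonneg _) (by norm_num)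
        _ = 1 := by norm_num
    have h4' : ‖(4 : ℝ) • θ x‖ ≤ ‖Θ s x‖ + ‖s • (P x - (4 : ℝ) • θ x)‖ := by
      have : (4 : ℝ) • θ x = Θ s x - s • (P x - (4 : ℝ) • θ x) := by rw [e]; abel
      calc ‖(4 : ℝ) • θ x‖ = ‖Θ s x - s • (P x - (4 : ℝ) • θ x)‖ := by rw [← this]
        _ ≤ _ := norm_sub_le _ _
    linarith
  have e0 : Θ 0 = fun x => (4 : ℝ) • θ x := by
    funext x; simp [hΘ]
  have e1 : Θ 1 = P := by
    funext x; simp [hΘ]
  have hAP : Adm O P :=
    ⟨h.isOpen, h.sub, hPc, fun x hx => by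
      have := hbig 1 ⟨zero_le_one, le_rfl⟩ x hx
      rwa [e1] at this⟩
  have hA0 : Adm O (Θ 0) := by rw [e0]; exact h4
  have hA1 : Adm O (Θ 1) := by rw [e1]; exact hAP
  have hcont : Continuous fun p : ℝ × V n => Θ p.1 p.2 :=
    ((continuous_const.sub continuous_fst).smul (hc4.comp continuous_snd)).add
      (continuous_fst.smul (hPc.comp continuous_snd))
  have hH := Lp_homotopic c hcont.continuousOn hA0 hA1 hbig
  rw [t3_Lp_eq c e0 hA0 h4, t3_Lp_eq c e1 hA1 hAP] at hH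
  refine ⟨P, hAP, hP, fun x hx => ?_, (Lp_smul_homotopic c h (by norm_num)).trans hH⟩
  rw [hfd x]
  exact hreg x (mem_univ x) (sub_eq_zero.1 hx)

end Claimed.Open.R308.Hopf
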