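/- Copy, up to the name of the namespace, of the file `SanityHopfGen.lean` of the folder of result 313; written there by the seats 223 (board hopf_post of helper223). -/
import Claimed.Open.R308.SanityHopfInd
import Claimed.Open.R308.SanityHopfPres
import Claimed.Open.R308.SanityHopfReg

/-! # Hopf's theorem, unstable form: `π_n (Iⁿ/∂Iⁿ)` is generated by the class of the collapse map. -/

set_option autoImplicit false

open Topology unitInterval Set
open scoped Topology.Homotopy

namespace Claimed.Open.R308.Hopf

open Claimed.Open.R308.Deg (V)

variable {n : ℕ} {X : Type} [TopologicalSpace X] {x₀ : X}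

/-- **Hopf**: if `c : (Iⁿ, ∂Iⁿ) → (X, x₀)` is a relative homeomorphism onto a Hausdorff space (`n ≥ 1`), then every element of `π_n (X, x₀)` is a power of the class of `c`. -/
theorem IsCollapse.generates [T2Space X] [Nonempty (Fin n)] {c : Ω^ (Fin n) X x₀}
    (hc : IsCollapse c) (x : HomotopyGroup (Fin n) X x₀) : x ∈ Subgroup.zpowers (hcls c) := by
  induction x using Quotient.inductionOn with
  | _ f =>
    obtain ⟨O, θ, h, e1⟩ := exists_presentation hc f
    obtain ⟨P, hP, hC, hreg, e2⟩ := exists_regular c h
    have e : (Quotient.mk _ f : HomotopyGroup (Fin n) X x₀) = hcls (Lp c hP) :=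
      (hcls_eq_of_homotopic e1).trans (hcls_eq_of_homotopic e2)
    rw [e]
    exact hcls_Lp_mem_zpowers c hP (hC.differentiable (by norm_num)) hreg

end Claimed.Open.R308.Hopf
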