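import Claimed.Open.R308.Sanity

/-!
# Result 308: example and non-example of `Ptd.WellPointed`

`SmithTodaExists p n` asks that the spaces of the witness be well pointed (`CLAIM.md`, deviation 5).
`Sanity.lean` shows that `S⁰` is well pointed.  Here:

* I.1: the one-point space is well pointed, so the trivial spectrum meets the first two conditions of
  `SmithTodaExists` (well-pointed spaces, finite `p`-local) and fails only the third one;
* I.2: the classical **non-example**: the convergent sequence `{1/n} ∪ {0}`, i.e. the one-point
  compactification of `ℕ`, based at its limit point, is **not** well pointed.  So the condition has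
  content.
-/

set_option autoImplicit false

open scoped unitInterval Topology

noncomputable section

namespace Claimed.Open.R308

/-- The one-point space is well pointed. -/
theorem wellPointed_ptdPoint : ptdPoint.WellPointed :=
  ⟨ContinuousMap.const _ 0, ContinuousMap.const _ ptdPoint.pt,
    fun _ => ⟨fun _ => Subsingleton.elim _ _, fun _ => rfl⟩,
    fun _ => Subsingleton.elim _ _, fun _ => rfl, fun _ _ => rfl⟩

/-- All spaces of the trivial spectrum are well pointed. -/
theorem wellPointed_pointSpectrum (b : ℕ) : (pointSpectrum.space b).WellPointed :=
  wellPointed_ptdPoint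

/-- The convergent sequence `{1/n} ∪ {0}`, based at its limit point: the one-point compactification
of the discrete space `ℕ`, based at `∞`. -/
def convSeq : Ptd := ⟨OnePoint ℕ, OnePoint.infty⟩

/-- The convergent sequence, based at its limit point, is **not** well pointed: a path in it is
constant, so no neighbourhood of the limit point can be deformed into the limit point. -/
theorem not_wellPointed_convSeq : ¬ convSeq.WellPointed := by
  rintro ⟨u, h, hu, h0, -, h1⟩
  -- the set `u < 1` is a neighbourhood of the limit point, so it contains a point `n` of the sequence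
  have hopen : IsOpen {a : OnePoint ℕ | u a < 1} := isOpen_lt u.continuous continuous_const
  have hinf : (OnePoint.infty : OnePoint ℕ) ∈ {a : OnePoint ℕ | u a < 1} := by
    have : u (OnePoint.infty : OnePoint ℕ) = 0 := (hu _).2 rfl
    change u (OnePoint.infty : OnePoint ℕ) < 1
    rw [this]; exact zero_lt_one
  obtain ⟨n, hn⟩ : ∃ n : ℕ, u ((n : OnePoint ℕ)) < 1 := by
    by_contra hcon
    push Not at hcon
    have hsing : {a : OnePoint ℕ | u a < 1} = {OnePoint.infty} := by
      ext a
      induction a using OnePoint.rec with
      | infty => simpa using hinf
      | coe m => simpa using hcon m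
    rw [hsing] at hopen
    exact (OnePoint.nhdsNE_infty_neBot (X := ℕ)).ne ((isOpen_singleton_iff_punctured_nhds _).1 hopen)
  -- the path `t ↦ h (n, t)` runs from `n` to `∞`, but `{n}` is closed and relatively isolated
  have hclopen : IsClopen ({(n : OnePoint ℕ)} : Set (OnePoint ℕ)) :=
    ⟨isClosed_singleton, by
      have := OnePoint.isOpenEmbedding_coe.isOpenMap _ (isOpen_discrete ({n} : Set ℕ))
      simpa using this⟩
  have hpath : Continuous fun t : I => h ((n : OnePoint ℕ), t) := by fun_prop
  have hpre : IsClopen ((fun t : I => h ((n : OnePoint ℕ), t)) ⁻¹' {(n : OnePoint ℕ)}) :=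
    hclopen.preimage hpath
  rcases isClopen_iff.1 hpre with he | he
  · have : (0 : I) ∈ (fun t : I => h ((n : OnePoint ℕ), t)) ⁻¹' {(n : OnePoint ℕ)} := h0 _
    rw [he] at this
    exact this
  · have : (1 : I) ∈ (fun t : I => h ((n : OnePoint ℕ), t)) ⁻¹' {(n : OnePoint ℕ)} := by
      rw [he]; trivial
    have h2 : h ((n : OnePoint ℕ), 1) = (n : OnePoint ℕ) := this
    rw [h1 _ hn] at h2
    exact OnePoint.infty_ne_coe n h2

end Claimed.Open.R308
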