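import Claimed.Open.R308.SanityTeeth
import Claimed.Open.R308.SanityWellPointed

/-!
# Result 308: joint checks of the clauses of `SmithTodaExists`, and of the coaction

* I: `Ptd.WellPointed` holds for one-point spaces and is **stable under reduced suspension**; hence all the
  spaces of the suspension spectrum of a well-pointed space are well pointed (the non-example, the limit
  point of a convergent sequence, is in `SanityWellPointed.lean`);
* J: the sphere spectrum meets at once "levelwise well pointed" and "finite CW spectrum";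
* K: **one** spectrum meets the first two clauses of `SmithTodaExists p n` (levelwise well pointed,
  finite `p`-local) and fails the third (`IsSmithTodaHomology p n`): the third clause is not implied by
  the other two; the multiplicative set of `IsPLocalization`; `p`-localisations of `0` are `0`;
* L: the Hurewicz map `π⋆ X → MU_⋆ X`; **Hurewicz images are primitive** for the coaction graph of
  `Statement.lean`; hence the recognition principle used in the last step of both papers
  (`isSmithTodaHomology_of_hurewicz_generator`);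
* M: `x · 1 = x` in `MU(n)` and `1 · x = x` in `MU_⋆X`, on the nose.
-/

set_option autoImplicit false

open scoped unitInterval Topology Topology.Homotopy TensorProduct
open CategoryTheory InnerProductSpace

noncomputable section

namespace Claimed.Open.R308

/-! ## I. Well-pointed spaces -/

/-- A one-point space is well pointed. -/
theorem wellPointed_of_subsingleton (A : Ptd) [Subsingleton A] : A.WellPointed :=
  ⟨ContinuousMap.const _ 0, ⟨fun z => z.1, continuous_fst⟩,
    fun _ => ⟨fun _ => Subsingleton.elim _ _, fun _ => rfl⟩, fun _ => rfl, fun _ => rfl,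
    fun _ _ => Subsingleton.elim _ _⟩

/-- `v(t) = min (1, 3 min (t, 1 - t))`: it vanishes exactly at the two ends of the interval. -/
def suspV : C(I, I) :=
  ⟨fun t => Set.projIcc 0 1 zero_le_one (3 * min (t : ℝ) (1 - t)), by fun_prop⟩

/-- `j(t, s)`: the interval is stretched from its middle by the factor `1 + 2 s` (and cut off). -/
def suspJ : C(I × I, I) :=
  ⟨fun z => Set.projIcc 0 1 zero_le_one (1 / 2 + (1 + 2 * (z.2 : ℝ)) * ((z.1 : ℝ) - 1 / 2)), by
    fun_prop⟩

theorem suspV_eq_zero_iff (t : I) : suspV t = 0 ↔ t = 0 ∨ t = 1 := by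
  have h0 := t.2.1
  have h1 := t.2.2
  constructor
  · intro h
    have h' : (suspV t : ℝ) = 0 := by rw [h]; rfl
    change max (0 : ℝ) (min 1 (3 * min (t : ℝ) (1 - t))) = 0 at h'
    have h2 : min (1 : ℝ) (3 * min (t : ℝ) (1 - t)) ≤ 0 := by
      rw [← h']; exact le_max_right _ _
    rcases min_le_iff.1 h2 with h3 | h3
    · linarith
    · have h4 : min (t : ℝ) (1 - t) ≤ 0 := by linarith
      rcases min_le_iff.1 h4 with h5 | h5
      · left; exact Subtype.ext (le_antisymm h5 h0)
      · right; exact Subtype.ext (le_antisymm h1 (by simpa using h5))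
  · rintro (rfl | rfl)
    · exact Set.projIcc_of_le_left zero_le_one (by simp)
    · exact Set.projIcc_of_le_left zero_le_one (by simp)

theorem suspJ_zero_right (t : I) : suspJ (t, 0) = t := by
  change Set.projIcc 0 1 zero_le_one (1 / 2 + (1 + 2 * ((0 : I) : ℝ)) * ((t : ℝ) - 1 / 2)) = t
  have : 1 / 2 + (1 + 2 * ((0 : I) : ℝ)) * ((t : ℝ) - 1 / 2) = t := by simp
  rw [this, Set.projIcc_val]

theorem suspJ_zero_left (s : I) : suspJ (0, s) = 0 := by
  refine Set.projIcc_of_le_left zero_le_one ?_
  have := s.2.1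
  simp only [Set.Icc.coe_zero]
  linarith

theorem suspJ_one_left (s : I) : suspJ (1, s) = 1 := by
  refine Set.projIcc_of_right_le zero_le_one ?_
  have := s.2.1
  simp only [Set.Icc.coe_one]
  linarith

theorem suspJ_one_right {t : I} (h : suspV t < 1) : suspJ (t, 1) = 0 ∨ suspJ (t, 1) = 1 := by
  have h' : (suspV t : ℝ) < 1 := h
  change max (0 : ℝ) (min 1 (3 * min (t : ℝ) (1 - t))) < 1 at h'
  have h2 : min (1 : ℝ) (3 * min (t : ℝ) (1 - t)) < 1 := lt_of_le_of_lt (le_max_right _ _) h'
  rcases min_lt_iff.1 h2 with h3 | h3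
  · exact absurd h3 (lt_irrefl _)
  · have h4 : min (t : ℝ) (1 - t) < 1 / 3 := by linarith
    rcases min_lt_iff.1 h4 with h5 | h5
    · left
      refine Set.projIcc_of_le_left zero_le_one ?_
      simp only [Set.Icc.coe_one]
      linarith
    · right
      refine Set.projIcc_of_right_le zero_le_one ?_
      simp only [Set.Icc.coe_one]
      linarith

/-- The subset of `A × I` that is collapsed in the reduced suspension. -/
def suspSet (A : Ptd) : Set (A × I) := {x : A × I | x.1 = A.pt ∨ x.2 = 0 ∨ x.2 = 1}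

/-- The class of `(a, t)` in `Σ A`. -/
def suspMk {A : Ptd} (x : A × I) : A.susp := Quotient.mk (collapseSetoid (suspSet A)) x

theorem isQuotientMap_suspMk {A : Ptd} : Topology.IsQuotientMap (suspMk (A := A)) :=
  isQuotientMap_quotient_mk'

theorem suspMk_eq_pt_iff {A : Ptd} (x : A × I) : suspMk x = A.susp.pt ↔ x ∈ suspSet A := by
  constructor
  · intro h
    rcases (Quotient.exact h : (collapseSetoid (suspSet A)).r x (A.pt, 0)) with h | h
    · rw [h]; exact Or.inl rfl
    · exact h.1
  · intro h
    exact Quotient.sound (Or.inr ⟨h, Or.inl rfl⟩)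

theorem unitInterval_min_eq_zero_iff (a b : I) : min a b = 0 ↔ a = 0 ∨ b = 0 := by
  constructor
  · intro h
    rcases min_choice a b with h' | h'
    · left; rw [← h', h]
    · right; rw [← h', h]
  · rintro (rfl | rfl)
    · exact min_eq_left b.2.1
    · exact min_eq_right a.2.1

/-- **The reduced suspension of a well-pointed space is well pointed.** -/
theorem Ptd.WellPointed.susp {A : Ptd} (hA : A.WellPointed) : A.susp.WellPointed := by
  obtain ⟨u, h, hu, h0, hpt, h1⟩ := hA
  have key : ∀ x : A × I, min (u x.1) (suspV x.2) = 0 ↔ x ∈ suspSet A := by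
    intro x
    rw [unitInterval_min_eq_zero_iff, hu, suspV_eq_zero_iff]
    rfl
  -- the function `u'[a, t] = min (u a, v t)`
  let u' : C(A.susp, I) :=
    ⟨Quotient.lift (fun x : A × I => min (u x.1) (suspV x.2)) (by
        rintro x y (rfl | ⟨hx, hy⟩)
        · rfl
        · exact ((key x).2 hx).trans ((key y).2 hy).symm),
      Continuous.quotient_lift (by fun_prop) _⟩
  -- the deformation `h'([a, t], s) = [h (a, s), j (t, s)]`
  have hset : ∀ (x : A × I) (s : I), x ∈ suspSet A → (h (x.1, s), suspJ (x.2, s)) ∈ suspSet A := by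
    rintro ⟨a, t⟩ s (ha | ht | ht)
    · exact Or.inl (by change h (a, s) = A.pt; rw [show a = A.pt from ha, hpt])
    · exact Or.inr (Or.inl (by change suspJ (t, s) = 0; rw [show t = 0 from ht, suspJ_zero_left]))
    · exact Or.inr (Or.inr (by change suspJ (t, s) = 1; rw [show t = 1 from ht, suspJ_one_left]))
  let H : A.susp × I → A.susp := fun z =>
    Quotient.lift (fun x : A × I => suspMk (h (x.1, z.2), suspJ (x.2, z.2))) (by
      rintro x y (rfl | ⟨hx, hy⟩)
      · rfl
      · exact ((suspMk_eq_pt_iff _).2 (hset x z.2 hx)).trans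
          ((suspMk_eq_pt_iff _).2 (hset y z.2 hy)).symm) z.1
  have hH : Continuous H := by
    refine isQuotientMap_suspMk.continuous_lift_prod_left ?_
    change Continuous fun q : (A × I) × I => suspMk (h (q.1.1, q.2), suspJ (q.1.2, q.2))
    exact isQuotientMap_suspMk.continuous.comp (by fun_prop)
  refine ⟨u', ⟨H, hH⟩, ?_, ?_, ?_, ?_⟩
  · intro a
    induction a using Quotient.inductionOn with
    | h x => exact (key x).trans (suspMk_eq_pt_iff x).symm
  · intro a
    induction a using Quotient.inductionOn with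
    | h x =>
      change suspMk (h (x.1, 0), suspJ (x.2, 0)) = suspMk x
      rw [h0, suspJ_zero_right]
  · intro t
    exact (suspMk_eq_pt_iff _).2 (hset (A.pt, 0) t (Or.inl rfl))
  · intro a
    induction a using Quotient.inductionOn with
    | h x =>
      intro hx
      change min (u x.1) (suspV x.2) < 1 at hx
      change suspMk (h (x.1, 1), suspJ (x.2, 1)) = A.susp.pt
      rw [suspMk_eq_pt_iff]
      rcases min_lt_iff.1 hx with hx | hx
      · exact Or.inl (h1 _ hx)
      · exact Or.inr (suspJ_one_right hx)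

/-- All the spaces of the suspension spectrum of a well-pointed space are well pointed. -/
theorem wellPointed_suspensionSpectrum {A : Ptd} (hA : A.WellPointed) (b : ℕ) :
    ((suspensionSpectrum A).space b).WellPointed := by
  induction b with
  | zero => exact hA
  | succ b ih => exact ih.susp

/-! ## J. The sphere spectrum -/

/-- **The sphere spectrum is levelwise well pointed and a finite CW spectrum.** -/
theorem sphereSpectrum_wellPointed_and_finite :
    (∀ b, (sphereSpectrum.space b).WellPointed) ∧ IsFiniteCWSpectrum (toSHC.obj sphereSpectrum) :=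
  ⟨wellPointed_suspensionSpectrum wellPointed_S0, isFiniteCWSpectrum_sphereSpectrum⟩

/-! ## K. The three clauses of `SmithTodaExists` -/

theorem subsingleton_smash_right (A B : Ptd) [Subsingleton B] : Subsingleton (A.smash B) := by
  constructor
  intro a b
  induction a using Quotient.inductionOn with
  | h a =>
    induction b using Quotient.inductionOn with
    | h b =>
      exact Quotient.sound (Or.inr ⟨Or.inr (Subsingleton.elim _ _), Or.inr (Subsingleton.elim _ _)⟩)

/-- A spectrum all of whose spaces are points has `BP_⋆ = 0`, so it is not a Smith–Toda complex. -/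
theorem not_isSmithTodaHomology_of_subsingleton {p : ℕ} (hp : p.Prime) (n : ℕ) (X : Spectrum)
    (hX : ∀ b, Subsingleton (X.space b)) : ¬ IsSmithTodaHomology p n X := by
  rintro ⟨φ, -⟩
  have h1 : Subsingleton (MUX X).PiStar :=
    StableSystem.subsingleton_piStar _
      (fun i => haveI := hX i.2; subsingleton_smash_right (MU i.1) (X.space i.2)) Dir2.snd
      Nat.one_pos
  have h2 : Subsingleton (BPCoeff p ⊗[ℤ] (MUX X).PiStar) := inferInstance
  have h3 : Subsingleton (BPHomology p X) :=
    inferInstanceAs (Subsingleton ((BPCoeff p ⊗[ℤ] (MUX X).PiStar) ⧸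
      Submodule.span (BPCoeff p) (bpRel p X)))
  have := nontrivial_quot hp n
  exact not_subsingleton _ φ.symm.toEquiv.subsingleton

/-- **One spectrum meets the first two clauses of `SmithTodaExists p n` and fails the third**: the
trivial spectrum `Σ^∞ pt` is levelwise well pointed and finite `p`-local, and it is not a Smith–Toda
complex. So the clause on `BP_⋆X` is not a consequence of the other two. -/
theorem exists_wellPointed_finitePLocal_not_smithToda {p : ℕ} (hp : p.Prime) (n : ℕ) :
    ∃ X : Spectrum, (∀ b, (X.space b).WellPointed) ∧ IsFinitePLocal p (toSHC.obj X) ∧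
      ¬ IsSmithTodaHomology p n X :=
  ⟨suspensionSpectrum ptdPoint,
    wellPointed_suspensionSpectrum (wellPointed_of_subsingleton ptdPoint),
    isFinitePLocal_point p,
    not_isSmithTodaHomology_of_subsingleton hp n _ subsingleton_iterSusp_point⟩

/-- The multiplicative set used for `p`-localisation consists of the integers not divisible
by `p`. -/
theorem mem_primeTo_iff {p : ℕ} (hp : p.Prime) (m : ℤ) : m ∈ primeTo p ↔ ¬ (p : ℤ) ∣ m := by
  change IsCoprime m (p : ℤ) ↔ _
  rw [isCoprime_comm]
  exact (Nat.prime_iff_prime_int.1 hp).coprime_iff_not_dvd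

/-- On the target of a `p`-localisation every integer prime to `p` acts invertibly … -/
theorem IsPLocalization.isUnit_of_not_dvd {p : ℕ} (hp : p.Prime) {Y Z : SHC} {f : Y ⟶ Z}
    (hf : IsPLocalization p f) {m : ℤ} (hm : ¬ (p : ℤ) ∣ m) :
    IsUnit (algebraMap ℤ (Module.End ℤ (piSHC.obj Z)) m) :=
  haveI : IsLocalizedModule (primeTo p) (piSHC.map f).hom.toIntLinearMap := hf
  IsLocalizedModule.map_units (S := primeTo p) (piSHC.map f).hom.toIntLinearMap
    ⟨m, (mem_primeTo_iff hp m).2 hm⟩

/-- … and the `p`-localisation of a spectrum with `π⋆ = 0` has `π⋆ = 0`. -/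
theorem IsPLocalization.subsingleton {p : ℕ} {Y Z : SHC} {f : Y ⟶ Z} (hf : IsPLocalization p f)
    (hY : Subsingleton (piSHC.obj Y)) : Subsingleton (piSHC.obj Z) := by
  have : IsLocalizedModule (primeTo p) (piSHC.map f).hom.toIntLinearMap := hf
  constructor
  have key : ∀ z : piSHC.obj Z, z = 0 := by
    intro z
    obtain ⟨⟨y, s⟩, hs⟩ := IsLocalizedModule.surj (primeTo p) (piSHC.map f).hom.toIntLinearMap z
    have hy : y = 0 := Subsingleton.elim _ _
    simp only [hy, map_zero] at hs
    have hu := IsLocalizedModule.map_units (S := primeTo p) (piSHC.map f).hom.toIntLinearMap s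
    rw [Module.End.isUnit_iff] at hu
    refine hu.1 ?_
    rw [map_zero]
    exact hs
  intro a b
  rw [key a, key b]

/-- Finite `p`-local spectra are closed under retracts in the stable homotopy category. -/
theorem IsFinitePLocal.of_retract {p : ℕ} {X X' : SHC} (h : IsFinitePLocal p X)
    (r : Retract X' X) : IsFinitePLocal p X' := by
  obtain ⟨Y, Z, f, hY, hf, ⟨r'⟩⟩ := h
  exact ⟨Y, Z, f, hY, hf, ⟨r.trans r'⟩⟩

/-! ## L. The coaction: Hurewicz images are primitive -/

/-- The map `B = S⁰ ∧ B → MU(0) ∧ B`, `b ↦ [1, b]`. -/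
def smashUnitMap (B : Ptd) : PtdMap B ((MU 0).smash B) where
  toMap := ⟨fun b => smashMk (muOne, b), continuous_smashMk.comp (by fun_prop)⟩
  map_pt := smashMk_eq_pt (Or.inr rfl)

/-- The Hurewicz map `π⋆ X → MU_⋆ X` (induced by the unit `S → MU`) on representatives: a cube `g` of
`X_b` goes to the cube `[1, g]` of `MU(0) ∧ X_b`. -/
def hurRep {X : Spectrum} (g : X.sys.Rep) : (MUX X).Rep :=
  ⟨(0, g.idx), g.N, (smashUnitMap (X.space g.idx)).onLoops g.cube⟩

/-- The Hurewicz map preserves degrees. -/
theorem deg_hurRep {X : Spectrum} (g : X.sys.Rep) : (MUX X).deg (hurRep g) = X.sys.deg g := by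
  simp [StableSystem.deg, hurRep]

instance E.instSubsingletonZero : Subsingleton (E 0) :=
  ⟨fun x y => by
    have : WithLp.ofLp x = WithLp.ofLp y := funext fun k => k.elim0
    exact WithLp.ofLp_injective 2 this⟩

instance E.instSubsingletonEndZero : Subsingleton (E 0 →L[ℂ] E 0) :=
  ⟨fun _ _ => ContinuousLinearMap.ext fun _ => Subsingleton.elim _ _⟩

theorem amb2_zero_ext {x y : Amb2 0 0} (h : x.1 = y.1) : x = y :=
  Prod.ext h (Subsingleton.elim _ _)

/-- `(1 ∧ 1) · 1 = 1 ∧ 1` in `MU(0) ∧ MU(0)`. -/
theorem mu2MulSnd_one :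
    (mu2MulSnd 0 0 0).toMap ((mu2Pair 0 0).toMap (muOne, muOne), muOne) =
      (mu2Pair 0 0).toMap (muOne, muOne) := by
  refine Subtype.ext (amb2_zero_ext ?_)
  change Real.exp _ * Real.exp _ * Real.exp _ = Real.exp _ * Real.exp _
  simp

/-- For a Hurewicz image `x`, the image of `x` under `MU ∧ S ∧ X → MU ∧ MU ∧ X` is the external product
`1 · x`, already on representatives. -/
theorem kunneth_one_hurRep {X : Spectrum} (g : X.sys.Rep) :
    kunneth oneMUMU (hurRep g) = etaRep (hurRep g) := by
  obtain ⟨b, N, g⟩ := g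
  change (⟨(0, 0, b), N, _⟩ : (MUMUX X).Rep) = ⟨(0, 0, b), N, _⟩
  congr 1
  ext t
  change smashMk ((mu2MulSnd 0 0 0).toMap ((mu2Pair 0 0).toMap (muOne, muOne), muOne), g _) =
    smashMk ((mu2Pair 0 0).toMap (muOne, muOne), g t)
  rw [mu2MulSnd_one]
  rfl

/-- **Hurewicz images are primitive**: for every stable homotopy class `x` of `X`, with image `h(x)` in
`BP_⋆X`, the pair `(h(x), 1 ⊗ h(x))` belongs to the graph of the coaction. (In both papers the coaction
of `V(n)` is identified in this way, by the bottom sphere map.) -/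
theorem hurewicz_mem_coactionGraph (p : ℕ) {X : Spectrum} (g : X.sys.Rep) :
    (BPHomology.mk 1 ((MUX X).cls (hurRep g)),
      CoExt.mk 1 (MUMU.cls oneMUMU) (BPHomology.mk 1 ((MUX X).cls (hurRep g)))) ∈
      coactionGraph p X := by
  refine Submodule.subset_span ⟨hurRep g, FreeAbelianGroup.of (oneMUMU, hurRep g), ?_, ?_⟩
  · rw [kunnethHom, FreeAbelianGroup.lift_apply_of, kunneth_one_hurRep]
  · rw [tensorHom, FreeAbelianGroup.lift_apply_of]

/-- **How the clauses of `IsSmithTodaHomology` are met** (the last step of both papers: "the bottom sphere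
map identifies the quotient coaction"). Let `φ : BP_⋆X ≃ BP_⋆/(p, v₁, …, v_n)` be a `BP_⋆`-linear
isomorphism that preserves and reflects degrees and sends a Hurewicz image to the generator `1`. Then the
coaction is everywhere defined, and `φ` is an isomorphism of comodules as soon as the coaction is
single valued after `φ` (its graph has no pair `(0, y)` with `(BP_⋆BP ⊗ φ) y ≠ 0`). -/
theorem isSmithTodaHomology_of_hurewicz_generator {p n : ℕ} {X : Spectrum}
    (φ : BPHomology p X ≃ₗ[BPCoeff p] (BPCoeff p ⧸ smithTodaIdeal p n))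
    (hdeg : ∀ (k : ℤ) (x : BPHomology p X), x ∈ BPHomology.deg p X k ↔ φ x ∈ quotDeg p n k)
    (g : X.sys.Rep) (hg : φ (BPHomology.mk 1 ((MUX X).cls (hurRep g))) = 1)
    (hfun : ∀ y : CoExt p (BPHomology p X), ((0 : BPHomology p X), y) ∈ coactionGraph p X →
      CoExt.map φ.toLinearMap y = 0) :
    IsSmithTodaHomology p n X := by
  have hgen : ∀ (x : BPHomology p X) (v : BPCoeff p), φ x = Ideal.Quotient.mk _ v →
      x = v • BPHomology.mk 1 ((MUX X).cls (hurRep g)) := by
    intro x v hx
    apply φ.injective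
    rw [hx, map_smul, hg]
    change _ = Ideal.Quotient.mk (smithTodaIdeal p n) (v * 1)
    rw [mul_one]
  have hgr : ∀ v : BPCoeff p, (v • BPHomology.mk 1 ((MUX X).cls (hurRep g)),
      v • CoExt.mk 1 (MUMU.cls oneMUMU) (BPHomology.mk 1 ((MUX X).cls (hurRep g)))) ∈
      coactionGraph p X :=
    fun v => (coactionGraph p X).smul_mem v (hurewicz_mem_coactionGraph p g)
  refine ⟨φ, hdeg, ?_, ?_⟩
  · intro x
    obtain ⟨v, hv⟩ := Ideal.Quotient.mk_surjective (φ x)
    exact ⟨_, by rw [hgen x v hv.symm]; exact hgr v⟩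
  · intro x y v hxy hv
    have h0 : ((0 : BPHomology p X),
        y - v • CoExt.mk 1 (MUMU.cls oneMUMU) (BPHomology.mk 1 ((MUX X).cls (hurRep g)))) ∈
        coactionGraph p X := by
      have := (coactionGraph p X).sub_mem hxy (hgr v)
      rw [hgen x v hv] at this
      simpa using this
    have h1 := hfun _ h0
    rw [map_sub, sub_eq_zero, map_smul] at h1
    rw [h1]
    change v • CoExt.mk 1 (MUMU.cls oneMUMU)
      (φ (BPHomology.mk 1 ((MUX X).cls (hurRep g)))) = _
    rw [hg]
    change CoExt.mk (v * 1) (MUMU.cls oneMUMU) 1 = CoExt.mk v (MUMU.cls oneMUMU) 1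
    rw [mul_one]

/-- Conversely, an isomorphism of comodules makes the coaction single valued after `φ`. -/
theorem IsSmithTodaHomology.exists_single_valued {p n : ℕ} {X : Spectrum}
    (h : IsSmithTodaHomology p n X) :
    ∃ φ : BPHomology p X ≃ₗ[BPCoeff p] (BPCoeff p ⧸ smithTodaIdeal p n),
      ∀ y : CoExt p (BPHomology p X), ((0 : BPHomology p X), y) ∈ coactionGraph p X →
        CoExt.map φ.toLinearMap y = 0 := by
  obtain ⟨φ, -, -, h3⟩ := h
  refine ⟨φ, fun y hy => ?_⟩
  rw [h3 0 y 0 hy (by simp)]
  change Submodule.Quotient.mk ((0 : BPCoeff p) ⊗ₜ[ℤ] _) = 0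
  rw [TensorProduct.zero_tmul]
  rfl

/-- The canonical coaction of `BP_⋆/(p, v₁, …, v_n)` kills `p · BP_⋆` (the first case of the invariance of the
ideal, which is what makes `quotCoaction p n v` depend only on the class of `v`). -/
theorem quotCoaction_p_mul (p n : ℕ) (w : BPCoeff p) :
    quotCoaction p n ((p : BPCoeff p) * w) = 0 := by
  have h1 : ((p : ℤ) • (1 : BPCoeff p ⧸ smithTodaIdeal p n)) = 0 := by
    have : (Ideal.Quotient.mk (smithTodaIdeal p n)) (vGen p 0) = 0 :=
      Ideal.Quotient.eq_zero_iff_mem.2 (vGen_mem_smithTodaIdeal p n 0 (Nat.zero_le _))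
    simpa [vGen] using this
  have h2 : ((p : BPCoeff p) * w) = (p : ℤ) • w := by
    rw [zsmul_eq_mul]
    simp
  change Submodule.Quotient.mk (((p : BPCoeff p) * w) ⊗ₜ[ℤ]
    (MUMU.cls oneMUMU ⊗ₜ[ℤ] (1 : BPCoeff p ⧸ smithTodaIdeal p n))) = 0
  have e1 : ∀ y : MUMU.PiStar ⊗[ℤ] (BPCoeff p ⧸ smithTodaIdeal p n),
      ((p : ℤ) • w) ⊗ₜ[ℤ] y = w ⊗ₜ[ℤ] ((p : ℤ) • y) := fun y =>
    (map_zsmul ((TensorProduct.mk ℤ (BPCoeff p) _).flip y).toAddMonoidHom (p : ℤ) w).trans
      (map_zsmul (TensorProduct.mk ℤ (BPCoeff p) _ w).toAddMonoidHom (p : ℤ) y).symm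
  have e2 : (p : ℤ) • (MUMU.cls oneMUMU ⊗ₜ[ℤ] (1 : BPCoeff p ⧸ smithTodaIdeal p n)) =
      MUMU.cls oneMUMU ⊗ₜ[ℤ] ((p : ℤ) • (1 : BPCoeff p ⧸ smithTodaIdeal p n)) :=
    (map_zsmul (TensorProduct.mk ℤ MUMU.PiStar (BPCoeff p ⧸ smithTodaIdeal p n)
      (MUMU.cls oneMUMU)).toAddMonoidHom (p : ℤ) (1 : BPCoeff p ⧸ smithTodaIdeal p n)).symm
  rw [h2, e1, e2, h1, TensorProduct.tmul_zero, TensorProduct.tmul_zero]
  rfl

/-- The Hurewicz map is compatible with the defining relations of `π⋆`: it is a homomorphism
`π⋆ X → MU_⋆ X`. -/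
def hurewiczHom (X : Spectrum) : X.sys.PiStar →+ (MUX X).PiStar :=
  X.sys.piLift (fun g => (MUX X).cls (hurRep g))
    (fun b _ g g' h => (MUX X).cls_htpy (i := (0, b))
      (ContinuousMap.HomotopicRel.comp_continuousMap h (smashUnitMap (X.space b)).toMap))
    (fun b N j g g' => by
      change (MUX X).cls ⟨(0, b), N, (smashUnitMap (X.space b)).onLoops (GenLoop.transAt j g g')⟩ = _
      rw [PtdMap.onLoops_transAt]
      exact (MUX X).cls_transAt (i := (0, b)) j _ _)
    (fun _ b _ g => (MUX X).cls_stab Dir2.snd (0, b) ((smashUnitMap (X.space b)).onLoops g))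

theorem hurewiczHom_cls (X : Spectrum) (g : X.sys.Rep) :
    hurewiczHom X (X.sys.cls g) = (MUX X).cls (hurRep g) :=
  X.sys.piLift_cls _ _ _ _ g

/-! ## M. The unit of `MU` acts as the identity -/

theorem inl_zero_right (n : ℕ) : inl n 0 = ContinuousLinearMap.id ℂ (E n) := by
  ext x
  refine WithLp.ofLp_injective 2 (funext fun k => ?_)
  exact inl_castAdd n 0 x k

theorem opl_zero_right (n : ℕ) (A : E n →L[ℂ] E n) : opl n 0 A = A := by
  rw [opl, inl_zero_right]
  change (ContinuousLinearMap.id ℂ (E n)) ∘L A ∘L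
    ContinuousLinearMap.adjoint (ContinuousLinearMap.id ℂ (E n)) = A
  rw [ContinuousLinearMap.adjoint_id]
  rfl

/-- **`x · 1 = x` in `MU(n)`, on the nose.** -/
theorem muMul_one (n : ℕ) (x : MU n) : (muMul n 0).toMap (x, muOne) = x := by
  refine Subtype.ext ?_
  change ambMul x.1 (thomPoint (fun k : Fin 0 => k.elim0) (fun k : Fin 0 => k.elim0)) = x.1
  simp only [ambMul, thomPoint, Finset.univ_eq_empty, Finset.sum_empty, neg_zero, Real.exp_zero,
    mul_one, Complex.ofReal_one, one_smul, smul_zero, map_zero, add_zero, opl_zero_right,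
    inl_zero_right, opr]
  simp

/-- The representative of `1 ∈ MU_0`. -/
def oneMU : MUsys.Rep := ⟨0, 0, pointLoop muOne⟩

theorem smashLeft_mul_one (a : ℕ) (B : Ptd) (q : (MU a).smash B) (r : I^(Fin 0)) :
    (((muMul a 0).loopRight (pointLoop muOne)).smashLeft B).toMap q r = q := by
  induction q using Quotient.inductionOn with
  | h z =>
    change smashMk ((muMul a 0).toMap (z.1, muOne), z.2) = smashMk z
    rw [muMul_one]
    rfl

/-- **`1 · x = x` in `MU_⋆X`**, already on representatives. -/
theorem actX_one {X : Spectrum} (g : (MUX X).Rep) : actX oneMU g = g := by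
  obtain ⟨⟨a, b⟩, N, g⟩ := g
  change (⟨(a, b), N, _⟩ : (MUX X).Rep) = ⟨(a, b), N, _⟩
  congr 1
  ext t
  exact smashLeft_mul_one a (X.space b) (g t) _

end Claimed.Open.R308
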