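import Claimed.Open.R308.Statement

/-!
# Result 308: the space `ℂP^N × ℂP^N` of section 10 and its three Euler classes

Section 10 of `Statement.lean` never forms the quotient `ℂP^N × ℂP^N`: it works with maps out of
`S^{2N+1} × S^{2N+1}` that are constant on the classes of `sameLines N`, and it writes the Euler
classes of `L₁`, `L₂` and `L₁ ⊗ L₂` as the three such maps `xFst`, `xSnd`, `xTensor` to `MU(1)`.
This file checks that these definitions say what their doc-strings say.

* `sameLines_equivalence`: `sameLines N` is an equivalence relation, and `sameLines_iff_span`: its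
  classes are the pairs of lines (equal spans).
* `inner_emb`, `inner_embTensor`: `emb` and `embTensor` keep inner products:
  `⟪v ⊗ w, v' ⊗ w'⟫ = ⟪v, v'⟫ ⟪w, w'⟫`.
* `zeroSecAmb_eq_iff`: the zero section is injective on lines.
* `xFst_eq_iff`, `xSnd_eq_iff`: `xFst` sees exactly the first line and `xSnd` the second.
* `sameLines_iff_xFst_xSnd`: the pair `(xFst, xSnd)` is a COMPLETE invariant of `sameLines`, so
  it embeds the quotient by `sameLines N` in `MU(1) × MU(1)`: nothing more was identified.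
* `xFst_not_complete`: NON-example: for `N ≥ 1`, `xFst` alone does not separate the classes.
* `xFst_ne_pt`, `xSnd_ne_pt`, `xTensor_ne_pt`: no value is the base point (zero section, not `∞`),
  so none of the three points of `CohSpace N 1` is the base point of that space.
* `sameLines_iff_xTensor`: `xTensor` alone determines the pair of lines too (the Segre map
  `ℂP^N × ℂP^N → ℂP^∞` is injective), so `embTensor` really is a tensor product of lines.
* `sameLines_zero`: for `N = 0` all pairs are related (`ℂP^0 × ℂP^0` is a point).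
-/

set_option autoImplicit false

open scoped unitInterval Topology
open InnerProductSpace

noncomputable section

namespace Claimed.Open.R308

namespace Lines

/-- The vector space `ℂ^{N+1}`. -/
local notation "V" N => EuclideanSpace ℂ (Fin (N + 1))

theorem norm_coe {N : ℕ} (v : Sph N) : ‖(v : V N)‖ = 1 := by simp

theorem coe_ne_zero {N : ℕ} (v : Sph N) : (v : V N) ≠ 0 := fun h => by
  simpa [h] using norm_coe v

/-! ### `sameLines` is an equivalence relation, with the pairs of lines as classes -/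

theorem sameLines_refl {N : ℕ} (y : Sph N × Sph N) : sameLines N y y :=
  ⟨1, 1, (one_smul _ _).symm, (one_smul _ _).symm⟩

theorem smul_symm {N : ℕ} {a : ℂ} {v v' : Sph N} (h : (v' : V N) = a • (v : V N)) :
    (v : V N) = a⁻¹ • (v' : V N) := by
  have ha : a ≠ 0 := fun h0 => by simpa [h0] using norm_eq_one_of_smul h
  rw [h, smul_smul, inv_mul_cancel₀ ha, one_smul]

theorem sameLines_symm {N : ℕ} {y y' : Sph N × Sph N} (h : sameLines N y y') :
    sameLines N y' y := by
  obtain ⟨a, b, ha, hb⟩ := h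
  exact ⟨a⁻¹, b⁻¹, smul_symm ha, smul_symm hb⟩

theorem sameLines_trans {N : ℕ} {y y' y'' : Sph N × Sph N} (h : sameLines N y y')
    (h' : sameLines N y' y'') : sameLines N y y'' := by
  obtain ⟨a, b, ha, hb⟩ := h
  obtain ⟨a', b', ha', hb'⟩ := h'
  exact ⟨a' * a, b' * b, by rw [ha', ha, smul_smul], by rw [hb', hb, smul_smul]⟩

/-- `sameLines N` is an equivalence relation. -/
theorem sameLines_equivalence (N : ℕ) : Equivalence (sameLines N) :=
  ⟨sameLines_refl, sameLines_symm, sameLines_trans⟩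

theorem smul_iff_span {N : ℕ} (v v' : Sph N) :
    (∃ a : ℂ, (v' : V N) = a • (v : V N)) ↔ (ℂ ∙ (v : V N)) = ℂ ∙ (v' : V N) := by
  constructor
  · rintro ⟨a, ha⟩
    refine le_antisymm ?_ ?_
    · rw [Submodule.span_singleton_le_iff_mem, Submodule.mem_span_singleton]
      exact ⟨a⁻¹, (smul_symm ha).symm⟩
    · rw [Submodule.span_singleton_le_iff_mem, Submodule.mem_span_singleton]
      exact ⟨a, ha.symm⟩
  · intro h
    have : (v' : V N) ∈ ℂ ∙ (v : V N) := h ▸ Submodule.mem_span_singleton_self _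
    obtain ⟨a, ha⟩ := Submodule.mem_span_singleton.1 this
    exact ⟨a, ha.symm⟩

/-- The classes of `sameLines N` are the pairs of lines of `ℂ^{N+1}`. -/
theorem sameLines_iff_span {N : ℕ} (y y' : Sph N × Sph N) :
    sameLines N y y' ↔
      (ℂ ∙ (y.1 : V N)) = ℂ ∙ (y'.1 : V N) ∧ (ℂ ∙ (y.2 : V N)) = ℂ ∙ (y'.2 : V N) := by
  rw [← smul_iff_span, ← smul_iff_span]
  constructor
  · rintro ⟨a, b, ha, hb⟩
    exact ⟨⟨a, ha⟩, ⟨b, hb⟩⟩
  · rintro ⟨⟨a, ha⟩, ⟨b, hb⟩⟩
    exact ⟨a, b, ha, hb⟩

/-! ### `emb` and `embTensor` keep inner products -/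

theorem orthonormal_δ_fin (N : ℕ) : Orthonormal ℂ (fun i : Fin (N + 1) => δ (i : ℕ)) :=
  orthonormal_δ.comp _ Fin.val_injective

theorem orthonormal_δ_pair (N : ℕ) :
    Orthonormal ℂ (fun x : Fin (N + 1) × Fin (N + 1) => δ (Nat.pair x.1 x.2)) :=
  orthonormal_δ.comp _ (fun x y hxy => by
    have := Nat.pair_eq_pair.1 hxy
    exact Prod.ext (Fin.ext this.1) (Fin.ext this.2))

/-- `emb` keeps inner products. -/
theorem inner_emb {N : ℕ} (v w : V N) : inner ℂ (emb v) (emb w) = inner ℂ v w := by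
  rw [emb, emb, (orthonormal_δ_fin N).inner_sum, PiLp.inner_apply]
  refine Finset.sum_congr rfl fun i _ => ?_
  simp [mul_comm]

/-- `embTensor` is the isometric embedding of the tensor product:
`⟪v ⊗ w, v' ⊗ w'⟫ = ⟪v, v'⟫ ⟪w, w'⟫`. -/
theorem inner_embTensor {N : ℕ} (v w v' w' : V N) :
    inner ℂ (embTensor v w) (embTensor v' w') = inner ℂ v v' * inner ℂ w w' := by
  rw [embTensor, embTensor, (orthonormal_δ_pair N).inner_sum, PiLp.inner_apply, PiLp.inner_apply,
    Finset.sum_mul_sum, ← Finset.sum_product']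
  refine Finset.sum_congr rfl fun x _ => ?_
  simp only [map_mul, RCLike.inner_apply]
  ring

theorem emb_sub {N : ℕ} (v w : V N) : emb (v - w) = emb v - emb w := by
  simp [emb, sub_smul, Finset.sum_sub_distrib]

/-- `emb` is injective. -/
theorem emb_injective {N : ℕ} : Function.Injective (emb (N := N)) := by
  intro v w h
  have : ‖v - w‖ = 0 := by rw [← norm_emb, emb_sub, h, sub_self, norm_zero]
  exact sub_eq_zero.1 (norm_eq_zero.1 this)

/-! ### The zero section is injective on lines -/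

/-- Two unit vectors have the same image under the zero section iff they span the same line. -/
theorem zeroSecAmb_eq_iff {e e' : E 1} (he : ‖e‖ = 1) (he' : ‖e'‖ = 1) :
    zeroSecAmb e = zeroSecAmb e' ↔ ∃ a : ℂ, e' = a • e := by
  constructor
  · intro h
    have h1 : rankOne ℂ e e = rankOne ℂ e' e' := congrArg (fun z : Amb 1 => z.2.1) h
    have h2 : rankOne ℂ e e e' = rankOne ℂ e' e' e' := by rw [h1]
    rw [rankOne_apply, rankOne_apply, inner_self_eq_norm_sq_to_K, he'] at h2
    exact ⟨inner ℂ e e', by rw [h2]; simp⟩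
  · rintro ⟨a, rfl⟩
    rw [norm_smul, he, mul_one] at he'
    exact (zeroSecAmb_smul a he' e).symm

/-- The zero section never meets the base point `∞ = 0` of `MU(1)`. -/
theorem zeroSecAmb_ne_zero (e : E 1) : zeroSecAmb e ≠ 0 := by
  intro h
  have : (1 : ℝ) = 0 := congrArg (fun z : Amb 1 => z.1) h
  exact one_ne_zero this

/-! ### The three Euler classes -/

/-- The underlying point of the ambient space. -/
def toAmb {n : ℕ} (x : MU n) : Amb n := Subtype.val (p := fun z => z ∈ MUset n) x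

theorem toAmb_injective {n : ℕ} : Function.Injective (toAmb (n := n)) := fun _ _ h =>
  Subtype.ext (p := fun z => z ∈ MUset n) h

theorem xFst_apply {N : ℕ} (y : Sph N × Sph N) :
    toAmb ((xFst N).1 y) = zeroSecAmb (emb y.1.1) := rfl

theorem xSnd_apply {N : ℕ} (y : Sph N × Sph N) :
    toAmb ((xSnd N).1 y) = zeroSecAmb (emb y.2.1) := rfl

theorem xTensor_apply {N : ℕ} (y : Sph N × Sph N) :
    toAmb ((xTensor N).1 y) = zeroSecAmb (embTensor y.1.1 y.2.1) := rfl

theorem zeroSecAmb_emb_eq_iff {N : ℕ} (v v' : Sph N) :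
    zeroSecAmb (emb (v : V N)) = zeroSecAmb (emb (v' : V N)) ↔
      ∃ a : ℂ, (v' : V N) = a • (v : V N) := by
  rw [zeroSecAmb_eq_iff (by rw [norm_emb, norm_coe]) (by rw [norm_emb, norm_coe])]
  constructor
  · rintro ⟨a, ha⟩
    exact ⟨a, emb_injective (by rw [ha, emb_smul])⟩
  · rintro ⟨a, ha⟩
    exact ⟨a, by rw [ha, emb_smul]⟩

/-- `xFst` sees exactly the first line. -/
theorem xFst_eq_iff {N : ℕ} (y y' : Sph N × Sph N) :
    (xFst N).1 y = (xFst N).1 y' ↔ ∃ a : ℂ, (y'.1 : V N) = a • (y.1 : V N) := by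
  rw [← zeroSecAmb_emb_eq_iff, ← xFst_apply, ← xFst_apply]
  exact toAmb_injective.eq_iff.symm

/-- `xSnd` sees exactly the second line. -/
theorem xSnd_eq_iff {N : ℕ} (y y' : Sph N × Sph N) :
    (xSnd N).1 y = (xSnd N).1 y' ↔ ∃ b : ℂ, (y'.2 : V N) = b • (y.2 : V N) := by
  rw [← zeroSecAmb_emb_eq_iff, ← xSnd_apply, ← xSnd_apply]
  exact toAmb_injective.eq_iff.symm

/-- The pair `(xFst, xSnd)` is a complete invariant of `sameLines N`: it embeds the quotient
`ℂP^N × ℂP^N` in `MU(1) × MU(1)`, so `sameLines` identifies neither too much nor too little. -/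
theorem sameLines_iff_xFst_xSnd {N : ℕ} (y y' : Sph N × Sph N) :
    sameLines N y y' ↔ (xFst N).1 y = (xFst N).1 y' ∧ (xSnd N).1 y = (xSnd N).1 y' := by
  rw [xFst_eq_iff, xSnd_eq_iff]
  constructor
  · rintro ⟨a, b, ha, hb⟩
    exact ⟨⟨a, ha⟩, ⟨b, hb⟩⟩
  · rintro ⟨⟨a, ha⟩, ⟨b, hb⟩⟩
    exact ⟨a, b, ha, hb⟩

theorem xFst_ne_pt {N : ℕ} (y : Sph N × Sph N) : (xFst N).1 y ≠ (MU 1).pt := fun h =>
  zeroSecAmb_ne_zero _ (congrArg toAmb h)

theorem xSnd_ne_pt {N : ℕ} (y : Sph N × Sph N) : (xSnd N).1 y ≠ (MU 1).pt := fun h =>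
  zeroSecAmb_ne_zero _ (congrArg toAmb h)

theorem xTensor_ne_pt {N : ℕ} (y : Sph N × Sph N) : (xTensor N).1 y ≠ (MU 1).pt := fun h =>
  zeroSecAmb_ne_zero _ (congrArg toAmb h)

/-- The `k`-th basis vector, as a point of the sphere. -/
def basisPt {N : ℕ} (k : Fin (N + 1)) : Sph N :=
  ⟨EuclideanSpace.single k 1, by simp⟩

/-- None of the three points of `CohSpace N 1` is the base point (the constant map to `∞`). -/
theorem x_ne_pt (N : ℕ) :
    xFst N ≠ (CohSpace N 1).pt ∧ xSnd N ≠ (CohSpace N 1).pt ∧ xTensor N ≠ (CohSpace N 1).pt := by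
  refine ⟨fun h => xFst_ne_pt (N := N) (basisPt 0, basisPt 0) ?_,
    fun h => xSnd_ne_pt (N := N) (basisPt 0, basisPt 0) ?_,
    fun h => xTensor_ne_pt (N := N) (basisPt 0, basisPt 0) ?_⟩ <;>
  · rw [h]; rfl

/-- Different basis vectors span different lines. -/
theorem basisPt_not_smul {N : ℕ} {k l : Fin (N + 1)} (h : k ≠ l) (a : ℂ) :
    ((basisPt l : Sph N) : V N) ≠ a • ((basisPt k : Sph N) : V N) := by
  intro e
  have := congrArg (fun v : V N => v l) e
  simp [basisPt, h] at this

/-- NON-example: for `N ≥ 1` the class `xFst` alone does not separate the points of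
`ℂP^N × ℂP^N`, and it is not constant either. -/
theorem xFst_not_complete (N : ℕ) :
    (∃ y y' : Sph (N + 1) × Sph (N + 1), (xFst (N + 1)).1 y = (xFst (N + 1)).1 y' ∧
      ¬ sameLines (N + 1) y y') ∧
    ∃ y y' : Sph (N + 1) × Sph (N + 1), (xFst (N + 1)).1 y ≠ (xFst (N + 1)).1 y' := by
  have h01 : (0 : Fin (N + 1 + 1)) ≠ 1 := fun h => by simpa using congrArg Fin.val h
  constructor
  · refine ⟨(basisPt 0, basisPt 0), (basisPt 0, basisPt 1), (xFst_eq_iff _ _).2 ⟨1, by simp⟩, ?_⟩
    rintro ⟨a, b, -, hb⟩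
    exact basisPt_not_smul h01 b hb
  · refine ⟨(basisPt 0, basisPt 0), (basisPt 1, basisPt 0), fun h => ?_⟩
    obtain ⟨a, ha⟩ := (xFst_eq_iff _ _).1 h
    exact basisPt_not_smul h01 a ha

/-- For `N = 0` the space `ℂP^0 × ℂP^0` is a point: all pairs are related. -/
theorem sameLines_zero (y y' : Sph 0 × Sph 0) : sameLines 0 y y' := by
  have : Subsingleton (Fin (0 + 1)) := inferInstanceAs (Subsingleton (Fin 1))
  have key : ∀ v v' : Sph 0, ∃ a : ℂ, (v' : V 0) = a • (v : V 0) := by
    intro v v'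
    have hv : (v : V 0) 0 ≠ 0 := by
      intro h0
      refine coe_ne_zero v ?_
      ext i
      rw [Subsingleton.elim i 0, h0]; rfl
    refine ⟨(v' : V 0) 0 / (v : V 0) 0, ?_⟩
    ext i
    rw [Subsingleton.elim i 0]
    simp [div_mul_cancel₀ _ hv]
  obtain ⟨a, ha⟩ := key y.1 y'.1
  obtain ⟨b, hb⟩ := key y.2 y'.2
  exact ⟨a, b, ha, hb⟩

/-- The Segre map is injective: `xTensor` too determines the pair of lines. -/
theorem sameLines_iff_xTensor {N : ℕ} (y y' : Sph N × Sph N) :
    sameLines N y y' ↔ (xTensor N).1 y = (xTensor N).1 y' := by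
  constructor
  · exact (xTensor N).2 y y'
  · intro h
    have h1 : zeroSecAmb (embTensor (y.1 : V N) y.2) = zeroSecAmb (embTensor (y'.1 : V N) y'.2) :=
      congrArg toAmb h
    rw [zeroSecAmb_eq_iff (by rw [norm_embTensor, norm_coe, norm_coe, mul_one])
      (by rw [norm_embTensor, norm_coe, norm_coe, mul_one])] at h1
    obtain ⟨c, hc⟩ := h1
    have key : ∀ u w : V N, inner ℂ u (y'.1 : V N) * inner ℂ w (y'.2 : V N) =
        c * (inner ℂ u (y.1 : V N) * inner ℂ w (y.2 : V N)) := by
      intro u w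
      rw [← inner_embTensor, ← inner_embTensor, hc, inner_smul_right]
    refine ⟨c * inner ℂ (y'.2 : V N) (y.2 : V N), c * inner ℂ (y'.1 : V N) (y.1 : V N), ?_, ?_⟩
    · refine ext_inner_left ℂ fun u => ?_
      have h2 := key u y'.2
      rw [inner_self_eq_norm_sq_to_K, norm_coe] at h2
      rw [inner_smul_right]
      simp only [RCLike.ofReal_one, one_pow, mul_one] at h2
      rw [h2]; ring
    · refine ext_inner_left ℂ fun w => ?_
      have h2 := key y'.1 w
      rw [inner_self_eq_norm_sq_to_K, norm_coe] at h2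
      rw [inner_smul_right]
      simp only [RCLike.ofReal_one, one_pow, one_mul] at h2
      rw [h2]; ring

end Lines

end Claimed.Open.R308
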