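import Claimed.Open.R308.SanityDesusp

/-!
# Result 308: `p`-localisation is idempotent on `π⋆`

`IsPLocalization` of `Statement.lean` is tested on sources that are already `p`-local.

* `isPLocalization_id_iff`: the identity of `X` is a `p`-localisation **if and only if** every integer prime to `p` acts bijectively on `π⋆ X`;
* `IsFinitePLocal.isPLocalization_id`, `isPLocalization_id_sphereLoc`: **example**: the identity of a finite `p`-local spectrum, e.g. of `S_(p)` (contrast: the identity of the sphere spectrum is not one, `not_isPLocalization_to_sphere`);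
* `IsPLocalization.bijective_of_isPLocalization_id`, `IsFinitePLocal.bijective_of_isPLocalization`: a `p`-localisation `X ⟶ Z` of a finite `p`-local spectrum is bijective on `π⋆`;
* `IsPLocalization.isPLocalization_id_target`: the identity of the target of a `p`-localisation is a `p`-localisation;
* `IsPLocalization.comp`: the composite of two `p`-localisations is a `p`-localisation.
-/

set_option autoImplicit false

open CategoryTheory

noncomputable section

namespace Claimed.Open.R308

/-- The identity of an abelian group is a localisation at `S` if and only if the elements of `S` act bijectively. -/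
theorem isLocalizedModule_id_iff (S : Submonoid ℤ) (A : Type) [AddCommGroup A] :
    IsLocalizedModule S (LinearMap.id : A →ₗ[ℤ] A) ↔
      ∀ s : S, Function.Bijective fun a : A => (s : ℤ) • a := by
  constructor
  · intro h s
    have hu := IsLocalizedModule.map_units (LinearMap.id : A →ₗ[ℤ] A) s
    rw [Module.End.isUnit_iff] at hu
    exact hu
  · intro h
    refine ⟨fun s => ?_, fun y => ⟨(y, 1), ?_⟩, fun {x y} hxy => ⟨1, ?_⟩⟩
    · rw [Module.End.isUnit_iff]
      exact h s
    · simp
    · have : x = y := hxy
      rw [this]

theorem piSHC_map_id_toIntLinearMap (X : SHC) :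
    (piSHC.map (𝟙 X)).hom.toIntLinearMap = LinearMap.id := by
  rw [piSHC.map_id]
  rfl

/-- The identity of `X` is a `p`-localisation iff every integer prime to `p` acts bijectively on `π⋆ X`. -/
theorem isPLocalization_id_iff (p : ℕ) (X : SHC) :
    IsPLocalization p (𝟙 X) ↔
      ∀ s : primeTo p, Function.Bijective fun a : piSHC.obj X => (s : ℤ) • a := by
  rw [← isLocalizedModule_id_iff, ← piSHC_map_id_toIntLinearMap]
  rfl

/-- **Example**: the identity of a finite `p`-local spectrum is a `p`-localisation. -/
theorem IsFinitePLocal.isPLocalization_id {p : ℕ} (hp : p.Prime) {X : SHC} (h : IsFinitePLocal p X) :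
    IsPLocalization p (𝟙 X) := by
  rw [isPLocalization_id_iff]
  intro s
  have hs : ¬ (p : ℤ) ∣ (s : ℤ) := (mem_primeTo_iff hp _).1 s.2
  have hn : ¬ (p : ℤ) ∣ ((s : ℤ).natAbs : ℤ) := by rwa [Int.dvd_natAbs]
  have hb := h.bijective_nsmul hp hn
  rcases Int.natAbs_eq (s : ℤ) with e | e
  · have e' : (fun a : piSHC.obj X => (s : ℤ) • a) = fun a => (s : ℤ).natAbs • a := by
      funext a
      conv_lhs => rw [e]
      exact natCast_zsmul _ _
    rw [e']
    exact hb
  · have e' : (fun a : piSHC.obj X => (s : ℤ) • a) =
        (fun a => -a) ∘ fun a => (s : ℤ).natAbs • a := by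
      funext a
      conv_lhs => rw [e]
      rw [neg_smul, natCast_zsmul]
      rfl
    rw [e']
    exact (Equiv.neg _).bijective.comp hb

/-- **Example**: the identity of the `p`-local sphere spectrum is a `p`-localisation. -/
theorem isPLocalization_id_sphereLoc {p : ℕ} (hp : p.Prime) :
    IsPLocalization p (𝟙 (toSHC.obj (sphereLoc p))) :=
  (isFinitePLocal_sphereLoc hp).isPLocalization_id hp

/-- A `p`-localisation out of a `p`-local `X` is bijective on `π⋆`. -/
theorem IsPLocalization.bijective_of_isPLocalization_id {p : ℕ} {X Z : SHC} {f : X ⟶ Z}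
    (hf : IsPLocalization p f) (hX : IsPLocalization p (𝟙 X)) :
    Function.Bijective (piSHC.map f).hom := by
  have h1 : IsLocalizedModule (primeTo p) (LinearMap.id : piSHC.obj X →ₗ[ℤ] piSHC.obj X) := by
    rw [← piSHC_map_id_toIntLinearMap]
    exact hX
  have h2 : IsLocalizedModule (primeTo p) (piSHC.map f).hom.toIntLinearMap := hf
  let e := IsLocalizedModule.linearEquiv (primeTo p)
    (LinearMap.id : piSHC.obj X →ₗ[ℤ] piSHC.obj X) (piSHC.map f).hom.toIntLinearMap
  have he : ∀ y, e y = (piSHC.map f).hom y := fun y =>
    IsLocalizedModule.linearEquiv_apply (primeTo p)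
      (LinearMap.id : piSHC.obj X →ₗ[ℤ] piSHC.obj X) (piSHC.map f).hom.toIntLinearMap y
  have e' : ((piSHC.map f).hom : piSHC.obj X → piSHC.obj Z) = e := funext fun y => (he y).symm
  rw [e']
  exact e.bijective

/-- **Idempotence**: a `p`-localisation of a finite `p`-local spectrum is bijective on `π⋆`. -/
theorem IsFinitePLocal.bijective_of_isPLocalization {p : ℕ} (hp : p.Prime) {X Z : SHC}
    (h : IsFinitePLocal p X) {f : X ⟶ Z} (hf : IsPLocalization p f) :
    Function.Bijective (piSHC.map f).hom :=
  hf.bijective_of_isPLocalization_id (h.isPLocalization_id hp)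

/-- The identity of the target of a `p`-localisation is a `p`-localisation. -/
theorem IsPLocalization.isPLocalization_id_target {p : ℕ} {Y Z : SHC} {f : Y ⟶ Z}
    (hf : IsPLocalization p f) : IsPLocalization p (𝟙 Z) := by
  rw [isPLocalization_id_iff]
  intro s
  have h2 : IsLocalizedModule (primeTo p) (piSHC.map f).hom.toIntLinearMap := hf
  have hu := IsLocalizedModule.map_units (piSHC.map f).hom.toIntLinearMap s
  rw [Module.End.isUnit_iff] at hu
  exact hu

/-- The composite of two `p`-localisations is a `p`-localisation. -/
theorem IsPLocalization.comp {p : ℕ} {Y Z Z' : SHC} {f : Y ⟶ Z} {g : Z ⟶ Z'}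
    (hf : IsPLocalization p f) (hg : IsPLocalization p g) : IsPLocalization p (f ≫ g) := by
  have hb := hg.bijective_of_isPLocalization_id hf.isPLocalization_id_target
  have h2 : IsLocalizedModule (primeTo p) (piSHC.map f).hom.toIntLinearMap := hf
  let e : piSHC.obj Z ≃ₗ[ℤ] piSHC.obj Z' :=
    LinearEquiv.ofBijective (piSHC.map g).hom.toIntLinearMap hb
  have h3 := IsLocalizedModule.of_linearEquiv (primeTo p) (piSHC.map f).hom.toIntLinearMap e
  show IsLocalizedModule (primeTo p) (piSHC.map (f ≫ g)).hom.toIntLinearMap
  convert h3 using 1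
  rw [piSHC.map_comp]
  rfl

end Claimed.Open.R308
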