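import Claimed.Open.R308.SanityTelLocal

/-!
# Result 308: a `p`-localisation exhibits `π⋆ Z` as `ℤ_(p) ⊗ π⋆ Y`

The docstring of `IsPLocalization` in `Statement.lean` says: "`f : Y ⟶ Z` exhibits `π⋆ Z` as `π⋆ Y ⊗ ℤ_(p)`".  The definition uses the submonoid `primeTo p` of `ℤ` (section 5 of
`Statement.lean`); the ring `ℤ_(p)` of the statement is the subring `ZLoc p` of `ℚ` (section 11).  Here the two are compared and the sentence is proved.

* `isLocalization_ZLoc`: `ZLoc p` is the localisation of `ℤ` at `primeTo p`;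
* `isPLocalization_iff_tensor`: `f` is a `p`-localisation **if and only if** there is an isomorphism `e : ℤ_(p) ⊗ π⋆ Y ≃ π⋆ Z` with `e (1 ⊗ y) = f_⋆ y`;
* `IsPLocalization.exists_equiv`: two `p`-localisations of `Y` have isomorphic `π⋆`, by an isomorphism under `π⋆ Y`;
* `exists_tensor_equiv_sphereLoc`, `exists_injective_ZLoc_piStar_sphereLoc`: `π⋆(S_(p)) ≅ ℤ_(p) ⊗ π⋆(S)`, and `ℤ_(p) ↪ π⋆(S_(p))`, `1 ↦` the image of `1 ∈ π_0(S)`.
-/

set_option autoImplicit false

open scoped TensorProduct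
open CategoryTheory

noncomputable section

namespace Claimed.Open.R308

/-- **`ZLoc p` is the localisation of `ℤ` at the integers prime to `p`.** -/
theorem isLocalization_ZLoc {p : ℕ} (hp : p.Prime) : IsLocalization (primeTo p) (ZLoc p) := by
  rw [isLocalization_iff]
  refine ⟨fun y => ?_, fun z => ?_, fun {x y} h => ?_⟩
  · have hy : ¬ (p : ℤ) ∣ (y : ℤ) := (mem_primeTo_iff hp _).1 y.2
    have hy0 : ((y : ℤ) : ℚ) ≠ 0 := by
      intro h0
      have : (y : ℤ) = 0 := by exact_mod_cast h0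
      exact hy (this ▸ dvd_zero _)
    refine IsUnit.of_mul_eq_one ⟨((y : ℤ) : ℚ)⁻¹, Subring.subset_closure ⟨y, hy, rfl⟩⟩ ?_
    apply Subtype.ext
    show ((algebraMap ℤ (ZLoc p) (y : ℤ) : ZLoc p) : ℚ) * ((y : ℤ) : ℚ)⁻¹ = 1
    rw [eq_intCast, Subring.coe_intCast]
    exact mul_inv_cancel₀ hy0
  · have hden : ¬ p ∣ (z : ℚ).den := (mem_ZLoc_iff hp _).1 z.2
    refine ⟨((z : ℚ).num, ⟨((z : ℚ).den : ℤ), (mem_primeTo_iff hp _).2
      fun h => hden (Int.natCast_dvd_natCast.1 h)⟩), ?_⟩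
    apply Subtype.ext
    show (z : ℚ) * ((algebraMap ℤ (ZLoc p) ((z : ℚ).den : ℤ) : ZLoc p) : ℚ) =
      ((algebraMap ℤ (ZLoc p) (z : ℚ).num : ZLoc p) : ℚ)
    rw [eq_intCast, eq_intCast, Subring.coe_intCast, Subring.coe_intCast, Int.cast_natCast]
    exact Rat.mul_den_eq_num _
  · refine ⟨1, ?_⟩
    have h' := congrArg (Subtype.val) h
    rw [eq_intCast, eq_intCast, Subring.coe_intCast, Subring.coe_intCast] at h'
    have : x = y := by exact_mod_cast h'
    rw [this]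

/-- `y ↦ 1 ⊗ y` is the localisation of an abelian group at the integers prime to `p`. -/
theorem isLocalizedModule_mk_ZLoc {p : ℕ} (hp : p.Prime) (M : Type) [AddCommGroup M] :
    IsLocalizedModule (primeTo p) (TensorProduct.mk ℤ (ZLoc p) M 1) := by
  have := isLocalization_ZLoc hp
  exact (isLocalizedModule_iff_isBaseChange (primeTo p) (ZLoc p) _).2
    (TensorProduct.isBaseChange ℤ M (ZLoc p))

/-- A homomorphism `g : A → B` of abelian groups is a localisation at the integers prime to `p` if and only if it exhibits `B` as `ℤ_(p) ⊗ A`. -/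
theorem isLocalizedModule_iff_tensor {p : ℕ} (hp : p.Prime) {A B : Type} [AddCommGroup A]
    [AddCommGroup B] (g : A →+ B) :
    IsLocalizedModule (primeTo p) g.toIntLinearMap ↔
      ∃ e : (ZLoc p ⊗[ℤ] A) ≃ₗ[ℤ] B, ∀ y : A, e (1 ⊗ₜ[ℤ] y) = g y := by
  have h1 : IsLocalizedModule (primeTo p) (TensorProduct.mk ℤ (ZLoc p) A 1) :=
    isLocalizedModule_mk_ZLoc hp A
  constructor
  · intro h2
    let e0 := IsLocalizedModule.linearEquiv (primeTo p) (TensorProduct.mk ℤ (ZLoc p) A 1)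
      g.toIntLinearMap
    exact ⟨e0, fun y => IsLocalizedModule.linearEquiv_apply (primeTo p)
      (TensorProduct.mk ℤ (ZLoc p) A 1) g.toIntLinearMap y⟩
  · rintro ⟨e, he⟩
    have h2 := IsLocalizedModule.of_linearEquiv (primeTo p) (TensorProduct.mk ℤ (ZLoc p) A 1) e
    convert h2 using 1
    exact LinearMap.ext fun y => (he y).symm

/-- **The docstring of `IsPLocalization`**: `f : Y ⟶ Z` is a `p`-localisation if and only if it exhibits `π⋆ Z` as `ℤ_(p) ⊗ π⋆ Y`. -/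
theorem isPLocalization_iff_tensor {p : ℕ} (hp : p.Prime) {Y Z : SHC} (f : Y ⟶ Z) :
    IsPLocalization p f ↔ ∃ e : (ZLoc p ⊗[ℤ] piSHC.obj Y) ≃ₗ[ℤ] piSHC.obj Z,
      ∀ y : piSHC.obj Y, e (1 ⊗ₜ[ℤ] y) = (piSHC.map f).hom y :=
  isLocalizedModule_iff_tensor hp (piSHC.map f).hom

/-- Two `p`-localisations of `Y` have isomorphic `π⋆`, by an isomorphism under `π⋆ Y`. -/
theorem IsPLocalization.exists_equiv {p : ℕ} {Y Z Z' : SHC} {f : Y ⟶ Z} {f' : Y ⟶ Z'}
    (hf : IsPLocalization p f) (hf' : IsPLocalization p f') :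
    ∃ e : piSHC.obj Z ≃+ piSHC.obj Z', ∀ y : piSHC.obj Y,
      e ((piSHC.map f).hom y) = (piSHC.map f').hom y := by
  have h : IsLocalizedModule (primeTo p) (piSHC.map f).hom.toIntLinearMap := hf
  have h' : IsLocalizedModule (primeTo p) (piSHC.map f').hom.toIntLinearMap := hf'
  exact ⟨(IsLocalizedModule.linearEquiv (primeTo p) (piSHC.map f).hom.toIntLinearMap
    (piSHC.map f').hom.toIntLinearMap).toAddEquiv,
    fun y => IsLocalizedModule.linearEquiv_apply _ _ _ y⟩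

/-- **Example**: `π⋆(S_(p)) ≅ ℤ_(p) ⊗ π⋆(S)`. -/
theorem exists_tensor_equiv_sphereLoc {p : ℕ} (hp : p.Prime) :
    ∃ e : (ZLoc p ⊗[ℤ] sphereSpectrum.sys.PiStar) ≃ₗ[ℤ] (sphereLoc p).sys.PiStar,
      ∀ y : sphereSpectrum.sys.PiStar, e (1 ⊗ₜ[ℤ] y) = Spectrum.Hom.piMap (sphereLocMap p) y :=
  (isLocalizedModule_iff_tensor hp (Spectrum.Hom.piMap (sphereLocMap p))).1
    (isLocalizedModule_piMap_sphereLocMap hp)

/-- **`ℤ_(p) ↪ π⋆(S_(p))`**, with `1 ↦` the image of `1 ∈ π_0(S)`. -/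
theorem exists_injective_ZLoc_piStar_sphereLoc {p : ℕ} (hp : p.Prime) :
    ∃ φ : ZLoc p →+ (sphereLoc p).sys.PiStar, Function.Injective φ ∧
      φ 1 = Spectrum.Hom.piMap (sphereLocMap p) (sphereSpectrum.sys.cls unitRep) := by
  obtain ⟨e, he⟩ := exists_tensor_equiv_sphereLoc hp
  let φ : ZLoc p →+ (sphereLoc p).sys.PiStar :=
    (e.toLinearMap.comp ((TensorProduct.mk ℤ (ZLoc p) sphereSpectrum.sys.PiStar).flip
      (sphereSpectrum.sys.cls unitRep))).toAddMonoidHom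
  have h1 : φ 1 = Spectrum.Hom.piMap (sphereLocMap p) (sphereSpectrum.sys.cls unitRep) := he _
  refine ⟨φ, (injective_iff_map_eq_zero φ).2 fun z hz => ?_, h1⟩
  have hd : ((z : ℚ).den : ℤ) • z = (z : ℚ).num • (1 : ZLoc p) := by
    apply Subtype.ext
    rw [zsmul_eq_mul, zsmul_eq_mul, mul_one, Subring.coe_mul, Subring.coe_intCast,
      Subring.coe_intCast, Int.cast_natCast, mul_comm]
    exact Rat.mul_den_eq_num _
  have h2 : Spectrum.Hom.piMap (sphereLocMap p) ((z : ℚ).num • sphereSpectrum.sys.cls unitRep) = 0 := by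
    rw [map_zsmul, ← h1, ← map_zsmul, ← hd, map_zsmul, hz, smul_zero]
  have h3 : (z : ℚ).num = 0 := by
    by_contra h
    exact piMap_sphereLocMap_zsmul_ne_zero hp _ h h2
  exact Subtype.ext (Rat.num_eq_zero.1 h3)

end Claimed.Open.R308
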