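import Claimed.Open.R308.Sanity

/-!
# Result 308: when is a class of the presented group `π⋆ X` not zero?

`Statement.lean` presents `π⋆ X` by generators (cubes) and relations (homotopy, additivity, stabilisation).
Here we check the presentation from the other side: **a cube that is not stably null homotopic has a non-zero
class** (`cls_pointLoop_ne_zero`).  The invariant is the homomorphism from `π⋆ X` to the group of germs at
infinity of sequences in `∏_M π_{M+2}(X_{M+2})` (Mathlib's `HomotopyGroup`) that sends a cube of degree `0` to the sequence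
of its stabilisations.
-/

set_option autoImplicit false

open scoped unitInterval Topology Topology.Homotopy

noncomputable section

namespace Claimed.Open.R308

/-! ## N. Stabilisation of cubes: constants, homotopies, concatenations -/

theorem LoopMap.onLoops_const {d : ℕ} {A B : Ptd} (φ : LoopMap d A B) (N : ℕ) :
    φ.onLoops (GenLoop.const : Loops N A) = GenLoop.const := by
  ext t
  change φ.toMap A.pt _ = B.pt
  rw [φ.map_pt]
  rfl

theorem LoopMap.onLoops_homotopic {d : ℕ} {A B : Ptd} (φ : LoopMap d A B) {N : ℕ}
    {g g' : Loops N A} (h : GenLoop.Homotopic g g') :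
    GenLoop.Homotopic (φ.onLoops g) (φ.onLoops g') := by
  obtain ⟨H⟩ := h
  refine ⟨{ toFun := fun z => φ.toMap (H (z.1, fun i => z.2 (Fin.castAdd d i)))
              (fun j => z.2 (Fin.natAdd N j))
            continuous_toFun := by fun_prop
            map_zero_left := fun t => ?_
            map_one_left := fun t => ?_
            prop' := fun s t ht => ?_ }⟩
  · change φ.toMap (H (0, _)) _ = φ.toMap (g _) _
    rw [H.apply_zero]
    rfl
  · change φ.toMap (H (1, _)) _ = φ.toMap (g' _) _
    rw [H.apply_one]
    rfl
  · change φ.toMap (H (s, fun i => t (Fin.castAdd d i))) (fun j => t (Fin.natAdd N j)) =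
      φ.toMap (g fun i => t (Fin.castAdd d i)) (fun j => t (Fin.natAdd N j))
    obtain ⟨i, hi⟩ := ht
    induction i using Fin.addCases with
    | left i =>
      have : H (s, fun i => t (Fin.castAdd d i)) = g.1 (fun i => t (Fin.castAdd d i)) :=
        H.eq_fst s ⟨i, hi⟩
      rw [this]
      rfl
    | right j =>
      have hb : (fun j => t (Fin.natAdd N j)) ∈ Cube.boundary (Fin d) := ⟨j, hi⟩
      exact ((φ.toMap _).2 _ hb).trans ((φ.toMap _).2 _ hb).symm

theorem LoopMap.onLoops_transAt {d : ℕ} {A B : Ptd} (φ : LoopMap d A B) {N : ℕ} (j : Fin N)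
    (g g' : Loops N A) :
    φ.onLoops (GenLoop.transAt j g g') =
      GenLoop.transAt (Fin.castAdd d j) (φ.onLoops g) (φ.onLoops g') := by
  have h1 : ∀ (t : I^(Fin (N + d))) (v : I),
      (fun i => Function.update t (Fin.castAdd d j) v (Fin.castAdd d i)) =
        Function.update (fun i => t (Fin.castAdd d i)) j v := by
    intro t v
    funext i
    by_cases h : i = j
    · subst h; simp
    · rw [Function.update_of_ne h, Function.update_of_ne]
      exact fun h' => h (Fin.castAdd_injective _ _ h')
  have h2 : ∀ (t : I^(Fin (N + d))) (v : I),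
      (fun k => Function.update t (Fin.castAdd d j) v (Fin.natAdd N k)) =
        fun k => t (Fin.natAdd N k) := by
    intro t v
    funext k
    rw [Function.update_of_ne]
    intro h'
    have := congrArg Fin.val h'
    simp at this
    omega
  ext t
  simp only [GenLoop.transAt, GenLoop.coe_copy]
  change φ.toMap ((GenLoop.transAt j g g') fun i => t (Fin.castAdd d i)) _ = _
  simp only [GenLoop.transAt, GenLoop.coe_copy]
  split_ifs
  · change _ = φ.toMap (g _) _
    rw [h1, h2]
  · change _ = φ.toMap (g' _) _
    rw [h1, h2]

/-! ## O. The sequence of stabilisations of a cube of degree `0` -/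

section Track

variable (X : Spectrum)

/-- Transport of a cube along equalities of the level and of the dimension. -/
def castCube {b N M : ℕ} (hb : b = M) (hN : N = M) (g : Loops N (X.space b)) :
    Loops M (X.space M) := by
  subst hb
  subst hN
  exact g

/-- The cube of `r` if `r` lives in level `M` and has dimension `M`, and `d` otherwise. -/
def trackStart (r : X.sys.Rep) (M : ℕ) (d : Loops M (X.space M)) : Loops M (X.space M) :=
  if h : r.idx = M ∧ r.N = M then castCube X h.1 h.2 r.cube else d

/-- The sequence of the stabilisations of a representative `r = (N, N, g)` of degree `0`: the constant cube in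
the levels `M < N`, `g` in level `N`, and the stabilisation of the previous term in the levels `M > N`.
(For the representatives `(b, N, g)` with `b ≠ N` all terms are constant.) -/
def track (r : X.sys.Rep) : ∀ M : ℕ, Loops M (X.space M)
  | 0 => trackStart X r 0 GenLoop.const
  | M + 1 => trackStart X r (M + 1) ((X.bond M).onLoops (track r M))

theorem track_succ_of_ne (r : X.sys.Rep) (M : ℕ) (h : ¬ (r.idx = M + 1 ∧ r.N = M + 1)) :
    track X r (M + 1) = (X.bond M).onLoops (track X r M) := by
  rw [track, trackStart, dif_neg h]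

theorem track_self (N : ℕ) (g : Loops N (X.space N)) : track X ⟨N, N, g⟩ N = g := by
  cases N with
  | zero => rw [track, trackStart, dif_pos ⟨rfl, rfl⟩]; rfl
  | succ N => rw [track, trackStart, dif_pos ⟨rfl, rfl⟩]; rfl

theorem track_eq_const (r : X.sys.Rep) (h : r.idx ≠ r.N) : ∀ M, track X r M = GenLoop.const
  | 0 => by
    rw [track, trackStart, dif_neg (fun h' => h (h'.1.trans h'.2.symm))]
  | M + 1 => by
    rw [track_succ_of_ne X r M (fun h' => h (h'.1.trans h'.2.symm)), track_eq_const r h M,
      LoopMap.onLoops_const]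

theorem track_homotopic (i N : ℕ) {g g' : Loops N (X.space i)} (h : GenLoop.Homotopic g g') :
    ∀ M, GenLoop.Homotopic (track X ⟨i, N, g⟩ M) (track X ⟨i, N, g'⟩ M)
  | 0 => by
    by_cases hc : i = 0 ∧ N = 0
    · obtain ⟨rfl, rfl⟩ := hc
      rw [track_self, track_self]
      exact h
    · rw [track, track, trackStart, trackStart, dif_neg hc, dif_neg hc]
  | M + 1 => by
    by_cases hc : i = M + 1 ∧ N = M + 1
    · obtain ⟨rfl, rfl⟩ := hc
      rw [track_self, track_self]
      exact h
    · rw [track_succ_of_ne X _ M hc, track_succ_of_ne X _ M hc]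
      exact (X.bond M).onLoops_homotopic (track_homotopic i N h M)

theorem track_transAt (i N : ℕ) (j : Fin N) (g g' : Loops N (X.space i)) :
    ∀ M, (track X ⟨i, N, GenLoop.transAt j g g'⟩ M = GenLoop.const ∧
        track X ⟨i, N, g⟩ M = GenLoop.const ∧ track X ⟨i, N, g'⟩ M = GenLoop.const) ∨
      ∃ k : Fin M, track X ⟨i, N, GenLoop.transAt j g g'⟩ M =
        GenLoop.transAt k (track X ⟨i, N, g⟩ M) (track X ⟨i, N, g'⟩ M)
  | 0 => by
    by_cases hc : i = 0 ∧ N = 0
    · obtain ⟨rfl, rfl⟩ := hc
      exact j.elim0
    · left
      simp only [track, trackStart, dif_neg hc, and_self]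
  | M + 1 => by
    by_cases hc : i = M + 1 ∧ N = M + 1
    · obtain ⟨rfl, rfl⟩ := hc
      right
      exact ⟨j, by rw [track_self, track_self, track_self]⟩
    · rw [track_succ_of_ne X _ M hc, track_succ_of_ne X _ M hc, track_succ_of_ne X _ M hc]
      rcases track_transAt i N j g g' M with ⟨h1, h2, h3⟩ | ⟨k, hk⟩
      · left
        rw [h1, h2, h3, LoopMap.onLoops_const]
        exact ⟨rfl, rfl, rfl⟩
      · right
        exact ⟨Fin.castAdd 1 k, by rw [hk, LoopMap.onLoops_transAt]⟩

theorem track_stab (i N : ℕ) (g : Loops N (X.space i)) :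
    ∀ M, N + 1 ≤ M → track X ⟨i, N, g⟩ M = track X ⟨i + 1, N + 1, (X.bond i).onLoops g⟩ M := by
  by_cases hc : i = N
  · subst hc
    intro M hM
    induction M, hM using Nat.le_induction with
    | base =>
      rw [track_self, track_succ_of_ne X _ i (by simp), track_self]
    | succ M hM ih =>
      rw [track_succ_of_ne X _ M (by simp; omega), track_succ_of_ne X _ M (by simp; omega), ih]
  · intro M _
    rw [track_eq_const X _ hc, track_eq_const X _ (by simpa using hc)]

/-! ## P. Germs at infinity of sequences of homotopy classes -/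

/-- `π_{M+2}(X_{M+2})`, Mathlib's homotopy group, written additively. -/
abbrev LevelGrp (M : ℕ) : Type :=
  Additive (HomotopyGroup (Fin (M + 2)) (X.space (M + 2)) (X.space (M + 2)).pt)

/-- The class of a cube in Mathlib's homotopy group. -/
def levelCls (M : ℕ) (g : Loops (M + 2) (X.space (M + 2))) : LevelGrp X M :=
  Additive.ofMul (Quotient.mk (GenLoop.Homotopic.setoid (Fin (M + 2)) (X.space (M + 2)).pt) g)

theorem levelCls_const (M : ℕ) : levelCls X M GenLoop.const = 0 := rfl

theorem levelCls_eq_zero_iff (M : ℕ) (g : Loops (M + 2) (X.space (M + 2))) :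
    levelCls X M g = 0 ↔ GenLoop.Homotopic g GenLoop.const :=
  ⟨fun h => Quotient.exact (s := GenLoop.Homotopic.setoid (Fin (M + 2)) (X.space (M + 2)).pt) h,
    fun h => Quotient.sound (s := GenLoop.Homotopic.setoid (Fin (M + 2)) (X.space (M + 2)).pt) h⟩

theorem levelCls_transAt (M : ℕ) (k : Fin (M + 2)) (g g' : Loops (M + 2) (X.space (M + 2))) :
    levelCls X M (GenLoop.transAt k g g') = levelCls X M g + levelCls X M g' := by
  rw [add_comm (levelCls X M g)]
  exact congrArg Additive.ofMul (HomotopyGroup.mul_spec (i := k) (p := g') (q := g)).symm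

/-- The sequences that vanish from some level on. -/
def evZero : AddSubgroup (∀ M, LevelGrp X M) where
  carrier := {s | ∃ M₀, ∀ M, M₀ ≤ M → s M = 0}
  zero_mem' := ⟨0, fun _ _ => rfl⟩
  add_mem' := by
    rintro s s' ⟨a, ha⟩ ⟨b, hb⟩
    refine ⟨max a b, fun M hM => ?_⟩
    rw [Pi.add_apply, ha M (le_trans (le_max_left _ _) hM), hb M (le_trans (le_max_right _ _) hM),
      add_zero]
  neg_mem' := by
    rintro s ⟨a, ha⟩
    exact ⟨a, fun M hM => by rw [Pi.neg_apply, ha M hM, neg_zero]⟩

/-- The sequence of the classes of the stabilisations of a representative. -/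
def trackSeq (r : X.sys.Rep) : ∀ M, LevelGrp X M := fun M => levelCls X M (track X r (M + 2))

/-- **The invariant**: the homomorphism from the presented group `π⋆ X` to the germs at infinity of sequences of
homotopy classes. -/
def germHom : X.sys.PiStar →+ ((∀ M, LevelGrp X M) ⧸ evZero X) :=
  X.sys.piLift (fun r => QuotientAddGroup.mk (trackSeq X r))
    (fun i N g g' h => congrArg _ (funext fun M =>
      congrArg Additive.ofMul (Quotient.sound (track_homotopic X i N h (M + 2)))))
    (fun i N j g g' => by
      rw [← QuotientAddGroup.mk_add]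
      refine congrArg _ (funext fun M => ?_)
      change levelCls X M _ = levelCls X M _ + levelCls X M _
      rcases track_transAt X i N j g g' (M + 2) with ⟨h1, h2, h3⟩ | ⟨k, hk⟩
      · rw [h1, h2, h3, levelCls_const, add_zero]
      · rw [hk, levelCls_transAt])
    (fun _ i N g => by
      rw [QuotientAddGroup.eq]
      refine ⟨N, fun M hM => ?_⟩
      change -levelCls X M _ + levelCls X M _ = 0
      rw [track_stab X i N g (M + 2) (by omega)]
      exact neg_add_cancel _)

/-- The iterated stabilisations of a point `x` of `X_0`. -/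
def iterStab (x : X.space 0) : ∀ M : ℕ, Loops M (X.space M)
  | 0 => pointLoop x
  | M + 1 => (X.bond M).onLoops (iterStab x M)

theorem track_pointLoop (x : X.space 0) : ∀ M, track X ⟨0, 0, pointLoop x⟩ M = iterStab X x M
  | 0 => track_self X 0 _
  | M + 1 => by
    rw [track_succ_of_ne X _ M (by simp), track_pointLoop x M]
    rfl

/-- **A point of `X_0` none of whose stabilisations is null homotopic has a non-zero class in the presented
group `π⋆ X`.** -/
theorem cls_pointLoop_ne_zero (x : X.space 0)
    (h : ∀ M, ¬ GenLoop.Homotopic (iterStab X x M) GenLoop.const) :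
    X.sys.cls ⟨0, 0, pointLoop x⟩ ≠ 0 := by
  intro h0
  have h1 : germHom X (X.sys.cls ⟨0, 0, pointLoop x⟩) = 0 := by rw [h0, map_zero]
  rw [germHom, StableSystem.piLift_cls, QuotientAddGroup.eq_zero_iff] at h1
  obtain ⟨M₀, hM⟩ := h1
  have h2 := hM M₀ le_rfl
  change levelCls X M₀ _ = 0 at h2
  rw [levelCls_eq_zero_iff, track_pointLoop] at h2
  exact h _ h2

end Track

end Claimed.Open.R308
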