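import Claimed.Open.R308.Sanity
import Claimed.Open.R308.SanityLines

/-!
# Result 308: the space `MU2 a b` of section 8 is the smash product `MU(a) ∧ MU(b)`

Section 8 of `Statement.lean` does not use the quotient `(MU a).smash (MU b)` of section 4 for the
spaces of `MU ∧ MU`: it uses the subspace `MU2 a b` of a normed space.  This file compares the two.

* `SmashMU.ambPair_eq_zero_iff`: `ambPair x y = 0` iff `x = ∞` or `y = ∞`.
* `SmashMU.ambPair_thomPoint_inj`: off the wedge the pair `(x, y)` is determined by `ambPair x y`.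
* `SmashMU.smashToMU2`, `SmashMU.smashToMU2_bijective`: the canonical pairing `mu2Pair a b` induces
  a continuous BIJECTION `(MU a).smash (MU b) → MU2 a b` of pointed spaces.
* `SmashMU.mu2Pair_eq_pt_iff`: NON-example: `mu2Pair a b` sends nothing but the wedge to `∞`.
-/

set_option autoImplicit false

open scoped unitInterval Topology
open InnerProductSpace

noncomputable section

namespace Claimed.Open.R308

namespace SmashMU

open Lines

theorem ambPair_thomPoint_ne_zero {a b : ℕ} (e : Fin a → E a) (c : Fin a → ℂ) (f : Fin b → E b)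
    (d : Fin b → ℂ) : ambPair (thomPoint e c) (thomPoint f d) ≠ 0 := by
  intro h
  have h0 : Real.exp (-∑ k, ‖c k‖ ^ 2) * Real.exp (-∑ k, ‖d k‖ ^ 2) = 0 := congrArg Prod.fst h
  exact (mul_pos (Real.exp_pos _) (Real.exp_pos _)).ne' h0

/-- `ambPair x y` is the point at infinity iff `x` or `y` is. -/
theorem ambPair_eq_zero_iff {a b : ℕ} {x : Amb a} {y : Amb b} (hx : x ∈ MUset a)
    (hy : y ∈ MUset b) : ambPair x y = 0 ↔ x = 0 ∨ y = 0 := by
  constructor
  · intro h
    rcases hx with rfl | ⟨e, c, _, rfl⟩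
    · exact Or.inl rfl
    rcases hy with rfl | ⟨f, d, _, rfl⟩
    · exact Or.inr rfl
    exact absurd h (ambPair_thomPoint_ne_zero e c f d)
  · rintro (rfl | rfl)
    · exact ambPair_zero_left y
    · exact ambPair_zero_right x

/-- Off the wedge, `ambPair x y` determines `x` and `y`. -/
theorem ambPair_thomPoint_inj {a b : ℕ} {e e' : Fin a → E a} {c c' : Fin a → ℂ}
    {f f' : Fin b → E b} {d d' : Fin b → ℂ} (he : Orthonormal ℂ e) (he' : Orthonormal ℂ e')
    (hf : Orthonormal ℂ f) (hf' : Orthonormal ℂ f')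
    (h : ambPair (thomPoint e c) (thomPoint f d) = ambPair (thomPoint e' c') (thomPoint f' d')) :
    thomPoint e c = thomPoint e' c' ∧ thomPoint f d = thomPoint f' d' := by
  simp only [ambPair, thomPoint, Prod.mk.injEq, smul_smul] at h
  obtain ⟨h0, ⟨h1, h2⟩, h3, h4⟩ := h
  have hs : ((Real.exp (-∑ k, ‖c k‖ ^ 2) : ℝ) : ℂ) * ((Real.exp (-∑ k, ‖d k‖ ^ 2) : ℝ) : ℂ) =
      ((Real.exp (-∑ k, ‖c' k‖ ^ 2) : ℝ) : ℂ) * ((Real.exp (-∑ k, ‖d' k‖ ^ 2) : ℝ) : ℂ) := by
    exact_mod_cast h0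
  have hne :
      ((Real.exp (-∑ k, ‖c' k‖ ^ 2) : ℝ) : ℂ) * ((Real.exp (-∑ k, ‖d' k‖ ^ 2) : ℝ) : ℂ) ≠ 0 := by
    exact_mod_cast (mul_pos (Real.exp_pos _) (Real.exp_pos _)).ne'
  rw [mul_comm, hs, mul_comm] at h1 h2
  rw [hs] at h3 h4
  rw [mul_comm] at hne
  have k1 := smul_right_injective _ hne h1
  have k2 := smul_right_injective _ hne h2
  rw [mul_comm] at hne
  exact ⟨thomPoint_eq_of he he' k1 k2,
    thomPoint_eq_of hf hf' (smul_right_injective _ hne h3) (smul_right_injective _ hne h4)⟩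

theorem toAmb2_mu2Pair {a b : ℕ} (x : MU a) (y : MU b) :
    Subtype.val (p := fun z => z ∈ MU2set a b) ((mu2Pair a b).toMap (x, y)) =
      ambPair (toAmb x) (toAmb y) := rfl

theorem toAmb_eq_zero_iff {n : ℕ} (x : MU n) : toAmb x = 0 ↔ x = (MU n).pt :=
  ⟨fun h => toAmb_injective h, fun h => by rw [h]; rfl⟩

theorem toAmb_mem {n : ℕ} (x : MU n) : toAmb x ∈ MUset n :=
  Subtype.property (p := fun z => z ∈ MUset n) x

/-- `mu2Pair a b` sends the wedge, and nothing else, to the base point. -/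
theorem mu2Pair_eq_pt_iff {a b : ℕ} (z : MU a × MU b) :
    (mu2Pair a b).toMap z = (MU2 a b).pt ↔ z ∈ wedgeSet (MU a) (MU b) := by
  obtain ⟨x, y⟩ := z
  have h1 : (mu2Pair a b).toMap (x, y) = (MU2 a b).pt ↔ ambPair (toAmb x) (toAmb y) = 0 :=
    ⟨fun h => by rw [← toAmb2_mu2Pair, h]; rfl,
      fun h => Subtype.ext (p := fun z => z ∈ MU2set a b) h⟩
  rw [h1, ambPair_eq_zero_iff (toAmb_mem x) (toAmb_mem y), toAmb_eq_zero_iff, toAmb_eq_zero_iff]
  rfl

/-- The comparison map `MU(a) ∧ MU(b) → MU2 a b` induced by the canonical pairing. -/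
def smashToMU2 (a b : ℕ) : C((MU a).smash (MU b), MU2 a b) :=
  smashLift (mu2Pair a b).toMap (MU2 a b).pt fun z hz => (mu2Pair_eq_pt_iff z).2 hz

theorem smashToMU2_mk {a b : ℕ} (z : MU a × MU b) :
    smashToMU2 a b (smashMk z) = (mu2Pair a b).toMap z := rfl

theorem smashToMU2_pt (a b : ℕ) : smashToMU2 a b ((MU a).smash (MU b)).pt = (MU2 a b).pt :=
  (mu2Pair a b).left_pt _

/-- **`MU2 a b` is `MU(a) ∧ MU(b)`**: the comparison map is a continuous bijection. -/
theorem smashToMU2_bijective (a b : ℕ) : Function.Bijective (smashToMU2 a b) := by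
  constructor
  · intro q q' h
    induction q using Quotient.ind with | _ z => ?_
    induction q' using Quotient.ind with | _ z' => ?_
    change (mu2Pair a b).toMap z = (mu2Pair a b).toMap z' at h
    by_cases hz : z ∈ wedgeSet (MU a) (MU b)
    · have hz' : z' ∈ wedgeSet (MU a) (MU b) := by
        rw [← mu2Pair_eq_pt_iff, ← h, mu2Pair_eq_pt_iff]; exact hz
      exact Quotient.sound (Or.inr ⟨hz, hz'⟩)
    · have hz' : z' ∉ wedgeSet (MU a) (MU b) := by
        rw [← mu2Pair_eq_pt_iff, ← h, mu2Pair_eq_pt_iff]; exact hz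
      obtain ⟨x, y⟩ := z
      obtain ⟨x', y'⟩ := z'
      have n1 : toAmb x ≠ 0 := fun h0 => hz (Or.inl ((toAmb_eq_zero_iff x).1 h0))
      have n2 : toAmb y ≠ 0 := fun h0 => hz (Or.inr ((toAmb_eq_zero_iff y).1 h0))
      have n3 : toAmb x' ≠ 0 := fun h0 => hz' (Or.inl ((toAmb_eq_zero_iff x').1 h0))
      have n4 : toAmb y' ≠ 0 := fun h0 => hz' (Or.inr ((toAmb_eq_zero_iff y').1 h0))
      have h' : ambPair (toAmb x) (toAmb y) = ambPair (toAmb x') (toAmb y') := by
        rw [← toAmb2_mu2Pair, ← toAmb2_mu2Pair, h]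
      obtain ⟨e, c, he, hx⟩ := (toAmb_mem x).resolve_left n1
      obtain ⟨f, d, hf, hy⟩ := (toAmb_mem y).resolve_left n2
      obtain ⟨e', c', he', hx'⟩ := (toAmb_mem x').resolve_left n3
      obtain ⟨f', d', hf', hy'⟩ := (toAmb_mem y').resolve_left n4
      rw [hx, hy, hx', hy'] at h'
      obtain ⟨k1, k2⟩ := ambPair_thomPoint_inj he he' hf hf' h'
      have e1 : x = x' := toAmb_injective (by rw [hx, hx', k1])
      have e2 : y = y' := toAmb_injective (by rw [hy, hy', k2])
      rw [e1, e2]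
  · rintro ⟨w, x, hx, y, hy, rfl⟩
    exact ⟨smashMk (⟨x, hx⟩, ⟨y, hy⟩), rfl⟩

end SmashMU

end Claimed.Open.R308
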