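import Claimed.Open.R308.SanityNonzero
import Claimed.Open.R308.SanityDegree
import Claimed.Open.R308.SanityJoint

/-!
# Result 308: the sphere spectrum is not trivial

All the other checked examples of `π⋆`, `SHC`, `IsPLocalization` are about the zero spectrum.  Here:

* `cls_unitRep_ne_zero`, `nontrivial_piStar_sphereSpectrum`: `1 ≠ 0` in `π_0` of the sphere spectrum, so the presented
  groups `π⋆` of `Statement.lean` are not all trivial;
* `sphereSpectrum_not_iso_pointSpectrum`: the stable homotopy category `SHC` is not trivial; there is a **non-zero**
  levelwise well-pointed finite CW spectrum (`exists_nonzero_wellPointed_finiteCW`);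
* `not_stableEquivalences_toPointSpectrum`: **non-example** of a stable equivalence;
* `not_isPLocalization_point_sphere`: **non-example** of a `p`-localisation.

The proof puts together `SanityNonzero.lean` (a cube that is not stably null homotopic has a non-zero class in the presented group)
and `SanityDegree.lean` (the quotient maps `I^M → I^M/∂I^M = Σ^M S⁰` are not null homotopic, by the theorem of
Poincaré and Miranda, which is proved from Brouwer's fixed point theorem in `Claimed/Agent/Lib/BfpCor.lean`).
-/

set_option autoImplicit false

open scoped unitInterval Topology Topology.Homotopy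
open CategoryTheory

noncomputable section

namespace Claimed.Open.R308

theorem iterStab_sphereSpectrum :
    ∀ M, iterStab sphereSpectrum (true : Bool) M = fundCube M
  | 0 => rfl
  | M + 1 => by
    change (sphereSpectrum.bond M).onLoops (iterStab sphereSpectrum (true : Bool) M) = _
    rw [iterStab_sphereSpectrum M]
    rfl

/-- The representative of `1 ∈ π_0(S)`: the point of `S⁰` that is not the base point. -/
def unitRep : sphereSpectrum.sys.Rep := ⟨0, 0, pointLoop (true : Bool)⟩

theorem deg_unitRep : sphereSpectrum.sys.deg unitRep = 0 := by
  simp [StableSystem.deg, unitRep]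

/-- **`1 ≠ 0` in `π_0` of the sphere spectrum.** -/
theorem cls_unitRep_ne_zero : sphereSpectrum.sys.cls unitRep ≠ 0 :=
  cls_pointLoop_ne_zero sphereSpectrum (true : Bool) fun M => by
    rw [iterStab_sphereSpectrum]
    exact fundCube_not_homotopic_const M

/-- **The presented stable homotopy groups are not all trivial.** -/
theorem nontrivial_piStar_sphereSpectrum : Nontrivial sphereSpectrum.sys.PiStar :=
  ⟨⟨_, 0, cls_unitRep_ne_zero⟩⟩

/-- **The sphere spectrum is not isomorphic to the trivial spectrum in the stable homotopy category.** -/
theorem sphereSpectrum_not_iso_pointSpectrum :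
    IsEmpty (toSHC.obj sphereSpectrum ≅ toSHC.obj pointSpectrum) := by
  refine ⟨fun e => ?_⟩
  obtain ⟨f⟩ := nonempty_piStar_addEquiv e
  have := subsingleton_piStar_pointSpectrum
  have := nontrivial_piStar_sphereSpectrum
  exact not_subsingleton sphereSpectrum.sys.PiStar f.injective.subsingleton

/-- There is a levelwise well-pointed finite CW spectrum with `π⋆ ≠ 0`. -/
theorem exists_nonzero_wellPointed_finiteCW :
    ∃ X : Spectrum, (∀ b, (X.space b).WellPointed) ∧ IsFiniteCWSpectrum (toSHC.obj X) ∧
      Nontrivial X.sys.PiStar :=
  ⟨sphereSpectrum, sphereSpectrum_wellPointed_and_finite.1, sphereSpectrum_wellPointed_and_finite.2,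
    nontrivial_piStar_sphereSpectrum⟩

/-- The map from a spectrum to the trivial spectrum. -/
def toPointSpectrum (X : Spectrum) : X ⟶ pointSpectrum :=
  ⟨fun _ => ⟨ContinuousMap.const _ (), rfl⟩, fun _ _ _ => rfl⟩

/-- **Non-example**: the map from the sphere spectrum to the trivial spectrum is not a stable
equivalence. -/
theorem not_stableEquivalences_toPointSpectrum :
    ¬ stableEquivalences (toPointSpectrum sphereSpectrum) := fun h =>
  haveI := isIso_toSHC_map _ h
  sphereSpectrum_not_iso_pointSpectrum.false (asIso (toSHC.map (toPointSpectrum sphereSpectrum)))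

/-- **Non-example**: no map from the trivial spectrum to the sphere spectrum is a `p`-localisation. -/
theorem not_isPLocalization_point_sphere (p : ℕ)
    (f : toSHC.obj pointSpectrum ⟶ toSHC.obj sphereSpectrum) : ¬ IsPLocalization p f := by
  intro hf
  have h1 : Subsingleton (piSHC.obj (toSHC.obj pointSpectrum)) := by
    have : Subsingleton (piFunctor.obj pointSpectrum) := subsingleton_piStar_pointSpectrum
    exact (piSHCIso.app pointSpectrum).addCommGroupIsoToAddEquiv.toEquiv.subsingleton
  have h2 : Subsingleton ((toSHC ⋙ piSHC).obj sphereSpectrum) := hf.subsingleton h1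
  have h3 : Subsingleton (piFunctor.obj sphereSpectrum) :=
    (piSHCIso.app sphereSpectrum).symm.addCommGroupIsoToAddEquiv.toEquiv.subsingleton
  have := nontrivial_piStar_sphereSpectrum
  exact not_subsingleton sphereSpectrum.sys.PiStar h3

end Claimed.Open.R308
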