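import Claimed.Open.R308.SanityTelUnit

/-!
# Result 308: `π⋆` of the telescope is a localisation of `π⋆`

`X.telHom d : π⋆(X) → π⋆(X.tel d)` sends the class of a cube of level `i` to `d 0 ⋯ d (i-1)` times the class of the same cube.
If all `d i` are prime to `p` and every integer prime to `p` divides the products `d i ⋯ d (i+m-1)` for some `m`, then `X.telHom d` is the
localisation of the abelian group `π⋆(X)` at the integers prime to `p` (`isLocalizedModule_telHom`).

The integers prime to `p` act invertibly by `SanityTelUnit.lean`; every class of level `i` of the telescope, multiplied by `d 0 ⋯ d (i-1)`, is in the image; the kernel is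
controlled by the homomorphism `X.telBack : π⋆(X.tel d) → π⋆(X)_(p)` (Mathlib's `LocalizedModule`), `[g] ↦ [g] / (d 0 ⋯ d (i-1))`.
-/

set_option autoImplicit false

open scoped unitInterval Topology Topology.Homotopy
open CategoryTheory

noncomputable section

namespace Claimed.Open.R308

/-- **The map `π⋆(X) → π⋆(X.tel d)`**: the class of a cube of level `i` goes to `d 0 ⋯ d (i-1)` times the class of the same cube. -/
def Spectrum.telHom (X : Spectrum) (d : ℕ → ℕ) : X.sys.PiStar →+ (X.tel d).sys.PiStar :=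
  X.sys.piLift (fun r => telProd d 0 r.idx • (X.tel d).sys.cls ⟨r.idx, r.N, r.cube⟩)
    (fun i N g g' h => congrArg (telProd d 0 i • ·) ((X.tel d).sys.cls_htpy (i := i) h))
    (fun i N j g g' => by
      show telProd d 0 i • _ = telProd d 0 i • _ + telProd d 0 i • _
      rw [← smul_add]
      exact congrArg (telProd d 0 i • ·) ((X.tel d).sys.cls_transAt (i := i) j g g'))
    (fun _ i N g => by
      show telProd d 0 i • (X.tel d).sys.cls ⟨i, N, g⟩ =
        telProd d 0 (i + 1) • (X.tel d).sys.cls ⟨i + 1, N + 1, (X.bond i).onLoops g⟩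
      rw [X.tel_cls_stab d i N g, smul_smul, telProd_succ, zero_add])

theorem Spectrum.telHom_cls (X : Spectrum) (d : ℕ → ℕ) (r : X.sys.Rep) :
    X.telHom d (X.sys.cls r) = telProd d 0 r.idx • (X.tel d).sys.cls ⟨r.idx, r.N, r.cube⟩ :=
  X.sys.piLift_cls _ _ _ _ r

/-- `d i ⋯ d (i+m-1)` as an element of the monoid of the integers prime to `p`. -/
def telProdS (p : ℕ) (d : ℕ → ℕ) (hd₁ : ∀ i, (d i : ℤ) ∈ primeTo p) (i m : ℕ) : primeTo p :=
  ⟨(telProd d i m : ℤ), by
    unfold telProd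
    push_cast
    exact Submonoid.prod_mem _ fun k _ => hd₁ _⟩

theorem telProdS_smul (p : ℕ) (d : ℕ → ℕ) (hd₁ : ∀ i, (d i : ℤ) ∈ primeTo p) (i m : ℕ)
    {G : Type} [AddCommGroup G] (x : G) : telProdS p d hd₁ i m • x = telProd d i m • x := by
  rw [Submonoid.smul_def]
  exact natCast_zsmul _ _

/-- `x ↦ x / s`, from an abelian group to its localisation at the integers prime to `p`. -/
def locMk (p : ℕ) (G : Type) [AddCommGroup G] (s : primeTo p) :
    G →+ LocalizedModule (primeTo p) G :=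
  AddMonoidHom.mk' (fun x => LocalizedModule.mk x s) fun a b => by
    rw [LocalizedModule.mk_add_mk, ← smul_add, LocalizedModule.mk_cancel_common_left]

theorem locMk_apply (p : ℕ) (G : Type) [AddCommGroup G] (s : primeTo p) (x : G) :
    locMk p G s x = LocalizedModule.mk x s := rfl

/-- The homomorphism `π⋆(X.tel d) → π⋆(X)_(p)`, `[g] ↦ [g] / (d 0 ⋯ d (i-1))` for a cube `g` of level `i`. -/
def Spectrum.telBack (X : Spectrum) (p : ℕ) (d : ℕ → ℕ) (hd₁ : ∀ i, (d i : ℤ) ∈ primeTo p) :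
    (X.tel d).sys.PiStar →+ LocalizedModule (primeTo p) X.sys.PiStar :=
  (X.tel d).sys.piLift
    (fun r => locMk p X.sys.PiStar (telProdS p d hd₁ 0 r.idx) (X.sys.cls ⟨r.idx, r.N, r.cube⟩))
    (fun i N g g' h => by
      show locMk p _ _ (X.sys.cls ⟨i, N, g⟩) = locMk p _ _ (X.sys.cls ⟨i, N, g'⟩)
      rw [X.sys.cls_htpy (i := i) h])
    (fun i N j g g' => by
      show locMk p _ _ (X.sys.cls ⟨i, N, GenLoop.transAt j g g'⟩) =
        locMk p _ _ (X.sys.cls ⟨i, N, g⟩) + locMk p _ _ (X.sys.cls ⟨i, N, g'⟩)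
      rw [X.sys.cls_transAt (i := i) j g g', map_add])
    (fun _ i N g => by
      show locMk p _ (telProdS p d hd₁ 0 i) (X.sys.cls ⟨i, N, g⟩) =
        locMk p _ (telProdS p d hd₁ 0 (i + 1))
          (X.sys.cls ⟨i + 1, N + 1, ((X.tel d).bond i).onLoops g⟩)
      have e1 : telProdS p d hd₁ 0 (i + 1) = telProdS p d hd₁ 0 i * ⟨(d i : ℤ), hd₁ i⟩ :=
        Subtype.ext (by simp [telProdS, telProd_succ])
      have e2 : d i • X.sys.cls ⟨i, N, g⟩ =
          (⟨(d i : ℤ), hd₁ i⟩ : primeTo p) • X.sys.cls ⟨i, N, g⟩ := by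
        rw [Submonoid.smul_def]
        exact (natCast_zsmul _ _).symm
      rw [X.cls_tel_bond d i N g, e1, e2, locMk_apply, locMk_apply,
        LocalizedModule.mk_cancel_common_right])

theorem Spectrum.telBack_cls (X : Spectrum) (p : ℕ) (d : ℕ → ℕ) (hd₁) (r : (X.tel d).sys.Rep) :
    X.telBack p d hd₁ ((X.tel d).sys.cls r) =
      locMk p X.sys.PiStar (telProdS p d hd₁ 0 r.idx) (X.sys.cls ⟨r.idx, r.N, r.cube⟩) :=
  (X.tel d).sys.piLift_cls _ _ _ _ r

/-- The composite `π⋆(X) → π⋆(X.tel d) → π⋆(X)_(p)` is the canonical map `x ↦ x / 1`. -/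
theorem Spectrum.telBack_telHom (X : Spectrum) (p : ℕ) (d : ℕ → ℕ) (hd₁) (x : X.sys.PiStar) :
    X.telBack p d hd₁ (X.telHom d x) = LocalizedModule.mk x 1 := by
  have h : (X.telBack p d hd₁).comp (X.telHom d) = locMk p X.sys.PiStar 1 := by
    refine StableSystem.hom_ext fun r => ?_
    show X.telBack p d hd₁ (X.telHom d (X.sys.cls r)) = LocalizedModule.mk (X.sys.cls r) 1
    rw [X.telHom_cls, map_nsmul, X.telBack_cls, ← map_nsmul, ← telProdS_smul p d hd₁, locMk_apply,
      LocalizedModule.mk_cancel]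
  exact DFunLike.congr_fun h x

/-- Every class of the telescope has a multiple, by an integer prime to `p`, in the image of `π⋆(X)`. -/
theorem Spectrum.telHom_surj (X : Spectrum) (p : ℕ) (d : ℕ → ℕ) (hd₁ : ∀ i, (d i : ℤ) ∈ primeTo p)
    (y : (X.tel d).sys.PiStar) : ∃ x : X.sys.PiStar × primeTo p, x.2 • y = X.telHom d x.1 := by
  have hy : y ∈ (⊤ : AddSubgroup (X.tel d).sys.PiStar) := trivial
  rw [← (X.tel d).sys.closure_range_cls] at hy
  induction hy using AddSubgroup.closure_induction with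
  | mem y hy =>
    obtain ⟨r, rfl⟩ := hy
    refine ⟨(X.sys.cls ⟨r.idx, r.N, r.cube⟩, telProdS p d hd₁ 0 r.idx), ?_⟩
    show telProdS p d hd₁ 0 r.idx • (X.tel d).sys.cls r = X.telHom d (X.sys.cls ⟨r.idx, r.N, r.cube⟩)
    rw [X.telHom_cls, telProdS_smul]
  | zero => exact ⟨(0, 1), by simp⟩
  | add y y' _ _ h h' =>
    obtain ⟨⟨x, s⟩, hx⟩ := h
    obtain ⟨⟨x', s'⟩, hx'⟩ := h'
    refine ⟨(s' • x + s • x', s * s'), ?_⟩
    show (s * s') • (y + y') = X.telHom d (s' • x + s • x')
    have hx1 : s • y = X.telHom d x := hx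
    have hx2 : s' • y' = X.telHom d x' := hx'
    rw [map_add, Submonoid.smul_def s' x, Submonoid.smul_def s x', map_zsmul, map_zsmul, ← hx1, ← hx2,
      smul_add, mul_smul, mul_comm s s', mul_smul]
    simp only [Submonoid.smul_def]
    rw [smul_comm (s : ℤ) (s' : ℤ) y, smul_comm (s : ℤ) (s' : ℤ) y']
  | neg y _ h =>
    obtain ⟨⟨x, s⟩, hx⟩ := h
    refine ⟨(-x, s), ?_⟩
    show s • -y = X.telHom d (-x)
    have hx1 : s • y = X.telHom d x := hx
    rw [map_neg, ← hx1, smul_neg]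

/-- **`π⋆(X.tel d) = π⋆(X) ⊗ ℤ_(p)`.** -/
theorem isLocalizedModule_telHom (X : Spectrum) (p : ℕ) (d : ℕ → ℕ)
    (hd₁ : ∀ i, (d i : ℤ) ∈ primeTo p)
    (hd₂ : ∀ t : ℕ, (t : ℤ) ∈ primeTo p → ∃ m, ∀ i, t ∣ telProd d i m) :
    IsLocalizedModule (primeTo p) (X.telHom d).toIntLinearMap where
  map_units := isUnit_algebraMap_tel X p d hd₂
  surj := X.telHom_surj p d hd₁
  exists_of_eq := by
    intro x₁ x₂ h
    have h' : X.telHom d x₁ = X.telHom d x₂ := h
    have h1 : (LocalizedModule.mk x₁ 1 : LocalizedModule (primeTo p) X.sys.PiStar) =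
        LocalizedModule.mk x₂ 1 := by
      rw [← X.telBack_telHom p d hd₁, ← X.telBack_telHom p d hd₁, h']
    obtain ⟨u, hu⟩ := LocalizedModule.mk_eq.1 h1
    rw [one_smul, one_smul] at hu
    exact ⟨u, hu⟩

end Claimed.Open.R308
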