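import Claimed.Open.R308.SanityDegree2
import Claimed.Open.R308.SanityTelAlg

/-!
# Result 308: the map from the sphere spectrum to its telescope

* `IsCollapse.homotopicRel_of_comp`: if `c : I^n → X` induces a bijection `I^n/∂I^n → X` onto a Hausdorff space, two based maps `ψ₀, ψ₁ : X → Y` with
  `ψ₀ ∘ c ≃ ψ₁ ∘ c` relative to the boundary are homotopic relative to the base point;
* `telMap d : S ⟶ S.tel d`: the strict map of spectra with `f_0 = id`, `f_{n+1}[x, r] = bond_n (f_n x) (r)`;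
* `telMap_piMap`: on `π⋆` it is the homomorphism `telHom` of `SanityTelAlg.lean`: a self-map of degree `D` of a sphere multiplies the stable classes by `D`.
-/

set_option autoImplicit false

open scoped unitInterval Topology Topology.Homotopy
open CategoryTheory

noncomputable section

namespace Claimed.Open.R308

/-! ## 1. Homotopies of cubes descend along a collapse map -/

theorem IsCollapse.homotopicRel_of_comp {n : ℕ} {X Y : Type} [TopologicalSpace X] [T2Space X]
    [TopologicalSpace Y] {x₀ : X} {c : Ω^ (Fin n) X x₀} (hc : IsCollapse c) (ψ₀ ψ₁ : C(X, Y))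
    (H : (ψ₀.comp c.1).HomotopicRel (ψ₁.comp c.1) (Cube.boundary (Fin n))) :
    ψ₀.HomotopicRel ψ₁ {x₀} := by
  obtain ⟨H⟩ := H
  let q : C(I × (Fin n → I), I × X) := ⟨fun z => (z.1, c z.2), by fun_prop⟩
  have hq : Topology.IsQuotientMap q := by
    refine IsClosedMap.isQuotientMap q.continuous.isClosedMap q.continuous ?_
    rintro ⟨s, x⟩
    obtain ⟨a, rfl⟩ := hc.surj x
    exact ⟨(s, a), rfl⟩
  have hfac : Function.FactorsThrough H.toContinuousMap q := by
    rintro ⟨s, a⟩ ⟨s', b⟩ h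
    obtain rfl : s = s' := congrArg Prod.fst h
    have hab : c a = c b := congrArg Prod.snd h
    show H (s, a) = H (s, b)
    by_cases ha : c a = x₀
    · have hb : c b = x₀ := hab ▸ ha
      rw [H.eq_fst s (hc.bd a ha), H.eq_fst s (hc.bd b hb)]
      show ψ₀ (c a) = ψ₀ (c b)
      rw [hab]
    · rw [hc.inj a b ha hab]
  have hbar : ∀ s a, hq.lift H.toContinuousMap hfac (s, c a) = H (s, a) := fun s a =>
    congrArg (fun F : C(I × (Fin n → I), Y) => F (s, a)) (hq.lift_comp H.toContinuousMap hfac)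
  refine ⟨{ toFun := hq.lift H.toContinuousMap hfac
            continuous_toFun := (hq.lift H.toContinuousMap hfac).continuous
            map_zero_left := fun x => ?_
            map_one_left := fun x => ?_
            prop' := fun s x hx => ?_ }⟩
  · obtain ⟨a, rfl⟩ := hc.surj x
    rw [hbar, H.apply_zero]
    rfl
  · obtain ⟨a, rfl⟩ := hc.surj x
    rw [hbar, H.apply_one]
    rfl
  · obtain ⟨a, rfl⟩ := hc.surj x
    show hq.lift H.toContinuousMap hfac (s, c a) = ψ₀ (c a)
    rw [hbar, H.eq_fst s (hc.bd a hx)]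
    rfl

/-- Two based maps out of `Σ^{M+1} S⁰` that agree up to homotopy on the fundamental cube agree up to homotopy on all cubes. -/
theorem PtdMap.onLoops_homotopic_of_fundCube {M : ℕ} {B : Ptd}
    (ψ₀ ψ₁ : PtdMap (S0.iterSusp (M + 1)) B)
    (h : GenLoop.Homotopic (ψ₀.onLoops (fundCube (M + 1))) (ψ₁.onLoops (fundCube (M + 1))))
    {N : ℕ} (g : Loops N (S0.iterSusp (M + 1))) :
    GenLoop.Homotopic (ψ₀.onLoops g) (ψ₁.onLoops g) := by
  obtain ⟨H⟩ := (isCollapse_fundCube M).homotopicRel_of_comp ψ₀.toMap ψ₁.toMap h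
  refine ⟨{ toFun := fun z => H (z.1, g z.2)
            continuous_toFun := by fun_prop
            map_zero_left := fun t => ?_
            map_one_left := fun t => ?_
            prop' := fun s t ht => ?_ }⟩
  · show H (0, g t) = ψ₀.toMap (g t)
    rw [H.apply_zero]
  · show H (1, g t) = ψ₁.toMap (g t)
    rw [H.apply_one]
  · show H (s, g t) = ψ₀.toMap (g t)
    exact H.eq_fst s (g.2 t ht)

/-! ## 2. The adjunction between `Σ` and `Ω` -/

theorem LoopMap.apply_eq_pt {A B : Ptd} (φ : LoopMap 1 A B) {x : A × I}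
    (h : x.1 = A.pt ∨ x.2 = 0 ∨ x.2 = 1) : (φ.toMap x.1 fun _ => x.2) = B.pt := by
  rcases h with h | h
  · rw [h, φ.map_pt]
    rfl
  · exact (φ.toMap x.1).2 _ ⟨0, h⟩

/-- The adjoint `Σ A → B`, `[a, r] ↦ φ a r`, of a based map `φ : A → Ω B`. -/
def LoopMap.adj {A B : Ptd} (φ : LoopMap 1 A B) : PtdMap A.susp B where
  toMap := ⟨Quotient.lift (fun x : A × I => φ.toMap x.1 fun _ => x.2) (by
      rintro x y (rfl | ⟨hx, hy⟩)
      · rfl
      · exact (φ.apply_eq_pt hx).trans (φ.apply_eq_pt hy).symm),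
    Continuous.quotient_lift (by fun_prop) _⟩
  map_pt := φ.apply_eq_pt (x := (A.pt, 0)) (Or.inl rfl)

theorem LoopMap.adj_suspUnit {A B : Ptd} (φ : LoopMap 1 A B) (a : A) (r : I^(Fin 1)) :
    φ.adj.toMap ((suspUnit A).toMap a r) = φ.toMap a r := by
  show (φ.toMap a fun _ => r 0) = φ.toMap a r
  congr 1
  funext k
  rw [Subsingleton.elim k 0]

theorem LoopMap.adj_onLoops {A B : Ptd} (φ : LoopMap 1 A B) {N : ℕ} (g : Loops N A) :
    φ.adj.onLoops ((suspUnit A).onLoops g) = φ.onLoops g := by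
  ext t
  exact φ.adj_suspUnit _ _

/-- `φ ∘ f` for a based map `f : A → B` and `φ : B → Ω C`. -/
def LoopMap.precomp {A B C : Ptd} (φ : LoopMap 1 B C) (f : PtdMap A B) : LoopMap 1 A C where
  toMap := φ.toMap.comp f.toMap
  map_pt := by
    show φ.toMap (f.toMap A.pt) = _
    rw [f.map_pt, φ.map_pt]

theorem LoopMap.precomp_onLoops {A B C : Ptd} (φ : LoopMap 1 B C) (f : PtdMap A B) {N : ℕ}
    (g : Loops N A) : (φ.precomp f).onLoops g = φ.onLoops (f.onLoops g) := rfl

/-! ## 3. Classes in Mathlib's homotopy groups -/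

/-- The homomorphism `π_{M+1}(A) → π_{M+2}(B)` induced by `φ : A → Ω B`. -/
def LoopMap.piHom {A B : Ptd} (φ : LoopMap 1 A B) (M : ℕ) :
    HomotopyGroup (Fin (M + 1)) A A.pt →* HomotopyGroup (Fin (M + 1 + 1)) B B.pt where
  toFun := Quotient.map (fun g => φ.onLoops g) fun _ _ h => φ.onLoops_homotopic h
  map_one' := by
    rw [HomotopyGroup.one_def, HomotopyGroup.one_def]
    show hcls (φ.onLoops GenLoop.const) = hcls GenLoop.const
    rw [φ.onLoops_const]
  map_mul' := by
    intro a b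
    induction a using Quotient.inductionOn with
    | h p =>
      induction b using Quotient.inductionOn with
      | h q =>
        show Quotient.map (fun g => φ.onLoops g) _ (hcls p * hcls q) =
          hcls (φ.onLoops p) * hcls (φ.onLoops q)
        rw [hcls_mul 0, hcls_mul (Fin.castAdd 1 0), ← φ.onLoops_transAt]
        rfl

theorem LoopMap.piHom_hcls {A B : Ptd} (φ : LoopMap 1 A B) (M : ℕ) (g : Loops (M + 1) A) :
    φ.piHom M (hcls g) = hcls (φ.onLoops g) := rfl

theorem LoopMap.hcls_npow_onLoops {A B : Ptd} (φ : LoopMap 1 A B) (d : ℕ) {N : ℕ} (g : Loops N A) :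
    hcls ((φ.npow d).onLoops g) = hcls (φ.onLoops g) ^ d := by
  induction d with
  | zero =>
    rw [pow_zero]
    show hcls ((LoopMap.trivial _ _).onLoops g) = 1
    rw [LoopMap.trivial_onLoops, hcls_const]
  | succ d ih =>
    show hcls ((φ.concat (φ.npow d)).onLoops g) = _
    rw [LoopMap.concat_onLoops, ← hcls_mul, ih, pow_succ]

/-! ## 4. A self-map of degree `D` multiplies the stable classes by `D` -/

/-- The bonding maps of the sphere spectrum. -/
def sBond (n : ℕ) : LoopMap 1 (S0.iterSusp n) (S0.iterSusp (n + 1)) := suspUnit (S0.iterSusp n)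

/-- The adjoint `Σ^{n+1} S⁰ → B` of `φ : Σ^n S⁰ → Ω B`. -/
def sAdj {n : ℕ} {B : Ptd} (φ : LoopMap 1 (S0.iterSusp n) B) : PtdMap (S0.iterSusp (n + 1)) B := φ.adj

theorem sAdj_onLoops {n : ℕ} {B : Ptd} (φ : LoopMap 1 (S0.iterSusp n) B) {N : ℕ}
    (g : Loops N (S0.iterSusp n)) : (sAdj φ).onLoops ((sBond n).onLoops g) = φ.onLoops g :=
  φ.adj_onLoops g

theorem fundCube_succ (n : ℕ) : fundCube (n + 1) = (sBond n).onLoops (fundCube n) := rfl

/-- Let `ψ` be a self-map of `Σ^n S⁰` whose suspension has degree `D`.  In `π⋆` of any telescope of the sphere spectrum, `ψ ∘ g` is `D` times `g`. -/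
theorem cls_tel_onLoops_of_degree (d : ℕ → ℕ) (n : ℕ) (ψ : PtdMap (S0.iterSusp n) (S0.iterSusp n))
    (D : ℕ)
    (hψ : hcls ((sBond n).onLoops (ψ.onLoops (fundCube n))) = hcls (fundCube (n + 1)) ^ D)
    {N : ℕ} (g : Loops N (S0.iterSusp n)) :
    (sphereSpectrum.tel d).sys.cls ⟨n, N, ψ.onLoops g⟩ =
      D • (sphereSpectrum.tel d).sys.cls ⟨n, N, g⟩ := by
  -- the two self-maps of `Σ^{n+1} S⁰`
  have h0 : GenLoop.Homotopic ((sAdj ((sBond n).precomp ψ)).onLoops (fundCube (n + 1)))
      ((sAdj ((sBond n).npow D)).onLoops (fundCube (n + 1))) := by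
    have e : hcls ((sAdj ((sBond n).precomp ψ)).onLoops (fundCube (n + 1))) =
        hcls ((sAdj ((sBond n).npow D)).onLoops (fundCube (n + 1))) := by
      rw [fundCube_succ, sAdj_onLoops, sAdj_onLoops, LoopMap.precomp_onLoops, hψ,
        LoopMap.hcls_npow_onLoops, fundCube_succ]
    exact Quotient.exact e
  have h1 := PtdMap.onLoops_homotopic_of_fundCube _ _ h0 ((sBond n).onLoops g)
  rw [sAdj_onLoops, sAdj_onLoops, LoopMap.precomp_onLoops] at h1
  have h2 : (sphereSpectrum.tel d).sys.cls ⟨n + 1, N + 1, (sBond n).onLoops (ψ.onLoops g)⟩ =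
      D • (sphereSpectrum.tel d).sys.cls ⟨n + 1, N + 1, (sBond n).onLoops g⟩ :=
    ((sphereSpectrum.tel d).sys.cls_htpy (i := n + 1) h1).trans
      ((sphereSpectrum.tel d).sys.cls_npow_onLoops (i := n) (i' := n + 1) (sBond n) D g)
  have h3 := sphereSpectrum.tel_cls_stab d n N (ψ.onLoops g)
  have h4 := sphereSpectrum.tel_cls_stab d n N g
  rw [h3, h4, smul_comm D]
  exact congrArg (d n • ·) h2

/-! ## 5. The map `S ⟶ S.tel d` -/

/-- The maps `f_n : Σ^n S⁰ → Σ^n S⁰`: `f_0 = id`, `f_{n+1}[x, r] = bond_n (f_n x) (r)`. -/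
def telMapAux (d : ℕ → ℕ) : ∀ n, PtdMap (S0.iterSusp n) (S0.iterSusp n)
  | 0 => PtdMap.id _
  | n + 1 => sAdj (((sBond n).npow (d n)).precomp (telMapAux d n))

/-- **The map of spectra from the sphere spectrum to its telescope.** -/
def telMap (d : ℕ → ℕ) : sphereSpectrum ⟶ sphereSpectrum.tel d :=
  ⟨telMapAux d, fun n x r =>
    (((suspUnit (S0.iterSusp n)).npow (d n)).precomp (telMapAux d n)).adj_suspUnit x r⟩

theorem telMapAux_degree (d : ℕ → ℕ) : ∀ n,
    hcls ((sBond n).onLoops ((telMapAux d n).onLoops (fundCube n))) =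
      hcls (fundCube (n + 1)) ^ telProd d 0 n
  | 0 => by
    rw [telProd_zero, pow_one]
    rfl
  | n + 1 => by
    have e1 : (telMapAux d (n + 1)).onLoops (fundCube (n + 1)) =
        ((sBond n).npow (d n)).onLoops ((telMapAux d n).onLoops (fundCube n)) := by
      rw [fundCube_succ]
      show (sAdj _).onLoops ((sBond n).onLoops (fundCube n)) = _
      rw [sAdj_onLoops, LoopMap.precomp_onLoops]
    rw [e1, ← LoopMap.piHom_hcls, LoopMap.hcls_npow_onLoops, telMapAux_degree d n, map_pow, map_pow,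
      LoopMap.piHom_hcls, ← pow_mul, telProd_succ, zero_add, ← fundCube_succ]

/-- **On `π⋆`, the map `S ⟶ S.tel d` is the homomorphism `telHom`.** -/
theorem telMap_piMap (d : ℕ → ℕ) :
    Spectrum.Hom.piMap (telMap d) = sphereSpectrum.telHom d := by
  refine StableSystem.hom_ext fun r => ?_
  rw [Spectrum.telHom_cls]
  exact cls_tel_onLoops_of_degree d r.idx (telMapAux d r.idx) _ (telMapAux_degree d r.idx) r.cube

end Claimed.Open.R308
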