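import Claimed.Open.R308.SanityTelLocal

/-!
# Result 308: telescopes and stable equivalences

`SanityTelLocal.lean` constructs the `p`-local sphere spectrum `sphereLoc p` (a telescope of the sphere spectrum `S`) and the map `sphereLocMap p : S ⟶ sphereLoc p`.  Here the
telescopes test the class `stableEquivalences` and the category `SHC` of `Statement.lean`, on non-zero spectra:

* `sphereLoc_not_iso_sphereSpectrum`, `not_stableEquivalences_sphereLocMap`: **non-example**: the map `S ⟶ sphereLoc p`, between non-zero spectra with the same spaces, is not a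
  stable equivalence, and `S` and `sphereLoc p` are not isomorphic in `SHC`;
* `sphereLoc_not_iso_of_ne`: the spectra `sphereLoc p` and `sphereLoc q`, for primes `p ≠ q`, are not isomorphic in `SHC`;
* `stableEquivalences_telMap_one`, `not_injective_telMap_one`, `not_isIso_telMap_one`: **example**: the map `S ⟶ S.tel 1` to the telescope of the constant sequence `1` is a stable
  equivalence, although it is not an isomorphism of spectra (it is not injective on the circle `Σ S⁰`): `stableEquivalences` contains more than the isomorphisms.
-/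

set_option autoImplicit false

open scoped unitInterval
open CategoryTheory

noncomputable section

namespace Claimed.Open.R308

/-! ## 1. Non-examples -/

/-- The sphere spectrum and the `p`-local sphere spectrum are not isomorphic in the stable homotopy category. -/
theorem sphereLoc_not_iso_sphereSpectrum {p : ℕ} (hp : p.Prime) :
    IsEmpty (toSHC.obj sphereSpectrum ≅ toSHC.obj (sphereLoc p)) :=
  ⟨fun e => not_isFinitePLocal_sphereSpectrum hp
    ((isFinitePLocal_sphereLoc hp).of_retract ⟨e.hom, e.inv, e.hom_inv_id⟩)⟩

/-- **Non-example**: the `p`-localisation map `S ⟶ sphereLoc p`, a map between non-zero spectra with the same spaces, is not a stable equivalence. -/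
theorem not_stableEquivalences_sphereLocMap {p : ℕ} (hp : p.Prime) :
    ¬ stableEquivalences (sphereLocMap p) := fun h =>
  haveI := isIso_toSHC_map _ h
  (sphereLoc_not_iso_sphereSpectrum hp).false (asIso (toSHC.map (sphereLocMap p)))

/-- The local sphere spectra at two different primes are not isomorphic in the stable homotopy category. -/
theorem sphereLoc_not_iso_of_ne {p q : ℕ} (hp : p.Prime) (hq : q.Prime) (hne : p ≠ q) :
    IsEmpty (toSHC.obj (sphereLoc p) ≅ toSHC.obj (sphereLoc q)) :=
  ⟨fun e => not_isFinitePLocal_sphereLoc_of_ne hp hq hne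
    ((isFinitePLocal_sphereLoc hq).of_retract ⟨e.hom, e.inv, e.hom_inv_id⟩)⟩

/-! ## 2. An example: a stable equivalence that is not an isomorphism of spectra -/

theorem telProd_one (i m : ℕ) : telProd (fun _ => 1) i m = 1 := by simp [telProd]

theorem eq_one_or_neg_one_of_mem_primeTo_zero {c : ℤ} (hc : c ∈ primeTo 0) : c = 1 ∨ c = -1 := by
  have h : IsCoprime c ((0 : ℕ) : ℤ) := hc
  rw [Nat.cast_zero, isCoprime_zero_right] at h
  exact Int.isUnit_iff.1 h

/-- For the constant sequence `1` the homomorphism `π⋆(X) → π⋆(X.tel 1)`, `[g] ↦ [g]`, is bijective, for every spectrum `X`. -/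
theorem Spectrum.bijective_telHom_one (X : Spectrum) : Function.Bijective (X.telHom fun _ => 1) := by
  have hloc : IsLocalizedModule (primeTo 0) (X.telHom fun _ => 1).toIntLinearMap :=
    isLocalizedModule_telHom X 0 (fun _ => 1) (fun _ => by simp)
      (fun t ht => ⟨0, fun i => by
        rw [telProd_one]
        rcases eq_one_or_neg_one_of_mem_primeTo_zero ht with h | h
        · exact ⟨1, by omega⟩
        · omega⟩)
  constructor
  · intro x y h
    have h' : (X.telHom fun _ => 1).toIntLinearMap x = (X.telHom fun _ => 1).toIntLinearMap y := h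
    obtain ⟨c, hc⟩ := IsLocalizedModule.exists_of_eq (S := primeTo 0) h'
    have hc' : (c : ℤ) • x = (c : ℤ) • y := hc
    rcases eq_one_or_neg_one_of_mem_primeTo_zero c.2 with h1 | h1
    · rwa [h1, one_smul, one_smul] at hc'
    · rw [h1, neg_smul, neg_smul, one_smul, one_smul] at hc'
      exact neg_injective hc'
  · intro y
    obtain ⟨⟨x, c⟩, hx⟩ := IsLocalizedModule.surj (primeTo 0) (X.telHom fun _ => 1).toIntLinearMap y
    have hx' : (c : ℤ) • y = X.telHom (fun _ => 1) x := hx
    rcases eq_one_or_neg_one_of_mem_primeTo_zero c.2 with h1 | h1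
    · rw [h1, one_smul] at hx'
      exact ⟨x, hx'.symm⟩
    · rw [h1, neg_smul, one_smul] at hx'
      exact ⟨-x, by rw [map_neg, ← hx', neg_neg]⟩

/-- **Example**: the map from the sphere spectrum to its telescope for the constant sequence `1` is a stable equivalence. -/
theorem stableEquivalences_telMap_one : stableEquivalences (telMap fun _ => 1) := by
  change IsIso (piFunctor.map (telMap fun _ => 1))
  rw [ConcreteCategory.isIso_iff_bijective]
  have h := sphereSpectrum.bijective_telHom_one
  rw [← telMap_piMap] at h
  exact h

/-- … but on the circle `Σ S⁰` it is the map `[x, r] ↦ [x, 2r]` for `r ≤ 1/2`, `[x, r] ↦ *` for `r ≥ 1/2`, which is not injective. -/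
theorem not_injective_telMap_one :
    ¬ Function.Injective ((telMap fun _ => 1).map 1).toMap := by
  intro hinj
  let τ : I := ⟨3 / 4, by norm_num, by norm_num⟩
  have h1 : ((telMap fun _ => 1).map 1).toMap (degSuspMk (m := 0) (true : Bool) τ) =
      (S0.iterSusp 1).pt := by
    show GenLoop.transAt 0 ((sBond 0).toMap (true : Bool))
      ((LoopMap.trivial (S0.iterSusp 0) (S0.iterSusp 1)).toMap (true : Bool)) (fun _ => τ) = _
    have hτ : ¬ ((τ : ℝ) ≤ 1 / 2) := by
      show ¬ ((3 / 4 : ℝ) ≤ 1 / 2)
      norm_num
    simp only [GenLoop.transAt, GenLoop.coe_copy, if_neg hτ]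
    rfl
  have h2 : degSuspMk (m := 0) (true : Bool) τ = (S0.iterSusp 1).pt :=
    hinj (h1.trans ((telMap fun _ => 1).map 1).map_pt.symm)
  rcases degSuspMk_eq_pt_iff.1 h2 with h | h | h
  · exact Bool.noConfusion h
  · have := congrArg Subtype.val h
    norm_num [τ] at this
  · have := congrArg Subtype.val h
    norm_num [τ] at this

/-- … so it is not an isomorphism of spectra. -/
theorem not_isIso_telMap_one : ¬ IsIso (telMap fun _ => 1) := by
  intro h
  apply not_injective_telMap_one
  intro x y hxy
  have e : (telMap fun _ => 1) ≫ inv (telMap fun _ => 1) = 𝟙 _ := IsIso.hom_inv_id _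
  have e1 : ∀ z, ((inv (telMap fun _ => 1)).map 1).toMap (((telMap fun _ => 1).map 1).toMap z) = z :=
    fun z => congrArg (fun g : sphereSpectrum ⟶ sphereSpectrum => (g.map 1).toMap z) e
  rw [← e1 x, hxy, e1 y]

end Claimed.Open.R308
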