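import Claimed.Open.R308.SanityTelLocal
import Claimed.Open.R308.CompactSanitySpaces

/-!
# Result 308: every suspension spectrum of a compact Hausdorff space has a `p`-localisation

`SanityTelLocal.lean` shows that the telescope of the sphere spectrum is a `p`-localisation.  Here the same for the suspension spectrum of every compact Hausdorff
pointed space `K`, in particular of every finite pointed CW complex:

* `isPLocalization_kTelMap`: **example**: the strict map of spectra `kTelMap K d : Σ^∞ K ⟶ (Σ^∞ K).tel d`, `d n` the prime-to-`p` part of `n!`, is a `p`-localisation;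
* `isFiniteCWSpectrum_suspensionSpectrum`, `isFinitePLocal_tel_suspensionSpectrum`: **example**: for every finite pointed CW complex `K` (Mathlib's `Topology.CWComplex`), `Σ^∞ K` is
  a finite CW spectrum and `(Σ^∞ K)_(p)` is a finite `p`-local spectrum.  So the class `IsFinitePLocal p` contains the `p`-localisations of all these spectra.

**Proof.**  By `isLocalizedModule_telHom` it is enough to see that the maps `f_n : Σ^n K → Σ^n K` of `kTelMap` multiply the classes in `π⋆` of the telescope by `d 0 ⋯ d (n-1)`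
(`cls_tel_kTelMapAux`).  The iterated suspensions of `K` are compact Hausdorff spaces (`t2Space_susp`: Urysohn's lemma).  The pairings `smashPair K m : K × Σ^m S⁰ → Σ^m K` are closed
quotient maps that collapse exactly the wedge, so a homotopy of based self-maps `u_s` of `Σ^m S⁰` induces the homotopy `K ∧ u_s` of self-maps of `Σ^m K` (`SmashPair.homotopicRel`).  The suspension of `f_n` is
`K ∧ (Σ f_n of the sphere)`, and the map that winds the last coordinate is `K ∧ (the same map of the sphere)` (`SmashPair.CompatL.adj`); on the spheres these two are homotopic by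
`SanityTelMap.lean` (`sphere_susp_homotopicRel`).
-/

set_option autoImplicit false

open scoped unitInterval Topology Topology.Homotopy
open CategoryTheory

noncomputable section

namespace Claimed.Open.R308

/-! ## 1. The reduced suspension of a compact Hausdorff space is a compact Hausdorff space -/

theorem isClosed_suspSet (A : Ptd) [T2Space A] : IsClosed (suspSet A) := by
  have h : suspSet A = (Prod.fst ⁻¹' {A.pt}) ∪ ((Prod.snd ⁻¹' {0}) ∪ (Prod.snd ⁻¹' {1})) := by
    ext x
    rfl
  rw [h]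
  exact (isClosed_singleton.preimage continuous_fst).union
    ((isClosed_singleton.preimage continuous_snd).union (isClosed_singleton.preimage continuous_snd))

theorem suspMk_surjective {A : Ptd} (y : A.susp) : ∃ x : A × I, suspMk x = y := by
  induction y using Quotient.inductionOn with
  | h a => exact ⟨a, rfl⟩

theorem suspMk_inj {A : Ptd} {x x' : A × I} (h : suspMk x = suspMk x') (hx : x ∉ suspSet A) :
    x = x' := by
  rcases (Quotient.exact h : (collapseSetoid (suspSet A)).r x x') with h1 | h1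
  · exact h1
  · exact absurd h1.1 hx

theorem t2Space_susp (A : Ptd) [CompactSpace A] [T2Space A] : T2Space A.susp := by
  -- a point outside the collapsed set is separated from every other point by a function
  have key : ∀ x x' : A × I, x ∉ suspSet A → suspMk x ≠ suspMk x' →
      ∃ f : A.susp → ℝ, Continuous f ∧ f (suspMk x) ≠ f (suspMk x') := by
    intro x x' hx hne
    have hxx' : x ≠ x' := fun h => hne (h ▸ rfl)
    have hd : Disjoint (suspSet A ∪ {x'}) {x} := by
      rw [Set.disjoint_singleton_right]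
      rintro (h | h)
      · exact hx h
      · exact hxx' h
    obtain ⟨f, hf0, hf1, -⟩ := exists_continuous_zero_one_of_isClosed
      ((isClosed_suspSet A).union isClosed_singleton) isClosed_singleton hd
    refine ⟨Quotient.lift f ?_, Continuous.quotient_lift f.continuous _, ?_⟩
    · rintro a b (rfl | ⟨ha, hb⟩)
      · rfl
      · rw [hf0 (Or.inl ha), hf0 (Or.inl hb)]
        rfl
    · show f x ≠ f x'
      rw [hf1 rfl, hf0 (Or.inr rfl)]
      simp
  refine ⟨fun y y' hne => ?_⟩
  obtain ⟨x, rfl⟩ := suspMk_surjective y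
  obtain ⟨x', rfl⟩ := suspMk_surjective y'
  by_cases hx : x ∈ suspSet A
  · by_cases hx' : x' ∈ suspSet A
    · exact absurd (((suspMk_eq_pt_iff x).2 hx).trans ((suspMk_eq_pt_iff x').2 hx').symm) hne
    · obtain ⟨f, hf, h⟩ := key x' x hx' hne.symm
      exact separated_by_continuous hf h.symm
  · obtain ⟨f, hf, h⟩ := key x x' hx hne
    exact separated_by_continuous hf h

theorem compact_t2_iterSusp (K : Ptd) [CompactSpace K] [T2Space K] :
    ∀ m, CompactSpace (K.iterSusp m) ∧ T2Space (K.iterSusp m)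
  | 0 => ⟨inferInstanceAs (CompactSpace K), inferInstanceAs (T2Space K)⟩
  | m + 1 => by
    obtain ⟨h1, h2⟩ := compact_t2_iterSusp K m
    exact ⟨inferInstanceAs (CompactSpace (Quotient _)), t2Space_susp (K.iterSusp m)⟩

instance compactSpace_iterSusp (K : Ptd) [CompactSpace K] [T2Space K] (m : ℕ) :
    CompactSpace (K.iterSusp m) := (compact_t2_iterSusp K m).1

theorem t2Space_iterSusp' (K : Ptd) [CompactSpace K] [T2Space K] (m : ℕ) :
    T2Space (K.iterSusp m) := (compact_t2_iterSusp K m).2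

/-! ## 2. The pairings `K × Σ^m S⁰ → Σ^m K` -/

/-- A continuous map `K × A → P` that induces a bijection `K ∧ A → P`. -/
structure SmashPair (K A P : Ptd) where
  /-- the map -/
  toMap : C(K × A, P)
  /-- exactly the wedge goes to the base point -/
  eq_pt_iff : ∀ k x, toMap (k, x) = P.pt ↔ k = K.pt ∨ x = A.pt
  /-- the map is injective off the wedge -/
  inj : ∀ k x k' x', toMap (k, x) ≠ P.pt → toMap (k, x) = toMap (k', x') → k = k' ∧ x = x'
  /-- the map is onto -/
  surj : Function.Surjective toMap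

namespace SmashPair

variable {K A P : Ptd}

section Susp

variable [CompactSpace K] [T2Space K] [CompactSpace A] [T2Space A.susp] (Φ : SmashPair K A P)

/-- `K × (A × I) → K × Σ A`. -/
def suspQ (K A : Ptd) : C(K × (A × I), K × A.susp) :=
  ⟨fun z => (z.1, suspMk z.2), by
    have := (isQuotientMap_suspMk (A := A)).continuous
    fun_prop⟩

omit [T2Space K] [T2Space A.susp] [CompactSpace K] [CompactSpace A] in
theorem suspQ_surjective : Function.Surjective (suspQ K A) := by
  rintro ⟨k, y⟩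
  obtain ⟨x, rfl⟩ := suspMk_surjective y
  exact ⟨(k, x), rfl⟩

theorem isQuotientMap_suspQ : Topology.IsQuotientMap (suspQ K A) :=
  IsClosedMap.isQuotientMap (suspQ K A).continuous.isClosedMap (suspQ K A).continuous
    suspQ_surjective

/-- `K × (A × I) → Σ P`, `(k, (x, r)) ↦ [Φ (k, x), r]`. -/
def suspF : C(K × (A × I), P.susp) :=
  ⟨fun z => suspMk (Φ.toMap (z.1, z.2.1), z.2.2), by
    have := (isQuotientMap_suspMk (A := P)).continuous
    fun_prop⟩

omit [T2Space K] [T2Space A.susp] [CompactSpace K] [CompactSpace A] in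
theorem suspF_eq_pt_iff (k : K) (x : A × I) :
    Φ.suspF (k, x) = P.susp.pt ↔ k = K.pt ∨ x ∈ suspSet A := by
  show suspMk (Φ.toMap (k, x.1), x.2) = P.susp.pt ↔ _
  rw [suspMk_eq_pt_iff]
  show (Φ.toMap (k, x.1) = P.pt ∨ x.2 = 0 ∨ x.2 = 1) ↔ (k = K.pt ∨ x.1 = A.pt ∨ x.2 = 0 ∨ x.2 = 1)
  rw [Φ.eq_pt_iff, or_assoc]

omit [T2Space K] [T2Space A.susp] [CompactSpace K] [CompactSpace A] in
theorem suspF_factors : Function.FactorsThrough Φ.suspF (suspQ K A) := by
  rintro ⟨k, x⟩ ⟨k', x'⟩ h
  obtain rfl : k = k' := congrArg Prod.fst h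
  have h2 : suspMk x = suspMk x' := congrArg Prod.snd h
  by_cases hx : x ∈ suspSet A
  · have hx' : x' ∈ suspSet A := (suspMk_eq_pt_iff x').1 (h2 ▸ (suspMk_eq_pt_iff x).2 hx)
    rw [(Φ.suspF_eq_pt_iff k x).2 (Or.inr hx), (Φ.suspF_eq_pt_iff k x').2 (Or.inr hx')]
  · rw [suspMk_inj h2 hx]

/-- The map `K × Σ A → Σ P`, `(k, [x, r]) ↦ [Φ (k, x), r]`. -/
def suspMap : C(K × A.susp, P.susp) := isQuotientMap_suspQ.lift Φ.suspF Φ.suspF_factors

theorem suspMap_mk (k : K) (x : A × I) :
    Φ.suspMap (k, suspMk x) = suspMk (Φ.toMap (k, x.1), x.2) :=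
  congrArg (fun F : C(K × (A × I), P.susp) => F (k, x))
    (isQuotientMap_suspQ.lift_comp Φ.suspF Φ.suspF_factors)

/-- **The suspension of a pairing.** -/
def susp : SmashPair K A.susp P.susp where
  toMap := Φ.suspMap
  eq_pt_iff k y := by
    obtain ⟨x, rfl⟩ := suspMk_surjective y
    rw [suspMap_mk, suspMk_eq_pt_iff x]
    exact Φ.suspF_eq_pt_iff k x
  inj k y k' y' hne h := by
    obtain ⟨x, rfl⟩ := suspMk_surjective y
    obtain ⟨x', rfl⟩ := suspMk_surjective y'
    rw [suspMap_mk] at hne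
    rw [suspMap_mk, suspMap_mk] at h
    have hn : (Φ.toMap (k, x.1), x.2) ∉ suspSet P := fun h0 => hne ((suspMk_eq_pt_iff _).2 h0)
    have h1 := suspMk_inj h hn
    have h2 : Φ.toMap (k, x.1) = Φ.toMap (k', x'.1) := (Prod.ext_iff.1 h1).1
    have h3 : x.2 = x'.2 := (Prod.ext_iff.1 h1).2
    obtain ⟨h4, h5⟩ := Φ.inj k x.1 k' x'.1 (fun h0 => hn (Or.inl h0)) h2
    exact ⟨h4, congrArg suspMk (Prod.ext h5 h3)⟩
  surj y := by
    obtain ⟨⟨z, r⟩, rfl⟩ := suspMk_surjective y
    obtain ⟨⟨k, x⟩, rfl⟩ := Φ.surj z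
    exact ⟨(k, suspMk (x, r)), Φ.suspMap_mk k (x, r)⟩

theorem susp_mk (k : K) (x : A) (r : I) :
    Φ.susp.toMap (k, suspMk (x, r)) = suspMk (Φ.toMap (k, x), r) := Φ.suspMap_mk k (x, r)

end Susp

/-! ### Homotopies of self-maps of `A` induce homotopies of self-maps of `P = K ∧ A` -/

theorem homotopicRel [CompactSpace K] [CompactSpace A] [T2Space P] (Φ : SmashPair K A P)
    (ψ₀ ψ₁ : C(P, P)) (u₀ u₁ : C(A, A)) (hu : u₀ A.pt = A.pt)
    (h₀ : ∀ k x, ψ₀ (Φ.toMap (k, x)) = Φ.toMap (k, u₀ x))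
    (h₁ : ∀ k x, ψ₁ (Φ.toMap (k, x)) = Φ.toMap (k, u₁ x))
    (H : u₀.HomotopicRel u₁ {A.pt}) : ψ₀.HomotopicRel ψ₁ {P.pt} := by
  obtain ⟨H⟩ := H
  let q : C(I × (K × A), I × P) := ⟨fun z => (z.1, Φ.toMap z.2), by fun_prop⟩
  have hq : Topology.IsQuotientMap q := by
    refine IsClosedMap.isQuotientMap q.continuous.isClosedMap q.continuous ?_
    rintro ⟨s, y⟩
    obtain ⟨z, rfl⟩ := Φ.surj y
    exact ⟨(s, z), rfl⟩
  let G : C(I × (K × A), P) := ⟨fun z => Φ.toMap (z.2.1, H (z.1, z.2.2)), by fun_prop⟩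
  have hpt : ∀ (s : I) (k : K) (x : A), Φ.toMap (k, x) = P.pt → G (s, (k, x)) = P.pt := by
    intro s k x h
    show Φ.toMap (k, H (s, x)) = P.pt
    rcases (Φ.eq_pt_iff k x).1 h with h | h
    · exact (Φ.eq_pt_iff _ _).2 (Or.inl h)
    · refine (Φ.eq_pt_iff _ _).2 (Or.inr ?_)
      rw [h, H.eq_fst s (Set.mem_singleton _)]
      exact hu
  have hfac : Function.FactorsThrough G q := by
    rintro ⟨s, k, x⟩ ⟨s', k', x'⟩ h
    obtain rfl : s = s' := congrArg Prod.fst h
    have h2 : Φ.toMap (k, x) = Φ.toMap (k', x') := congrArg Prod.snd h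
    by_cases hx : Φ.toMap (k, x) = P.pt
    · rw [hpt s k x hx, hpt s k' x' (h2 ▸ hx)]
    · obtain ⟨rfl, rfl⟩ := Φ.inj k x k' x' hx h2
      rfl
  have hbar : ∀ s k x, hq.lift G hfac (s, Φ.toMap (k, x)) = Φ.toMap (k, H (s, x)) := fun s k x =>
    congrArg (fun F : C(I × (K × A), P) => F (s, (k, x))) (hq.lift_comp G hfac)
  refine ⟨{ toFun := hq.lift G hfac
            continuous_toFun := (hq.lift G hfac).continuous
            map_zero_left := fun y => ?_
            map_one_left := fun y => ?_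
            prop' := fun s y hy => ?_ }⟩
  · obtain ⟨⟨k, x⟩, rfl⟩ := Φ.surj y
    rw [hbar, H.apply_zero, h₀]
  · obtain ⟨⟨k, x⟩, rfl⟩ := Φ.surj y
    rw [hbar, H.apply_one, h₁]
  · obtain ⟨⟨k, x⟩, rfl⟩ := Φ.surj y
    show hq.lift G hfac (s, Φ.toMap (k, x)) = ψ₀ (Φ.toMap (k, x))
    rw [hbar, h₀]
    have e1 : Φ.toMap (k, H (s, x)) = P.pt := hpt s k x hy
    rw [e1]
    symm
    rcases (Φ.eq_pt_iff k x).1 hy with h | h
    · exact (Φ.eq_pt_iff _ _).2 (Or.inl h)
    · exact (Φ.eq_pt_iff _ _).2 (Or.inr (by rw [h]; exact hu))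

/-! ### Compatible maps -/

/-- The self-maps `f` of `A` and `g` of `P = K ∧ A` are compatible: `g = K ∧ f`. -/
def CompatM (Φ : SmashPair K A P) (f : PtdMap A A) (g : PtdMap P P) : Prop :=
  ∀ k x, g.toMap (Φ.toMap (k, x)) = Φ.toMap (k, f.toMap x)

section Compat

variable [CompactSpace K] [T2Space K] [CompactSpace A] [T2Space A.susp] (Φ : SmashPair K A P)

/-- The maps `α : A → Ω Σ A` and `β : P → Ω Σ P` are compatible. -/
def CompatL (α : LoopMap 1 A A.susp) (β : LoopMap 1 P P.susp) : Prop :=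
  ∀ k x r, Φ.susp.toMap (k, α.toMap x r) = β.toMap (Φ.toMap (k, x)) r

theorem compatL_suspUnit : Φ.CompatL (suspUnit A) (suspUnit P) := fun k x r => Φ.susp_mk k x (r 0)

variable {Φ}

theorem CompatL.concat {α α' : LoopMap 1 A A.susp} {β β' : LoopMap 1 P P.susp}
    (h : Φ.CompatL α β) (h' : Φ.CompatL α' β') : Φ.CompatL (α.concat α') (β.concat β') := by
  intro k x r
  show Φ.susp.toMap (k, GenLoop.transAt 0 (α.toMap x) (α'.toMap x) r) =
    GenLoop.transAt 0 (β.toMap (Φ.toMap (k, x))) (β'.toMap (Φ.toMap (k, x))) r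
  simp only [GenLoop.transAt, GenLoop.coe_copy]
  split_ifs
  · exact h k x _
  · exact h' k x _

theorem CompatL.npow {α : LoopMap 1 A A.susp} {β : LoopMap 1 P P.susp} (h : Φ.CompatL α β) :
    ∀ e : ℕ, Φ.CompatL (α.npow e) (β.npow e)
  | 0 => fun k _ _ => (Φ.susp.eq_pt_iff k _).2 (Or.inr rfl)
  | e + 1 => h.concat (CompatL.npow h e)

theorem CompatL.precomp {α : LoopMap 1 A A.susp} {β : LoopMap 1 P P.susp} (h : Φ.CompatL α β)
    {f : PtdMap A A} {g : PtdMap P P} (hfg : Φ.CompatM f g) :
    Φ.CompatL (α.precomp f) (β.precomp g) := by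
  intro k x r
  show Φ.susp.toMap (k, α.toMap (f.toMap x) r) = β.toMap (g.toMap (Φ.toMap (k, x))) r
  rw [hfg, h]

theorem CompatL.adj {α : LoopMap 1 A A.susp} {β : LoopMap 1 P P.susp} (h : Φ.CompatL α β) :
    Φ.susp.CompatM α.adj β.adj := by
  intro k y
  obtain ⟨⟨x, r⟩, rfl⟩ := suspMk_surjective y
  rw [Φ.susp_mk]
  exact (h k x fun _ => r).symm

end Compat

end SmashPair

/-! ## 3. The tower of pairings `K × Σ^m S⁰ → Σ^m K` -/

/-- `K × S⁰ → K`. -/
def s0Sel (K : Ptd) (k : K) (b : Bool) : K := if b then k else K.pt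

/-- The pairing `K × S⁰ → K`. -/
def smashPairZero (K : Ptd) : SmashPair K S0 K where
  toMap := ⟨fun z => s0Sel K z.1 z.2, by
    refine continuous_prod_of_discrete_right.2 fun b => ?_
    have hb : ∀ b : Bool, Continuous fun k : K => s0Sel K k b := by
      intro b
      cases b
      · exact continuous_const
      · exact continuous_id
    exact hb b⟩
  eq_pt_iff k x := by
    have hb : ∀ b : Bool, s0Sel K k b = K.pt ↔ k = K.pt ∨ b = false := by
      intro b
      cases b <;> simp [s0Sel]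
    exact hb x
  inj k x k' x' := by
    have hb : ∀ b b' : Bool, s0Sel K k b ≠ K.pt → s0Sel K k b = s0Sel K k' b' → k = k' ∧ b = b' := by
      intro b b'
      cases b <;> cases b' <;> simp [s0Sel]
    exact hb x x'
  surj y := ⟨(y, (true : Bool)), rfl⟩

/-- **The pairings `K × Σ^m S⁰ → Σ^m K`**, `(k, [b; r_1, …, r_m]) ↦ [k·b; r_1, …, r_m]`. -/
def smashPair (K : Ptd) [CompactSpace K] [T2Space K] :
    ∀ m, SmashPair K (S0.iterSusp m) (K.iterSusp m)
  | 0 => smashPairZero K
  | m + 1 =>
    haveI : T2Space (S0.iterSusp m).susp := t2Space_iterSusp (m + 1)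
    (smashPair K m).susp

/-! ## 4. The map from a suspension spectrum to its telescope -/

/-- The bonding maps of the suspension spectrum of `K`. -/
def kBond (K : Ptd) (n : ℕ) : LoopMap 1 (K.iterSusp n) (K.iterSusp (n + 1)) :=
  suspUnit (K.iterSusp n)

/-- The adjoint `Σ^{n+1} K → B` of `φ : Σ^n K → Ω B`. -/
def kAdj {K : Ptd} {n : ℕ} {B : Ptd} (φ : LoopMap 1 (K.iterSusp n) B) :
    PtdMap (K.iterSusp (n + 1)) B := φ.adj

theorem kAdj_onLoops {K : Ptd} {n : ℕ} {B : Ptd} (φ : LoopMap 1 (K.iterSusp n) B) {N : ℕ}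
    (g : Loops N (K.iterSusp n)) : (kAdj φ).onLoops ((kBond K n).onLoops g) = φ.onLoops g :=
  φ.adj_onLoops g

/-- The maps `f_n : Σ^n K → Σ^n K`: `f_0 = id`, `f_{n+1}[x, r] = bond_n (f_n x) (r)`. -/
def kTelMapAux (K : Ptd) (d : ℕ → ℕ) : ∀ n, PtdMap (K.iterSusp n) (K.iterSusp n)
  | 0 => PtdMap.id _
  | n + 1 => kAdj (((kBond K n).npow (d n)).precomp (kTelMapAux K d n))

/-- **The map of spectra from the suspension spectrum of `K` to its telescope.** -/
def kTelMap (K : Ptd) (d : ℕ → ℕ) : suspensionSpectrum K ⟶ (suspensionSpectrum K).tel d :=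
  ⟨kTelMapAux K d, fun n x r =>
    (((suspUnit (K.iterSusp n)).npow (d n)).precomp (kTelMapAux K d n)).adj_suspUnit x r⟩

theorem compatM_telMapAux (K : Ptd) [CompactSpace K] [T2Space K] (d : ℕ → ℕ) :
    ∀ n, (smashPair K n).CompatM (telMapAux d n) (kTelMapAux K d n)
  | 0 => fun _ _ => rfl
  | n + 1 => by
    have : T2Space (S0.iterSusp n).susp := t2Space_iterSusp (n + 1)
    exact (((smashPair K n).compatL_suspUnit.npow (d n)).precomp (compatM_telMapAux K d n)).adj

/-- On the spheres: the suspension of `f_n` is homotopic to the map that winds the last coordinate `d 0 ⋯ d (n-1)` times. -/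
theorem sphere_susp_homotopicRel (d : ℕ → ℕ) (n : ℕ) :
    (sAdj ((sBond n).precomp (telMapAux d n))).toMap.HomotopicRel
      (sAdj ((sBond n).npow (telProd d 0 n))).toMap {(S0.iterSusp (n + 1)).pt} := by
  apply (isCollapse_fundCube n).homotopicRel_of_comp
  have e : hcls ((sAdj ((sBond n).precomp (telMapAux d n))).onLoops (fundCube (n + 1))) =
      hcls ((sAdj ((sBond n).npow (telProd d 0 n))).onLoops (fundCube (n + 1))) := by
    rw [fundCube_succ, sAdj_onLoops, sAdj_onLoops, LoopMap.precomp_onLoops, telMapAux_degree,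
      LoopMap.hcls_npow_onLoops, fundCube_succ]
  exact Quotient.exact e

/-- The same for `Σ^{n+1} K`. -/
theorem susp_homotopicRel (K : Ptd) [CompactSpace K] [T2Space K] (d : ℕ → ℕ) (n : ℕ) :
    (kAdj ((kBond K n).precomp (kTelMapAux K d n))).toMap.HomotopicRel
      (kAdj ((kBond K n).npow (telProd d 0 n))).toMap {(K.iterSusp (n + 1)).pt} := by
  have : T2Space (S0.iterSusp n).susp := t2Space_iterSusp (n + 1)
  have : T2Space (K.iterSusp (n + 1)) := t2Space_iterSusp' K (n + 1)
  refine (smashPair K (n + 1)).homotopicRel _ _ _ _ (PtdMap.map_pt _) ?_ ?_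
    (sphere_susp_homotopicRel d n)
  · exact ((smashPair K n).compatL_suspUnit.precomp (compatM_telMapAux K d n)).adj
  · exact ((smashPair K n).compatL_suspUnit.npow (telProd d 0 n)).adj

theorem PtdMap.onLoops_homotopic_of_homotopicRel {A B : Ptd} (ψ₀ ψ₁ : PtdMap A B)
    (H : ψ₀.toMap.HomotopicRel ψ₁.toMap {A.pt}) {N : ℕ} (g : Loops N A) :
    GenLoop.Homotopic (ψ₀.onLoops g) (ψ₁.onLoops g) := by
  obtain ⟨H⟩ := H
  refine ⟨{ toFun := fun z => H (z.1, g z.2)
            continuous_toFun := by fun_prop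
            map_zero_left := fun t => ?_
            map_one_left := fun t => ?_
            prop' := fun s t ht => ?_ }⟩
  · show H (0, g t) = ψ₀.toMap (g t)
    rw [H.apply_zero]
  · show H (1, g t) = ψ₁.toMap (g t)
    rw [H.apply_one]
  · show H (s, g t) = ψ₀.toMap (g t)
    exact H.eq_fst s (g.2 t ht)

/-- In `π⋆` of the telescope, `f_n ∘ g` is `d 0 ⋯ d (n-1)` times `g`. -/
theorem cls_tel_kTelMapAux (K : Ptd) [CompactSpace K] [T2Space K] (d : ℕ → ℕ) (n : ℕ) {N : ℕ}
    (g : Loops N (K.iterSusp n)) :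
    ((suspensionSpectrum K).tel d).sys.cls ⟨n, N, (kTelMapAux K d n).onLoops g⟩ =
      telProd d 0 n • ((suspensionSpectrum K).tel d).sys.cls ⟨n, N, g⟩ := by
  have h1 := PtdMap.onLoops_homotopic_of_homotopicRel _ _ (susp_homotopicRel K d n)
    ((kBond K n).onLoops g)
  rw [kAdj_onLoops, kAdj_onLoops, LoopMap.precomp_onLoops] at h1
  have h2 : ((suspensionSpectrum K).tel d).sys.cls
        ⟨n + 1, N + 1, (kBond K n).onLoops ((kTelMapAux K d n).onLoops g)⟩ =
      telProd d 0 n • ((suspensionSpectrum K).tel d).sys.cls ⟨n + 1, N + 1, (kBond K n).onLoops g⟩ :=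
    (((suspensionSpectrum K).tel d).sys.cls_htpy (i := n + 1) h1).trans
      (((suspensionSpectrum K).tel d).sys.cls_npow_onLoops (i := n) (i' := n + 1) (kBond K n) _ g)
  have h3 := (suspensionSpectrum K).tel_cls_stab d n N ((kTelMapAux K d n).onLoops g)
  have h4 := (suspensionSpectrum K).tel_cls_stab d n N g
  rw [h3, h4, smul_comm (telProd d 0 n)]
  exact congrArg (d n • ·) h2

/-- **On `π⋆`, the map `Σ^∞ K ⟶ (Σ^∞ K).tel d` is the homomorphism `telHom`.** -/
theorem kTelMap_piMap (K : Ptd) [CompactSpace K] [T2Space K] (d : ℕ → ℕ) :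
    Spectrum.Hom.piMap (kTelMap K d) = (suspensionSpectrum K).telHom d := by
  refine StableSystem.hom_ext fun r => ?_
  rw [Spectrum.telHom_cls]
  exact cls_tel_kTelMapAux K d r.idx r.cube

/-! ## 5. The `p`-localisation of a suspension spectrum -/

/-- **Every suspension spectrum of a compact Hausdorff space has a `p`-localisation.** -/
theorem isPLocalization_kTelMap {p : ℕ} (hp : p.Prime) (K : Ptd) [CompactSpace K] [T2Space K] :
    IsPLocalization p (toSHC.map (kTelMap K (pLocSeq p))) := by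
  refine isPLocalization_toSHC_map p _ ?_
  have h := isLocalizedModule_telHom (suspensionSpectrum K) p (pLocSeq p) (pLocSeq_mem hp)
    (dvd_telProd_pLocSeq hp)
  rw [← kTelMap_piMap] at h
  exact h

/-- The suspension spectrum of a finite CW complex is a finite CW spectrum. -/
theorem isFiniteCWSpectrum_suspensionSpectrum (K : Ptd) [T2Space K]
    [Topology.CWComplex (Set.univ : Set K)] [Topology.CWComplex.Finite (Set.univ : Set K)] :
    IsFiniteCWSpectrum (toSHC.obj (suspensionSpectrum K)) :=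
  ⟨suspensionSpectrum K, 0, K, inferInstance, inferInstance, inferInstance, ⟨Iso.refl _⟩,
    ⟨toSHC.mapIso (suspensionSpectrum K).shiftZero⟩⟩

/-- **Example**: for every finite pointed CW complex `K`, the telescope `(Σ^∞ K)_(p)` is a finite `p`-local spectrum. -/
theorem isFinitePLocal_tel_suspensionSpectrum {p : ℕ} (hp : p.Prime) (K : Ptd) [T2Space K]
    [Topology.CWComplex (Set.univ : Set K)] [Topology.CWComplex.Finite (Set.univ : Set K)] :
    IsFinitePLocal p (toSHC.obj ((suspensionSpectrum K).tel (pLocSeq p))) := by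
  have : CompactSpace K := Compact.compactSpace_of_finite_cw K
  exact ⟨_, _, toSHC.map (kTelMap K (pLocSeq p)), isFiniteCWSpectrum_suspensionSpectrum K,
    isPLocalization_kTelMap hp K, ⟨Retract.refl _⟩⟩

end Claimed.Open.R308
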