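import Claimed.Open.R308.SanityTelescope

/-!
# Result 308: the integers that divide the products `d i ⋯ d (i+m-1)` act invertibly on `π⋆` of the telescope

`telInv`: for `t` with `t ∣ d i ⋯ d (i+m-1)` for all `i`, the homomorphism `π⋆(X.tel d) → π⋆(X.tel d)` that sends the class of a cube `g` of level `i` to
`(d i ⋯ d (i+m-1) / t)` times the class of the `m`-fold stabilisation of `g` along the bonding maps of `X`.  It is inverse to the multiplication by `t`
(`nsmul_telInv`), so that `t` acts invertibly (`isUnit_algebraMap_tel`).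
-/

set_option autoImplicit false

open scoped unitInterval Topology Topology.Homotopy
open CategoryTheory

noncomputable section

namespace Claimed.Open.R308

/-- `d i ⋯ d (i + m - 1)`. -/
def telProd (d : ℕ → ℕ) (i m : ℕ) : ℕ := ∏ k ∈ Finset.range m, d (i + k)

theorem telProd_zero (d : ℕ → ℕ) (i : ℕ) : telProd d i 0 = 1 := by simp [telProd]

theorem telProd_succ (d : ℕ → ℕ) (i m : ℕ) : telProd d i (m + 1) = telProd d i m * d (i + m) := by
  simp [telProd, Finset.prod_range_succ]

theorem telProd_succ' (d : ℕ → ℕ) (i m : ℕ) : telProd d i (m + 1) = d i * telProd d (i + 1) m := by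
  simp only [telProd, Finset.prod_range_succ']
  rw [mul_comm]
  simp only [add_zero]
  congr 1
  refine Finset.prod_congr rfl fun k _ => ?_
  congr 1
  omega

section

variable (X : Spectrum) (d : ℕ → ℕ)

/-- The stabilisation, along the bonding maps of `X`, of a representative of `π⋆(X.tel d)`. -/
def Spectrum.telStab (r : (X.tel d).sys.Rep) : (X.tel d).sys.Rep :=
  ⟨r.idx + 1, r.N + 1, (X.bond r.idx).onLoops r.cube⟩

theorem Spectrum.telStab_iterate_idx (m : ℕ) (r : (X.tel d).sys.Rep) :
    ((X.telStab d)^[m] r).idx = r.idx + m := by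
  induction m with
  | zero => rfl
  | succ m ih =>
    rw [Function.iterate_succ_apply']
    show ((X.telStab d)^[m] r).idx + 1 = _
    rw [ih]
    rfl

theorem Spectrum.tel_cls_telStab (r : (X.tel d).sys.Rep) :
    (X.tel d).sys.cls r = d r.idx • (X.tel d).sys.cls (X.telStab d r) :=
  X.tel_cls_stab d r.idx r.N r.cube

theorem Spectrum.tel_cls_iterate (m : ℕ) (r : (X.tel d).sys.Rep) :
    (X.tel d).sys.cls r = telProd d r.idx m • (X.tel d).sys.cls ((X.telStab d)^[m] r) := by
  induction m with
  | zero => rw [telProd_zero, one_smul]; rfl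
  | succ m ih =>
    rw [Function.iterate_succ_apply', telProd_succ, mul_smul, ← X.telStab_iterate_idx d m r,
      ← X.tel_cls_telStab d, ← ih]

theorem Spectrum.tel_iterate_htpy (m : ℕ) : ∀ (i N : ℕ) (g g' : Loops N (X.space i)),
    GenLoop.Homotopic g g' →
    (X.tel d).sys.cls ((X.telStab d)^[m] ⟨i, N, g⟩) =
      (X.tel d).sys.cls ((X.telStab d)^[m] ⟨i, N, g'⟩) := by
  induction m with
  | zero => exact fun i N g g' h => (X.tel d).sys.cls_htpy (i := i) h
  | succ m ih =>
    intro i N g g' h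
    rw [Function.iterate_succ_apply, Function.iterate_succ_apply]
    exact ih (i + 1) (N + 1) _ _ ((X.bond i).onLoops_homotopic h)

theorem Spectrum.tel_iterate_transAt (m : ℕ) : ∀ (i N : ℕ) (j : Fin N) (g g' : Loops N (X.space i)),
    (X.tel d).sys.cls ((X.telStab d)^[m] ⟨i, N, GenLoop.transAt j g g'⟩) =
      (X.tel d).sys.cls ((X.telStab d)^[m] ⟨i, N, g⟩) +
        (X.tel d).sys.cls ((X.telStab d)^[m] ⟨i, N, g'⟩) := by
  induction m with
  | zero => exact fun i N j g g' => (X.tel d).sys.cls_transAt (i := i) j g g'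
  | succ m ih =>
    intro i N j g g'
    rw [Function.iterate_succ_apply, Function.iterate_succ_apply, Function.iterate_succ_apply]
    have e : X.telStab d ⟨i, N, GenLoop.transAt j g g'⟩ =
        ⟨i + 1, N + 1, GenLoop.transAt (Fin.castAdd 1 j) ((X.bond i).onLoops g)
          ((X.bond i).onLoops g')⟩ := by
      show (⟨i + 1, N + 1, (X.bond i).onLoops (GenLoop.transAt j g g')⟩ : (X.tel d).sys.Rep) = _
      rw [LoopMap.onLoops_transAt]
    rw [e]
    exact ih (i + 1) (N + 1) _ _ _

theorem Spectrum.tel_iterate_const (m i N : ℕ) :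
    (X.tel d).sys.cls ((X.telStab d)^[m] ⟨i, N + 1, GenLoop.const⟩) = 0 := by
  have h := X.tel_iterate_transAt d m i (N + 1) 0 GenLoop.const GenLoop.const
  have e : GenLoop.transAt (0 : Fin (N + 1)) (GenLoop.const : Loops (N + 1) (X.space i))
      GenLoop.const = GenLoop.const := by
    ext t
    simp only [GenLoop.transAt, GenLoop.coe_copy, GenLoop.const_apply, ite_self]
  rw [e] at h
  simpa using h

theorem Spectrum.tel_iterate_npow (m : ℕ) {i i' : ℕ} (φ : LoopMap 1 (X.space i) (X.space i'))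
    (e : ℕ) {N : ℕ} (g : Loops N (X.space i)) :
    (X.tel d).sys.cls ((X.telStab d)^[m] ⟨i', N + 1, (φ.npow e).onLoops g⟩) =
      e • (X.tel d).sys.cls ((X.telStab d)^[m] ⟨i', N + 1, φ.onLoops g⟩) := by
  induction e with
  | zero =>
    rw [zero_smul]
    show (X.tel d).sys.cls ((X.telStab d)^[m] ⟨i', N + 1, (LoopMap.trivial _ _).onLoops g⟩) = 0
    rw [LoopMap.trivial_onLoops]
    exact X.tel_iterate_const d m i' N
  | succ e ih =>
    show (X.tel d).sys.cls ((X.telStab d)^[m] ⟨i', N + 1, (φ.concat (φ.npow e)).onLoops g⟩) = _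
    rw [LoopMap.concat_onLoops, X.tel_iterate_transAt d m i' (N + 1), ih, succ_nsmul, add_comm]

/-- The homomorphism `cls r ↦ a (level of r) • cls (m-fold stabilisation of r)`. -/
def Spectrum.telInv (m : ℕ) (a : ℕ → ℕ) (ha : ∀ i, a i * d (i + m) = d i * a (i + 1)) :
    (X.tel d).sys.PiStar →+ (X.tel d).sys.PiStar :=
  (X.tel d).sys.piLift (fun r => a r.idx • (X.tel d).sys.cls ((X.telStab d)^[m] r))
    (fun i N g g' h => congrArg (a i • ·) (X.tel_iterate_htpy d m i N g g' h))
    (fun i N j g g' => by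
      show a i • _ = a i • _ + a i • _
      rw [X.tel_iterate_transAt d m i N j g g', smul_add])
    (fun _ i N g => by
      show a i • (X.tel d).sys.cls ((X.telStab d)^[m] ⟨i, N, g⟩) = a (i + 1) •
        (X.tel d).sys.cls ((X.telStab d)^[m] ⟨i + 1, N + 1, ((X.bond i).npow (d i)).onLoops g⟩)
      rw [X.tel_iterate_npow d m (X.bond i) (d i) g, X.tel_cls_telStab d ((X.telStab d)^[m] ⟨i, N, g⟩),
        X.telStab_iterate_idx d m, ← Function.iterate_succ_apply' (X.telStab d) m,
        Function.iterate_succ_apply (X.telStab d) m, smul_smul, smul_smul, ha i, mul_comm (d i)]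
      rfl)

theorem Spectrum.telInv_cls (m : ℕ) (a : ℕ → ℕ) (ha) (r : (X.tel d).sys.Rep) :
    X.telInv d m a ha ((X.tel d).sys.cls r) =
      a r.idx • (X.tel d).sys.cls ((X.telStab d)^[m] r) :=
  (X.tel d).sys.piLift_cls _ _ _ _ r

theorem Spectrum.nsmul_telInv (m : ℕ) (a : ℕ → ℕ) (ha) (t : ℕ)
    (ht : ∀ i, t * a i = telProd d i m) (y : (X.tel d).sys.PiStar) :
    t • X.telInv d m a ha y = y := by
  have h : t • X.telInv d m a ha = AddMonoidHom.id _ := by
    refine StableSystem.hom_ext fun r => ?_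
    show t • X.telInv d m a ha ((X.tel d).sys.cls r) = (X.tel d).sys.cls r
    rw [X.telInv_cls, smul_smul, ht, ← X.tel_cls_iterate d m r]
  exact DFunLike.congr_fun h y

/-- If `t` divides all the products `d i ⋯ d (i+m-1)`, then `t` acts invertibly on `π⋆(X.tel d)`. -/
theorem Spectrum.bijective_nsmul_tel (t m : ℕ) (ht : ∀ i, t ∣ telProd d i m) :
    Function.Bijective fun y : (X.tel d).sys.PiStar => t • y := by
  have h1 : ∀ i, t * (telProd d i m / t) = telProd d i m := fun i => Nat.mul_div_cancel' (ht i)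
  have ha : ∀ i, telProd d i m / t * d (i + m) = d i * (telProd d (i + 1) m / t) := by
    intro i
    rcases Nat.eq_zero_or_pos t with rfl | h0
    · simp
    · apply Nat.eq_of_mul_eq_mul_left h0
      rw [← mul_assoc, h1, ← telProd_succ, telProd_succ', mul_left_comm, h1]
  constructor
  · intro y y' h
    have h' : t • y = t • y' := h
    rw [← X.nsmul_telInv d m _ ha t h1 y, ← X.nsmul_telInv d m _ ha t h1 y', ← map_nsmul, ← map_nsmul,
      h']
  · exact fun y => ⟨_, X.nsmul_telInv d m _ ha t h1 y⟩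

end

/-- **The integers prime to `p` act invertibly on `π⋆` of the telescope.** -/
theorem isUnit_algebraMap_tel (X : Spectrum) (p : ℕ) (d : ℕ → ℕ)
    (hd₂ : ∀ t : ℕ, (t : ℤ) ∈ primeTo p → ∃ m, ∀ i, t ∣ telProd d i m) (s : primeTo p) :
    IsUnit (algebraMap ℤ (Module.End ℤ (X.tel d).sys.PiStar) s) := by
  have key : ∀ t : ℕ, (t : ℤ) ∈ primeTo p →
      IsUnit (algebraMap ℤ (Module.End ℤ (X.tel d).sys.PiStar) (t : ℤ)) := by
    intro t ht
    obtain ⟨m, hm⟩ := hd₂ t ht
    rw [Module.End.isUnit_iff]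
    convert X.bijective_nsmul_tel d t m hm using 2 with y
    rw [Module.algebraMap_end_apply, natCast_zsmul]
  rcases Int.natAbs_eq (s : ℤ) with h | h
  · rw [h]
    exact key _ (h ▸ s.2)
  · rw [h, map_neg]
    refine (key _ ?_).neg
    have h2 : IsCoprime (-(s : ℤ)) (p : ℤ) := (IsCoprime.neg_left_iff _ _).2 s.2
    have h3 : ((s : ℤ).natAbs : ℤ) = -(s : ℤ) := by omega
    rw [h3]
    exact h2

end Claimed.Open.R308
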