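import Claimed.Open.R308.SanityNonzero

/-!
# Result 308: the telescope of a spectrum

For a spectrum `X` and a sequence `d : ℕ → ℕ`, the spectrum `X.tel d` has the spaces of `X`, and its `n`-th bonding map
`X_n → Ω X_{n+1}` is the `d n`-th power (concatenation of loops) of the bonding map of `X`.

* `LoopMap.concat`, `LoopMap.npow`: concatenation and powers of based maps `A → Ω B`;
* `StableSystem.cls_npow_onLoops`: the cube `(φ ^ d)(g)` represents `d` times the class of `φ(g)`;
* `Spectrum.tel_cls_stab`: in `π⋆(X.tel d)` a cube of level `i` is `d i` times its stabilisation in `X`.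
-/

set_option autoImplicit false

open scoped unitInterval Topology Topology.Homotopy
open CategoryTheory

noncomputable section

namespace Claimed.Open.R308

/-! ## 1. Concatenation and powers of maps `A → Ω B` -/

/-- The pointwise concatenation of two based maps `A → Ω B`. -/
def LoopMap.concat {A B : Ptd} (φ ψ : LoopMap 1 A B) : LoopMap 1 A B where
  toMap := ⟨fun a => GenLoop.transAt 0 (φ.toMap a) (ψ.toMap a), by
    have h : (fun a => GenLoop.transAt 0 (φ.toMap a) (ψ.toMap a)) = fun a =>
        GenLoop.fromLoop 0 ((GenLoop.toLoop 0 (φ.toMap a)).trans (GenLoop.toLoop 0 (ψ.toMap a))) :=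
      funext fun a => GenLoop.fromLoop_trans_toLoop.symm
    rw [h]
    exact (GenLoop.continuous_fromLoop 0).comp (Path.continuous_trans.comp
      (((GenLoop.continuous_toLoop 0).comp φ.toMap.continuous).prodMk
        ((GenLoop.continuous_toLoop 0).comp ψ.toMap.continuous)))⟩
  map_pt := by
    ext t
    show GenLoop.transAt 0 (φ.toMap A.pt) (ψ.toMap A.pt) t = B.pt
    rw [φ.map_pt, ψ.map_pt]
    simp only [GenLoop.transAt, GenLoop.coe_copy, GenLoop.const_apply, ite_self]

theorem LoopMap.concat_onLoops {A B : Ptd} (φ ψ : LoopMap 1 A B) {N : ℕ} (g : Loops N A) :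
    (φ.concat ψ).onLoops g = GenLoop.transAt (Fin.natAdd N 0) (φ.onLoops g) (ψ.onLoops g) := by
  have h1 : ∀ (t : I^(Fin (N + 1))) (v : I),
      (fun i => Function.update t (Fin.natAdd N 0) v (Fin.castAdd 1 i)) =
        fun i => t (Fin.castAdd 1 i) := by
    intro t v
    funext i
    rw [Function.update_of_ne]
    intro h'
    have := congrArg Fin.val h'
    simp at this
    omega
  have h2 : ∀ (t : I^(Fin (N + 1))) (v : I),
      (fun k : Fin 1 => Function.update t (Fin.natAdd N 0) v (Fin.natAdd N k)) =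
        Function.update (fun k : Fin 1 => t (Fin.natAdd N k)) 0 v := by
    intro t v
    funext k
    obtain rfl : k = 0 := Subsingleton.elim _ _
    simp
  ext t
  simp only [GenLoop.transAt, GenLoop.coe_copy]
  change GenLoop.transAt 0 (φ.toMap (g fun i => t (Fin.castAdd 1 i)))
    (ψ.toMap (g fun i => t (Fin.castAdd 1 i))) (fun k => t (Fin.natAdd N k)) = _
  simp only [GenLoop.transAt, GenLoop.coe_copy]
  split_ifs
  · change _ = φ.toMap (g _) _
    rw [h1, h2]
  · change _ = ψ.toMap (g _) _
    rw [h1, h2]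

/-- The constant based map `A → Ω B`. -/
def LoopMap.trivial (A B : Ptd) : LoopMap 1 A B := ⟨ContinuousMap.const _ GenLoop.const, rfl⟩

theorem LoopMap.trivial_onLoops {A B : Ptd} {N : ℕ} (g : Loops N A) :
    (LoopMap.trivial A B).onLoops g = GenLoop.const := by
  ext t
  rfl

/-- The `d`-th power of a based map `A → Ω B`. -/
def LoopMap.npow {A B : Ptd} (φ : LoopMap 1 A B) : ℕ → LoopMap 1 A B
  | 0 => LoopMap.trivial A B
  | d + 1 => φ.concat (φ.npow d)

/-- The cube `(φ ^ d)(g)` represents `d` times the class of `φ(g)`. -/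
theorem StableSystem.cls_npow_onLoops (S : StableSystem) {i i' : S.Idx}
    (φ : LoopMap 1 (S.space i) (S.space i')) (d : ℕ) {N : ℕ} (g : Loops N (S.space i)) :
    S.cls ⟨i', N + 1, (φ.npow d).onLoops g⟩ = d • S.cls ⟨i', N + 1, φ.onLoops g⟩ := by
  induction d with
  | zero =>
    rw [zero_smul]
    show S.cls ⟨i', N + 1, (LoopMap.trivial _ _).onLoops g⟩ = 0
    rw [LoopMap.trivial_onLoops]
    exact S.cls_const _ _ (Nat.succ_pos N)
  | succ d ih =>
    show S.cls ⟨i', N + 1, (φ.concat (φ.npow d)).onLoops g⟩ = _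
    rw [LoopMap.concat_onLoops, S.cls_transAt, ih, succ_nsmul, add_comm]

/-! ## 2. The telescope -/

/-- **The telescope**: the spaces of `X`, the `n`-th bonding map is the `d n`-th power of the one of `X`. -/
abbrev Spectrum.tel (X : Spectrum) (d : ℕ → ℕ) : Spectrum where
  space := X.space
  bond n := (X.bond n).npow (d n)

/-- In `π⋆(X.tel d)`, a cube of level `i` is `d i` times its stabilisation in `X`. -/
theorem Spectrum.tel_cls_stab (X : Spectrum) (d : ℕ → ℕ) (i N : ℕ) (g : Loops N (X.space i)) :
    (X.tel d).sys.cls ⟨i, N, g⟩ = d i • (X.tel d).sys.cls ⟨i + 1, N + 1, (X.bond i).onLoops g⟩ := by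
  rw [(X.tel d).sys.cls_stab () i g]
  exact (X.tel d).sys.cls_npow_onLoops (i := i) (i' := i + 1) (X.bond i) (d i) g

/-- In `π⋆(X)`, the stabilisation in `X.tel d` of a cube of level `i` is `d i` times that cube. -/
theorem Spectrum.cls_tel_bond (X : Spectrum) (d : ℕ → ℕ) (i N : ℕ) (g : Loops N (X.space i)) :
    X.sys.cls ⟨i + 1, N + 1, ((X.tel d).bond i).onLoops g⟩ = d i • X.sys.cls ⟨i, N, g⟩ := by
  rw [X.sys.cls_stab () i g]
  exact X.sys.cls_npow_onLoops (i := i) (i' := i + 1) (X.bond i) (d i) g

end Claimed.Open.R308
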