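import Claimed.Open.R308.Sanity

/-!
# Result 308: the Thom spaces `MU(n)` are well pointed

`Statement.lean` asks the spaces of the Smith–Toda spectrum to be well pointed
(`Ptd.WellPointed`: the base point is an NDR point).  This file checks that the notion is met by the
spaces the statement itself is built from: **every `MU(n)` is well pointed**.

The point `(W, w)` of `MU(n)` is `(s, s P_W, s w)`, `s = exp (-|w|²)`, and the base point is `0`.
The deformation pushes `w` outwards, `w ↦ √μ w`, `μ = 1 / (1 - t χ(s))`, where `χ = 1` for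
`s ≤ 1/4` and `χ = 0` for `s ≥ 1/2`; the function is `u = min 1 (4 s)`.
-/

set_option autoImplicit false

open scoped unitInterval Topology
open InnerProductSpace

noncomputable section

namespace Claimed.Open.R308

namespace ThomPointed

/-- The cut-off: `1` for `s ≤ 1/4`, `0` for `s ≥ 1/2`. -/
def cut (s : ℝ) : ℝ := max 0 (min 1 (2 - 4 * s))

theorem continuous_cut : Continuous cut := by unfold cut; fun_prop

theorem cut_nonneg (s : ℝ) : 0 ≤ cut s := le_max_left _ _

theorem cut_le_one (s : ℝ) : cut s ≤ 1 := max_le zero_le_one (min_le_left _ _)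

theorem cut_eq_one {s : ℝ} (h : 4 * s < 1) : cut s = 1 := by
  unfold cut
  rw [min_eq_left (by linarith), max_eq_right zero_le_one]

theorem cut_eq_zero {s : ℝ} (h : 1 / 2 ≤ s) : cut s = 0 := by
  unfold cut
  exact max_eq_left ((min_le_right _ _).trans (by linarith))

/-- The push `w ↦ √μ w` in the coordinates of the ambient space. -/
def push {n : ℕ} (μ : ℝ) (x : Amb n) : Amb n :=
  (Real.exp (μ * Real.log x.1),
    ((Real.exp ((μ - 1) * Real.log x.1) : ℝ) : ℂ) • x.2.1,
    ((Real.sqrt μ * Real.exp ((μ - 1) * Real.log x.1) : ℝ) : ℂ) • x.2.2)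

theorem sum_norm_sq_smul {n : ℕ} {μ : ℝ} (hμ : 0 ≤ μ) (c : Fin n → ℂ) :
    ∑ k, ‖((Real.sqrt μ : ℝ) : ℂ) * c k‖ ^ 2 = μ * ∑ k, ‖c k‖ ^ 2 := by
  rw [Finset.mul_sum]
  refine Finset.sum_congr rfl fun k _ => ?_
  rw [norm_mul, Complex.norm_real, Real.norm_eq_abs, abs_of_nonneg (Real.sqrt_nonneg _), mul_pow,
    Real.sq_sqrt hμ]

theorem push_thomPoint {n : ℕ} {μ : ℝ} (hμ : 0 ≤ μ) (e : Fin n → E n) (c : Fin n → ℂ) :
    push μ (thomPoint e c) = thomPoint e (fun k => ((Real.sqrt μ : ℝ) : ℂ) * c k) := by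
  have h1 : ∀ R : ℝ, Real.exp ((μ - 1) * -R) * Real.exp (-R) = Real.exp (-(μ * R)) := by
    intro R
    rw [← Real.exp_add]
    congr 1
    ring
  simp only [push, thomPoint, sum_norm_sq_smul hμ, Real.log_exp, Prod.mk.injEq]
  refine ⟨by congr 1; ring, ?_, ?_⟩
  · rw [smul_smul, ← Complex.ofReal_mul, h1]
  · rw [smul_smul, ← Complex.ofReal_mul, mul_assoc, h1, mul_comm, Complex.ofReal_mul, ← smul_smul,
      Finset.smul_sum]
    simp only [smul_smul]

theorem push_one {n : ℕ} {x : Amb n} (hx : 0 < x.1) : push 1 x = x := by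
  simp [push, Real.exp_log hx]

/-- The size of a point of `MU(n)`. -/
theorem norm_thomPoint_le {n : ℕ} {e : Fin n → E n} (he : Orthonormal ℂ e) (c : Fin n → ℂ) :
    ‖thomPoint e c‖ ≤ (n + 1) * Real.exp (-(∑ k, ‖c k‖ ^ 2) / 2) := by
  set R : ℝ := ∑ k, ‖c k‖ ^ 2 with hR
  have hR0 : 0 ≤ R := Finset.sum_nonneg fun k _ => by positivity
  have hexp : Real.exp (-R) ≤ Real.exp (-R / 2) := Real.exp_le_exp.2 (by linarith)
  have hpos : 0 < Real.exp (-R / 2) := Real.exp_pos _
  have hn : (0 : ℝ) ≤ n := Nat.cast_nonneg n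
  have hc : ‖((Real.exp (-R) : ℝ) : ℂ)‖ = Real.exp (-R) := by
    rw [Complex.norm_real, Real.norm_eq_abs, abs_of_pos (Real.exp_pos _)]
  unfold thomPoint
  rw [← hR, Prod.norm_def, Prod.norm_def]
  refine max_le ?_ (max_le ?_ ?_)
  · rw [Real.norm_eq_abs, abs_of_pos (Real.exp_pos _)]
    nlinarith
  · rw [norm_smul, hc]
    have : ‖∑ k, rankOne ℂ (e k) (e k)‖ ≤ n := by
      refine (norm_sum_le _ _).trans ?_
      simp [he.1]
    calc Real.exp (-R) * ‖∑ k, rankOne ℂ (e k) (e k)‖ ≤ Real.exp (-R / 2) * n := by gcongr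
      _ ≤ (n + 1) * Real.exp (-R / 2) := by nlinarith
  · rw [norm_smul, hc]
    have h2 : ‖∑ k, c k • e k‖ ^ 2 = R := norm_sq_sum_smul' he c
    have h3 : ‖∑ k, c k • e k‖ ≤ Real.exp (R / 2) := by
      have h4 : R ≤ Real.exp (R / 2) ^ 2 := by
        rw [← Real.exp_nat_mul]
        have := Real.add_one_le_exp R
        have h5 : ((2 : ℕ) : ℝ) * (R / 2) = R := by push_cast; ring
        rw [h5]; linarith
      exact abs_le_of_sq_le_sq' (h2 ▸ h4) (Real.exp_pos _).le |>.2
    calc Real.exp (-R) * ‖∑ k, c k • e k‖ ≤ Real.exp (-R) * Real.exp (R / 2) := by gcongr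
      _ = Real.exp (-R / 2) := by rw [← Real.exp_add]; congr 1; ring
      _ ≤ (n + 1) * Real.exp (-R / 2) := by nlinarith

/-! ### The points of `MU(n)` -/

theorem fst_nonneg {n : ℕ} {x : Amb n} (hx : x ∈ MUset n) : 0 ≤ x.1 := by
  rcases hx with rfl | ⟨e, c, -, rfl⟩
  · exact le_rfl
  · exact (Real.exp_pos _).le

theorem eq_zero_of_fst {n : ℕ} {x : Amb n} (hx : x ∈ MUset n) (h : ¬ 0 < x.1) : x = 0 := by
  rcases hx with rfl | ⟨e, c, -, rfl⟩
  · rfl
  · exact absurd (Real.exp_pos _) h

/-! ### The deformation -/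

/-- The deformation, in the coordinates of the ambient space. -/
def defo {n : ℕ} (x : Amb n) (t : ℝ) : Amb n :=
  if 0 < x.1 ∧ t * cut x.1 < 1 then push (1 / (1 - t * cut x.1)) x else 0

theorem mul_cut_le_one {t : ℝ} (h0 : 0 ≤ t) (h1 : t ≤ 1) (s : ℝ) : t * cut s ≤ 1 := by
  have := cut_nonneg s
  have := cut_le_one s
  nlinarith

theorem defo_mem {n : ℕ} {x : Amb n} (hx : x ∈ MUset n) (t : ℝ) : defo x t ∈ MUset n := by
  unfold defo
  split_ifs with h
  · rcases hx with rfl | ⟨e, c, he, rfl⟩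
    · exact absurd h.1 (lt_irrefl _)
    · have hμ : 0 ≤ 1 / (1 - t * cut (thomPoint e c).1) :=
        one_div_nonneg.2 (by linarith [h.2])
      exact Or.inr ⟨e, _, he, push_thomPoint hμ e c⟩
  · exact Or.inl rfl

/-- The bound that makes the deformation continuous at the points that it sends to the base
point. -/
def bd (s t : ℝ) : ℝ := min (Real.sqrt s) (4 * (1 - t * cut s))

theorem continuous_bd : Continuous fun p : ℝ × ℝ => bd p.1 p.2 := by
  have := continuous_cut
  unfold bd
  fun_prop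

theorem bd_nonneg {t : ℝ} (h0 : 0 ≤ t) (h1 : t ≤ 1) (s : ℝ) : 0 ≤ bd s t :=
  le_min (Real.sqrt_nonneg _) (by linarith [mul_cut_le_one h0 h1 s])

theorem norm_defo_le {n : ℕ} {x : Amb n} (hx : x ∈ MUset n) {t : ℝ} (h0 : 0 ≤ t) (h1 : t ≤ 1) :
    ‖defo x t‖ ≤ (n + 1) * bd x.1 t := by
  have hn : (0 : ℝ) ≤ (n : ℝ) + 1 := by positivity
  unfold defo
  split_ifs with h
  · rcases hx with rfl | ⟨e, c, he, rfl⟩
    · exact absurd h.1 (lt_irrefl _)
    · set s : ℝ := (thomPoint e c).1 with hs
      set R : ℝ := ∑ k, ‖c k‖ ^ 2 with hR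
      have hsR : s = Real.exp (-R) := rfl
      have hR0 : 0 ≤ R := Finset.sum_nonneg fun k _ => by positivity
      set d : ℝ := 1 - t * cut s with hd
      have hd0 : 0 < d := by linarith [h.2]
      have hd1 : d ≤ 1 := by
        have := mul_nonneg h0 (cut_nonneg s)
        linarith
      have hμ : 0 ≤ 1 / d := one_div_nonneg.2 hd0.le
      rw [push_thomPoint hμ]
      refine (norm_thomPoint_le he _).trans ?_
      rw [sum_norm_sq_smul hμ, ← hR]
      refine mul_le_mul_of_nonneg_left (le_min ?_ ?_) hn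
      · rw [hsR, ← Real.exp_half]
        refine Real.exp_le_exp.2 ?_
        have : R ≤ 1 / d * R := by
          have : 1 ≤ 1 / d := by rw [le_div_iff₀ hd0]; linarith
          nlinarith
        linarith
      · by_cases hs2 : 1 / 2 ≤ s
        · have : d = 1 := by rw [hd, cut_eq_zero hs2]; ring
          rw [this]
          have : Real.exp (-(1 / 1 * R) / 2) ≤ 1 := Real.exp_le_one_iff.2 (by linarith)
          linarith
        · have hR2 : 1 / 2 < R := by
            have := Real.add_one_le_exp (-R)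
            rw [← hsR] at this
            linarith [not_le.1 hs2]
          set z : ℝ := 1 / d * R / 2 with hz
          have hz1 : 1 ≤ 4 * d * z := by
            have : 4 * d * z = 2 * R := by rw [hz]; field_simp; ring
            linarith
          have hz2 : z ≤ Real.exp z := by linarith [Real.add_one_le_exp z]
          have hz3 : 1 ≤ 4 * d * Real.exp z := by nlinarith
          have : -(1 / d * R) / 2 = -z := by rw [hz]; ring
          rw [this, Real.exp_neg, inv_le_iff_one_le_mul₀ (Real.exp_pos _)]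
          linarith
  · rw [norm_zero]
    exact mul_nonneg hn (bd_nonneg h0 h1 _)

theorem continuousAt_push {n : ℕ} {p : Amb n × ℝ} (h1 : 0 < p.1.1) (h2 : p.2 * cut p.1.1 < 1) :
    ContinuousAt (fun q : Amb n × ℝ => push (1 / (1 - q.2 * cut q.1.1)) q.1) p := by
  have hc := continuous_cut
  have hμ : ContinuousAt (fun q : Amb n × ℝ => 1 / (1 - q.2 * cut q.1.1)) p :=
    ContinuousAt.div continuousAt_const (by fun_prop) (by linarith)
  have hl : ContinuousAt (fun q : Amb n × ℝ => Real.log q.1.1) p :=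
    ContinuousAt.comp (f := fun q : Amb n × ℝ => q.1.1) (Real.continuousAt_log h1.ne')
      (by fun_prop)
  have he : ContinuousAt
      (fun q : Amb n × ℝ => Real.exp ((1 / (1 - q.2 * cut q.1.1) - 1) * Real.log q.1.1)) p :=
    Real.continuous_exp.continuousAt.comp ((hμ.sub continuousAt_const).mul hl)
  unfold push
  refine ContinuousAt.prodMk ?_ (ContinuousAt.prodMk ?_ ?_)
  · exact Real.continuous_exp.continuousAt.comp (hμ.mul hl)
  · exact ContinuousAt.smul (Complex.continuous_ofReal.continuousAt.comp he) (by fun_prop)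
  · exact ContinuousAt.smul (Complex.continuous_ofReal.continuousAt.comp
      ((Real.continuous_sqrt.continuousAt.comp hμ).mul he)) (by fun_prop)

theorem continuous_defo (n : ℕ) : Continuous fun p : MU n × I => defo p.1.1 (p.2 : ℝ) := by
  have hc := continuous_cut
  have hι : Continuous fun p : MU n × I => ((p.1.1, (p.2 : ℝ)) : Amb n × ℝ) :=
    (continuous_subtype_val.comp continuous_fst).prodMk (continuous_subtype_val.comp continuous_snd)
  rw [continuous_iff_continuousAt]
  intro p
  by_cases h : 0 < p.1.1.1 ∧ (p.2 : ℝ) * cut p.1.1.1 < 1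
  · have hopen : IsOpen {q : MU n × I | 0 < q.1.1.1 ∧ (q.2 : ℝ) * cut q.1.1.1 < 1} := by
      have ho1 : IsOpen {q : MU n × I | 0 < q.1.1.1} :=
        isOpen_lt continuous_const (continuous_fst.comp (continuous_fst.comp hι))
      have ho2 : IsOpen {q : MU n × I | (q.2 : ℝ) * cut q.1.1.1 < 1} :=
        isOpen_lt ((continuous_snd.comp hι).mul
          (hc.comp (continuous_fst.comp (continuous_fst.comp hι)))) continuous_const
      exact ho1.inter ho2
    have h3 : ContinuousAt
        (fun q : MU n × I => push (1 / (1 - (q.2 : ℝ) * cut q.1.1.1)) q.1.1) p :=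
      ContinuousAt.comp (f := fun q : MU n × I => ((q.1.1, (q.2 : ℝ)) : Amb n × ℝ))
        (g := fun q : Amb n × ℝ => push (1 / (1 - q.2 * cut q.1.1)) q.1)
        (continuousAt_push h.1 h.2) hι.continuousAt
    refine h3.congr ?_
    filter_upwards [hopen.mem_nhds h] with q hq
    exact (if_pos hq).symm
  · have h0 : defo p.1.1 (p.2 : ℝ) = 0 := if_neg h
    have hb0 : bd p.1.1.1 (p.2 : ℝ) = 0 := by
      have hnn := bd_nonneg p.2.2.1 p.2.2.2 p.1.1.1
      refine le_antisymm ?_ hnn
      by_cases hs : 0 < p.1.1.1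
      · have : ¬ (p.2 : ℝ) * cut p.1.1.1 < 1 := fun h' => h ⟨hs, h'⟩
        exact (min_le_right _ _).trans (by linarith [not_lt.1 this])
      · refine (min_le_left _ _).trans ?_
        rw [Real.sqrt_eq_zero_of_nonpos (not_lt.1 hs)]
    have hb : Filter.Tendsto (fun q : MU n × I => ((n : ℝ) + 1) * bd q.1.1.1 (q.2 : ℝ)) (𝓝 p)
        (𝓝 0) := by
      have h4 : Continuous fun q : MU n × I => ((n : ℝ) + 1) * bd q.1.1.1 (q.2 : ℝ) :=
        continuous_const.mul (continuous_bd.comp
          ((continuous_fst.comp (continuous_fst.comp hι)).prodMk (continuous_snd.comp hι)))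
      have := h4.tendsto p
      simpa [hb0] using this
    have h5 : Filter.Tendsto (fun q : MU n × I => defo q.1.1 (q.2 : ℝ)) (𝓝 p) (𝓝 0) :=
      squeeze_zero_norm (fun q => norm_defo_le q.1.2 q.2.2.1 q.2.2.2) hb
    have h6 : 𝓝 (0 : Amb n) = 𝓝 ((fun q : MU n × I => defo q.1.1 (q.2 : ℝ)) p) :=
      congrArg 𝓝 h0.symm
    exact Filter.Tendsto.mono_right h5 h6.le

end ThomPointed

open ThomPointed in
/-- **Every `MU(n)` is well pointed.** -/
theorem wellPointed_MU (n : ℕ) : (MU n).WellPointed := by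
  refine ⟨⟨fun x => ⟨min 1 (4 * x.1.1), le_min zero_le_one (by linarith [fst_nonneg x.2]),
      min_le_left _ _⟩, ?_⟩,
    ⟨fun p => ⟨defo p.1.1 (p.2 : ℝ), defo_mem p.1.2 _⟩, (continuous_defo n).subtype_mk _⟩,
    ?_, ?_, ?_, ?_⟩
  · refine Continuous.subtype_mk ?_ _
    exact continuous_const.min (continuous_const.mul (continuous_fst.comp continuous_subtype_val))
  · intro a
    constructor
    · intro h
      have h1 : min 1 (4 * a.1.1) = 0 := congrArg Subtype.val h
      have h2 : ¬ 0 < a.1.1 := by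
        intro h3
        have : 0 < min 1 (4 * a.1.1) := lt_min one_pos (by linarith)
        linarith
      exact Subtype.ext (eq_zero_of_fst a.2 h2)
    · rintro rfl
      refine Subtype.ext ?_
      change min 1 (4 * (0 : ℝ)) = 0
      simp
  · intro a
    refine Subtype.ext ?_
    change defo a.1 ((0 : I) : ℝ) = a.1
    unfold defo
    split_ifs with h
    · simp [push_one h.1]
    · refine (eq_zero_of_fst a.2 fun h' => h ⟨h', by simp⟩).symm
  · intro t
    refine Subtype.ext ?_
    change defo (0 : Amb n) (t : ℝ) = 0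
    exact if_neg fun h => lt_irrefl _ h.1
  · intro a ha
    refine Subtype.ext ?_
    change defo a.1 ((1 : I) : ℝ) = 0
    have h1 : min 1 (4 * a.1.1) < 1 := ha
    have h2 : 4 * a.1.1 < 1 := by
      rcases min_lt_iff.1 h1 with h | h
      · exact absurd h (lt_irrefl _)
      · exact h
    refine if_neg fun h => ?_
    rw [cut_eq_one h2] at h
    simp at h

end Claimed.Open.R308
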