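import Mathlib

/-!
# Result 308: finite Smith–Toda complexes at every height

Statement of the two main theorems:

* for every `n` there are a prime `p` and a finite `p`-local spectrum `X` with
  `BP_⋆ X ≅ BP_⋆/(p, v₁, …, v_n)` as graded `BP_⋆BP`-comodules, the generator in degree `0`;
* such a spectrum, `V(4)`, exists at the prime `p = 1009`.

Mathlib has no stable homotopy theory, so everything is built here from topological spaces:
sequential spectra and the stable homotopy category (sections 1-5), the Thom spectrum `MU`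
(sections 6-9), its formal group law (section 10), `BP_⋆`, `BP_⋆BP`, `BP`-homology and its
coaction (sections 11-13) and the statement (section 14).  `CLAIM.md` explains each choice.
-/

set_option autoImplicit false

open scoped unitInterval Topology Topology.Homotopy TensorProduct
open CategoryTheory InnerProductSpace

noncomputable section

namespace Claimed.Open.R308

/-! ## 1. Pointed spaces, loop maps -/

/-- A pointed topological space. -/
structure Ptd where
  /-- the underlying type -/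
  carrier : Type
  /-- its topology -/
  [top : TopologicalSpace carrier]
  /-- the base point -/
  pt : carrier

attribute [instance] Ptd.top

instance Ptd.instCoeSort : CoeSort Ptd Type := ⟨Ptd.carrier⟩

/-- `Loops N A = Ω^N A`: maps `(I^N, ∂I^N) → (A, pt)` (Mathlib's `GenLoop`), with the compact-open
topology. -/
abbrev Loops (N : ℕ) (A : Ptd) : Type := Ω^ (Fin N) A A.pt

/-- A based continuous map `A → B`. -/
structure PtdMap (A B : Ptd) where
  /-- the underlying continuous map -/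
  toMap : C(A, B)
  /-- it preserves the base point -/
  map_pt : toMap A.pt = B.pt

/-- A based continuous map `A → Ω^d B` (the adjoint form of a map `Σ^d A → B`). -/
structure LoopMap (d : ℕ) (A B : Ptd) where
  /-- the underlying continuous map -/
  toMap : C(A, Loops d B)
  /-- the base point goes to the constant loop -/
  map_pt : toMap A.pt = GenLoop.const

/-- Post-composition of an `N`-cube in `A` with a based map `A → B`. -/
def PtdMap.onLoops {A B : Ptd} (f : PtdMap A B) {N : ℕ} (g : Loops N A) : Loops N B :=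
  ⟨f.toMap.comp g.1, fun y hy => by
    simp only [ContinuousMap.comp_apply]
    rw [show g.1 y = A.pt from g.2 y hy, f.map_pt]⟩

/-- An `N`-cube `g` in `A` and a based map `φ : A → Ω^d B` give the `(N+d)`-cube
`(t, r) ↦ φ (g t) r` in `B`; the `d` new coordinates come last. -/
def LoopMap.onLoops {d : ℕ} {A B : Ptd} (φ : LoopMap d A B) {N : ℕ} (g : Loops N A) :
    Loops (N + d) B :=
  ⟨⟨fun t => φ.toMap (g fun i => t (Fin.castAdd d i)) fun j => t (Fin.natAdd N j), by
      fun_prop⟩, by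
    rintro y ⟨i, hi⟩
    change φ.toMap (g fun i => y (Fin.castAdd d i)) (fun j => y (Fin.natAdd N j)) = B.pt
    induction i using Fin.addCases with
    | left i =>
      have : (g fun i => y (Fin.castAdd d i)) = A.pt := g.2 _ ⟨i, hi⟩
      rw [this, φ.map_pt]; rfl
    | right j => exact (φ.toMap _).2 _ ⟨j, hi⟩⟩

/-! ## 2. Stable systems and their stable homotopy groups -/

/-- A *stable system* (a prespectrum, possibly indexed by several integers): pointed spaces
`space i`, and for each "direction" `d` bonding maps `space i → Ω^(dim d) (space (next d i))`.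
`lvl i` is the total dimension of the index `i`. -/
structure StableSystem where
  /-- the indices -/
  Idx : Type
  /-- the spaces -/
  space : Idx → Ptd
  /-- the dimension of an index: a cube of dimension `N` in `space i` has degree `N - lvl i` -/
  lvl : Idx → ℕ
  /-- the directions of stabilisation -/
  Dir : Type
  /-- the next index in a direction -/
  next : Dir → Idx → Idx
  /-- the dimension of the sphere by which a direction suspends -/
  dim : Dir → ℕ
  /-- stabilising raises the dimension of the index by `dim d` -/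
  lvl_next : ∀ d i, lvl (next d i) = lvl i + dim d
  /-- the bonding maps, in adjoint form -/
  bond : ∀ (d : Dir) (i : Idx), LoopMap (dim d) (space i) (space (next d i))

namespace StableSystem

variable (S : StableSystem)

/-- The representatives of stable homotopy classes: an index `i`, a dimension `N`, and a map
`(I^N, ∂I^N) → (space i, pt)`. -/
structure Rep where
  /-- the index `i` -/
  idx : S.Idx
  /-- the dimension `N` of the cube -/
  N : ℕ
  /-- the map `(I^N, ∂I^N) → (space i, pt)` -/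
  cube : Loops N (S.space idx)

/-- The degree `N - lvl i` of a representative. -/
def deg (r : S.Rep) : ℤ := (r.N : ℤ) - (S.lvl r.idx : ℤ)

/-- The defining relations of the stable homotopy groups: homotopy rel boundary, additivity
(the concatenation of cubes along any coordinate represents the sum), stabilisation. -/
inductive Rel : FreeAbelianGroup S.Rep → Prop
  | htpy (i : S.Idx) (N : ℕ) (g g' : Loops N (S.space i)) (h : GenLoop.Homotopic g g') :
      Rel (FreeAbelianGroup.of ⟨i, N, g⟩ - FreeAbelianGroup.of ⟨i, N, g'⟩)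
  | add (i : S.Idx) (N : ℕ) (j : Fin N) (g g' : Loops N (S.space i)) :
      Rel (FreeAbelianGroup.of ⟨i, N, GenLoop.transAt j g g'⟩
        - FreeAbelianGroup.of ⟨i, N, g⟩ - FreeAbelianGroup.of ⟨i, N, g'⟩)
  | stab (d : S.Dir) (i : S.Idx) (N : ℕ) (g : Loops N (S.space i)) :
      Rel (FreeAbelianGroup.of ⟨i, N, g⟩
        - FreeAbelianGroup.of ⟨S.next d i, N + S.dim d, (S.bond d i).onLoops g⟩)

/-- The subgroup generated by the relations. -/
def relSubgroup : AddSubgroup (FreeAbelianGroup S.Rep) := AddSubgroup.closure {x | S.Rel x}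

/-- The total stable homotopy group `π⋆ S = ⨁_k colim_i π_{k + lvl i} (space i)`, presented as the
abelian group generated by all cubes in all the spaces modulo homotopy, additivity and
stabilisation. -/
def PiStar : Type := FreeAbelianGroup S.Rep ⧸ S.relSubgroup

instance instAddCommGroupPiStar : AddCommGroup S.PiStar :=
  inferInstanceAs (AddCommGroup (FreeAbelianGroup S.Rep ⧸ S.relSubgroup))

/-- The stable class of a representative. -/
def cls (r : S.Rep) : S.PiStar := QuotientAddGroup.mk (FreeAbelianGroup.of r)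

/-- The classes of degree `k`: the subgroup `π_k S` of `π⋆ S`. -/
def piDeg (k : ℤ) : AddSubgroup S.PiStar := AddSubgroup.closure {x | ∃ r, S.deg r = k ∧ x = S.cls r}

end StableSystem

/-! ## 3. Spectra and the stable homotopy category -/

/-- A (sequential pre)spectrum of topological spaces: pointed spaces `X_n` and based maps
`X_n → Ω X_{n+1}`. -/
structure Spectrum where
  /-- the spaces -/
  space : ℕ → Ptd
  /-- the bonding maps `X_n → Ω X_{n+1}` -/
  bond : ∀ n, LoopMap 1 (space n) (space (n + 1))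

/-- A spectrum as a stable system. -/
abbrev Spectrum.sys (X : Spectrum) : StableSystem where
  Idx := ℕ
  space := X.space
  lvl n := n
  Dir := Unit
  next _ n := n + 1
  dim _ := 1
  lvl_next _ _ := rfl
  bond _ n := X.bond n

/-- A (strict) map of spectra: based maps `X_n → Y_n` commuting with the bonding maps. -/
@[ext]
structure Spectrum.Hom (X Y : Spectrum) where
  /-- the maps of spaces -/
  map : ∀ n, PtdMap (X.space n) (Y.space n)
  /-- compatibility with the bonding maps -/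
  comm : ∀ (n : ℕ) (x : X.space n) (r : I^(Fin 1)),
    (map (n + 1)).toMap ((X.bond n).toMap x r) = (Y.bond n).toMap ((map n).toMap x) r

/-- The identity based map. -/
def PtdMap.id (A : Ptd) : PtdMap A A := ⟨ContinuousMap.id _, rfl⟩

/-- Composition of based maps. -/
def PtdMap.comp {A B C : Ptd} (g : PtdMap B C) (f : PtdMap A B) : PtdMap A C :=
  ⟨g.toMap.comp f.toMap, by simp [f.map_pt, g.map_pt]⟩

instance Spectrum.instCategory : Category Spectrum where
  Hom := Spectrum.Hom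
  id X := ⟨fun n => PtdMap.id _, fun _ _ _ => rfl⟩
  comp f g := ⟨fun n => (g.map n).comp (f.map n), fun n x r => by
    simp only [PtdMap.comp, ContinuousMap.comp_apply]
    rw [f.comm, g.comm]⟩

/-- The effect of a map of spectra on representatives. -/
def Spectrum.Hom.onRep {X Y : Spectrum} (f : Spectrum.Hom X Y) (r : X.sys.Rep) : Y.sys.Rep :=
  ⟨r.idx, r.N, (f.map r.idx).onLoops r.cube⟩

theorem PtdMap.onLoops_transAt {A B : Ptd} (f : PtdMap A B) {N : ℕ} (j : Fin N)
    (g g' : Loops N A) :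
    f.onLoops (GenLoop.transAt j g g') = GenLoop.transAt j (f.onLoops g) (f.onLoops g') := by
  ext t
  simp only [PtdMap.onLoops, GenLoop.transAt, GenLoop.coe_copy, GenLoop.mk_apply,
    ContinuousMap.comp_apply, GenLoop.coe_coe]
  split_ifs <;> rfl

theorem Spectrum.Hom.rel_le {X Y : Spectrum} (f : Spectrum.Hom X Y) :
    X.sys.relSubgroup ≤ Y.sys.relSubgroup.comap (FreeAbelianGroup.map f.onRep) := by
  refine (AddSubgroup.closure_le _).2 ?_
  rintro x (hx : X.sys.Rel x)
  refine AddSubgroup.subset_closure ?_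
  change Y.sys.Rel _
  cases hx with
  | htpy i N g g' h =>
    rw [map_sub, FreeAbelianGroup.map_of_apply, FreeAbelianGroup.map_of_apply]
    exact .htpy (S := Y.sys) i N ((f.map i).onLoops g) ((f.map i).onLoops g')
      (ContinuousMap.HomotopicRel.comp_continuousMap h (f.map i).toMap)
  | add i N j g g' =>
    rw [map_sub, map_sub, FreeAbelianGroup.map_of_apply, FreeAbelianGroup.map_of_apply,
      FreeAbelianGroup.map_of_apply]
    have := StableSystem.Rel.add (S := Y.sys) i N j ((f.map i).onLoops g) ((f.map i).onLoops g')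
    have e := PtdMap.onLoops_transAt (f.map i) j g g'
    change Y.sys.Rel (FreeAbelianGroup.of ⟨i, N, (f.map i).onLoops (GenLoop.transAt j g g')⟩ -
      FreeAbelianGroup.of ⟨i, N, (f.map i).onLoops g⟩ -
      FreeAbelianGroup.of ⟨i, N, (f.map i).onLoops g'⟩)
    rw [e]
    exact this
  | stab d i N g =>
    rw [map_sub, FreeAbelianGroup.map_of_apply, FreeAbelianGroup.map_of_apply]
    have := StableSystem.Rel.stab (S := Y.sys) d i N ((f.map i).onLoops g)
    have e : (f.map (i + 1)).onLoops ((X.bond i).onLoops g)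
        = (Y.bond i).onLoops ((f.map i).onLoops g) := by
      ext t
      exact f.comm i _ _
    change Y.sys.Rel (FreeAbelianGroup.of ⟨i, N, (f.map i).onLoops g⟩ -
      FreeAbelianGroup.of ⟨i + 1, N + 1, (f.map (i + 1)).onLoops ((X.bond i).onLoops g)⟩)
    rw [e]
    exact this

/-- The homomorphism induced on `π⋆` by a map of spectra. -/
def Spectrum.Hom.piMap {X Y : Spectrum} (f : Spectrum.Hom X Y) : X.sys.PiStar →+ Y.sys.PiStar :=
  QuotientAddGroup.map _ _ (FreeAbelianGroup.map f.onRep) f.rel_le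

/-- Homomorphisms out of `π⋆ S` are determined by their values on representatives. -/
theorem StableSystem.hom_ext {S : StableSystem} {G : Type*} [AddCommGroup G]
    {φ ψ : S.PiStar →+ G} (h : ∀ r, φ (S.cls r) = ψ (S.cls r)) : φ = ψ :=
  QuotientAddGroup.addMonoidHom_ext _ (FreeAbelianGroup.lift_ext _ _ h)

/-- `π⋆` as a functor from spectra (and strict maps) to abelian groups. -/
def piFunctor : Spectrum ⥤ AddCommGrpCat.{0} where
  obj X := AddCommGrpCat.of X.sys.PiStar
  map f := AddCommGrpCat.ofHom (Spectrum.Hom.piMap f)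
  map_id _ := AddCommGrpCat.hom_ext (StableSystem.hom_ext fun _ => rfl)
  map_comp _ _ := AddCommGrpCat.hom_ext (StableSystem.hom_ext fun _ => rfl)

/-- The stable equivalences: the maps of spectra inducing an isomorphism on `π⋆`. -/
def stableEquivalences : MorphismProperty Spectrum :=
  (MorphismProperty.isomorphisms AddCommGrpCat.{0}).inverseImage piFunctor

/-- The stable homotopy category: spectra with the stable equivalences inverted. -/
abbrev SHC : Type 1 := stableEquivalences.Localization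

/-- The localisation functor from spectra to the stable homotopy category. -/
abbrev toSHC : Spectrum ⥤ SHC := stableEquivalences.Q

/-- `π⋆` on the stable homotopy category. -/
def piSHC : SHC ⥤ AddCommGrpCat.{0} :=
  Localization.lift piFunctor
    (show stableEquivalences.IsInvertedBy piFunctor from fun _ _ _ h => h) toSHC

/-! ## 4. Quotients, smash products, suspension spectra -/

/-- The equivalence relation on `X` that collapses the subset `A` to a point. -/
def collapseSetoid {X : Type} (A : Set X) : Setoid X where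
  r x y := x = y ∨ (x ∈ A ∧ y ∈ A)
  iseqv :=
    { refl := fun _ => Or.inl rfl
      symm := by
        rintro x y (h | ⟨h, h'⟩)
        · exact Or.inl h.symm
        · exact Or.inr ⟨h', h⟩
      trans := by
        rintro x y z (rfl | ⟨h, h'⟩) (rfl | ⟨k, k'⟩)
        · exact Or.inl rfl
        · exact Or.inr ⟨k, k'⟩
        · exact Or.inr ⟨h, h'⟩
        · exact Or.inr ⟨h, k'⟩ }

/-- The wedge `A ∨ B` inside `A × B`. -/
def wedgeSet (A B : Ptd) : Set (A × B) := {x | x.1 = A.pt ∨ x.2 = B.pt}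

/-- The smash product `A ∧ B = (A × B) / (A ∨ B)`, with the quotient topology. -/
def Ptd.smash (A B : Ptd) : Ptd where
  carrier := Quotient (collapseSetoid (wedgeSet A B))
  pt := Quotient.mk _ (A.pt, B.pt)

/-- The class of `(a, b)` in `A ∧ B`. -/
def smashMk {A B : Ptd} (x : A × B) : A.smash B := Quotient.mk _ x

theorem continuous_smashMk {A B : Ptd} : Continuous (smashMk (A := A) (B := B)) :=
  continuous_quotient_mk'

theorem smashMk_eq_pt {A B : Ptd} {x : A × B} (h : x ∈ wedgeSet A B) :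
    smashMk x = (A.smash B).pt :=
  Quotient.sound (Or.inr ⟨h, Or.inl rfl⟩)

/-- A continuous map out of `A × B` that is constant on the wedge descends to `A ∧ B`. -/
def smashLift {A B : Ptd} {Z : Type} [TopologicalSpace Z] (F : C(A × B, Z)) (z : Z)
    (hF : ∀ x ∈ wedgeSet A B, F x = z) : C(A.smash B, Z) where
  toFun := Quotient.lift F (by
    rintro x y (rfl | ⟨hx, hy⟩)
    · rfl
    · rw [hF x hx, hF y hy])
  continuous_toFun := Continuous.quotient_lift F.continuous _

/-- `φ : A → Ω^d A'` induces `A ∧ B → Ω^d (A' ∧ B)`, `[a, b] ↦ (r ↦ [φ a r, b])`. -/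
def LoopMap.smashLeft {d : ℕ} {A A' : Ptd} (φ : LoopMap d A A') (B : Ptd) :
    LoopMap d (A.smash B) (A'.smash B) where
  toMap := smashLift (Z := Loops d (A'.smash B))
    ⟨fun x => ⟨ContinuousMap.curry
        ⟨fun y : (A × B) × (I^(Fin d)) => smashMk (φ.toMap y.1.1 y.2, y.1.2),
          continuous_smashMk.comp (by fun_prop)⟩ x,
        fun r hr => smashMk_eq_pt (Or.inl ((φ.toMap x.1).2 r hr))⟩,
      Continuous.subtype_mk (ContinuousMap.continuous _) _⟩
    GenLoop.const (by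
      rintro x (hx | hx)
      · ext r
        refine smashMk_eq_pt (Or.inl ?_)
        change φ.toMap x.1 r = A'.pt
        rw [hx, φ.map_pt]; rfl
      · ext r
        exact smashMk_eq_pt (Or.inr hx))
  map_pt := by
    ext r
    refine smashMk_eq_pt (Or.inr rfl)

/-- `φ : B → Ω^d B'` induces `A ∧ B → Ω^d (A ∧ B')`, `[a, b] ↦ (r ↦ [a, φ b r])`. -/
def LoopMap.smashRight {d : ℕ} {B B' : Ptd} (φ : LoopMap d B B') (A : Ptd) :
    LoopMap d (A.smash B) (A.smash B') where
  toMap := smashLift (Z := Loops d (A.smash B'))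
    ⟨fun x => ⟨ContinuousMap.curry
        ⟨fun y : (A × B) × (I^(Fin d)) => smashMk (y.1.1, φ.toMap y.1.2 y.2),
          continuous_smashMk.comp (by fun_prop)⟩ x,
        fun r hr => smashMk_eq_pt (Or.inr ((φ.toMap x.2).2 r hr))⟩,
      Continuous.subtype_mk (ContinuousMap.continuous _) _⟩
    GenLoop.const (by
      rintro x (hx | hx)
      · ext r
        exact smashMk_eq_pt (Or.inl hx)
      · ext r
        refine smashMk_eq_pt (Or.inr ?_)
        change φ.toMap x.2 r = B'.pt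
        rw [hx, φ.map_pt]; rfl)
  map_pt := by
    ext r
    refine smashMk_eq_pt (Or.inl rfl)

/-- A based map `f : A → A'` induces `f ∧ B : A ∧ B → A' ∧ B`. -/
def PtdMap.smashLeft {A A' : Ptd} (f : PtdMap A A') (B : Ptd) :
    PtdMap (A.smash B) (A'.smash B) where
  toMap := smashLift ⟨fun x => smashMk (f.toMap x.1, x.2), continuous_smashMk.comp (by fun_prop)⟩
    (A'.smash B).pt (by
      rintro x (hx | hx)
      · refine smashMk_eq_pt (Or.inl ?_)
        change f.toMap x.1 = A'.pt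
        rw [hx, f.map_pt]
      · exact smashMk_eq_pt (Or.inr hx))
  map_pt := smashMk_eq_pt (Or.inr rfl)

/-- The reduced suspension `Σ A = (A × I) / (A × {0, 1} ∪ pt × I)`. -/
def Ptd.susp (A : Ptd) : Ptd where
  carrier := Quotient (collapseSetoid {x : A × I | x.1 = A.pt ∨ x.2 = 0 ∨ x.2 = 1})
  pt := Quotient.mk _ (A.pt, 0)

/-- The unit `A → Ω Σ A`, `a ↦ (r ↦ [a, r])`. -/
def suspUnit (A : Ptd) : LoopMap 1 A A.susp where
  toMap :=
    ⟨fun a => ⟨ContinuousMap.curry
        ⟨fun y : A × (I^(Fin 1)) => (Quotient.mk _ (y.1, y.2 0) : A.susp),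
          continuous_quotient_mk'.comp (by fun_prop)⟩ a, by
        rintro r ⟨i, hi⟩
        obtain rfl : i = 0 := Subsingleton.elim _ _
        exact Quotient.sound (Or.inr ⟨Or.inr hi, Or.inl rfl⟩)⟩,
      Continuous.subtype_mk (ContinuousMap.continuous _) _⟩
  map_pt := by
    ext r
    exact Quotient.sound (Or.inr ⟨Or.inl rfl, Or.inl rfl⟩)

/-- The iterated reduced suspension `Σ^n A`. -/
def Ptd.iterSusp (A : Ptd) : ℕ → Ptd
  | 0 => A
  | n + 1 => (A.iterSusp n).susp

/-- The suspension spectrum `Σ^∞ A`, with `n`-th space `Σ^n A`. -/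
def suspensionSpectrum (A : Ptd) : Spectrum where
  space := A.iterSusp
  bond n := suspUnit (A.iterSusp n)

/-- The shifted spectrum `(sh^d X)_n = X_{d+n}`, a model of the `d`-fold suspension `Σ^d X`. -/
def Spectrum.shift (X : Spectrum) (d : ℕ) : Spectrum where
  space n := X.space (d + n)
  bond n := X.bond (d + n)

/-! ## 5. Finite `p`-local spectra -/

/-- `Y` is (isomorphic in the stable homotopy category to) a finite CW spectrum
`Σ^{-d} Σ^∞ K`, `K` a finite pointed CW complex: some suspension `Σ^d Y` is isomorphic to `Σ^∞ K`. -/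
def IsFiniteCWSpectrum (Y : SHC) : Prop :=
  ∃ (X : Spectrum) (d : ℕ) (K : Ptd) (_ : T2Space K)
    (_ : Topology.CWComplex (Set.univ : Set K)),
    Topology.CWComplex.Finite (Set.univ : Set K) ∧ Nonempty (Y ≅ toSHC.obj X) ∧
      Nonempty (toSHC.obj (X.shift d) ≅ toSHC.obj (suspensionSpectrum K))

/-- The integers prime to `p`. -/
def primeTo (p : ℕ) : Submonoid ℤ where
  carrier := {m | IsCoprime m (p : ℤ)}
  one_mem' := isCoprime_one_left
  mul_mem' := fun h h' => IsCoprime.mul_left h h'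

/-- `f : Y ⟶ Z` is a `p`-localisation: it exhibits `π⋆ Z` as `π⋆ Y ⊗ ℤ_(p)`. -/
def IsPLocalization (p : ℕ) {Y Z : SHC} (f : Y ⟶ Z) : Prop :=
  IsLocalizedModule (primeTo p) (piSHC.map f).hom.toIntLinearMap

/-- A finite `p`-local spectrum: a retract (in the stable homotopy category) of the
`p`-localisation of a finite CW spectrum. -/
def IsFinitePLocal (p : ℕ) (X : SHC) : Prop :=
  ∃ (Y Z : SHC) (f : Y ⟶ Z), IsFiniteCWSpectrum Y ∧ IsPLocalization p f ∧ Nonempty (Retract X Z)

/-- The base point of `A` is nondegenerate: `(A, pt)` is an NDR pair. -/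
def Ptd.WellPointed (A : Ptd) : Prop :=
  ∃ (u : C(A, I)) (h : C(A × I, A)), (∀ a, u a = 0 ↔ a = A.pt) ∧ (∀ a, h (a, 0) = a) ∧
    (∀ t, h (A.pt, t) = A.pt) ∧ (∀ a, u a < 1 → h (a, 1) = A.pt)

/-! ## 6. Pairings -/

/-- A based pairing `A × B → C` (it factors through `A ∧ B`). -/
structure Pairing (A B C : Ptd) where
  /-- the underlying continuous map -/
  toMap : C(A × B, C)
  /-- `(pt, b) ↦ pt` -/
  left_pt : ∀ b, toMap (A.pt, b) = C.pt
  /-- `(a, pt) ↦ pt` -/
  right_pt : ∀ a, toMap (a, B.pt) = C.pt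

/-- Multiplication on the right by a cube `f` of `B`: the based map `A → Ω^N C`,
`a ↦ (t ↦ β (a, f t))`. -/
def Pairing.loopRight {A B C : Ptd} (β : Pairing A B C) {N : ℕ} (f : Loops N B) :
    LoopMap N A C where
  toMap :=
    ⟨fun a => ⟨ContinuousMap.curry
        ⟨fun y : A × (I^(Fin N)) => β.toMap (y.1, f y.2), by fun_prop⟩ a, fun t ht => by
        change β.toMap (a, f t) = C.pt
        rw [show f t = B.pt from f.2 t ht, β.right_pt]⟩,
      Continuous.subtype_mk (ContinuousMap.continuous _) _⟩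
  map_pt := by
    ext t
    exact β.left_pt _

/-- Multiplication on the left by a cube `c` of `A`: the based map `B → Ω^N C`,
`b ↦ (t ↦ β (c t, b))`. -/
def Pairing.loopLeft {A B C : Ptd} (β : Pairing A B C) {N : ℕ} (c : Loops N A) :
    LoopMap N B C where
  toMap :=
    ⟨fun b => ⟨ContinuousMap.curry
        ⟨fun y : B × (I^(Fin N)) => β.toMap (c y.2, y.1), by fun_prop⟩ b, fun t ht => by
        change β.toMap (c t, b) = C.pt
        rw [show c t = A.pt from c.2 t ht, β.left_pt]⟩,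
      Continuous.subtype_mk (ContinuousMap.continuous _) _⟩
  map_pt := by
    ext t
    exact β.right_pt _

/-! ## 7. The Thom spaces `MU(n)` -/

/-- The complex Hilbert space `ℓ²(ℕ)`. -/
abbrev Hilb : Type := lp (fun _ : ℕ => ℂ) 2

/-- `E n = ℓ²(ℕ)^n`, the Hilbert space in which the `n`-planes of `MU(n)` live. -/
def E (n : ℕ) : Type := PiLp 2 (fun _ : Fin n => Hilb)

instance E.instNormedAddCommGroup (n : ℕ) : NormedAddCommGroup (E n) :=
  inferInstanceAs (NormedAddCommGroup (PiLp 2 (fun _ : Fin n => Hilb)))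

instance E.instInnerProductSpace (n : ℕ) : InnerProductSpace ℂ (E n) :=
  inferInstanceAs (InnerProductSpace ℂ (PiLp 2 (fun _ : Fin n => Hilb)))

instance E.instCompleteSpace (n : ℕ) : CompleteSpace (E n) :=
  inferInstanceAs (CompleteSpace (PiLp 2 (fun _ : Fin n => Hilb)))

/-- The `i`-th coordinate of a vector of `E n = ℓ²(ℕ)^n`. -/
def E.coord {n : ℕ} (x : E n) (i : Fin n) : Hilb := WithLp.ofLp x i

theorem E.inner_eq {n : ℕ} (x y : E n) : inner ℂ x y = ∑ i, inner ℂ (x.coord i) (y.coord i) :=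
  PiLp.inner_apply (𝕜 := ℂ) (f := fun _ : Fin n => Hilb) x y

/-- The inclusion of the first `m` coordinates `E m → E (m + n)`. -/
def inl (m n : ℕ) : E m →L[ℂ] E (m + n) :=
  ((PiLp.continuousLinearEquiv 2 ℂ (fun _ : Fin (m + n) => Hilb)).symm.toContinuousLinearMap ∘L
    ContinuousLinearMap.pi (fun k => Fin.addCases
      (motive := fun _ => PiLp 2 (fun _ : Fin m => Hilb) →L[ℂ] Hilb)
      (fun i => PiLp.proj 2 (fun _ : Fin m => Hilb) i) (fun _ => 0) k) :
    PiLp 2 (fun _ : Fin m => Hilb) →L[ℂ] PiLp 2 (fun _ : Fin (m + n) => Hilb))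

/-- The inclusion of the last `n` coordinates `E n → E (m + n)`. -/
def inr (m n : ℕ) : E n →L[ℂ] E (m + n) :=
  ((PiLp.continuousLinearEquiv 2 ℂ (fun _ : Fin (m + n) => Hilb)).symm.toContinuousLinearMap ∘L
    ContinuousLinearMap.pi (fun k => Fin.addCases
      (motive := fun _ => PiLp 2 (fun _ : Fin n => Hilb) →L[ℂ] Hilb)
      (fun _ => 0) (fun j => PiLp.proj 2 (fun _ : Fin n => Hilb) j) k) :
    PiLp 2 (fun _ : Fin n => Hilb) →L[ℂ] PiLp 2 (fun _ : Fin (m + n) => Hilb))

@[simp] theorem inl_castAdd (m n : ℕ) (x : E m) (i : Fin m) :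
    (inl m n x).coord (Fin.castAdd n i) = x.coord i := by
  change Fin.addCases (motive := fun _ => PiLp 2 (fun _ : Fin m => Hilb) →L[ℂ] Hilb)
      (fun i => PiLp.proj 2 (fun _ : Fin m => Hilb) i) (fun _ => 0) (Fin.castAdd n i) x = _
  rw [Fin.addCases_left]; rfl

@[simp] theorem inl_natAdd (m n : ℕ) (x : E m) (j : Fin n) :
    (inl m n x).coord (Fin.natAdd m j) = 0 := by
  change Fin.addCases (motive := fun _ => PiLp 2 (fun _ : Fin m => Hilb) →L[ℂ] Hilb)
      (fun i => PiLp.proj 2 (fun _ : Fin m => Hilb) i) (fun _ => 0) (Fin.natAdd m j) x = _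
  rw [Fin.addCases_right]; rfl

@[simp] theorem inr_castAdd (m n : ℕ) (y : E n) (i : Fin m) :
    (inr m n y).coord (Fin.castAdd n i) = 0 := by
  change Fin.addCases (motive := fun _ => PiLp 2 (fun _ : Fin n => Hilb) →L[ℂ] Hilb)
      (fun _ => 0) (fun j => PiLp.proj 2 (fun _ : Fin n => Hilb) j) (Fin.castAdd n i) y = _
  rw [Fin.addCases_left]; rfl

@[simp] theorem inr_natAdd (m n : ℕ) (y : E n) (j : Fin n) :
    (inr m n y).coord (Fin.natAdd m j) = y.coord j := by
  change Fin.addCases (motive := fun _ => PiLp 2 (fun _ : Fin n => Hilb) →L[ℂ] Hilb)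
      (fun _ => 0) (fun j => PiLp.proj 2 (fun _ : Fin n => Hilb) j) (Fin.natAdd m j) y = _
  rw [Fin.addCases_right]; rfl

theorem inner_inl_inl (m n : ℕ) (x x' : E m) : inner ℂ (inl m n x) (inl m n x') = inner ℂ x x' := by
  simp [E.inner_eq, Fin.sum_univ_add]

theorem inner_inr_inr (m n : ℕ) (y y' : E n) : inner ℂ (inr m n y) (inr m n y') = inner ℂ y y' := by
  simp [E.inner_eq, Fin.sum_univ_add]

theorem inner_inl_inr (m n : ℕ) (x : E m) (y : E n) : inner ℂ (inl m n x) (inr m n y) = 0 := by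
  simp [E.inner_eq, Fin.sum_univ_add]

theorem inner_inr_inl (m n : ℕ) (x : E m) (y : E n) : inner ℂ (inr m n y) (inl m n x) = 0 := by
  simp [E.inner_eq, Fin.sum_univ_add]

/-- The ambient normed space of `MU(n)`. -/
abbrev Amb (n : ℕ) : Type := ℝ × (E n →L[ℂ] E n) × E n

/-- The operator `A ⊕ 0` on `E (m + n)`. -/
def opl (m n : ℕ) (A : E m →L[ℂ] E m) : E (m + n) →L[ℂ] E (m + n) :=
  inl m n ∘L A ∘L ContinuousLinearMap.adjoint (inl m n)

/-- The operator `0 ⊕ B` on `E (m + n)`. -/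
def opr (m n : ℕ) (B : E n →L[ℂ] E n) : E (m + n) →L[ℂ] E (m + n) :=
  inr m n ∘L B ∘L ContinuousLinearMap.adjoint (inr m n)

/-- The point of the ambient space attached to an `n`-frame `e` in `E n` and a vector
`w = ∑ c k • e k` of the plane `W` spanned by it: `(s, s • P_W, s • w)`, where `P_W = ∑ |e k⟩⟨e k|` is
the orthogonal projection onto `W` and `s = exp (-|w|²)`. -/
def thomPoint {n : ℕ} (e : Fin n → E n) (c : Fin n → ℂ) : Amb n :=
  (Real.exp (-∑ k, ‖c k‖ ^ 2),
    ((Real.exp (-∑ k, ‖c k‖ ^ 2) : ℝ) : ℂ) • ∑ k, rankOne ℂ (e k) (e k),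
    ((Real.exp (-∑ k, ‖c k‖ ^ 2) : ℝ) : ℂ) • ∑ k, c k • e k)

/-- The underlying set of `MU(n)`. -/
def MUset (n : ℕ) : Set (Amb n) :=
  {x | x = 0 ∨ ∃ (e : Fin n → E n) (c : Fin n → ℂ), Orthonormal ℂ e ∧ x = thomPoint e c}

/-- `MU(n)`: the Thom space of the tautological `n`-plane bundle over the Grassmannian of
`n`-planes `W` in the Hilbert space `E n = ℓ²(ℕ)^n`. The pair `(W, w)`, `w ∈ W`, is the point
`(s, s • P_W, s • w)`, `s = exp (-|w|²)`, of a normed space, and the point at infinity is `0`. -/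
def MU (n : ℕ) : Ptd where
  carrier := MUset n
  pt := ⟨0, Or.inl rfl⟩

/-- The bilinear map of ambient spaces that induces `MU(m) ∧ MU(n) → MU(m + n)`,
`((W, w), (W', w')) ↦ (W ⊕ W', w ⊕ w')`. -/
def ambMul {m n : ℕ} (x : Amb m) (y : Amb n) : Amb (m + n) :=
  (x.1 * y.1, (y.1 : ℂ) • opl m n x.2.1 + (x.1 : ℂ) • opr m n y.2.1,
    (y.1 : ℂ) • inl m n x.2.2 + (x.1 : ℂ) • inr m n y.2.2)

theorem continuous_ambMul {m n : ℕ} :
    Continuous fun z : Amb m × Amb n => ambMul z.1 z.2 := by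
  unfold ambMul opl opr
  fun_prop

theorem opl_rankOne (m n : ℕ) (e : E m) :
    opl m n (rankOne ℂ e e) = rankOne ℂ (inl m n e) (inl m n e) := by
  rw [opl, rankOne_comp, ContinuousLinearMap.adjoint_adjoint, comp_rankOne]

theorem opr_rankOne (m n : ℕ) (e : E n) :
    opr m n (rankOne ℂ e e) = rankOne ℂ (inr m n e) (inr m n e) := by
  rw [opr, rankOne_comp, ContinuousLinearMap.adjoint_adjoint, comp_rankOne]

theorem orthonormal_append {m n : ℕ} {e : Fin m → E m} {e' : Fin n → E n}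
    (he : Orthonormal ℂ e) (he' : Orthonormal ℂ e') :
    Orthonormal ℂ (Fin.append (fun k => inl m n (e k)) (fun k => inr m n (e' k))) := by
  rw [orthonormal_iff_ite] at he he' ⊢
  intro i j
  induction i using Fin.addCases with
  | left i =>
    induction j using Fin.addCases with
    | left j => simp [inner_inl_inl, he i j, Fin.ext_iff]
    | right j =>
      simp only [Fin.append_left, Fin.append_right, inner_inl_inr]
      rw [if_neg]
      intro h
      have := congrArg Fin.val h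
      simp at this
      omega
  | right i =>
    induction j using Fin.addCases with
    | left j =>
      simp only [Fin.append_left, Fin.append_right, inner_inr_inl]
      rw [if_neg]
      intro h
      have := congrArg Fin.val h
      simp at this
      omega
    | right j => simp [inner_inr_inr, he' i j, Fin.ext_iff]

theorem ambMul_thomPoint {m n : ℕ} (e : Fin m → E m) (c : Fin m → ℂ) (e' : Fin n → E n)
    (c' : Fin n → ℂ) :
    ambMul (thomPoint e c) (thomPoint e' c') =
      thomPoint (Fin.append (fun k => inl m n (e k)) (fun k => inr m n (e' k)))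
        (Fin.append c c') := by
  have hs : Real.exp (-(∑ k, ‖c k‖ ^ 2 + ∑ k, ‖c' k‖ ^ 2))
      = Real.exp (-∑ k, ‖c k‖ ^ 2) * Real.exp (-∑ k, ‖c' k‖ ^ 2) := by
    rw [← Real.exp_add]
    ring_nf
  simp only [ambMul, thomPoint, Fin.sum_univ_add, Fin.append_left, Fin.append_right, hs]
  refine Prod.ext rfl (Prod.ext ?_ ?_)
  · simp only [← opl_rankOne, ← opr_rankOne]
    simp only [opl, opr]
    simp only [ContinuousLinearMap.comp_smul, ContinuousLinearMap.smul_comp,
      ContinuousLinearMap.comp_finsetSum, ContinuousLinearMap.finsetSum_comp, smul_smul, smul_add,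
      Complex.ofReal_mul]
    congr 1
    rw [mul_comm]
  · simp only [map_smul, map_sum, smul_smul, smul_add, Complex.ofReal_mul]
    congr 1
    rw [mul_comm]

theorem ambMul_zero_left {m n : ℕ} (y : Amb n) : ambMul (0 : Amb m) y = 0 := by
  simp [ambMul, opl]

theorem ambMul_zero_right {m n : ℕ} (x : Amb m) : ambMul x (0 : Amb n) = 0 := by
  simp [ambMul, opr]

theorem ambMul_mem {m n : ℕ} {x : Amb m} {y : Amb n} (hx : x ∈ MUset m) (hy : y ∈ MUset n) :
    ambMul x y ∈ MUset (m + n) := by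
  rcases hx with rfl | ⟨e, c, he, rfl⟩
  · exact Or.inl (ambMul_zero_left y)
  rcases hy with rfl | ⟨e', c', he', rfl⟩
  · exact Or.inl (ambMul_zero_right _)
  · exact Or.inr ⟨_, _, orthonormal_append he he', ambMul_thomPoint e c e' c'⟩

/-- The product `MU(m) ∧ MU(n) → MU(m + n)` (direct sum of planes and of vectors). -/
def muMul (m n : ℕ) : Pairing (MU m) (MU n) (MU (m + n)) where
  toMap := ⟨fun z => ⟨ambMul z.1.1 z.2.1, ambMul_mem z.1.2 z.2.2⟩,
    Continuous.subtype_mk (continuous_ambMul.comp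
      ((continuous_subtype_val.comp continuous_fst).prodMk
        (continuous_subtype_val.comp continuous_snd))) _⟩
  left_pt _ := Subtype.ext (ambMul_zero_left _)
  right_pt _ := Subtype.ext (ambMul_zero_right _)

/-- Fixing the right variable of a pairing. -/
def Pairing.fixRight {A B C : Ptd} (β : Pairing A B C) (b : B) : PtdMap A C where
  toMap := ⟨fun a => β.toMap (a, b), by fun_prop⟩
  map_pt := β.left_pt b

/-- The unit `1 ∈ MU(0) = S⁰`: the point that is not the base point. -/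
def muOne : MU 0 :=
  ⟨thomPoint (fun k => k.elim0) (fun k => k.elim0),
    Or.inr ⟨_, _, ⟨fun k => k.elim0, fun k => k.elim0⟩, rfl⟩⟩

/-- The first basis vector of `E 1 = ℓ²(ℕ)`. -/
def e₀ : E 1 := WithLp.toLp 2 (fun _ => lp.single 2 0 (1 : ℂ))

theorem orthonormal_e₀ : Orthonormal ℂ (fun _ : Fin 1 => e₀) := by
  rw [orthonormal_iff_ite]
  intro i j
  rw [if_pos (Subsingleton.elim i j), E.inner_eq]
  simp [e₀, E.coord]

/-- `x(r) = 4 r (1 - r)`; it will be `exp (-w(r)²)`. -/
def bump (r : ℝ) : ℝ := 4 * r * (1 - r)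

/-- `u(r) = x(r) * w(r)`, where `w : (0, 1) → ℝ` is the increasing homeomorphism
`w(r) = ± √(- log (4 r (1 - r)))`. -/
def bumpW (r : ℝ) : ℝ :=
  if r ≤ 1 / 2 then -Real.sqrt (bump r * -(bump r * Real.log (bump r)))
  else Real.sqrt (bump r * -(bump r * Real.log (bump r)))

theorem continuous_bump : Continuous bump := by unfold bump; fun_prop

theorem continuous_bumpW : Continuous bumpW := by
  have h : Continuous fun r => Real.sqrt (bump r * -(bump r * Real.log (bump r))) :=
    Real.continuous_sqrt.comp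
      (continuous_bump.mul (Real.continuous_mul_log.comp continuous_bump).neg)
  refine Continuous.if_le h.neg h continuous_id continuous_const ?_
  intro r hr
  have : bump r = 1 := by rw [hr]; norm_num [bump]
  simp [this]

theorem bump_spec (r : I) :
    (bump r = 0 ∧ bumpW r = 0) ∨ ∃ w : ℝ, bump r = Real.exp (-w ^ 2) ∧ bumpW r = bump r * w := by
  have h0 : 0 ≤ bump r := by
    have := r.2.1; have := r.2.2
    unfold bump; nlinarith
  have h1 : bump r ≤ 1 := by
    unfold bump; nlinarith [sq_nonneg ((r : ℝ) - 1 / 2)]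
  rcases h0.eq_or_lt with h | h
  · left
    refine ⟨h.symm, ?_⟩
    simp [bumpW, ← h]
  · right
    have hL : 0 ≤ -Real.log (bump r) := by
      have := Real.log_nonpos h0 h1; linarith
    have hG : Real.sqrt (bump r * -(bump r * Real.log (bump r)))
        = bump r * Real.sqrt (-Real.log (bump r)) := by
      rw [show bump r * -(bump r * Real.log (bump r)) = bump r ^ 2 * (-Real.log (bump r)) by ring,
        Real.sqrt_mul (sq_nonneg _), Real.sqrt_sq h0]
    have hE : bump r = Real.exp (-Real.sqrt (-Real.log (bump r)) ^ 2) := by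
      rw [Real.sq_sqrt hL, neg_neg, Real.exp_log h]
    by_cases hr : (r : ℝ) ≤ 1 / 2
    · refine ⟨-Real.sqrt (-Real.log (bump r)), ?_, ?_⟩
      · rw [neg_sq]; exact hE
      · rw [bumpW, if_pos hr, hG]; ring
    · refine ⟨Real.sqrt (-Real.log (bump r)), hE, ?_⟩
      rw [bumpW, if_neg hr, hG]

/-- The formula for the unit map `I² → MU(1)`. -/
def iotaAmb (r : I^(Fin 2)) : Amb 1 :=
  (bump (r 0) * bump (r 1),
    ((bump (r 0) * bump (r 1) : ℝ) : ℂ) • rankOne ℂ e₀ e₀,
    (((bump (r 1) * bumpW (r 0) : ℝ) : ℂ) + ((bump (r 0) * bumpW (r 1) : ℝ) : ℂ) * Complex.I) • e₀)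

theorem iotaAmb_mem (r : I^(Fin 2)) : iotaAmb r ∈ MUset 1 := by
  rcases bump_spec (r 0) with ⟨h0, h0'⟩ | ⟨w0, h0, h0'⟩
  · left; simp [iotaAmb, h0, h0']
  rcases bump_spec (r 1) with ⟨h1, h1'⟩ | ⟨w1, h1, h1'⟩
  · left; simp [iotaAmb, h1, h1']
  right
  refine ⟨fun _ => e₀, fun _ => (w0 : ℂ) + (w1 : ℂ) * Complex.I, orthonormal_e₀, ?_⟩
  have hn : ‖(w0 : ℂ) + (w1 : ℂ) * Complex.I‖ ^ 2 = w0 ^ 2 + w1 ^ 2 := by
    rw [← Complex.normSq_eq_norm_sq, Complex.normSq_add_mul_I]
  have hs : Real.exp (-(w0 ^ 2 + w1 ^ 2)) = bump (r 0) * bump (r 1) := by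
    rw [h0, h1, ← Real.exp_add]; ring_nf
  simp only [iotaAmb, thomPoint, Finset.univ_unique, Finset.sum_singleton, hn, hs]
  refine Prod.ext rfl (Prod.ext rfl ?_)
  simp only [smul_smul]
  congr 1
  rw [h0', h1']
  push_cast
  ring

theorem iotaAmb_boundary (r : I^(Fin 2)) (hr : r ∈ Cube.boundary (Fin 2)) : iotaAmb r = 0 := by
  obtain ⟨i, hi⟩ := hr
  have hb : bump (r i) = 0 := by
    rcases hi with h | h <;> simp [bump, h]
  have hw : bumpW (r i) = 0 := by simp [bumpW, hb]
  fin_cases i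
  · simp only [Fin.zero_eta] at hb hw
    simp [iotaAmb, hb, hw]
  · simp only [Fin.mk_one] at hb hw
    simp [iotaAmb, hb, hw]

theorem continuous_iotaAmb : Continuous iotaAmb := by
  have c0 : Continuous fun r : I^(Fin 2) => bump (r 0) :=
    continuous_bump.comp (continuous_subtype_val.comp (continuous_apply 0))
  have c1 : Continuous fun r : I^(Fin 2) => bump (r 1) :=
    continuous_bump.comp (continuous_subtype_val.comp (continuous_apply 1))
  have d0 : Continuous fun r : I^(Fin 2) => bumpW (r 0) :=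
    continuous_bumpW.comp (continuous_subtype_val.comp (continuous_apply 0))
  have d1 : Continuous fun r : I^(Fin 2) => bumpW (r 1) :=
    continuous_bumpW.comp (continuous_subtype_val.comp (continuous_apply 1))
  unfold iotaAmb
  fun_prop

/-- The unit `ι : S² = I²/∂I² → MU(1)`: the inclusion of the compactified fibre `ℂ e₀ ∪ ∞` of the
tautological line bundle over the point `ℂ e₀`; `(r₀, r₁) ↦ (ℂ e₀, (w(r₀) + i w(r₁)) e₀)`. -/
def muIota : Loops 2 (MU 1) :=
  ⟨⟨fun r => ⟨iotaAmb r, iotaAmb_mem r⟩, Continuous.subtype_mk continuous_iotaAmb _⟩,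
    fun r hr => Subtype.ext (iotaAmb_boundary r hr)⟩

/-! ## 8. The Thom spaces `MU(a) ∧ MU(b)` -/

/-- The ambient normed space of `MU(a) ∧ MU(b)`. -/
abbrev Amb2 (a b : ℕ) : Type := ℝ × ((E a →L[ℂ] E a) × E a) × ((E b →L[ℂ] E b) × E b)

/-- The bilinear map of ambient spaces inducing `MU(a) × MU(b) → MU(a) ∧ MU(b)`. -/
def ambPair {a b : ℕ} (x : Amb a) (y : Amb b) : Amb2 a b :=
  (x.1 * y.1, ((y.1 : ℂ) • x.2.1, (y.1 : ℂ) • x.2.2), ((x.1 : ℂ) • y.2.1, (x.1 : ℂ) • y.2.2))

theorem ambPair_zero_left {a b : ℕ} (y : Amb b) : ambPair (0 : Amb a) y = 0 := by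
  simp [ambPair]

theorem ambPair_zero_right {a b : ℕ} (x : Amb a) : ambPair x (0 : Amb b) = 0 := by
  simp [ambPair]

/-- The underlying set of `MU(a) ∧ MU(b)`. -/
def MU2set (a b : ℕ) : Set (Amb2 a b) := {z | ∃ x ∈ MUset a, ∃ y ∈ MUset b, z = ambPair x y}

/-- `MU(a) ∧ MU(b)`, as the Thom space of the external product of the two tautological bundles:
the point `((W, w), (W', w'))` is `(s, s • P_W, s • w, s • P_W', s • w')` with
`s = exp (-|w|² - |w'|²)`, and the point at infinity is `0`. -/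
def MU2 (a b : ℕ) : Ptd where
  carrier := MU2set a b
  pt := ⟨0, 0, Or.inl rfl, 0, Or.inl rfl, (ambPair_zero_left 0).symm⟩

theorem continuous_ambPair {a b : ℕ} : Continuous fun z : Amb a × Amb b => ambPair z.1 z.2 := by
  unfold ambPair
  fun_prop

/-- The canonical pairing `MU(a) × MU(b) → MU(a) ∧ MU(b)`. -/
def mu2Pair (a b : ℕ) : Pairing (MU a) (MU b) (MU2 a b) where
  toMap := ⟨fun z => ⟨ambPair z.1.1 z.2.1, z.1.1, z.1.2, z.2.1, z.2.2, rfl⟩,
    Continuous.subtype_mk (continuous_ambPair.comp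
      ((continuous_subtype_val.comp continuous_fst).prodMk
        (continuous_subtype_val.comp continuous_snd))) _⟩
  left_pt y := Subtype.ext (ambPair_zero_left y.1)
  right_pt x := Subtype.ext (ambPair_zero_right x.1)

/-- Formula for the multiplication of the first factor of `MU(a) ∧ MU(b)` by `MU(m)`. -/
def amb2MulFst {a b m : ℕ} (z : Amb2 a b) (g : Amb m) : Amb2 (a + m) b :=
  (z.1 * g.1,
    ((g.1 : ℂ) • opl a m z.2.1.1 + (z.1 : ℂ) • opr a m g.2.1,
      (g.1 : ℂ) • inl a m z.2.1.2 + (z.1 : ℂ) • inr a m g.2.2),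
    ((g.1 : ℂ) • z.2.2.1, (g.1 : ℂ) • z.2.2.2))

/-- Formula for the multiplication of the second factor of `MU(a) ∧ MU(b)` by `MU(m)`. -/
def amb2MulSnd {a b m : ℕ} (z : Amb2 a b) (g : Amb m) : Amb2 a (b + m) :=
  (z.1 * g.1,
    ((g.1 : ℂ) • z.2.1.1, (g.1 : ℂ) • z.2.1.2),
    ((g.1 : ℂ) • opl b m z.2.2.1 + (z.1 : ℂ) • opr b m g.2.1,
      (g.1 : ℂ) • inl b m z.2.2.2 + (z.1 : ℂ) • inr b m g.2.2))

theorem opl_smul (m n : ℕ) (c : ℂ) (A : E m →L[ℂ] E m) : opl m n (c • A) = c • opl m n A := by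
  simp [opl, ContinuousLinearMap.smul_comp]

theorem amb2MulFst_ambPair {a b m : ℕ} (x : Amb a) (y : Amb b) (g : Amb m) :
    amb2MulFst (ambPair x y) g = ambPair (ambMul x g) y := by
  simp only [amb2MulFst, ambPair, ambMul, opl_smul, map_smul, Complex.ofReal_mul]
  refine Prod.ext (by simp only []; ring) (Prod.ext (Prod.ext ?_ ?_) (Prod.ext ?_ ?_)) <;>
    simp only [] <;> module

theorem amb2MulSnd_ambPair {a b m : ℕ} (x : Amb a) (y : Amb b) (g : Amb m) :
    amb2MulSnd (ambPair x y) g = ambPair x (ambMul y g) := by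
  simp only [amb2MulSnd, ambPair, ambMul, opl_smul, map_smul, Complex.ofReal_mul]
  refine Prod.ext (by simp only []; ring) (Prod.ext (Prod.ext ?_ ?_) (Prod.ext ?_ ?_)) <;>
    simp only [] <;> module

theorem continuous_amb2MulFst {a b m : ℕ} :
    Continuous fun z : Amb2 a b × Amb m => amb2MulFst z.1 z.2 := by
  unfold amb2MulFst opl opr
  fun_prop

theorem continuous_amb2MulSnd {a b m : ℕ} :
    Continuous fun z : Amb2 a b × Amb m => amb2MulSnd z.1 z.2 := by
  unfold amb2MulSnd opl opr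
  fun_prop

theorem amb2MulFst_mem {a b m : ℕ} {z : Amb2 a b} {g : Amb m} (hz : z ∈ MU2set a b)
    (hg : g ∈ MUset m) : amb2MulFst z g ∈ MU2set (a + m) b := by
  obtain ⟨x, hx, y, hy, rfl⟩ := hz
  exact ⟨_, ambMul_mem hx hg, y, hy, amb2MulFst_ambPair x y g⟩

theorem amb2MulSnd_mem {a b m : ℕ} {z : Amb2 a b} {g : Amb m} (hz : z ∈ MU2set a b)
    (hg : g ∈ MUset m) : amb2MulSnd z g ∈ MU2set a (b + m) := by
  obtain ⟨x, hx, y, hy, rfl⟩ := hz
  exact ⟨x, hx, _, ambMul_mem hy hg, amb2MulSnd_ambPair x y g⟩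

/-- `(MU(a) ∧ MU(b)) ∧ MU(m) → MU(a + m) ∧ MU(b)`, `(x, y, g) ↦ (x g, y)`. -/
def mu2MulFst (a b m : ℕ) : Pairing (MU2 a b) (MU m) (MU2 (a + m) b) where
  toMap := ⟨fun z => ⟨amb2MulFst z.1.1 z.2.1, amb2MulFst_mem z.1.2 z.2.2⟩,
    Continuous.subtype_mk (continuous_amb2MulFst.comp
      ((continuous_subtype_val.comp continuous_fst).prodMk
        (continuous_subtype_val.comp continuous_snd))) _⟩
  left_pt g := Subtype.ext (by
    change amb2MulFst (0 : Amb2 a b) g.1 = 0
    rw [← ambPair_zero_left (0 : Amb b), amb2MulFst_ambPair, ambMul_zero_left,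
      ambPair_zero_left])
  right_pt z := Subtype.ext (by
    change amb2MulFst z.1 (0 : Amb m) = 0
    obtain ⟨x, hx, y, hy, h⟩ := z.2
    rw [h, amb2MulFst_ambPair, ambMul_zero_right, ambPair_zero_left])

/-- `(MU(a) ∧ MU(b)) ∧ MU(m) → MU(a) ∧ MU(b + m)`, `(x, y, g) ↦ (x, y g)`. -/
def mu2MulSnd (a b m : ℕ) : Pairing (MU2 a b) (MU m) (MU2 a (b + m)) where
  toMap := ⟨fun z => ⟨amb2MulSnd z.1.1 z.2.1, amb2MulSnd_mem z.1.2 z.2.2⟩,
    Continuous.subtype_mk (continuous_amb2MulSnd.comp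
      ((continuous_subtype_val.comp continuous_fst).prodMk
        (continuous_subtype_val.comp continuous_snd))) _⟩
  left_pt g := Subtype.ext (by
    change amb2MulSnd (0 : Amb2 a b) g.1 = 0
    rw [← ambPair_zero_left (0 : Amb b), amb2MulSnd_ambPair, ambMul_zero_left,
      ambPair_zero_left])
  right_pt z := Subtype.ext (by
    change amb2MulSnd z.1 (0 : Amb m) = 0
    obtain ⟨x, hx, y, hy, h⟩ := z.2
    rw [h, amb2MulSnd_ambPair, ambMul_zero_right, ambPair_zero_right])

/-! ## 9. The spectra `MU`, `MU ∧ X`, `MU ∧ MU`, `MU ∧ MU ∧ X` as stable systems -/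

/-- A point of `A` as a `0`-dimensional cube. -/
def pointLoop {A : Ptd} (a : A) : Loops 0 A :=
  ⟨ContinuousMap.const _ a, fun _ ⟨i, _⟩ => i.elim0⟩

/-- The bonding map `MU(a) → Ω² MU(a + 1)`, `x ↦ (r ↦ x · ι(r))`. -/
def muBond (a : ℕ) : LoopMap 2 (MU a) (MU (a + 1)) := (muMul a 1).loopRight muIota

/-- The complex cobordism spectrum `MU`: spaces `MU(a)` in dimension `2a`. -/
abbrev MUsys : StableSystem where
  Idx := ℕ
  space := MU
  lvl a := 2 * a
  Dir := Unit
  next _ a := a + 1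
  dim _ := 2
  lvl_next _ _ := rfl
  bond _ a := muBond a

/-- Two directions of stabilisation. -/
inductive Dir2
  | fst
  | snd

/-- Three directions of stabilisation. -/
inductive Dir3
  | fst
  | snd
  | trd

/-- `MU ∧ X`: spaces `MU(a) ∧ X_b` in dimension `2a + b`, stabilised in `a` and in `b`. -/
abbrev MUX (X : Spectrum) : StableSystem where
  Idx := ℕ × ℕ
  space i := (MU i.1).smash (X.space i.2)
  lvl i := 2 * i.1 + i.2
  Dir := Dir2
  next d i := match d with
    | .fst => (i.1 + 1, i.2)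
    | .snd => (i.1, i.2 + 1)
  dim d := match d with
    | .fst => 2
    | .snd => 1
  lvl_next d i := by cases d <;> simp only [] <;> ring
  bond d i := match d with
    | .fst => (muBond i.1).smashLeft (X.space i.2)
    | .snd => (X.bond i.2).smashRight (MU i.1)

/-- `MU ∧ MU`: spaces `MU(a) ∧ MU(b)` in dimension `2a + 2b`. -/
abbrev MUMU : StableSystem where
  Idx := ℕ × ℕ
  space i := MU2 i.1 i.2
  lvl i := 2 * i.1 + 2 * i.2
  Dir := Dir2
  next d i := match d with
    | .fst => (i.1 + 1, i.2)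
    | .snd => (i.1, i.2 + 1)
  dim _ := 2
  lvl_next d i := by cases d <;> simp only [] <;> ring
  bond d i := match d with
    | .fst => (mu2MulFst i.1 i.2 1).loopRight muIota
    | .snd => (mu2MulSnd i.1 i.2 1).loopRight muIota

/-- `MU ∧ MU ∧ X`: spaces `MU(a) ∧ MU(b) ∧ X_c` in dimension `2a + 2b + c`. -/
abbrev MUMUX (X : Spectrum) : StableSystem where
  Idx := ℕ × ℕ × ℕ
  space i := (MU2 i.1 i.2.1).smash (X.space i.2.2)
  lvl i := 2 * i.1 + 2 * i.2.1 + i.2.2
  Dir := Dir3
  next d i := match d with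
    | .fst => (i.1 + 1, i.2.1, i.2.2)
    | .snd => (i.1, i.2.1 + 1, i.2.2)
    | .trd => (i.1, i.2.1, i.2.2 + 1)
  dim d := match d with
    | .fst => 2
    | .snd => 2
    | .trd => 1
  lvl_next d i := by cases d <;> simp only [] <;> ring
  bond d i := match d with
    | .fst => ((mu2MulFst i.1 i.2.1 1).loopRight muIota).smashLeft (X.space i.2.2)
    | .snd => ((mu2MulSnd i.1 i.2.1 1).loopRight muIota).smashLeft (X.space i.2.2)
    | .trd => (X.bond i.2.2).smashRight (MU2 i.1 i.2.1)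

/-! ### Products of representatives -/

/-- The product `g · f` of a representative `g` of `MU_⋆ X = π⋆(MU ∧ X)` with a representative `f` of
`MU_⋆ = π⋆ MU`: `(t, t') ↦ [g₁(t) · f(t'), g₂(t)]`. -/
def actX {X : Spectrum} (f : MUsys.Rep) (g : (MUX X).Rep) : (MUX X).Rep :=
  ⟨(g.idx.1 + f.idx, g.idx.2), g.N + f.N,
    (((muMul g.idx.1 f.idx).loopRight f.cube).smashLeft (X.space g.idx.2)).onLoops g.cube⟩

/-- The product of a representative `g` of `MU_⋆ MU = π⋆(MU ∧ MU)` with `f` of `MU_⋆`, through the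
first factor (the left `MU_⋆`-module structure of `MU_⋆ MU`). -/
def actFst (f : MUsys.Rep) (g : MUMU.Rep) : MUMU.Rep :=
  ⟨(g.idx.1 + f.idx, g.idx.2), g.N + f.N,
    ((mu2MulFst g.idx.1 g.idx.2 f.idx).loopRight f.cube).onLoops g.cube⟩

/-- The product of a representative `g` of `MU_⋆ MU` with `f` of `MU_⋆`, through the second factor
(the right `MU_⋆`-module structure of `MU_⋆ MU`). -/
def actSnd (f : MUsys.Rep) (g : MUMU.Rep) : MUMU.Rep :=
  ⟨(g.idx.1, g.idx.2 + f.idx), g.N + f.N,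
    ((mu2MulSnd g.idx.1 g.idx.2 f.idx).loopRight f.cube).onLoops g.cube⟩

/-- The external product `MU_⋆ MU × MU_⋆ X → π⋆(MU ∧ MU ∧ X)` on representatives, induced by
`(MU ∧ MU) ∧ (MU ∧ X) → MU ∧ MU ∧ X`, `(c₁, c₂, h₁, h₂) ↦ (c₁, c₂ · h₁, h₂)`. -/
def kunneth {X : Spectrum} (c : MUMU.Rep) (h : (MUX X).Rep) : (MUMUX X).Rep :=
  ⟨(c.idx.1, c.idx.2 + h.idx.1, h.idx.2), h.N + c.N,
    (((mu2MulSnd c.idx.1 c.idx.2 h.idx.1).loopLeft c.cube).smashLeft (X.space h.idx.2)).onLoops
      h.cube⟩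

/-- The map `MU ∧ X = MU ∧ S ∧ X → MU ∧ MU ∧ X` (unit in the middle) on representatives. -/
def etaRep {X : Spectrum} (g : (MUX X).Rep) : (MUMUX X).Rep :=
  ⟨(g.idx.1, 0, g.idx.2), g.N,
    (((mu2Pair g.idx.1 0).fixRight muOne).smashLeft (X.space g.idx.2)).onLoops g.cube⟩

/-- The representative of `1 ∈ MU_0 MU`. -/
def oneMUMU : MUMU.Rep := ⟨(0, 0), 0, pointLoop ((mu2Pair 0 0).toMap (muOne, muOne))⟩

/-! ## 10. `MU`-cohomology of `ℂP^N × ℂP^N` and the formal group law of `MU` -/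

/-- The pointed space of maps `Y → A` that are constant on the classes of a relation `R`, i.e. of
maps `Y/R → A`, with the compact-open topology; the base point is the constant map. -/
def InvMaps (Y : Type) [TopologicalSpace Y] (R : Y → Y → Prop) (A : Ptd) : Ptd where
  carrier := {φ : C(Y, A) // ∀ y y', R y y' → φ y = φ y'}
  pt := ⟨ContinuousMap.const _ A.pt, fun _ _ _ => rfl⟩

/-- `φ : A → Ω^d B` induces `Map(Y/R, A) → Ω^d Map(Y/R, B)`. -/
def LoopMap.onInvMaps {d : ℕ} {A B : Ptd} (φ : LoopMap d A B) (Y : Type) [TopologicalSpace Y]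
    [LocallyCompactSpace Y] (R : Y → Y → Prop) : LoopMap d (InvMaps Y R A) (InvMaps Y R B) where
  toMap :=
    ⟨fun q => ⟨ContinuousMap.curry
        (⟨fun z : InvMaps Y R A × (I^(Fin d)) =>
            (⟨ContinuousMap.curry
              ⟨fun w : (InvMaps Y R A × (I^(Fin d))) × Y => φ.toMap (w.1.1.1 w.2) w.1.2, by
                have : Continuous fun w : (InvMaps Y R A × (I^(Fin d))) × Y => w.1.1.1 w.2 :=
                  (continuous_subtype_val.comp (continuous_fst.comp continuous_fst)).eval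
                    continuous_snd
                fun_prop⟩ z,
              fun y y' h => by
                change φ.toMap (z.1.1 y) z.2 = φ.toMap (z.1.1 y') z.2
                rw [z.1.2 y y' h]⟩ : InvMaps Y R B),
          Continuous.subtype_mk (ContinuousMap.continuous _) _⟩ :
          C(InvMaps Y R A × (I^(Fin d)), InvMaps Y R B)) q,
        fun r hr => Subtype.ext (ContinuousMap.ext fun y => (φ.toMap (q.1 y)).2 r hr)⟩,
      Continuous.subtype_mk (ContinuousMap.continuous _) _⟩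
  map_pt := by
    ext r
    refine Subtype.ext (ContinuousMap.ext fun y => ?_)
    change φ.toMap A.pt r = B.pt
    rw [φ.map_pt]; rfl

/-- The standard orthonormal sequence `δ_k` of `E 1 = ℓ²(ℕ)`. -/
def δ (k : ℕ) : E 1 := WithLp.toLp 2 (fun _ => lp.single 2 k (1 : ℂ))

theorem orthonormal_δ : Orthonormal ℂ δ := by
  rw [orthonormal_iff_ite]
  intro i j
  rw [E.inner_eq]
  simp only [δ, E.coord, Finset.univ_unique, Finset.sum_singleton, lp.inner_single_left,
    lp.single_apply]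
  by_cases h : i = j
  · subst h; simp
  · simp [h]

/-- The zero section `Gr_1(E 1) → MU(1)`, on the line spanned by a unit vector `e`. -/
def zeroSecAmb (e : E 1) : Amb 1 := (1, rankOne ℂ e e, 0)

theorem zeroSecAmb_mem {e : E 1} (he : ‖e‖ = 1) : zeroSecAmb e ∈ MUset 1 := by
  refine Or.inr ⟨fun _ => e, fun _ => 0, ?_, ?_⟩
  · rw [orthonormal_iff_ite]
    intro i j
    rw [if_pos (Subsingleton.elim i j), inner_self_eq_norm_sq_to_K, he]
    simp
  · simp [zeroSecAmb, thomPoint]

theorem continuous_rankOne_self {F : Type} [NormedAddCommGroup F] [InnerProductSpace ℂ F] :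
    Continuous fun e : F => rankOne ℂ e e := by
  rw [continuous_iff_continuousAt]
  intro e₀
  rw [ContinuousAt, tendsto_iff_norm_sub_tendsto_zero]
  have hb : ∀ e : F, ‖rankOne ℂ e e - rankOne ℂ e₀ e₀‖ ≤ ‖e - e₀‖ * ‖e‖ + ‖e₀‖ * ‖e - e₀‖ := by
    intro e
    have : rankOne ℂ e e - rankOne ℂ e₀ e₀ = rankOne ℂ (e - e₀) e + rankOne ℂ e₀ (e - e₀) := by
      simp only [map_sub, sub_apply]; abel
    rw [this]
    refine (norm_add_le _ _).trans ?_
    rw [norm_rankOne, norm_rankOne]
  have hc : Filter.Tendsto (fun e : F => ‖e - e₀‖ * ‖e‖ + ‖e₀‖ * ‖e - e₀‖) (𝓝 e₀) (𝓝 0) := by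
    have : Continuous fun e : F => ‖e - e₀‖ * ‖e‖ + ‖e₀‖ * ‖e - e₀‖ := by fun_prop
    simpa using this.tendsto e₀
  exact squeeze_zero (fun _ => norm_nonneg _) hb hc

theorem continuous_zeroSecAmb : Continuous zeroSecAmb := by
  have := continuous_rankOne_self (F := E 1)
  unfold zeroSecAmb
  fun_prop

/-- The unit sphere of `ℂ^{N+1}`. -/
abbrev Sph (N : ℕ) : Type := Metric.sphere (0 : EuclideanSpace ℂ (Fin (N + 1))) 1

/-- Two pairs of unit vectors are related if they span the same pair of lines; the quotient of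
`S^{2N+1} × S^{2N+1}` by this relation is `ℂP^N × ℂP^N`. -/
def sameLines (N : ℕ) (y y' : Sph N × Sph N) : Prop :=
  ∃ a b : ℂ, (y'.1 : EuclideanSpace ℂ (Fin (N + 1))) = a • (y.1 : EuclideanSpace ℂ (Fin (N + 1))) ∧
    (y'.2 : EuclideanSpace ℂ (Fin (N + 1))) = b • (y.2 : EuclideanSpace ℂ (Fin (N + 1)))

/-- The linear isometric embedding `ℂ^{N+1} → E 1`, `v ↦ ∑ v_i δ_i`. -/
def emb {N : ℕ} (v : EuclideanSpace ℂ (Fin (N + 1))) : E 1 := ∑ i, v i • δ (i : ℕ)

/-- The isometric embedding `ℂ^{N+1} ⊗ ℂ^{N+1} → E 1` on decomposable tensors,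
`v ⊗ w ↦ ∑ v_i w_j δ_{⟨i, j⟩}`. -/
def embTensor {N : ℕ} (v w : EuclideanSpace ℂ (Fin (N + 1))) : E 1 :=
  ∑ x : Fin (N + 1) × Fin (N + 1), (v x.1 * w x.2) • δ (Nat.pair x.1 x.2)

theorem norm_sq_sum_smul {J : Type} [Fintype J] {e : J → E 1} (h : Orthonormal ℂ e)
    (c : J → ℂ) : ‖∑ i, c i • e i‖ ^ 2 = ∑ i, ‖c i‖ ^ 2 := by
  rw [← @inner_self_eq_norm_sq ℂ, h.inner_sum]
  simp [Complex.conj_mul', ← Complex.ofReal_pow]

theorem norm_emb {N : ℕ} (v : EuclideanSpace ℂ (Fin (N + 1))) : ‖emb v‖ = ‖v‖ := by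
  have h : Orthonormal ℂ (fun i : Fin (N + 1) => δ (i : ℕ)) :=
    orthonormal_δ.comp _ Fin.val_injective
  have h1 : ‖emb v‖ ^ 2 = ‖v‖ ^ 2 := by
    rw [emb, norm_sq_sum_smul h, EuclideanSpace.norm_sq_eq]
  exact (sq_eq_sq₀ (norm_nonneg _) (norm_nonneg _)).1 h1

theorem norm_embTensor {N : ℕ} (v w : EuclideanSpace ℂ (Fin (N + 1))) :
    ‖embTensor v w‖ = ‖v‖ * ‖w‖ := by
  have h : Orthonormal ℂ (fun x : Fin (N + 1) × Fin (N + 1) => δ (Nat.pair x.1 x.2)) :=
    orthonormal_δ.comp _ (fun x y hxy => by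
      have := Nat.pair_eq_pair.1 hxy
      exact Prod.ext (Fin.ext this.1) (Fin.ext this.2))
  have h1 : ‖embTensor v w‖ ^ 2 = (‖v‖ * ‖w‖) ^ 2 := by
    rw [embTensor, norm_sq_sum_smul h, mul_pow, EuclideanSpace.norm_sq_eq,
      EuclideanSpace.norm_sq_eq, Finset.sum_mul_sum, ← Finset.sum_product']
    simp [mul_pow]
  exact (sq_eq_sq₀ (norm_nonneg _) (by positivity)).1 h1

theorem zeroSecAmb_smul (a : ℂ) (ha : ‖a‖ = 1) (e : E 1) :
    zeroSecAmb (a • e) = zeroSecAmb e := by
  have : (starRingEnd ℂ) a * a = 1 := by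
    rw [mul_comm, Complex.mul_conj, Complex.normSq_eq_norm_sq, ha]; simp
  simp only [zeroSecAmb, map_smul, map_smulₛₗ, smul_apply, smul_smul, this, one_smul]

theorem emb_smul {N : ℕ} (a : ℂ) (v : EuclideanSpace ℂ (Fin (N + 1))) :
    emb (a • v) = a • emb v := by
  simp [emb, Finset.smul_sum, smul_smul]

theorem embTensor_smul {N : ℕ} (a b : ℂ) (v w : EuclideanSpace ℂ (Fin (N + 1))) :
    embTensor (a • v) (b • w) = (a * b) • embTensor v w := by
  simp only [embTensor, Finset.smul_sum, smul_smul, PiLp.smul_apply, smul_eq_mul]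
  refine Finset.sum_congr rfl fun x _ => ?_
  congr 1
  ring

theorem continuous_emb {N : ℕ} : Continuous (emb (N := N)) := by
  unfold emb
  fun_prop

theorem continuous_embTensor {N : ℕ} :
    Continuous fun z : EuclideanSpace ℂ (Fin (N + 1)) × EuclideanSpace ℂ (Fin (N + 1)) =>
      embTensor z.1 z.2 := by
  unfold embTensor
  fun_prop

theorem norm_eq_one_of_smul {N : ℕ} {a : ℂ} {v v' : Sph N}
    (h : (v' : EuclideanSpace ℂ (Fin (N + 1))) = a • (v : EuclideanSpace ℂ (Fin (N + 1)))) :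
    ‖a‖ = 1 := by
  have h1 : ‖(v : EuclideanSpace ℂ (Fin (N + 1)))‖ = 1 := by simp
  have h2 : ‖(v' : EuclideanSpace ℂ (Fin (N + 1)))‖ = 1 := by simp
  rw [h, norm_smul, h1, mul_one] at h2
  exact h2

/-- `MU`-cohomology classes of `ℂP^N × ℂP^N` in "dimension `2a`" are represented by points of this
space: maps `ℂP^N × ℂP^N → MU(a)`. -/
abbrev CohSpace (N a : ℕ) : Ptd := InvMaps (Sph N × Sph N) (sameLines N) (MU a)

/-- The orientation class of the first tautological line bundle: `(L₁, L₂) ↦ (L₁, 0) ∈ MU(1)`. -/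
def xFst (N : ℕ) : CohSpace N 1 :=
  ⟨⟨fun y => ⟨zeroSecAmb (emb y.1.1), zeroSecAmb_mem (by
      rw [norm_emb]; simp)⟩,
    Continuous.subtype_mk (continuous_zeroSecAmb.comp (continuous_emb.comp
      (continuous_subtype_val.comp continuous_fst))) _⟩, by
    rintro y y' ⟨a, b, ha, hb⟩
    refine Subtype.ext ?_
    change zeroSecAmb (emb y.1.1) = zeroSecAmb (emb y'.1.1)
    rw [ha, emb_smul, zeroSecAmb_smul _ (norm_eq_one_of_smul ha)]⟩

/-- The orientation class of the second tautological line bundle: `(L₁, L₂) ↦ (L₂, 0) ∈ MU(1)`. -/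
def xSnd (N : ℕ) : CohSpace N 1 :=
  ⟨⟨fun y => ⟨zeroSecAmb (emb y.2.1), zeroSecAmb_mem (by
      rw [norm_emb]; simp)⟩,
    Continuous.subtype_mk (continuous_zeroSecAmb.comp (continuous_emb.comp
      (continuous_subtype_val.comp continuous_snd))) _⟩, by
    rintro y y' ⟨a, b, ha, hb⟩
    refine Subtype.ext ?_
    change zeroSecAmb (emb y.2.1) = zeroSecAmb (emb y'.2.1)
    rw [hb, emb_smul, zeroSecAmb_smul _ (norm_eq_one_of_smul hb)]⟩

/-- The orientation class of the tensor product of the two tautological line bundles: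
`(L₁, L₂) ↦ (L₁ ⊗ L₂, 0) ∈ MU(1)`. -/
def xTensor (N : ℕ) : CohSpace N 1 :=
  ⟨⟨fun y => ⟨zeroSecAmb (embTensor y.1.1 y.2.1), zeroSecAmb_mem (by
      have h1 : ‖(y.1 : EuclideanSpace ℂ (Fin (N + 1)))‖ = 1 := by simp
      have h2 : ‖(y.2 : EuclideanSpace ℂ (Fin (N + 1)))‖ = 1 := by simp
      rw [norm_embTensor, h1, h2, mul_one])⟩,
    Continuous.subtype_mk (continuous_zeroSecAmb.comp (continuous_embTensor.comp
      ((continuous_subtype_val.comp continuous_fst).prodMk
        (continuous_subtype_val.comp continuous_snd)))) _⟩, by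
    rintro y y' ⟨a, b, ha, hb⟩
    refine Subtype.ext ?_
    change zeroSecAmb (embTensor y.1.1 y.2.1) = zeroSecAmb (embTensor y'.1.1 y'.2.1)
    rw [ha, hb, embTensor_smul, zeroSecAmb_smul]
    rw [norm_mul, norm_eq_one_of_smul ha, norm_eq_one_of_smul hb, mul_one]⟩

/-- The `i`-th power map `MU(1) → MU(i)`, `x ↦ x · x ⋯ x`. -/
def muPow : (i : ℕ) → C(MU 1, MU i)
  | 0 => ContinuousMap.const _ muOne
  | i + 1 => (muMul i 1).toMap.comp ((muPow i).prodMk (ContinuousMap.id _))

/-- The monomial `x₁^i x₂^j`, as a map `ℂP^N × ℂP^N → MU(i + j)`. -/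
def xMonomial (N i j : ℕ) : CohSpace N (i + j) :=
  ⟨(muMul i j).toMap.comp (((muPow i).comp (xFst N).1).prodMk ((muPow j).comp (xSnd N).1)), by
    intro y y' h
    change (muMul i j).toMap (muPow i ((xFst N).1 y), muPow j ((xSnd N).1 y)) =
      (muMul i j).toMap (muPow i ((xFst N).1 y'), muPow j ((xSnd N).1 y'))
    rw [(xFst N).2 y y' h, (xSnd N).2 y y' h]⟩

/-- The function spectrum `F((ℂP^N × ℂP^N)₊, MU)`; its `π⋆` is `MU^{-⋆}(ℂP^N × ℂP^N)`. -/
abbrev MUcoh (N : ℕ) : StableSystem where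
  Idx := ℕ
  space a := CohSpace N a
  lvl a := 2 * a
  Dir := Unit
  next _ a := a + 1
  dim _ := 2
  lvl_next _ _ := rfl
  bond _ a := (muBond a).onInvMaps _ _

/-- The representative `f · x₁^i x₂^j` of a class of `MU^⋆(ℂP^N × ℂP^N)`, for a representative `f`
of a class of `MU_⋆`. -/
def cohTerm (N : ℕ) (f : MUsys.Rep) (i j : ℕ) : (MUcoh N).Rep :=
  ⟨f.idx + (i + j), 0 + f.N,
    (((muMul f.idx (i + j)).loopLeft f.cube).onInvMaps _ _).onLoops (pointLoop (xMonomial N i j))⟩

/-- `f i j` represent the coefficients `a_{ij} ∈ MU_{2(i+j-1)}` of the formal group law of `MU`: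
for the tautological line bundles `L₁`, `L₂` over `ℂP^N × ℂP^N`, with Euler classes `x₁`, `x₂`,
the Euler class of `L₁ ⊗ L₂` is `∑_{i,j ≤ N} a_{ij} x₁^i x₂^j` in `MU^2(ℂP^N × ℂP^N)`, for all `N`. -/
def IsFGLFamily (f : ℕ → ℕ → MUsys.Rep) : Prop :=
  ∀ N : ℕ, (MUcoh N).cls ⟨1, 0, pointLoop (xTensor N)⟩ =
    ∑ i ∈ Finset.range (N + 1), ∑ j ∈ Finset.range (N + 1), (MUcoh N).cls (cohTerm N (f i j) i j)

/-! ## 11. `BP_⋆ = ℤ_(p)[v₁, v₂, …]` and Hazewinkel's formal group law -/

/-- The ring `ℤ_(p)`, as the subring of `ℚ` generated by the inverses of the integers prime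
to `p`. -/
def ZLoc (p : ℕ) : Subring ℚ := Subring.closure {q | ∃ m : ℤ, ¬ (p : ℤ) ∣ m ∧ q = (m : ℚ)⁻¹}

/-- `BP_⋆ = ℤ_(p)[v₁, v₂, …]`; the variable `X i` is `v_{i+1}`. -/
abbrev BPCoeff (p : ℕ) : Type := MvPolynomial ℕ (ZLoc p)

/-- The Hazewinkel generators: `v₀ = p`, and `v_k`, `k ≥ 1`, is the polynomial variable. -/
def vGen (p : ℕ) : ℕ → BPCoeff p
  | 0 => (p : BPCoeff p)
  | k + 1 => MvPolynomial.X k

/-- The degree `|v_{i+1}| = 2 (p^{i+1} - 1)` of the variable `X i`. -/
def vDeg (p : ℕ) (i : ℕ) : ℕ := 2 * (p ^ (i + 1) - 1)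

/-- The inclusion `BP_⋆ ⊆ BP_⋆ ⊗ ℚ = ℚ[v₁, v₂, …]`. -/
def toRat (p : ℕ) : BPCoeff p →+* MvPolynomial ℕ ℚ := MvPolynomial.map (ZLoc p).subtype

/-- The coefficients `ℓ_n ∈ BP_⋆ ⊗ ℚ` of the logarithm, defined by Hazewinkel's recursion
`p ℓ_n = ∑_{0 ≤ i < n} ℓ_i v_{n-i}^{p^i}`, `ℓ₀ = 1`. -/
def hazL (p : ℕ) : ℕ → MvPolynomial ℕ ℚ
  | 0 => 1
  | n + 1 => MvPolynomial.C (1 / (p : ℚ)) *
      ∑ i : Fin (n + 1), hazL p i * MvPolynomial.X (n - i) ^ p ^ (i : ℕ)

/-- The logarithm `log(x) = ∑_n ℓ_n x^{p^n}` of the universal `p`-typical formal group law. -/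
def hazLog (p : ℕ) : PowerSeries (MvPolynomial ℕ ℚ) :=
  PowerSeries.mk fun m => if p ^ Nat.log p m = m then hazL p (Nat.log p m) else 0

theorem coeff_one_hazLog (p : ℕ) : PowerSeries.coeff 1 (hazLog p) = 1 := by
  simp [hazLog, hazL]

instance invertibleCoeffOneHazLog (p : ℕ) : Invertible (PowerSeries.coeff 1 (hazLog p)) :=
  (coeff_one_hazLog p).symm ▸ invertibleOne

/-- Hazewinkel's universal `p`-typical formal group law `F(x, y) = log⁻¹(log x + log y)`, as a
power series over `BP_⋆ ⊗ ℚ`. -/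
def hazFGL (p : ℕ) : MvPowerSeries (Fin 2) (MvPolynomial ℕ ℚ) :=
  PowerSeries.subst
    (PowerSeries.subst (MvPowerSeries.X 0 : MvPowerSeries (Fin 2) (MvPolynomial ℕ ℚ)) (hazLog p) +
      PowerSeries.subst (MvPowerSeries.X 1 : MvPowerSeries (Fin 2) (MvPolynomial ℕ ℚ)) (hazLog p))
    (hazLog p).substInv

/-- The coefficient of `x^i y^j` in Hazewinkel's formal group law. -/
def hazCoeff (p i j : ℕ) : MvPolynomial ℕ ℚ :=
  MvPowerSeries.coeff (Finsupp.single 0 i + Finsupp.single 1 j) (hazFGL p)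

/-- `c ∈ BP_⋆` is the image of the class represented by `r` under the ring homomorphism
`MU_⋆ → BP_⋆` classifying Hazewinkel's formal group law, for `r` one of the coefficients of the
formal group law of `MU` (these generate the ring `MU_⋆`, by Quillen's theorem). -/
def IsImageOfCoeff (p : ℕ) (r : MUsys.Rep) (c : BPCoeff p) : Prop :=
  ∃ (f : ℕ → ℕ → MUsys.Rep) (i j : ℕ), IsFGLFamily f ∧ r = f i j ∧ toRat p c = hazCoeff p i j

/-! ## 12. Brown–Peterson homology and its coaction -/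

/-- The relations `c v ⊗ x = v ⊗ a x` (`a` a coefficient of the formal group law of `MU`, `c` its
image in `BP_⋆`) defining `BP_⋆ ⊗_{MU_⋆} MU_⋆ X` as a quotient of `BP_⋆ ⊗_ℤ MU_⋆ X`. -/
def bpRel (p : ℕ) (X : Spectrum) : Set (BPCoeff p ⊗[ℤ] (MUX X).PiStar) :=
  {z | ∃ (r : MUsys.Rep) (c v : BPCoeff p) (g : (MUX X).Rep), IsImageOfCoeff p r c ∧
    z = (c * v) ⊗ₜ[ℤ] (MUX X).cls g - v ⊗ₜ[ℤ] (MUX X).cls (actX r g)}

/-- Brown–Peterson homology `BP_⋆ X = BP_⋆ ⊗_{MU_⋆} MU_⋆ X` (all degrees together), a module over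
`BP_⋆`. -/
def BPHomology (p : ℕ) (X : Spectrum) : Type :=
  (BPCoeff p ⊗[ℤ] (MUX X).PiStar) ⧸ Submodule.span (BPCoeff p) (bpRel p X)

instance BPHomology.instAddCommGroup (p : ℕ) (X : Spectrum) : AddCommGroup (BPHomology p X) :=
  inferInstanceAs (AddCommGroup
    ((BPCoeff p ⊗[ℤ] (MUX X).PiStar) ⧸ Submodule.span (BPCoeff p) (bpRel p X)))

instance BPHomology.instModule (p : ℕ) (X : Spectrum) : Module (BPCoeff p) (BPHomology p X) :=
  inferInstanceAs (Module (BPCoeff p)
    ((BPCoeff p ⊗[ℤ] (MUX X).PiStar) ⧸ Submodule.span (BPCoeff p) (bpRel p X)))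

/-- The class of `v ⊗ x` in `BP_⋆ X`. -/
def BPHomology.mk {p : ℕ} {X : Spectrum} (v : BPCoeff p) (x : (MUX X).PiStar) : BPHomology p X :=
  Submodule.Quotient.mk (v ⊗ₜ[ℤ] x)

/-- The elements of degree `k` of `BP_⋆ X`. -/
def BPHomology.deg (p : ℕ) (X : Spectrum) (k : ℤ) : AddSubgroup (BPHomology p X) :=
  AddSubgroup.closure {z | ∃ (d : ℕ) (k' : ℤ) (v : BPCoeff p) (x : (MUX X).PiStar),
    MvPolynomial.IsWeightedHomogeneous (vDeg p) v d ∧ x ∈ (MUX X).piDeg k' ∧ (d : ℤ) + k' = k ∧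
      z = BPHomology.mk v x}

section CoExt

variable (p : ℕ) (M : Type) [AddCommGroup M] [Module (BPCoeff p) M]

/-- The relations defining `BP_⋆BP ⊗_{BP_⋆} M = BP_⋆ ⊗_{MU_⋆} MU_⋆MU ⊗_{MU_⋆} M`. -/
def coExtRel : Set (BPCoeff p ⊗[ℤ] (MUMU.PiStar ⊗[ℤ] M)) :=
  {z | ∃ (r : MUsys.Rep) (c v : BPCoeff p) (g : MUMU.Rep) (m : M), IsImageOfCoeff p r c ∧
    (z = (c * v) ⊗ₜ[ℤ] (MUMU.cls g ⊗ₜ[ℤ] m) - v ⊗ₜ[ℤ] (MUMU.cls (actFst r g) ⊗ₜ[ℤ] m) ∨
      z = v ⊗ₜ[ℤ] (MUMU.cls (actSnd r g) ⊗ₜ[ℤ] m) - v ⊗ₜ[ℤ] (MUMU.cls g ⊗ₜ[ℤ] (c • m)))}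

/-- For a `BP_⋆`-module `M`, the `BP_⋆`-module
`BP_⋆BP ⊗_{BP_⋆} M`, where `BP_⋆BP = BP_⋆ ⊗_{MU_⋆} MU_⋆MU ⊗_{MU_⋆} BP_⋆`; it is presented as
`BP_⋆ ⊗_{MU_⋆} MU_⋆MU ⊗_{MU_⋆} M`. -/
def CoExt : Type :=
  (BPCoeff p ⊗[ℤ] (MUMU.PiStar ⊗[ℤ] M)) ⧸ Submodule.span (BPCoeff p) (coExtRel p M)

instance CoExt.instAddCommGroup : AddCommGroup (CoExt p M) :=
  inferInstanceAs (AddCommGroup
    ((BPCoeff p ⊗[ℤ] (MUMU.PiStar ⊗[ℤ] M)) ⧸ Submodule.span (BPCoeff p) (coExtRel p M)))

instance CoExt.instModule : Module (BPCoeff p) (CoExt p M) :=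
  inferInstanceAs (Module (BPCoeff p)
    ((BPCoeff p ⊗[ℤ] (MUMU.PiStar ⊗[ℤ] M)) ⧸ Submodule.span (BPCoeff p) (coExtRel p M)))

variable {p M}

/-- The class of `v ⊗ c ⊗ m` in `BP_⋆BP ⊗_{BP_⋆} M`. -/
def CoExt.mk (v : BPCoeff p) (c : MUMU.PiStar) (m : M) : CoExt p M :=
  Submodule.Quotient.mk (v ⊗ₜ[ℤ] (c ⊗ₜ[ℤ] m))

variable {M' : Type} [AddCommGroup M'] [Module (BPCoeff p) M']

/-- `BP_⋆BP ⊗_{BP_⋆} φ` for a `BP_⋆`-linear map `φ : M → M'`. -/
def CoExt.map (φ : M →ₗ[BPCoeff p] M') : CoExt p M →ₗ[BPCoeff p] CoExt p M' :=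
  Submodule.mapQ _ _
    (TensorProduct.AlgebraTensorModule.map (LinearMap.id : BPCoeff p →ₗ[BPCoeff p] BPCoeff p)
      (TensorProduct.map (LinearMap.id : MUMU.PiStar →ₗ[ℤ] MUMU.PiStar) (φ.restrictScalars ℤ)))
    (by
      rw [Submodule.span_le]
      rintro z ⟨r, c, v, g, m, h, rfl | rfl⟩
      · exact Submodule.subset_span ⟨r, c, v, g, φ m, h, Or.inl (map_sub _ _ _)⟩
      · refine Submodule.subset_span ⟨r, c, v, g, φ m, h, Or.inr ?_⟩
        rw [← map_smul]
        exact map_sub _ _ _)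

end CoExt

/-- The external product `MU_⋆MU ⊗ MU_⋆X → π⋆(MU ∧ MU ∧ X)`, on formal sums of pairs of
representatives. -/
def kunnethHom (X : Spectrum) :
    FreeAbelianGroup (MUMU.Rep × (MUX X).Rep) →+ (MUMUX X).PiStar :=
  FreeAbelianGroup.lift fun ch => (MUMUX X).cls (kunneth ch.1 ch.2)

/-- The map from formal sums of pairs of representatives to `BP_⋆BP ⊗_{BP_⋆} BP_⋆X`,
`(c, h) ↦ [c] ⊗ [h]`. -/
def tensorHom (p : ℕ) (X : Spectrum) :
    FreeAbelianGroup (MUMU.Rep × (MUX X).Rep) →+ CoExt p (BPHomology p X) :=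
  FreeAbelianGroup.lift fun ch =>
    CoExt.mk 1 (MUMU.cls ch.1) (BPHomology.mk 1 ((MUX X).cls ch.2))

/-- The graph of the coaction `ψ : BP_⋆X → BP_⋆BP ⊗_{BP_⋆} BP_⋆X`. It is the `BP_⋆`-linear map with
`ψ(1 ⊗ [g]) = ∑ [c_s] ⊗ [h_s]` whenever the image of `[g]` under
`MU ∧ X = MU ∧ S ∧ X → MU ∧ MU ∧ X` is the sum of the external products `[c_s] · [h_s]`
(the external product `MU_⋆MU ⊗_{MU_⋆} MU_⋆X → π⋆(MU ∧ MU ∧ X)` is an isomorphism). -/
def coactionGraph (p : ℕ) (X : Spectrum) :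
    Submodule (BPCoeff p) (BPHomology p X × CoExt p (BPHomology p X)) :=
  Submodule.span (BPCoeff p)
    {z | ∃ (g : (MUX X).Rep) (y : FreeAbelianGroup (MUMU.Rep × (MUX X).Rep)),
      kunnethHom X y = (MUMUX X).cls (etaRep g) ∧
        z = (BPHomology.mk 1 ((MUX X).cls g), tensorHom p X y)}

/-! ## 13. The comodule `BP_⋆/(p, v₁, …, v_n)` and Smith–Toda complexes -/

/-- The ideal `I_{n+1} = (p, v₁, …, v_n)` of `BP_⋆`. -/
def smithTodaIdeal (p n : ℕ) : Ideal (BPCoeff p) :=
  Ideal.span (Set.range fun k : Fin (n + 1) => vGen p k)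

/-- The elements of degree `k` of `BP_⋆/(p, v₁, …, v_n)`. -/
def quotDeg (p n : ℕ) (k : ℤ) : AddSubgroup (BPCoeff p ⧸ smithTodaIdeal p n) :=
  AddSubgroup.closure {z | ∃ (d : ℕ) (v : BPCoeff p),
    MvPolynomial.IsWeightedHomogeneous (vDeg p) v d ∧ (d : ℤ) = k ∧ z = Ideal.Quotient.mk _ v}

/-- The canonical coaction of the quotient comodule `BP_⋆/(p, v₁, …, v_n)` of `BP_⋆ = BP_⋆(S)`, on
the class of `v`: `ψ[v] = v · (1 ⊗ [1]) = η_L(v) ⊗ [1]`. -/
def quotCoaction (p n : ℕ) (v : BPCoeff p) : CoExt p (BPCoeff p ⧸ smithTodaIdeal p n) :=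
  CoExt.mk v (MUMU.cls oneMUMU) 1

/-- `BP_⋆X ≅ BP_⋆/(p, v₁, …, v_n)` as graded `BP_⋆BP`-comodules (with the canonical quotient
coaction on the right, and its generator in degree zero): a `BP_⋆`-linear isomorphism `φ` that
preserves and reflects degrees and commutes with the coactions, `(BP_⋆BP ⊗ φ) (ψ x) = ψ (φ x)`.
Since the coaction `ψ` of `BP_⋆X` is given by its graph, the last condition is spelled out as: every
`x` has a value `ψ x`, and every value `y` of `ψ` at `x` satisfies `(BP_⋆BP ⊗ φ) y = ψ (φ x)`. -/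
def IsSmithTodaHomology (p n : ℕ) (X : Spectrum) : Prop :=
  ∃ φ : BPHomology p X ≃ₗ[BPCoeff p] (BPCoeff p ⧸ smithTodaIdeal p n),
    (∀ (k : ℤ) (x : BPHomology p X), x ∈ BPHomology.deg p X k ↔ φ x ∈ quotDeg p n k) ∧
    (∀ x : BPHomology p X, ∃ y : CoExt p (BPHomology p X), (x, y) ∈ coactionGraph p X) ∧
    (∀ (x : BPHomology p X) (y : CoExt p (BPHomology p X)) (v : BPCoeff p),
      (x, y) ∈ coactionGraph p X → φ x = Ideal.Quotient.mk _ v →
        CoExt.map φ.toLinearMap y = quotCoaction p n v)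

/-- There is a Smith–Toda complex `V(n)` at the prime `p`: a finite `p`-local spectrum `X` with
`BP_⋆X ≅ BP_⋆/(p, v₁, …, v_n)` as graded `BP_⋆BP`-comodules. (The spaces of `X` are required to be
well pointed, so that the spaces `MU(a) ∧ X_b` have the right homotopy type; every spectrum is
stably equivalent to such a spectrum.) -/
def SmithTodaExists (p n : ℕ) : Prop :=
  ∃ X : Spectrum, (∀ b, (X.space b).WellPointed) ∧ IsFinitePLocal p (toSHC.obj X) ∧
    IsSmithTodaHomology p n X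

/-- **Finite Smith–Toda complexes at every height** (and `V(4)` at the prime `1009`). -/
def Statement : Prop :=
  (∀ n : ℕ, ∃ p : ℕ, p.Prime ∧ SmithTodaExists p n) ∧ SmithTodaExists 1009 4

end Claimed.Open.R308
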